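import Mathlib
import Crest.Prelude.Def_FinProb

/-!
# R309: averages over random tapes

`avg R g` is the average of `g` over all bit strings of length `R` (defined by recursion on `R`).
It is the expectation functional used by all randomised algorithms of this row.
-/

set_option autoImplicit false

namespace Crest.Agent.R309.Tape

open Finset

/-- average of `g` over all bit strings of length `R` -/
noncomputable def avg : ℕ → (List Bool → ℝ) → ℝ
  | 0, g => g []
  | R + 1, g => (avg R (fun l => g (false :: l)) + avg R (fun l => g (true :: l))) / 2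

@[simp] theorem avg_zero (g : List Bool → ℝ) : avg 0 g = g [] := rfl

theorem avg_succ (R : ℕ) (g : List Bool → ℝ) :
    avg (R + 1) g = (avg R (fun l => g (false :: l)) + avg R (fun l => g (true :: l))) / 2 := rfl

@[simp] theorem avg_const (R : ℕ) (c : ℝ) : avg R (fun _ => c) = c := by
  induction R with
  | zero => rfl
  | succ R ih => simp [avg_succ, ih]

theorem avg_add (R : ℕ) (g h : List Bool → ℝ) :
    avg R (fun l => g l + h l) = avg R g + avg R h := by
  induction R generalizing g h with
  | zero => rfl
  | succ R ih =>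
    rw [avg_succ, avg_succ, avg_succ, ih (fun l => g (false :: l)), ih (fun l => g (true :: l))]
    ring

theorem avg_mul_left (R : ℕ) (c : ℝ) (g : List Bool → ℝ) :
    avg R (fun l => c * g l) = c * avg R g := by
  induction R generalizing g with
  | zero => rfl
  | succ R ih =>
    rw [avg_succ, avg_succ, ih (fun l => g (false :: l)), ih (fun l => g (true :: l))]
    ring

theorem avg_mul_right (R : ℕ) (c : ℝ) (g : List Bool → ℝ) :
    avg R (fun l => g l * c) = avg R g * c := by
  simp_rw [mul_comm _ c]
  exact avg_mul_left R c g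

theorem avg_neg (R : ℕ) (g : List Bool → ℝ) : avg R (fun l => - g l) = - avg R g := by
  have := avg_mul_left R (-1) g
  simpa using this

theorem avg_sub (R : ℕ) (g h : List Bool → ℝ) :
    avg R (fun l => g l - h l) = avg R g - avg R h := by
  have := avg_add R g (fun l => - h l)
  simpa [avg_neg, sub_eq_add_neg] using this

theorem avg_sum {ι : Type*} (s : Finset ι) (R : ℕ) (g : ι → List Bool → ℝ) :
    avg R (fun l => ∑ i ∈ s, g i l) = ∑ i ∈ s, avg R (g i) := by
  classical
  induction s using Finset.induction_on with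
  | empty => simp
  | insert a s ha ih =>
    simp only [Finset.sum_insert ha]
    rw [avg_add, ih]

theorem avg_mono {R : ℕ} {g h : List Bool → ℝ} (H : ∀ l : List Bool, l.length = R → g l ≤ h l) :
    avg R g ≤ avg R h := by
  induction R generalizing g h with
  | zero => exact H [] rfl
  | succ R ih =>
    rw [avg_succ, avg_succ]
    have h1 := ih (g := fun l => g (false :: l)) (h := fun l => h (false :: l))
      (fun l hl => H _ (by simp [hl]))
    have h2 := ih (g := fun l => g (true :: l)) (h := fun l => h (true :: l))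
      (fun l hl => H _ (by simp [hl]))
    linarith

theorem avg_congr {R : ℕ} {g h : List Bool → ℝ} (H : ∀ l : List Bool, l.length = R → g l = h l) :
    avg R g = avg R h :=
  le_antisymm (avg_mono fun l hl => (H l hl).le) (avg_mono fun l hl => (H l hl).ge)

theorem avg_nonneg {R : ℕ} {g : List Bool → ℝ} (H : ∀ l : List Bool, l.length = R → 0 ≤ g l) :
    0 ≤ avg R g := by
  have := avg_mono (R := R) (g := fun _ => 0) (h := g) H
  simpa using this

theorem avg_le_const {R : ℕ} {g : List Bool → ℝ} {c : ℝ}
    (H : ∀ l : List Bool, l.length = R → g l ≤ c) : avg R g ≤ c := by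
  have := avg_mono (R := R) (g := g) (h := fun _ => c) H
  simpa using this

theorem const_le_avg {R : ℕ} {g : List Bool → ℝ} {c : ℝ}
    (H : ∀ l : List Bool, l.length = R → c ≤ g l) : c ≤ avg R g := by
  have := avg_mono (R := R) (g := fun _ => c) (h := g) H
  simpa using this

theorem abs_avg_le (R : ℕ) (g : List Bool → ℝ) : |avg R g| ≤ avg R (fun l => |g l|) := by
  rw [abs_le]
  constructor
  · rw [← avg_neg]
    exact avg_mono fun l _ => neg_abs_le _
  · exact avg_mono fun l _ => le_abs_self _

/-- Splitting a tape: a tape of length `R + S` is a pair of independent tapes. -/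
theorem avg_append (R S : ℕ) (g : List Bool → ℝ) :
    avg (R + S) g = avg R (fun l => avg S (fun l' => g (l ++ l'))) := by
  induction R generalizing g with
  | zero => simp
  | succ R ih =>
    rw [Nat.succ_add, avg_succ, avg_succ, ih, ih]
    rfl

theorem avg_take_drop (R S : ℕ) (g : List Bool → List Bool → ℝ) :
    avg (R + S) (fun l => g (l.take R) (l.drop R)) = avg R (fun l => avg S (fun l' => g l l')) := by
  rw [avg_append]
  refine avg_congr fun l hl => ?_
  refine avg_congr fun l' _ => ?_
  rw [List.take_left' hl, List.drop_left' hl]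

theorem avg_take {R T : ℕ} (h : R ≤ T) (g : List Bool → ℝ) :
    avg T (fun l => g (l.take R)) = avg R g := by
  obtain ⟨S, rfl⟩ := Nat.exists_eq_add_of_le h
  rw [avg_take_drop R S (fun l _ => g l)]
  simp

theorem avg_drop (R S : ℕ) (g : List Bool → ℝ) :
    avg (R + S) (fun l => g (l.drop R)) = avg S g := by
  rw [avg_take_drop R S (fun _ l => g l)]
  simp

/-- `avg` as a normalised sum over `Fin R → Bool`. -/
theorem avg_eq_sum (R : ℕ) (g : List Bool → ℝ) :
    avg R g = (∑ ω : Fin R → Bool, g (List.ofFn ω)) / 2 ^ R := by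
  induction R generalizing g with
  | zero => simp
  | succ R ih =>
    rw [avg_succ, ih, ih]
    have key : ∑ ω : Fin (R + 1) → Bool, g (List.ofFn ω) =
        ∑ ω : Fin R → Bool, g (false :: List.ofFn ω) + ∑ ω : Fin R → Bool, g (true :: List.ofFn ω) := by
      rw [← (Fin.consEquiv (fun _ => Bool)).sum_comp, Fintype.sum_prod_type, Fintype.sum_bool]
      simp only [Fin.consEquiv_apply, List.ofFn_succ, Fin.cons_zero, Fin.cons_succ]
      ring
    rw [key, pow_succ]
    field_simp

/-- indicator of a proposition as a real number -/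
noncomputable def ind (p : Prop) : ℝ := open Classical in if p then 1 else 0

theorem ind_of {p : Prop} (h : p) : ind p = 1 := by simp [ind, h]

theorem ind_of_not {p : Prop} (h : ¬ p) : ind p = 0 := by simp [ind, h]

theorem ind_nonneg (p : Prop) : 0 ≤ ind p := by
  unfold ind; split_ifs <;> norm_num

theorem ind_le_one (p : Prop) : ind p ≤ 1 := by
  unfold ind; split_ifs <;> norm_num

theorem ind_mono {p q : Prop} (h : p → q) : ind p ≤ ind q := by
  by_cases hp : p
  · rw [ind_of hp, ind_of (h hp)]
  · rw [ind_of_not hp]; exact ind_nonneg q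

/-- probability (over a uniform tape of length `R`) of an event -/
noncomputable def pr (R : ℕ) (P : List Bool → Prop) : ℝ := avg R (fun l => ind (P l))

/-- The `uniformProb` of the statements is `pr`. -/
theorem uniformProb_eq_pr (R : ℕ) (P : List Bool → Prop) :
    Crest.FinProb.uniformProb {ω : Fin R → Bool | P (List.ofFn ω)} = pr R P := by
  classical
  unfold pr ind
  rw [avg_eq_sum]
  unfold Crest.FinProb.uniformProb
  rw [Finset.sum_boole]
  simp

theorem pr_mono {R : ℕ} {P Q : List Bool → Prop} (h : ∀ l : List Bool, l.length = R → P l → Q l) :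
    pr R P ≤ pr R Q :=
  avg_mono fun l hl => ind_mono (h l hl)

theorem pr_congr {R : ℕ} {P Q : List Bool → Prop} (h : ∀ l : List Bool, l.length = R → (P l ↔ Q l)) :
    pr R P = pr R Q :=
  le_antisymm (pr_mono fun l hl => (h l hl).1) (pr_mono fun l hl => (h l hl).2)

theorem pr_nonneg (R : ℕ) (P : List Bool → Prop) : 0 ≤ pr R P :=
  avg_nonneg fun _ _ => ind_nonneg _

theorem pr_le_one (R : ℕ) (P : List Bool → Prop) : pr R P ≤ 1 :=
  avg_le_const fun _ _ => ind_le_one _

theorem pr_eq_one {R : ℕ} {P : List Bool → Prop} (h : ∀ l : List Bool, l.length = R → P l) :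
    pr R P = 1 := by
  rw [← avg_const R 1]
  exact avg_congr fun l hl => ind_of (h l hl)

theorem pr_eq_zero {R : ℕ} {P : List Bool → Prop} (h : ∀ l : List Bool, l.length = R → ¬ P l) :
    pr R P = 0 := by
  rw [← avg_const R 0]
  exact avg_congr fun l hl => ind_of_not (h l hl)

theorem pr_not (R : ℕ) (P : List Bool → Prop) : pr R (fun l => ¬ P l) = 1 - pr R P := by
  unfold pr
  rw [← avg_const R 1, ← avg_sub]
  refine avg_congr fun l _ => ?_
  by_cases h : P l
  · rw [ind_of h, ind_of_not (not_not_intro h)]; norm_num
  · rw [ind_of_not h, ind_of h]; norm_num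

theorem pr_or_le (R : ℕ) (P Q : List Bool → Prop) : pr R (fun l => P l ∨ Q l) ≤ pr R P + pr R Q := by
  unfold pr
  rw [← avg_add]
  refine avg_mono fun l _ => ?_
  by_cases h : P l
  · rw [ind_of h, ind_of (Or.inl h)]; linarith [ind_nonneg (Q l)]
  · by_cases h' : Q l
    · rw [ind_of h', ind_of (Or.inr h')]; linarith [ind_nonneg (P l)]
    · rw [ind_of_not h, ind_of_not h', ind_of_not (by tauto)]; norm_num

theorem pr_and_ge (R : ℕ) (P Q : List Bool → Prop) :
    pr R P + pr R Q - 1 ≤ pr R (fun l => P l ∧ Q l) := by
  have h := pr_or_le R (fun l => ¬ P l) (fun l => ¬ Q l)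
  have h2 : pr R (fun l => ¬ P l ∨ ¬ Q l) = 1 - pr R (fun l => P l ∧ Q l) := by
    rw [← pr_not]
    exact pr_congr fun l _ => by tauto
  rw [h2, pr_not, pr_not] at h
  linarith

theorem pr_exists_le {ι : Type*} (s : Finset ι) (R : ℕ) (P : ι → List Bool → Prop) :
    pr R (fun l => ∃ i ∈ s, P i l) ≤ ∑ i ∈ s, pr R (P i) := by
  unfold pr
  rw [← avg_sum]
  refine avg_mono fun l _ => ?_
  by_cases h : ∃ i ∈ s, P i l
  · obtain ⟨i, hi, hPi⟩ := h
    rw [ind_of ⟨i, hi, hPi⟩]
    calc (1 : ℝ) = ind (P i l) := (ind_of hPi).symm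
      _ ≤ ∑ i ∈ s, ind (P i l) :=
        Finset.single_le_sum (f := fun i => ind (P i l)) (fun i _ => ind_nonneg _) hi
  · rw [ind_of_not h]
    exact Finset.sum_nonneg fun i _ => ind_nonneg _

theorem pr_take {R T : ℕ} (h : R ≤ T) (P : List Bool → Prop) :
    pr T (fun l => P (l.take R)) = pr R P :=
  avg_take h (fun l => ind (P l))

/-- Markov's inequality. -/
theorem pr_le_avg_div {R : ℕ} {g : List Bool → ℝ} {c : ℝ} (hc : 0 < c)
    (hg : ∀ l : List Bool, l.length = R → 0 ≤ g l) : pr R (fun l => c ≤ g l) ≤ avg R g / c := by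
  rw [le_div_iff₀ hc]
  unfold pr
  rw [← avg_mul_right]
  refine avg_mono fun l hl => ?_
  by_cases h : c ≤ g l
  · rw [ind_of h]; simpa using h
  · rw [ind_of_not h]; simpa using hg l hl

/-! ### iterating a randomised step -/

/-- run `k` steps of `f`, each consuming `r` bits of the tape -/
def runSteps {S : Type*} (f : S → List Bool → S) (r : ℕ) : ℕ → S → List Bool → S
  | 0, s, _ => s
  | k + 1, s, t => runSteps f r k (f s (t.take r)) (t.drop r)

/-- the Markov operator of a randomised step -/
noncomputable def markov {S : Type*} (f : S → List Bool → S) (r : ℕ) (φ : S → ℝ) (s : S) : ℝ :=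
  avg r (fun l => φ (f s l))

theorem avg_runSteps {S : Type*} (f : S → List Bool → S) (r k : ℕ) (φ : S → ℝ) (s : S) :
    avg (k * r) (fun l => φ (runSteps f r k s l)) = (markov f r)^[k] φ s := by
  induction k generalizing s with
  | zero => simp [runSteps]
  | succ k ih =>
    rw [show (k + 1) * r = r + k * r by ring]
    simp only [runSteps]
    rw [avg_take_drop r (k * r) (fun l l' => φ (runSteps f r k (f s l) l'))]
    simp_rw [ih]
    rw [Function.iterate_succ_apply' (markov f r) k φ]
    rfl

/-- Adaptive union bound: if each step preserves the (indexed) invariant with probability at least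
`1 - δ`, then it holds after `k` steps with probability at least `1 - k δ`. -/
theorem runSteps_inv {S : Type*} (f : S → List Bool → S) (r : ℕ) (Inv : ℕ → S → Prop) (δ : ℝ)
    (hδ : 0 ≤ δ) (k : ℕ)
    (hstep : ∀ i < k, ∀ s, Inv i s → 1 - δ ≤ pr r (fun l => Inv (i + 1) (f s l))) :
    ∀ j i, i + j = k → ∀ s, Inv i s →
      1 - j * δ ≤ pr (j * r) (fun l => Inv k (runSteps f r j s l)) := by
  intro j
  induction j with
  | zero =>
    intro i hi s hs
    have : i = k := by omega
    subst this
    rw [pr_eq_one (fun l _ => by simpa [runSteps] using hs)]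
    simp
  | succ j ih =>
    intro i hi s hs
    have h1 := hstep i (by omega) s hs
    have key : pr ((j + 1) * r) (fun l => Inv k (runSteps f r (j + 1) s l)) =
        avg r (fun l => pr (j * r) (fun l' => Inv k (runSteps f r j (f s l) l'))) := by
      unfold pr
      rw [show (j + 1) * r = r + j * r by ring]
      simp only [runSteps]
      rw [avg_take_drop r (j * r)
        (fun l l' => ind (Inv k (runSteps f r j (f s l) l')))]
    rw [key]
    have h2 : ∀ l : List Bool, l.length = r →
        ind (Inv (i + 1) (f s l)) - j * δ ≤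
          pr (j * r) (fun l' => Inv k (runSteps f r j (f s l) l')) := by
      intro l _
      by_cases h : Inv (i + 1) (f s l)
      · rw [ind_of h]; exact ih (i + 1) (by omega) _ h
      · rw [ind_of_not h]
        have := pr_nonneg (j * r) (fun l' => Inv k (runSteps f r j (f s l) l'))
        have : 0 ≤ (j : ℝ) * δ := by positivity
        linarith
    have h3 := avg_mono h2
    rw [avg_sub, avg_const] at h3
    have h4 : avg r (fun l => ind (Inv (i + 1) (f s l))) =
        pr r (fun l => Inv (i + 1) (f s l)) := rfl
    rw [h4] at h3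
    push_cast
    linarith

/-- Total-variation perturbation of Markov operators: if one randomised step is within `ε` of the
exact operator `K` on `[0,1]`-valued test functions (at states satisfying an invariant `Q`), then `k` steps
are within `k ε`. -/
theorem runSteps_approx {S : Type*} (f : S → List Bool → S) (r : ℕ) (Q : S → Prop)
    (K : (S → ℝ) → S → ℝ) (ε : ℝ)
    (hQ : ∀ s, Q s → ∀ l : List Bool, l.length = r → Q (f s l))
    (hK01 : ∀ φ : S → ℝ, (∀ s, 0 ≤ φ s ∧ φ s ≤ 1) → ∀ s, 0 ≤ K φ s ∧ K φ s ≤ 1)
    (hK : ∀ φ : S → ℝ, (∀ s, 0 ≤ φ s ∧ φ s ≤ 1) → ∀ s, Q s → |markov f r φ s - K φ s| ≤ ε)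
    (k : ℕ) : ∀ φ : S → ℝ, (∀ s, 0 ≤ φ s ∧ φ s ≤ 1) → ∀ s, Q s →
      |avg (k * r) (fun l => φ (runSteps f r k s l)) - K^[k] φ s| ≤ k * ε := by
  induction k with
  | zero => intro φ _ s _; simp [runSteps]
  | succ k ih =>
    intro φ hφ s hs
    have hKk : ∀ j, ∀ s, 0 ≤ K^[j] φ s ∧ K^[j] φ s ≤ 1 := by
      intro j
      induction j with
      | zero => simpa using hφ
      | succ j ihj =>
        intro s
        rw [Function.iterate_succ_apply']
        exact hK01 _ ihj s
    have key : avg ((k + 1) * r) (fun l => φ (runSteps f r (k + 1) s l)) =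
        avg r (fun l => avg (k * r) (fun l' => φ (runSteps f r k (f s l) l'))) := by
      rw [show (k + 1) * r = r + k * r by ring]
      simp only [runSteps]
      rw [avg_take_drop r (k * r) (fun l l' => φ (runSteps f r k (f s l) l'))]
    rw [key, Function.iterate_succ_apply']
    have h1 := hK (K^[k] φ) (hKk k) s hs
    have h2 : |avg r (fun l => avg (k * r) (fun l' => φ (runSteps f r k (f s l) l')))
        - markov f r (K^[k] φ) s| ≤ k * ε := by
      unfold markov
      rw [← avg_sub]
      refine (abs_avg_le _ _).trans ?_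
      refine avg_le_const fun l hl => ?_
      exact ih φ hφ _ (hQ s hs l hl)
    calc |avg r (fun l => avg (k * r) (fun l' => φ (runSteps f r k (f s l) l')))
          - K (K^[k] φ) s|
        ≤ |avg r (fun l => avg (k * r) (fun l' => φ (runSteps f r k (f s l) l')))
          - markov f r (K^[k] φ) s| + |markov f r (K^[k] φ) s - K (K^[k] φ) s| := abs_sub_le _ _ _
      _ ≤ k * ε + ε := add_le_add h2 h1
      _ = ((k + 1 : ℕ) : ℝ) * ε := by push_cast; ring

end Crest.Agent.R309.Tape
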