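import Mathlib

/-!
Row 309, abstract Markov chain layer (helper585): finite reversible chains.
Kernels are functions `K : α → α → ℝ` on a finite type, weights `w : α → ℝ` are unnormalised.
-/

set_option autoImplicit false
open Finset

namespace Crest.Agent.R309.MC

variable {α : Type*} [Fintype α]

/-- A stochastic kernel. -/
structure IsKer (K : α → α → ℝ) : Prop where
  nonneg : ∀ x y, 0 ≤ K x y
  sum_one : ∀ x, ∑ y, K x y = 1

/-- Reversibility with respect to the weight `w`. -/
def Rev (w : α → ℝ) (K : α → α → ℝ) : Prop := ∀ x y, w x * K x y = w y * K y x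

/-- Action of a kernel on functions. -/
def app (K : α → α → ℝ) (f : α → ℝ) (x : α) : ℝ := ∑ y, K x y * f y

/-- The (unnormalised) inner product. -/
def inn (w f g : α → ℝ) : ℝ := ∑ x, w x * f x * g x

/-- Total mass. -/
def mass (w : α → ℝ) : ℝ := ∑ x, w x

/-- Mean of `f` under the normalised weight. -/
noncomputable def mean (w f : α → ℝ) : ℝ := (∑ x, w x * f x) / mass w

/-- Unnormalised variance. -/
noncomputable def varU (w f : α → ℝ) : ℝ := ∑ x, w x * (f x - mean w f) ^ 2

/-- Unnormalised Dirichlet form, `1/2 ∑ w x K x y (f x - f y)^2`. -/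
noncomputable def dir (w : α → ℝ) (K : α → α → ℝ) (f : α → ℝ) : ℝ :=
  (∑ x, ∑ y, w x * K x y * (f x - f y) ^ 2) / 2

/-- Positive semidefiniteness of the kernel in `ℓ²(w)`. -/
def PSD (w : α → ℝ) (K : α → α → ℝ) : Prop := ∀ f : α → ℝ, 0 ≤ inn w f (app K f)

/-- Poincaré inequality with constant `c` (spectral gap at least `c`). -/
def Poinc (w : α → ℝ) (K : α → α → ℝ) (c : ℝ) : Prop :=
  ∀ f : α → ℝ, c * varU w f ≤ dir w K f

theorem inn_comm (w f g : α → ℝ) : inn w f g = inn w g f := by
  unfold inn; exact sum_congr rfl fun x _ => by ring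

theorem inn_add_left (w f g h : α → ℝ) : inn w (f + g) h = inn w f h + inn w g h := by
  unfold inn; rw [← sum_add_distrib]; exact sum_congr rfl fun x _ => by simp; ring

theorem inn_smul_left (w f h : α → ℝ) (a : ℝ) : inn w (a • f) h = a * inn w f h := by
  unfold inn; rw [mul_sum]; exact sum_congr rfl fun x _ => by simp; ring

theorem inn_add_right (w f g h : α → ℝ) : inn w h (f + g) = inn w h f + inn w h g := by
  rw [inn_comm, inn_add_left, inn_comm w f, inn_comm w g]

theorem inn_smul_right (w f h : α → ℝ) (a : ℝ) : inn w h (a • f) = a * inn w h f := by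
  rw [inn_comm, inn_smul_left, inn_comm]

theorem inn_self_nonneg {w : α → ℝ} (hw : ∀ x, 0 ≤ w x) (f : α → ℝ) : 0 ≤ inn w f f := by
  unfold inn
  exact sum_nonneg fun x _ => by have := hw x; nlinarith [mul_nonneg this (mul_self_nonneg (f x))]

theorem app_add (K : α → α → ℝ) (f g : α → ℝ) : app K (f + g) = app K f + app K g := by
  funext x; unfold app; simp only [Pi.add_apply, mul_add, sum_add_distrib]

theorem app_smul (K : α → α → ℝ) (a : ℝ) (f : α → ℝ) : app K (a • f) = a • app K f := by
  funext x; unfold app; simp only [Pi.smul_apply, smul_eq_mul, mul_sum]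
  exact sum_congr rfl fun y _ => by ring

theorem app_const {K : α → α → ℝ} (hK : IsKer K) (a : ℝ) :
    app K (fun _ => a) = fun _ => a := by
  funext x; unfold app; rw [← sum_mul, hK.sum_one, one_mul]

/-- Self-adjointness of a reversible kernel. -/
theorem inn_app {w : α → ℝ} {K : α → α → ℝ} (hr : Rev w K) (f g : α → ℝ) :
    inn w f (app K g) = inn w (app K f) g := by
  unfold inn app
  simp only [mul_sum, sum_mul]
  rw [sum_comm]
  refine sum_congr rfl fun x _ => sum_congr rfl fun y _ => ?_
  have := hr y x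
  calc w y * f y * (K y x * g x) = (w y * K y x) * f y * g x := by ring
    _ = (w x * K x y) * f y * g x := by rw [this]
    _ = w x * (K x y * f y) * g x := by ring

/-- The Dirichlet form as `⟨f, f⟩ - ⟨f, K f⟩`. -/
theorem dir_eq {w : α → ℝ} {K : α → α → ℝ} (hK : IsKer K) (hr : Rev w K) (f : α → ℝ) :
    dir w K f = inn w f f - inn w f (app K f) := by
  unfold dir
  have e : ∀ x y, w x * K x y * (f x - f y) ^ 2
      = w x * K x y * f x ^ 2 + w x * K x y * f y ^ 2 - 2 * (w x * f x * (K x y * f y)) := by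
    intro x y; ring
  simp only [e, sum_add_distrib, sum_sub_distrib, ← mul_sum]
  have h1 : ∑ x, ∑ y, w x * K x y * f x ^ 2 = inn w f f := by
    unfold inn
    refine sum_congr rfl fun x _ => ?_
    calc ∑ y, w x * K x y * f x ^ 2 = (∑ y, K x y) * (w x * f x ^ 2) := by
          rw [sum_mul]; exact sum_congr rfl fun y _ => by ring
      _ = w x * f x * f x := by rw [hK.sum_one]; ring
  have h2 : ∑ x, ∑ y, w x * K x y * f y ^ 2 = inn w f f := by
    rw [← h1, sum_comm]
    exact sum_congr rfl fun x _ => sum_congr rfl fun y _ => by rw [hr y x]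
  have h3 : ∑ x, ∑ y, w x * f x * (K x y * f y) = inn w f (app K f) := by
    unfold inn app
    exact sum_congr rfl fun x _ => by rw [mul_sum]
  have h3' : ∑ x, w x * f x * ∑ y, K x y * f y = inn w f (app K f) := rfl
  rw [h1, h2, h3']
  ring

theorem dir_nonneg {w : α → ℝ} (hw : ∀ x, 0 ≤ w x) {K : α → α → ℝ} (hK : IsKer K)
    (f : α → ℝ) : 0 ≤ dir w K f := by
  unfold dir
  refine div_nonneg (sum_nonneg fun x _ => sum_nonneg fun y _ => ?_) (by norm_num)
  exact mul_nonneg (mul_nonneg (hw x) (hK.nonneg x y)) (sq_nonneg _)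

theorem sum_mul_sub_mean {w : α → ℝ} (hm : mass w ≠ 0) (f : α → ℝ) :
    ∑ x, w x * (f x - mean w f) = 0 := by
  simp only [mul_sub, sum_sub_distrib, ← sum_mul]
  unfold mean
  change _ - mass w * _ = 0
  field_simp
  ring

theorem varU_eq {w : α → ℝ} (hm : mass w ≠ 0) (f : α → ℝ) :
    varU w f = ∑ x, w x * f x ^ 2 - mass w * mean w f ^ 2 := by
  have h := sum_mul_sub_mean hm f
  have e : varU w f = ∑ x, (w x * f x ^ 2 - 2 * mean w f * (w x * (f x - mean w f))
      - mean w f ^ 2 * w x) := by
    unfold varU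
    exact sum_congr rfl fun x _ => by ring
  rw [e, sum_sub_distrib, sum_sub_distrib, ← mul_sum, ← mul_sum, h]
  change _ - _ - _ * mass w = _
  ring

/-- The variance is at most the second moment about any point. -/
theorem varU_le {w : α → ℝ} (hw : ∀ x, 0 ≤ w x) (hm : mass w ≠ 0) (f : α → ℝ) (a : ℝ) :
    varU w f ≤ ∑ x, w x * (f x - a) ^ 2 := by
  have h := sum_mul_sub_mean hm f
  have e : ∑ x, w x * (f x - a) ^ 2 = varU w f + 2 * (mean w f - a) *
      (∑ x, w x * (f x - mean w f)) + (mean w f - a) ^ 2 * mass w := by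
    unfold varU mass
    rw [mul_sum, mul_sum, ← sum_add_distrib, ← sum_add_distrib]
    exact sum_congr rfl fun x _ => by ring
  rw [e, h]
  have : 0 ≤ mass w := sum_nonneg fun x _ => hw x
  nlinarith [mul_nonneg (sq_nonneg (mean w f - a)) this]

/-- Variance as a double sum. -/
theorem mass_mul_varU {w : α → ℝ} (hm : mass w ≠ 0) (f : α → ℝ) :
    mass w * varU w f = (∑ x, ∑ y, w x * w y * (f x - f y) ^ 2) / 2 := by
  rw [varU_eq hm]
  have e : ∀ x y, w x * w y * (f x - f y) ^ 2
      = (w x * f x ^ 2) * w y + w x * (w y * f y ^ 2) - 2 * ((w x * f x) * (w y * f y)) := by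
    intro x y; ring
  simp only [e, sum_add_distrib, sum_sub_distrib, ← mul_sum, ← sum_mul]
  unfold mean
  change _ = ((∑ x, w x * f x ^ 2) * mass w + mass w * (∑ x, w x * f x ^ 2) - _) / 2
  field_simp
  ring

/-- Invariance of constants under kernels: `varU` of a constant is zero. -/
theorem varU_const {w : α → ℝ} (hm : mass w ≠ 0) (a : ℝ) : varU w (fun _ => a) = 0 := by
  have : mean w (fun _ => a) = a := by
    unfold mean
    rw [← sum_mul]
    change mass w * a / mass w = a
    field_simp
  unfold varU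
  rw [this]
  simp

/-- Cauchy–Schwarz for a positive semidefinite reversible kernel. -/
theorem psd_cauchy {w : α → ℝ} {K : α → α → ℝ} (hr : Rev w K) (hp : PSD w K)
    (f g : α → ℝ) :
    (inn w f (app K g)) ^ 2 ≤ inn w f (app K f) * inn w g (app K g) := by
  have h : ∀ t : ℝ, 0 ≤ inn w g (app K g) * (t * t) + (2 * inn w f (app K g)) * t
      + inn w f (app K f) := by
    intro t
    have := hp (f + t • g)
    rw [app_add, app_smul, inn_add_right, inn_add_left, inn_add_left, inn_smul_left,
      inn_smul_right, inn_smul_right, inn_smul_left] at this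
    have hsym : inn w g (app K f) = inn w f (app K g) := by
      rw [inn_app hr, inn_comm]
    rw [hsym] at this
    linarith
  have := discrim_le_zero h
  unfold discrim at this
  nlinarith

/-- Contraction of mean zero functions. -/
theorem contract {w : α → ℝ} (hw : ∀ x, 0 ≤ w x) {K : α → α → ℝ} (hK : IsKer K)
    (hr : Rev w K) (hp : PSD w K) {c : ℝ} (hc : Poinc w K c)
    (f : α → ℝ) (hf : ∑ x, w x * f x = 0) :
    (∑ x, w x * app K f x = 0) ∧
      inn w (app K f) (app K f) ≤ (1 - c) ^ 2 * inn w f f := by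
  have key : ∀ g : α → ℝ, ∑ x, w x * g x = 0 →
      inn w g (app K g) ≤ (1 - c) * inn w g g := by
    intro g hg
    have h1 := hc g
    rw [dir_eq hK hr] at h1
    have hmean : mean w g = 0 := by unfold mean; rw [hg, zero_div]
    have h2 : varU w g = inn w g g := by
      unfold varU inn
      rw [hmean]
      exact sum_congr rfl fun x _ => by ring
    rw [h2] at h1
    linarith
  have h0 : ∑ x, w x * app K f x = 0 := by
    have h1 : inn w (fun _ => 1) (app K f) = ∑ x, w x * app K f x := by
      unfold inn; exact sum_congr rfl fun x _ => by ring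
    rw [← h1, inn_app hr, app_const hK]
    unfold inn
    rw [← hf]
    exact sum_congr rfl fun x _ => by ring
  refine ⟨h0, ?_⟩
  set A := inn w (app K f) (app K f) with hA
  have hA0 : 0 ≤ A := inn_self_nonneg hw _
  have h1 : A ^ 2 ≤ inn w f (app K f) * inn w (app K f) (app K (app K f)) := by
    have := psd_cauchy hr hp f (app K f)
    rw [inn_app hr f (app K f)] at this
    exact this
  have h2 := key f hf
  have h3 := key (app K f) h0
  have h4 := hp f
  have h5 := hp (app K f)
  have hF : 0 ≤ inn w f f := inn_self_nonneg hw _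
  by_cases hAz : A = 0
  · rw [hAz]; positivity
  have hApos : 0 < A := lt_of_le_of_ne hA0 (Ne.symm hAz)
  have h6 : A ^ 2 ≤ ((1 - c) * inn w f f) * ((1 - c) * A) :=
    h1.trans (mul_le_mul h2 h3 h5 (h4.trans h2))
  have h7 : A * A ≤ ((1 - c) ^ 2 * inn w f f) * A := by nlinarith
  exact le_of_mul_le_mul_right h7 hApos

/-- Iterates. -/
def iter (K : α → α → ℝ) : ℕ → (α → ℝ) → (α → ℝ)
  | 0, f => f
  | t + 1, f => app K (iter K t f)

theorem contract_iter {w : α → ℝ} (hw : ∀ x, 0 ≤ w x) {K : α → α → ℝ} (hK : IsKer K)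
    (hr : Rev w K) (hp : PSD w K) {c : ℝ} (hc : Poinc w K c)
    (f : α → ℝ) (hf : ∑ x, w x * f x = 0) (t : ℕ) :
    (∑ x, w x * iter K t f x = 0) ∧
      inn w (iter K t f) (iter K t f) ≤ ((1 - c) ^ 2) ^ t * inn w f f := by
  induction t with
  | zero => simp [iter, hf]
  | succ t ih =>
    obtain ⟨h1, h2⟩ := contract hw hK hr hp hc (iter K t f) ih.1
    refine ⟨h1, h2.trans ?_⟩
    calc (1 - c) ^ 2 * inn w (iter K t f) (iter K t f)
        ≤ (1 - c) ^ 2 * (((1 - c) ^ 2) ^ t * inn w f f) :=
          mul_le_mul_of_nonneg_left ih.2 (sq_nonneg _)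
      _ = ((1 - c) ^ 2) ^ (t + 1) * inn w f f := by ring

/-! ### Distributions -/

/-- Push a (sub)distribution one step forward. -/
def push (K : α → α → ℝ) (p : α → ℝ) (y : α) : ℝ := ∑ x, p x * K x y

/-- Law after `t` steps started from the distribution `p`. -/
def law (K : α → α → ℝ) (p : α → ℝ) : ℕ → α → ℝ
  | 0 => p
  | t + 1 => push K (law K p t)

/-- Total variation distance. -/
noncomputable def tv (p q : α → ℝ) : ℝ := (∑ x, |p x - q x|) / 2

theorem tv_nonneg (p q : α → ℝ) : 0 ≤ tv p q := by unfold tv; positivity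

theorem tv_self (p : α → ℝ) : tv p p = 0 := by simp [tv]

theorem tv_comm (p q : α → ℝ) : tv p q = tv q p := by
  unfold tv; congr 1; exact sum_congr rfl fun x _ => abs_sub_comm _ _

theorem tv_triangle (p q r : α → ℝ) : tv p r ≤ tv p q + tv q r := by
  unfold tv
  rw [← add_div, ← sum_add_distrib]
  gcongr with x _
  exact abs_sub_le _ _ _

/-- Probabilities of events differ by at most the total variation distance. -/
theorem abs_sum_sub_le_tv {p q : α → ℝ} (h : ∑ x, p x = ∑ x, q x) (s : Finset α) :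
    |∑ x ∈ s, p x - ∑ x ∈ s, q x| ≤ tv p q := by
  classical
  rw [← sum_sub_distrib]
  have h1 : ∑ x ∈ s, (p x - q x) + ∑ x ∈ sᶜ, (p x - q x) = 0 := by
    rw [sum_add_sum_compl, sum_sub_distrib, h, sub_self]
  have h2 : |∑ x ∈ s, (p x - q x)| ≤ ∑ x ∈ s, |p x - q x| := abs_sum_le_sum_abs _ _
  have h3 : |∑ x ∈ sᶜ, (p x - q x)| ≤ ∑ x ∈ sᶜ, |p x - q x| := abs_sum_le_sum_abs _ _
  have h4 : ∑ x ∈ s, |p x - q x| + ∑ x ∈ sᶜ, |p x - q x| = ∑ x, |p x - q x| :=
    sum_add_sum_compl _ _
  have h5 : |∑ x ∈ sᶜ, (p x - q x)| = |∑ x ∈ s, (p x - q x)| := by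
    have : ∑ x ∈ sᶜ, (p x - q x) = - ∑ x ∈ s, (p x - q x) := by linarith
    rw [this, abs_neg]
  unfold tv
  linarith

theorem push_sub_le (K : α → α → ℝ) (hK : IsKer K) (p q : α → ℝ) :
    tv (push K p) (push K q) ≤ tv p q := by
  unfold tv push
  gcongr ?_ / 2
  calc ∑ y, |∑ x, p x * K x y - ∑ x, q x * K x y|
      ≤ ∑ y, ∑ x, |p x - q x| * K x y := by
        refine sum_le_sum fun y _ => ?_
        rw [← sum_sub_distrib]
        refine (abs_sum_le_sum_abs _ _).trans (sum_le_sum fun x _ => ?_)
        rw [← sub_mul, abs_mul, abs_of_nonneg (hK.nonneg x y)]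
    _ = ∑ x, |p x - q x| := by
        rw [sum_comm]
        exact sum_congr rfl fun x _ => by rw [← mul_sum, hK.sum_one, mul_one]

theorem push_kernel_le {K K' : α → α → ℝ} {ε : ℝ} (h : ∀ x, tv (K x) (K' x) ≤ ε)
    {p : α → ℝ} (hp : ∀ x, 0 ≤ p x) (hp1 : ∑ x, p x = 1) :
    tv (push K p) (push K' p) ≤ ε := by
  have : tv (push K p) (push K' p) ≤ ∑ x, p x * tv (K x) (K' x) := by
    unfold tv push
    simp only [mul_div_assoc', ← sum_div]
    gcongr ?_ / 2
    calc ∑ y, |∑ x, p x * K x y - ∑ x, p x * K' x y|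
        ≤ ∑ y, ∑ x, p x * |K x y - K' x y| := by
          refine sum_le_sum fun y _ => ?_
          rw [← sum_sub_distrib]
          refine (abs_sum_le_sum_abs _ _).trans (sum_le_sum fun x _ => ?_)
          rw [← mul_sub, abs_mul, abs_of_nonneg (hp x)]
      _ = ∑ x, p x * ∑ y, |K x y - K' x y| := by
          rw [sum_comm]; exact sum_congr rfl fun x _ => by rw [mul_sum]
  refine this.trans ?_
  calc ∑ x, p x * tv (K x) (K' x) ≤ ∑ x, p x * ε :=
        sum_le_sum fun x _ => mul_le_mul_of_nonneg_left (h x) (hp x)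
    _ = ε := by rw [← sum_mul, hp1, one_mul]

theorem push_nonneg {K : α → α → ℝ} (hK : IsKer K) {p : α → ℝ} (hp : ∀ x, 0 ≤ p x) :
    ∀ x, 0 ≤ push K p x := fun y => sum_nonneg fun x _ => mul_nonneg (hp x) (hK.nonneg x y)

theorem push_sum {K : α → α → ℝ} (hK : IsKer K) (p : α → ℝ) :
    ∑ y, push K p y = ∑ x, p x := by
  unfold push
  rw [sum_comm]
  exact sum_congr rfl fun x _ => by rw [← mul_sum, hK.sum_one, mul_one]

theorem law_nonneg {K : α → α → ℝ} (hK : IsKer K) {p : α → ℝ} (hp : ∀ x, 0 ≤ p x) (t : ℕ) :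
    ∀ x, 0 ≤ law K p t x := by
  induction t with
  | zero => exact hp
  | succ t ih => exact push_nonneg hK ih

theorem law_sum {K : α → α → ℝ} (hK : IsKer K) (p : α → ℝ) (t : ℕ) :
    ∑ x, law K p t x = ∑ x, p x := by
  induction t with
  | zero => rfl
  | succ t ih => rw [← ih]; exact push_sum hK _

/-- The stationary law is preserved. -/
theorem push_stationary {w : α → ℝ} {K : α → α → ℝ} (hK : IsKer K) (hr : Rev w K) :
    push K w = w := by
  funext y
  unfold push
  rw [sum_congr rfl fun x _ => hr x y, ← mul_sum, hK.sum_one, mul_one]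

/-- The density of the law after `t` steps evolves by the kernel itself (reversibility). -/
theorem law_eq_iter {w : α → ℝ} {K : α → α → ℝ} (hr : Rev w K) (h : α → ℝ) (t : ℕ) :
    law K (fun x => w x * h x) t = fun x => w x * iter K t h x := by
  induction t with
  | zero => rfl
  | succ t ih =>
    funext y
    change push K (law K (fun x => w x * h x) t) y = w y * app K (iter K t h) y
    rw [ih]
    unfold push app
    rw [mul_sum]
    refine sum_congr rfl fun x _ => ?_
    have := hr x y
    calc w x * iter K t h x * K x y = (w x * K x y) * iter K t h x := by ring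
      _ = (w y * K y x) * iter K t h x := by rw [this]
      _ = w y * (K y x * iter K t h x) := by ring

theorem iter_add (K : α → α → ℝ) (f g : α → ℝ) (t : ℕ) :
    iter K t (f + g) = iter K t f + iter K t g := by
  induction t with
  | zero => rfl
  | succ t ih => simp only [iter, ih, app_add]

theorem iter_const {K : α → α → ℝ} (hK : IsKer K) (a : ℝ) (t : ℕ) :
    iter K t (fun _ => a) = fun _ => a := by
  induction t with
  | zero => rfl
  | succ t ih => simp only [iter, ih, app_const hK]

/-- **Convergence from a start with `ℓ²` bounded density**: if `p = w h / mass w`-type density. -/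
theorem tv_law_le_of_density {w : α → ℝ} (hw : ∀ x, 0 < w x) {K : α → α → ℝ} (hK : IsKer K)
    (hr : Rev w K) (hp : PSD w K) {c : ℝ} (hc : Poinc w K c) (hc1 : c ≤ 1) (hm : 0 < mass w)
    (p : α → ℝ) (hp1 : ∑ x, p x = 1) (t : ℕ) :
    tv (law K p t) (fun x => w x / mass w) ≤
      (1 - c) ^ t * Real.sqrt ((∑ x, p x ^ 2 / w x) * mass w) / 2 := by
  set h : α → ℝ := fun x => p x / w x - 1 / mass w with hh
  have hpw : (fun x => w x * (h + (fun _ => 1 / mass w) : α → ℝ) x) = p := by
    funext x
    simp only [hh, Pi.add_apply]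
    have := (hw x).ne'
    field_simp
    ring
  have hlaw : law K p t = fun x => w x * (iter K t h x + 1 / mass w) := by
    rw [← hpw, law_eq_iter hr, iter_add, iter_const hK]
    rfl
  have hh0 : ∑ x, w x * h x = 0 := by
    simp only [hh, mul_sub, sum_sub_distrib]
    have e1 : ∑ x, w x * (p x / w x) = 1 := by
      rw [← hp1]
      exact sum_congr rfl fun x _ => by have := (hw x).ne'; field_simp
    have e2 : ∑ x, w x * (1 / mass w) = 1 := by
      rw [← sum_mul]
      change mass w * (1 / mass w) = 1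
      field_simp
    rw [e1, e2, sub_self]
  obtain ⟨_, h2⟩ := contract_iter (fun x => (hw x).le) hK hr hp hc h hh0 t
  have hinn : inn w h h ≤ ∑ x, p x ^ 2 / w x := by
    have : inn w h h = (∑ x, p x ^ 2 / w x) - 1 / mass w := by
      have e : ∀ x, w x * h x * h x = p x ^ 2 / w x - (2 / mass w) * p x + (1 / mass w) ^ 2 * w x := by
        intro x
        simp only [hh]
        have := (hw x).ne'
        field_simp
        ring
      unfold inn
      rw [sum_congr rfl fun x _ => e x, sum_add_distrib, sum_sub_distrib, ← mul_sum, ← mul_sum,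
        hp1]
      change _ - _ + _ * mass w = _
      field_simp
      ring
    rw [this]
    have : 0 < 1 / mass w := by positivity
    linarith
  have h3 : tv (law K p t) (fun x => w x / mass w) = (∑ x, w x * |iter K t h x|) / 2 := by
    unfold tv
    congr 1
    refine sum_congr rfl fun x _ => ?_
    rw [hlaw]
    have : w x * (iter K t h x + 1 / mass w) - w x / mass w = w x * iter K t h x := by
      field_simp
      ring
    simp only [this, abs_mul, abs_of_pos (hw x)]
  rw [h3]
  have h4 : (∑ x, w x * |iter K t h x|) ^ 2 ≤ mass w * inn w (iter K t h) (iter K t h) := by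
    have := Finset.sum_mul_sq_le_sq_mul_sq univ (fun x => Real.sqrt (w x))
      (fun x => Real.sqrt (w x) * |iter K t h x|)
    have e1 : ∀ x, Real.sqrt (w x) * (Real.sqrt (w x) * |iter K t h x|) = w x * |iter K t h x| := by
      intro x; rw [← mul_assoc, Real.mul_self_sqrt (hw x).le]
    have e2 : ∀ x, Real.sqrt (w x) ^ 2 = w x := fun x => Real.sq_sqrt (hw x).le
    have e3 : ∀ x, (Real.sqrt (w x) * |iter K t h x|) ^ 2 = w x * iter K t h x * iter K t h x := by
      intro x
      rw [mul_pow, Real.sq_sqrt (hw x).le, sq_abs]; ring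
    simp only [e1, e2, e3] at this
    exact this
  have h5 : (∑ x, w x * |iter K t h x|) ^ 2 ≤
      ((1 - c) ^ t * Real.sqrt ((∑ x, p x ^ 2 / w x) * mass w)) ^ 2 := by
    rw [mul_pow, Real.sq_sqrt]
    · calc (∑ x, w x * |iter K t h x|) ^ 2 ≤ mass w * inn w (iter K t h) (iter K t h) := h4
        _ ≤ mass w * (((1 - c) ^ 2) ^ t * inn w h h) := mul_le_mul_of_nonneg_left h2 hm.le
        _ ≤ mass w * (((1 - c) ^ 2) ^ t * ∑ x, p x ^ 2 / w x) := by gcongr
        _ = ((1 - c) ^ t) ^ 2 * ((∑ x, p x ^ 2 / w x) * mass w) := by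
            rw [← pow_mul, ← pow_mul, mul_comm 2 t]; ring
    · exact mul_nonneg (sum_nonneg fun x _ => div_nonneg (sq_nonneg _) (hw x).le) hm.le
  have hR : 0 ≤ (1 - c) ^ t * Real.sqrt ((∑ x, p x ^ 2 / w x) * mass w) :=
    mul_nonneg (pow_nonneg (by linarith) _) (Real.sqrt_nonneg _)
  have := abs_le_of_sq_le_sq h5 hR
  have h7 := (abs_le.mp this).2
  linarith

end Crest.Agent.R309.MC
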