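import Mathlib
import Crest.Agent.R309.MCBasic

/-!
Row 309, abstract Markov chain layer (helper585), part 2: lazy kernels, point starts,
inexact time-inhomogeneous chains, Metropolis kernels.
-/

set_option autoImplicit false
open Finset

namespace Crest.Agent.R309.MC

variable {α : Type*} [Fintype α]

/-! ### lazy kernels are positive semidefinite -/

theorem inn_app_le {w : α → ℝ} (hw : ∀ x, 0 ≤ w x) {K : α → α → ℝ} (hK : IsKer K)
    (hr : Rev w K) (f : α → ℝ) : |inn w f (app K f)| ≤ inn w f f := by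
  have h1 : ∀ s : ℝ, s = 1 ∨ s = -1 →
      0 ≤ inn w f f + s * inn w f (app K f) := by
    intro s hs
    have e : 0 ≤ (∑ x, ∑ y, w x * K x y * (f x + s * f y) ^ 2) / 2 :=
      div_nonneg (sum_nonneg fun x _ => sum_nonneg fun y _ =>
        mul_nonneg (mul_nonneg (hw x) (hK.nonneg x y)) (sq_nonneg _)) (by norm_num)
    have hs2 : s ^ 2 = 1 := by rcases hs with h | h <;> rw [h] <;> norm_num
    have e2 : ∀ x y, w x * K x y * (f x + s * f y) ^ 2
        = w x * K x y * f x ^ 2 + w x * K x y * f y ^ 2 + 2 * s * (w x * f x * (K x y * f y)) := by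
      intro x y
      calc w x * K x y * (f x + s * f y) ^ 2
          = w x * K x y * f x ^ 2 + s ^ 2 * (w x * K x y * f y ^ 2)
            + 2 * s * (w x * f x * (K x y * f y)) := by ring
        _ = _ := by rw [hs2]; ring
    simp only [e2, sum_add_distrib, ← mul_sum] at e
    have h1 : ∑ x, ∑ y, w x * K x y * f x ^ 2 = inn w f f := by
      unfold inn
      refine sum_congr rfl fun x _ => ?_
      calc ∑ y, w x * K x y * f x ^ 2 = (∑ y, K x y) * (w x * f x ^ 2) := by
            rw [sum_mul]; exact sum_congr rfl fun y _ => by ring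
        _ = w x * f x * f x := by rw [hK.sum_one]; ring
    have h2 : ∑ x, ∑ y, w x * K x y * f y ^ 2 = inn w f f := by
      rw [← h1, sum_comm]
      exact sum_congr rfl fun x _ => sum_congr rfl fun y _ => by rw [hr y x]
    have h3' : ∑ x, w x * f x * ∑ y, K x y * f y = inn w f (app K f) := rfl
    rw [h1, h2, h3'] at e
    linarith
  have a := h1 1 (Or.inl rfl)
  have b := h1 (-1) (Or.inr rfl)
  rw [abs_le]
  constructor <;> linarith

/-- Lazy reversible kernels are positive semidefinite. -/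
theorem psd_of_lazy [DecidableEq α] {w : α → ℝ} (hw : ∀ x, 0 ≤ w x) {K : α → α → ℝ}
    (hK : IsKer K) (hr : Rev w K) (hl : ∀ x, 1 / 2 ≤ K x x) : PSD w K := by
  intro f
  set Q : α → α → ℝ := fun x y => 2 * K x y - if x = y then 1 else 0 with hQ
  have hQk : IsKer Q := by
    constructor
    · intro x y
      simp only [hQ]
      split_ifs with h
      · subst h; linarith [hl x]
      · have := hK.nonneg x y; linarith
    · intro x
      simp only [hQ, sum_sub_distrib, ← mul_sum, hK.sum_one, sum_ite_eq, mem_univ, if_true]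
      norm_num
  have hQr : Rev w Q := by
    intro x y
    simp only [hQ, mul_sub]
    by_cases h : x = y
    · subst h; rfl
    · rw [if_neg h, if_neg (Ne.symm h)]
      have := hr x y
      linarith
  have hQa : app Q f = (2 : ℝ) • app K f + (-1 : ℝ) • f := by
    funext x
    simp only [app, hQ, sub_mul, sum_sub_distrib, ite_mul, one_mul, zero_mul, sum_ite_eq,
      mem_univ, if_true, Pi.add_apply, Pi.smul_apply, smul_eq_mul, mul_sum]
    rw [sum_congr rfl fun y _ => mul_assoc 2 (K x y) (f y)]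
    ring
  have h := (abs_le.mp (inn_app_le hw hQk hQr f)).1
  rw [hQa, inn_add_right, inn_smul_right, inn_smul_right] at h
  linarith

/-! ### point starts -/

/-- The point mass. -/
def pt [DecidableEq α] (x : α) (y : α) : ℝ := if y = x then 1 else 0

theorem pt_sum [DecidableEq α] (x : α) : ∑ y, pt x y = 1 := by simp [pt]

theorem pt_nonneg [DecidableEq α] (x : α) : ∀ y, 0 ≤ pt x y := by
  intro y; unfold pt; split_ifs <;> norm_num

theorem tv_law_pt [DecidableEq α] {w : α → ℝ} (hw : ∀ x, 0 < w x) {K : α → α → ℝ}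
    (hK : IsKer K) (hr : Rev w K) (hp : PSD w K) {c : ℝ} (hc : Poinc w K c) (hc1 : c ≤ 1)
    (x : α) (t : ℕ) :
    tv (law K (pt x) t) (fun y => w y / mass w) ≤
      (1 - c) ^ t * Real.sqrt (mass w / w x) / 2 := by
  have hm : 0 < mass w := sum_pos (fun y _ => hw y) ⟨x, mem_univ x⟩
  have h := tv_law_le_of_density hw hK hr hp hc hc1 hm (pt x) (pt_sum x) t
  have e : ∑ y, pt x y ^ 2 / w y = 1 / w x := by
    rw [sum_eq_single x]
    · simp [pt]
    · intro y _ hy
      simp [pt, hy]
    · intro h; exact absurd (mem_univ x) h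
  rw [e] at h
  have e2 : 1 / w x * mass w = mass w / w x := by ring
  rwa [e2] at h

/-- Quantitative form: after `t ≥ (1/c) * (L + log (1/ε))` steps with `mass w / w x ≤ exp (2 L)`,
the total variation distance is at most `ε`. -/
theorem tv_law_pt_le [DecidableEq α] {w : α → ℝ} (hw : ∀ x, 0 < w x) {K : α → α → ℝ}
    (hK : IsKer K) (hr : Rev w K) (hp : PSD w K) {c : ℝ} (hc : Poinc w K c) (hc0 : 0 < c)
    (hc1 : c ≤ 1) (x : α) (t : ℕ) {L ε : ℝ} (hε : 0 < ε)
    (hL : mass w / w x ≤ Real.exp (2 * L)) (ht : (L + Real.log (1 / ε)) / c ≤ t) :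
    tv (law K (pt x) t) (fun y => w y / mass w) ≤ ε := by
  refine (tv_law_pt hw hK hr hp hc hc1 x t).trans ?_
  have h1 : (1 - c) ^ t ≤ Real.exp (-(c * t)) := by
    have := Real.one_sub_le_exp_neg c
    calc (1 - c) ^ t ≤ (Real.exp (-c)) ^ t := pow_le_pow_left₀ (by linarith) this t
      _ = Real.exp (-(c * t)) := by rw [← Real.exp_nat_mul]; ring_nf
  have h2 : Real.sqrt (mass w / w x) ≤ Real.exp L := by
    rw [show Real.exp L = Real.sqrt (Real.exp (2 * L)) by
      rw [show (2 * L) = L + L by ring, Real.exp_add, Real.sqrt_mul_self (Real.exp_nonneg L)]]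
    exact Real.sqrt_le_sqrt hL
  have h3 : L + Real.log (1 / ε) ≤ c * t := by
    rw [div_le_iff₀ hc0] at ht
    linarith
  have h4 : Real.exp (-(c * t)) * Real.exp L ≤ ε := by
    rw [← Real.exp_add]
    calc Real.exp (-(c * t) + L) ≤ Real.exp (-Real.log (1 / ε)) :=
          Real.exp_le_exp.mpr (by linarith)
      _ = ε := by rw [one_div, Real.log_inv, neg_neg, Real.exp_log hε]
  have h5 : 0 ≤ (1 - c) ^ t := pow_nonneg (by linarith) t
  calc (1 - c) ^ t * Real.sqrt (mass w / w x) / 2
      ≤ Real.exp (-(c * t)) * Real.exp L / 2 := by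
        gcongr
    _ ≤ ε / 2 := by gcongr
    _ ≤ ε := by linarith

/-! ### inexact chains -/

/-- Law of a time-inhomogeneous chain. -/
def lawSeq (K : ℕ → α → α → ℝ) (p : α → ℝ) : ℕ → α → ℝ
  | 0 => p
  | t + 1 => push (K t) (lawSeq K p t)

theorem lawSeq_const (K : α → α → ℝ) (p : α → ℝ) (t : ℕ) :
    lawSeq (fun _ => K) p t = law K p t := by
  induction t with
  | zero => rfl
  | succ t ih => simp only [lawSeq, law, ih]

theorem lawSeq_nonneg {K : ℕ → α → α → ℝ} (hK : ∀ t, IsKer (K t)) {p : α → ℝ}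
    (hp : ∀ x, 0 ≤ p x) (t : ℕ) : ∀ x, 0 ≤ lawSeq K p t x := by
  induction t with
  | zero => exact hp
  | succ t ih => exact push_nonneg (hK t) ih

theorem lawSeq_sum {K : ℕ → α → α → ℝ} (hK : ∀ t, IsKer (K t)) (p : α → ℝ) (t : ℕ) :
    ∑ x, lawSeq K p t x = ∑ x, p x := by
  induction t with
  | zero => rfl
  | succ t ih => rw [← ih]; exact push_sum (hK t) _

/-- **Perturbation**: an inexact chain stays within the sum of the one-step errors. -/
theorem tv_lawSeq_le {K K' : ℕ → α → α → ℝ} (hK : ∀ t, IsKer (K t)) (hK' : ∀ t, IsKer (K' t))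
    {ε : ℕ → ℝ} (h : ∀ t x, tv (K t x) (K' t x) ≤ ε t) {p q : α → ℝ}
    (hq : ∀ x, 0 ≤ q x) (hq1 : ∑ x, q x = 1) (t : ℕ) :
    tv (lawSeq K p t) (lawSeq K' q t) ≤ tv p q + ∑ i ∈ range t, ε i := by
  induction t with
  | zero => simp [lawSeq]
  | succ t ih =>
    rw [sum_range_succ]
    have h1 : tv (push (K t) (lawSeq K p t)) (push (K t) (lawSeq K' q t)) ≤
        tv (lawSeq K p t) (lawSeq K' q t) := push_sub_le (K t) (hK t) _ _
    have h2 : tv (push (K t) (lawSeq K' q t)) (push (K' t) (lawSeq K' q t)) ≤ ε t :=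
      push_kernel_le (h t) (lawSeq_nonneg hK' hq t) (by rw [lawSeq_sum hK', hq1])
    calc tv (lawSeq K p (t + 1)) (lawSeq K' q (t + 1))
        ≤ tv (push (K t) (lawSeq K p t)) (push (K t) (lawSeq K' q t)) +
          tv (push (K t) (lawSeq K' q t)) (push (K' t) (lawSeq K' q t)) := tv_triangle _ _ _
      _ ≤ tv p q + (∑ i ∈ range t, ε i + ε t) := by linarith

/-! ### Metropolis kernels -/

section Metropolis

variable [DecidableEq α]

/-- The (lazy) Metropolis kernel with symmetric sub-stochastic proposal `S` and acceptance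
probabilities `a`. -/
noncomputable def metro (S a : α → α → ℝ) (x y : α) : ℝ :=
  if y = x then 1 - ∑ z ∈ univ.erase x, S x z * a x z else S x y * a x y

/-- Proposals: symmetric, nonnegative, off-diagonal mass at most `1/2`. -/
structure IsProp (S : α → α → ℝ) : Prop where
  nonneg : ∀ x y, 0 ≤ S x y
  symm : ∀ x y, S x y = S y x
  half : ∀ x, ∑ z ∈ univ.erase x, S x z ≤ 1 / 2

theorem metro_sum (S a : α → α → ℝ) (x : α) : ∑ y, metro S a x y = 1 := by
  rw [← add_sum_erase univ _ (mem_univ x)]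
  have : ∑ y ∈ univ.erase x, metro S a x y = ∑ z ∈ univ.erase x, S x z * a x z := by
    refine sum_congr rfl fun y hy => ?_
    rw [metro, if_neg (ne_of_mem_erase hy)]
  rw [this, metro, if_pos rfl]
  ring

theorem metro_offdiag_le {S : α → α → ℝ} (hS : IsProp S) {a : α → α → ℝ}
    (ha0 : ∀ x y, 0 ≤ a x y) (ha1 : ∀ x y, a x y ≤ 1) (x : α) :
    ∑ z ∈ univ.erase x, S x z * a x z ≤ 1 / 2 := by
  refine le_trans (sum_le_sum fun z _ => ?_) (hS.half x)
  exact mul_le_of_le_one_right (hS.nonneg x z) (ha1 x z)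

theorem metro_isKer {S : α → α → ℝ} (hS : IsProp S) {a : α → α → ℝ}
    (ha0 : ∀ x y, 0 ≤ a x y) (ha1 : ∀ x y, a x y ≤ 1) : IsKer (metro S a) := by
  constructor
  · intro x y
    unfold metro
    split_ifs with h
    · have := metro_offdiag_le hS ha0 ha1 x
      linarith
    · exact mul_nonneg (hS.nonneg x y) (ha0 x y)
  · exact metro_sum S a

theorem metro_lazy {S : α → α → ℝ} (hS : IsProp S) {a : α → α → ℝ}
    (ha0 : ∀ x y, 0 ≤ a x y) (ha1 : ∀ x y, a x y ≤ 1) (x : α) : 1 / 2 ≤ metro S a x x := by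
  unfold metro
  rw [if_pos rfl]
  have := metro_offdiag_le hS ha0 ha1 x
  linarith

/-- The exact Metropolis acceptance. -/
noncomputable def acc (w : α → ℝ) (x y : α) : ℝ := min 1 (w y / w x)

theorem acc_nonneg {w : α → ℝ} (hw : ∀ x, 0 < w x) (x y : α) : 0 ≤ acc w x y :=
  le_min zero_le_one (div_nonneg (hw y).le (hw x).le)

theorem acc_le_one (w : α → ℝ) (x y : α) : acc w x y ≤ 1 := min_le_left _ _

theorem mul_acc {w : α → ℝ} (hw : ∀ x, 0 < w x) (x y : α) :
    w x * acc w x y = min (w x) (w y) := by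
  unfold acc
  rw [mul_min_of_nonneg _ _ (hw x).le, mul_one, mul_div_cancel₀ _ (hw x).ne']

theorem metro_rev {w : α → ℝ} (hw : ∀ x, 0 < w x) {S : α → α → ℝ} (hS : IsProp S) :
    Rev w (metro S (acc w)) := by
  intro x y
  by_cases h : y = x
  · subst h; rfl
  · unfold metro
    rw [if_neg h, if_neg (Ne.symm h)]
    calc w x * (S x y * acc w x y) = S x y * (w x * acc w x y) := by ring
      _ = S y x * (w y * acc w y x) := by
          rw [mul_acc hw, mul_acc hw, hS.symm x y, min_comm]
      _ = w y * (S y x * acc w y x) := by ring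

/-- Dirichlet form of the Metropolis chain. -/
theorem dir_metro {w : α → ℝ} (hw : ∀ x, 0 < w x) (S : α → α → ℝ) (f : α → ℝ) :
    dir w (metro S (acc w)) f =
      (∑ x, ∑ y, S x y * min (w x) (w y) * (f x - f y) ^ 2) / 2 := by
  unfold dir
  congr 1
  refine sum_congr rfl fun x _ => sum_congr rfl fun y _ => ?_
  by_cases h : y = x
  · subst h; simp
  · rw [metro, if_neg h, ← mul_acc hw]; ring

/-- Perturbing the acceptance probabilities by at most `δ` moves every row by at most `δ/2`. -/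
theorem tv_metro_le {S : α → α → ℝ} (hS : IsProp S) {a a' : α → α → ℝ} {δ : ℝ}
    (h : ∀ x y, |a x y - a' x y| ≤ δ) (x : α) :
    tv (metro S a x) (metro S a' x) ≤ δ / 2 := by
  have hδ : 0 ≤ δ := (abs_nonneg _).trans (h x x)
  unfold tv
  rw [← add_sum_erase univ _ (mem_univ x)]
  have h1 : ∑ y ∈ univ.erase x, |metro S a x y - metro S a' x y| ≤
      ∑ y ∈ univ.erase x, S x y * δ := by
    refine sum_le_sum fun y hy => ?_
    rw [metro, metro, if_neg (ne_of_mem_erase hy), if_neg (ne_of_mem_erase hy), ← mul_sub, abs_mul,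
      abs_of_nonneg (hS.nonneg x y)]
    exact mul_le_mul_of_nonneg_left (h x y) (hS.nonneg x y)
  have h2 : |metro S a x x - metro S a' x x| ≤ ∑ y ∈ univ.erase x, S x y * δ := by
    rw [metro, metro, if_pos rfl, if_pos rfl]
    have : (1 - ∑ z ∈ univ.erase x, S x z * a x z) - (1 - ∑ z ∈ univ.erase x, S x z * a' x z)
        = ∑ z ∈ univ.erase x, S x z * (a' x z - a x z) := by
      simp only [mul_sub, sum_sub_distrib]; ring
    rw [this]
    refine (abs_sum_le_sum_abs _ _).trans (sum_le_sum fun y _ => ?_)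
    rw [abs_mul, abs_of_nonneg (hS.nonneg x y), abs_sub_comm]
    exact mul_le_mul_of_nonneg_left (h x y) (hS.nonneg x y)
  have h3 : ∑ y ∈ univ.erase x, S x y * δ ≤ 1 / 2 * δ := by
    rw [← sum_mul]
    exact mul_le_mul_of_nonneg_right (hS.half x) hδ
  linarith

/-- **Main corollary**: mixing of the (rounded) Metropolis chain from a Poincaré inequality in
the form `varU w f ≤ C * ∑ x y, S x y * min (w x) (w y) * (f x - f y)^2 / 2`. -/
theorem tv_metro_chain {w : α → ℝ} (hw : ∀ x, 0 < w x) {S : α → α → ℝ} (hS : IsProp S)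
    {C : ℝ} (hC : 1 ≤ C)
    (hP : ∀ f : α → ℝ, varU w f ≤ C *
      ((∑ x, ∑ y, S x y * min (w x) (w y) * (f x - f y) ^ 2) / 2))
    (a : ℕ → α → α → ℝ) (ha0 : ∀ t x y, 0 ≤ a t x y) (ha1 : ∀ t x y, a t x y ≤ 1) {δ : ℝ}
    (hδ : ∀ t x y, |acc w x y - a t x y| ≤ δ)
    (x : α) (T : ℕ) {L ε : ℝ} (hε : 0 < ε) (hL : mass w / w x ≤ Real.exp (2 * L))
    (hT : C * (L + Real.log (1 / ε)) ≤ T) :
    tv (lawSeq (fun t => metro S (a t)) (pt x) T) (fun y => w y / mass w) ≤ ε + T * (δ / 2) := by
  have hK := metro_isKer hS (acc_nonneg hw) (acc_le_one w)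
  have hr := metro_rev hw hS
  have hp := psd_of_lazy (fun x => (hw x).le) hK hr
    (metro_lazy hS (acc_nonneg hw) (acc_le_one w))
  have hC0 : 0 < C := by linarith
  have hc : Poinc w (metro S (acc w)) (1 / C) := by
    intro f
    rw [dir_metro hw, one_div, inv_mul_le_iff₀ hC0]
    exact hP f
  have h1 := tv_law_pt_le hw hK hr hp hc (by positivity)
    (by rw [div_le_one hC0]; exact hC) x T hε hL
    (by rw [div_div_eq_mul_div, div_one]; linarith)
  have h2 := tv_lawSeq_le (K := fun _ => metro S (acc w)) (K' := fun t => metro S (a t))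
    (fun _ => hK) (fun t => metro_isKer hS (ha0 t) (ha1 t)) (ε := fun _ => δ / 2)
    (fun t y => tv_metro_le hS (hδ t) y) (p := pt x) (pt_nonneg x) (pt_sum x) T
  rw [lawSeq_const, tv_self, zero_add, sum_const, card_range, nsmul_eq_mul] at h2
  calc tv (lawSeq (fun t => metro S (a t)) (pt x) T) (fun y => w y / mass w)
      ≤ tv (lawSeq (fun t => metro S (a t)) (pt x) T) (law (metro S (acc w)) (pt x) T) +
        tv (law (metro S (acc w)) (pt x) T) (fun y => w y / mass w) := tv_triangle _ _ _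
    _ ≤ ε + T * (δ / 2) := by rw [tv_comm (lawSeq _ _ _)]; linarith

end Metropolis

end Crest.Agent.R309.MC
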