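import Mathlib
import Crest.Agent.R309.MCMore

/-!
Row 309, abstract Markov chain layer (helper585), part 3: Metropolis chains with a general
(reversible, exactly computable) acceptance function `a`.
-/

set_option autoImplicit false
open Finset

namespace Crest.Agent.R309.MC

variable {α : Type*} [Fintype α] [DecidableEq α]

/-- A general acceptance function for the weight `w` and the proposal `S`: detailed balance on the
support of the proposal. -/
structure IsAcc (w : α → ℝ) (S a : α → α → ℝ) : Prop where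
  nonneg : ∀ x y, 0 ≤ a x y
  le_one : ∀ x y, a x y ≤ 1
  bal : ∀ x y, S x y ≠ 0 → w x * a x y = w y * a y x

theorem metro_rev_gen {w : α → ℝ} {S : α → α → ℝ} (hS : IsProp S) {a : α → α → ℝ}
    (ha : IsAcc w S a) : Rev w (metro S a) := by
  intro x y
  by_cases h : y = x
  · subst h; rfl
  · unfold metro
    rw [if_neg h, if_neg (Ne.symm h)]
    by_cases hs : S x y = 0
    · rw [← hS.symm x y, hs]; simp
    · calc w x * (S x y * a x y) = S x y * (w x * a x y) := by ring
        _ = S y x * (w y * a y x) := by rw [ha.bal x y hs, hS.symm x y]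
        _ = w y * (S y x * a y x) := by ring

/-- Dirichlet form of a Metropolis chain with general acceptance. -/
theorem dir_metro_gen (w : α → ℝ) (S a : α → α → ℝ) (f : α → ℝ) :
    dir w (metro S a) f =
      (∑ x, ∑ y, S x y * (w x * a x y) * (f x - f y) ^ 2) / 2 := by
  unfold dir
  congr 1
  refine sum_congr rfl fun x _ => sum_congr rfl fun y _ => ?_
  by_cases h : y = x
  · subst h; simp
  · rw [metro, if_neg h]; ring

/-- If the acceptance is at least `c₀` times the Metropolis acceptance, so is the Dirichlet form. -/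
theorem dir_metro_ge {w : α → ℝ} {S : α → α → ℝ} (hS : IsProp S) {a : α → α → ℝ} {c₀ : ℝ}
    (hc : ∀ x y, S x y ≠ 0 → c₀ * min (w x) (w y) ≤ w x * a x y) (f : α → ℝ) :
    c₀ * ((∑ x, ∑ y, S x y * min (w x) (w y) * (f x - f y) ^ 2) / 2) ≤ dir w (metro S a) f := by
  rw [dir_metro_gen, ← mul_div_assoc, mul_sum]
  refine div_le_div_of_nonneg_right (sum_le_sum fun x _ => ?_) (by norm_num)
  rw [mul_sum]
  refine sum_le_sum fun y _ => ?_
  by_cases hs : S x y = 0
  · simp [hs]
  · have h1 := hc x y hs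
    have h2 : 0 ≤ S x y * (f x - f y) ^ 2 := mul_nonneg (hS.nonneg x y) (sq_nonneg _)
    nlinarith

/-- **Exact Metropolis chain, general acceptance**: mixing from every starting point, from a
Poincaré inequality in the form
`varU w f ≤ C * (∑ x y, S x y * min (w x) (w y) * (f x - f y)^2) / 2`. -/
theorem tv_metro_exact {w : α → ℝ} (hw : ∀ x, 0 < w x) {S : α → α → ℝ} (hS : IsProp S)
    {a : α → α → ℝ} (ha : IsAcc w S a) {c₀ : ℝ} (hc0 : 0 < c₀) (hc1 : c₀ ≤ 1)
    (hc : ∀ x y, S x y ≠ 0 → c₀ * min (w x) (w y) ≤ w x * a x y)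
    {C : ℝ} (hC : 1 ≤ C)
    (hP : ∀ f : α → ℝ, varU w f ≤ C *
      ((∑ x, ∑ y, S x y * min (w x) (w y) * (f x - f y) ^ 2) / 2))
    (x : α) (T : ℕ) {L ε : ℝ} (hε : 0 < ε) (hL : mass w / w x ≤ Real.exp (2 * L))
    (hT : C / c₀ * (L + Real.log (1 / ε)) ≤ T) :
    tv (law (metro S a) (pt x) T) (fun y => w y / mass w) ≤ ε := by
  have hK := metro_isKer hS ha.nonneg ha.le_one
  have hr := metro_rev_gen hS ha
  have hp := psd_of_lazy (fun x => (hw x).le) hK hr (metro_lazy hS ha.nonneg ha.le_one)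
  have hC0 : 0 < C := by linarith
  have hc' : Poinc w (metro S a) (c₀ / C) := by
    intro f
    have h1 := dir_metro_ge (w := w) hS hc f
    have h2 := hP f
    calc c₀ / C * varU w f ≤ c₀ / C * (C *
          ((∑ x, ∑ y, S x y * min (w x) (w y) * (f x - f y) ^ 2) / 2)) := by
          gcongr
      _ = c₀ * ((∑ x, ∑ y, S x y * min (w x) (w y) * (f x - f y) ^ 2) / 2) := by
          field_simp
      _ ≤ _ := h1
  exact tv_law_pt_le hw hK hr hp hc' (by positivity)
    (by rw [div_le_one hC0]; linarith) x T hε hL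
    (by rw [div_div_eq_mul_div]
        calc (L + Real.log (1 / ε)) * C / c₀ = C / c₀ * (L + Real.log (1 / ε)) := by ring
          _ ≤ T := hT)

/-- The events form. -/
theorem abs_law_sub_le_of_tv {w : α → ℝ} (hm : mass w ≠ 0) {K : α → α → ℝ}
    (hK : IsKer K) (x : α) (T : ℕ) {ε : ℝ}
    (h : tv (law K (pt x) T) (fun y => w y / mass w) ≤ ε) (s : Finset α) :
    |∑ y ∈ s, law K (pt x) T y - (∑ y ∈ s, w y) / mass w| ≤ ε := by
  have h1 : ∑ y, law K (pt x) T y = ∑ y, w y / mass w := by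
    rw [law_sum hK, pt_sum, ← sum_div]
    exact (div_self hm).symm
  have := abs_sum_sub_le_tv h1 s
  rw [sum_div]
  exact this.trans h

omit [Fintype α] [DecidableEq α] in
/-- Product of reversible acceptance functions: if `a₁` balances `w₁` and `a₂` balances `w₂` then
`a₁ * a₂` balances `w₁ * w₂`. -/
theorem IsAcc.mul {w₁ w₂ : α → ℝ} {S a₁ a₂ : α → α → ℝ} (h₁ : IsAcc w₁ S a₁)
    (h₂ : IsAcc w₂ S a₂) :
    IsAcc (fun x => w₁ x * w₂ x) S (fun x y => a₁ x y * a₂ x y) := by
  refine ⟨fun x y => mul_nonneg (h₁.nonneg x y) (h₂.nonneg x y),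
    fun x y => mul_le_one₀ (h₁.le_one x y) (h₂.nonneg x y) (h₂.le_one x y), fun x y hs => ?_⟩
  have e1 := h₁.bal x y hs
  have e2 := h₂.bal x y hs
  calc w₁ x * w₂ x * (a₁ x y * a₂ x y) = (w₁ x * a₁ x y) * (w₂ x * a₂ x y) := by ring
    _ = (w₁ y * a₁ y x) * (w₂ y * a₂ y x) := by rw [e1, e2]
    _ = w₁ y * w₂ y * (a₁ y x * a₂ y x) := by ring

/-- The exact Metropolis acceptance is an acceptance function. -/
theorem isAcc_acc {w : α → ℝ} (hw : ∀ x, 0 < w x) (S : α → α → ℝ) : IsAcc w S (acc w) := by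
  refine ⟨acc_nonneg hw, acc_le_one w, fun x y _ => ?_⟩
  rw [mul_acc hw, mul_acc hw, min_comm]

/-- Product acceptance `min 1 r₁ * min 1 r₂` compared with the exact acceptance `min 1 (r₁ r₂)`:
it loses at most the factor `c₀` if `r₁ ≥ c₀` and `1 / r₁ ≥ c₀`. -/
theorem prod_acc_ge {r₁ r₂ c₀ : ℝ} (h0 : 0 < c₀) (h1 : c₀ ≤ r₁) (h1' : r₁ ≤ 1 / c₀)
    (hr2 : 0 < r₂) (hc1 : c₀ ≤ 1) :
    c₀ * min 1 (r₁ * r₂) ≤ min 1 r₁ * min 1 r₂ := by
  have hr1 : 0 < r₁ := lt_of_lt_of_le h0 h1
  rcases le_total r₁ 1 with ha | ha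
  · rw [min_eq_right ha]
    rcases le_total r₂ 1 with hb | hb
    · rw [min_eq_right hb, min_eq_right (by nlinarith)]
      exact mul_le_of_le_one_left (by positivity) hc1
    · rw [min_eq_left hb, mul_one]
      calc c₀ * min 1 (r₁ * r₂) ≤ c₀ * 1 := by gcongr; exact min_le_left _ _
        _ ≤ r₁ := by linarith
  · rw [min_eq_left ha, one_mul]
    have h2 : c₀ * r₁ ≤ 1 := by
      rw [le_div_iff₀ h0] at h1'
      linarith
    rcases le_total r₂ 1 with hb | hb
    · rw [min_eq_right hb]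
      calc c₀ * min 1 (r₁ * r₂) ≤ c₀ * (r₁ * r₂) := by gcongr; exact min_le_right _ _
        _ = (c₀ * r₁) * r₂ := by ring
        _ ≤ 1 * r₂ := by gcongr
        _ = r₂ := one_mul _
    · rw [min_eq_left hb]
      calc c₀ * min 1 (r₁ * r₂) ≤ c₀ * 1 := by gcongr; exact min_le_left _ _
        _ ≤ 1 := by linarith

end Crest.Agent.R309.MC
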