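import Mathlib
import Crest.Agent.R309.MCTape

/-!
Row 309 (helper585): the single-cell `±1` Metropolis chain on a box `∏ [0, b e]`, as a program on
lists of naturals reading a bit tape, and its mixing from a Poincaré inequality.
-/

set_option autoImplicit false
open Finset

namespace Crest.Agent.R309.MC

open Crest.Agent.R309.Tape Crest.Agent.Lib.PT.Arith

/-! ### proposals from families of moves -/

section

variable {α : Type*} [Fintype α] [DecidableEq α]

theorem isProp_prop {q : ℕ} {M : α → ℕ → Option α} (fl : ℕ → ℕ)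
    (hfl : ∀ i < 2 ^ q, fl i < 2 ^ q) (hfl2 : ∀ i, fl (fl i) = i)
    (hM : ∀ x y, ∀ i < 2 ^ q, M x i = some y → M y (fl i) = some x)
    (hc : ∀ x, 2 * ((range (2 ^ q)).filter (fun i => M x i ≠ none)).card ≤ 2 ^ q) :
    IsProp (prop q M) := by
  refine ⟨fun x y => by unfold prop; positivity, fun x y => ?_, fun x => ?_⟩
  · unfold prop
    congr 2
    refine card_bij' (fun i _ => fl i) (fun i _ => fl i) ?_ ?_ ?_ ?_
    · intro i hi
      rw [mem_filter, mem_range] at hi ⊢
      exact ⟨hfl i hi.1, hM x y i hi.1 hi.2⟩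
    · intro i hi
      rw [mem_filter, mem_range] at hi ⊢
      exact ⟨hfl i hi.1, hM y x i hi.1 hi.2⟩
    · intro i _; exact hfl2 i
    · intro i _; exact hfl2 i
  · have h1 : ∑ z ∈ univ.erase x, prop q M x z ≤ ∑ z, prop q M x z * 1 := by
      simp only [mul_one]
      exact sum_le_sum_of_subset_of_nonneg (erase_subset _ _)
        (fun z _ _ => by unfold prop; positivity)
    rw [sum_prop_mul q M x (fun _ => (1 : ℝ))] at h1
    have h2 : ∑ i ∈ range (2 ^ q), (M x i).elim 0 (fun _ => (1 : ℝ)) =
        ((range (2 ^ q)).filter (fun i => M x i ≠ none)).card := by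
      rw [card_eq_sum_ones, sum_filter]
      push_cast
      refine sum_congr rfl fun i _ => ?_
      cases M x i <;> simp
    rw [h2] at h1
    refine h1.trans ?_
    rw [div_le_div_iff₀ (by positivity) (by norm_num)]
    have := hc x
    have : ((2 * ((range (2 ^ q)).filter (fun i => M x i ≠ none)).card : ℕ) : ℝ) ≤
        ((2 ^ q : ℕ) : ℝ) := Nat.cast_le.mpr this
    push_cast at this
    linarith

end

/-! ### the box -/

/-- configurations of `M` cells with `x e ≤ b e` -/
abbrev Box {M : ℕ} (b : Fin M → ℕ) : Type := (e : Fin M) → Fin (b e + 1)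

variable {M : ℕ} {b : Fin M → ℕ}

/-- encoding of a configuration as a list of naturals -/
def enc (x : Box b) : List ℕ := List.ofFn (fun e => (x e : ℕ))

theorem enc_injective : Function.Injective (enc (b := b)) := by
  intro x y h
  have := List.ofFn_injective h
  funext e
  exact Fin.ext (congrFun this e)

@[simp] theorem length_enc (x : Box b) : (enc x).length = M := by simp [enc]

/-- increase coordinate `e` by one (no change at the upper end) -/
def inc (x : Box b) (e : Fin M) : Box b :=
  if h : (x e : ℕ) < b e then Function.update x e ⟨x e + 1, by omega⟩ else x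

/-- decrease coordinate `e` by one (no change at the lower end) -/
def dec (x : Box b) (e : Fin M) : Box b :=
  Function.update x e ⟨x e - 1, by have := (x e).isLt; omega⟩

theorem inc_of_lt {x : Box b} {e : Fin M} (h : (x e : ℕ) < b e) :
    inc x e = Function.update x e ⟨x e + 1, by omega⟩ := by simp [inc, h]

theorem dec_inc {x : Box b} {e : Fin M} (h : (x e : ℕ) < b e) : dec (inc x e) e = x := by
  rw [inc_of_lt h, dec]
  simp only [Function.update_idem, Function.update_self]
  rw [Function.update_eq_self_iff]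
  apply Fin.ext
  simp

theorem inc_dec {x : Box b} {e : Fin M} (h : 0 < (x e : ℕ)) : inc (dec x e) e = x := by
  have h1 : ((dec x e) e : ℕ) = x e - 1 := by simp [dec]
  have h2 : ((dec x e) e : ℕ) < b e := by
    have := (x e).isLt
    omega
  rw [inc_of_lt h2]
  simp only [dec, Function.update_idem, Function.update_self]
  rw [Function.update_eq_self_iff]
  apply Fin.ext
  simp only
  omega

theorem inc_ne {x : Box b} {e : Fin M} (h : (x e : ℕ) < b e) : inc x e ≠ x := by
  intro h2
  have := congrArg (fun z : Box b => ((z e : Fin (b e + 1)) : ℕ)) h2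
  simp [inc_of_lt h] at this

theorem inc_apply_self {x : Box b} {e : Fin M} (h : (x e : ℕ) < b e) :
    ((inc x e) e : ℕ) = x e + 1 := by simp [inc_of_lt h]

theorem inc_apply_ne {x : Box b} {e e' : Fin M} (h : e' ≠ e) : (inc x e) e' = x e' := by
  unfold inc
  split_ifs
  · simp [Function.update_of_ne h]
  · rfl

theorem dec_apply_self {x : Box b} {e : Fin M} : ((dec x e) e : ℕ) = x e - 1 := by simp [dec]

theorem dec_apply_ne {x : Box b} {e e' : Fin M} (h : e' ≠ e) : (dec x e) e' = x e' := by
  simp [dec, Function.update_of_ne h]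

/-- the moves: index `i` acts on the cell `i / 2`, upwards if `i` is even -/
def boxM (x : Box b) (i : ℕ) : Option (Box b) :=
  if h : i / 2 < M then
    if i % 2 = 0 then
      (if (x ⟨i / 2, h⟩ : ℕ) < b ⟨i / 2, h⟩ then some (inc x ⟨i / 2, h⟩) else none)
    else
      (if 0 < (x ⟨i / 2, h⟩ : ℕ) then some (dec x ⟨i / 2, h⟩) else none)
  else none

/-- the same moves on lists of naturals -/
def boxmv (bs : List ℕ) (s : List ℕ) (i : ℕ) : Option (List ℕ) :=
  if i / 2 < s.length then
    if i % 2 = 0 then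
      (if s.getD (i / 2) 0 < bs.getD (i / 2) 0 then
        some (s.set (i / 2) (s.getD (i / 2) 0 + 1)) else none)
    else
      (if 0 < s.getD (i / 2) 0 then some (s.set (i / 2) (s.getD (i / 2) 0 - 1)) else none)
  else none

theorem enc_getD (x : Box b) {i : ℕ} (h : i < M) : (enc x).getD i 0 = x ⟨i, h⟩ := by
  rw [List.getD_eq_getElem _ _ (by simpa using h)]
  simp [enc]

theorem enc_inc {x : Box b} {i : ℕ} (h : i < M) (hx : (x ⟨i, h⟩ : ℕ) < b ⟨i, h⟩) :
    enc (inc x ⟨i, h⟩) = (enc x).set i (x ⟨i, h⟩ + 1) := by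
  apply List.ext_getElem
  · simp
  · intro j h1 h2
    have hj : j < M := by simpa using h1
    rw [List.getElem_set]
    simp only [enc, List.getElem_ofFn]
    by_cases hij : i = j
    · subst hij
      rw [if_pos rfl, inc_apply_self hx]
    · rw [if_neg hij, inc_apply_ne]
      intro h3
      exact hij (Fin.mk.inj_iff.mp h3).symm

theorem enc_dec {x : Box b} {i : ℕ} (h : i < M) :
    enc (dec x ⟨i, h⟩) = (enc x).set i (x ⟨i, h⟩ - 1) := by
  apply List.ext_getElem
  · simp
  · intro j h1 h2
    have hj : j < M := by simpa using h1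
    rw [List.getElem_set]
    simp only [enc, List.getElem_ofFn]
    by_cases hij : i = j
    · subst hij
      rw [if_pos rfl, dec_apply_self]
    · rw [if_neg hij, dec_apply_ne]
      intro h3
      exact hij (Fin.mk.inj_iff.mp h3).symm

theorem boxmv_enc (x : Box b) (i : ℕ) :
    boxmv (List.ofFn b) (enc x) i = (boxM x i).map enc := by
  unfold boxmv boxM
  rw [length_enc]
  by_cases h : i / 2 < M
  · rw [if_pos h, dif_pos h, enc_getD x h]
    have hb : (List.ofFn b).getD (i / 2) 0 = b ⟨i / 2, h⟩ := by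
      rw [List.getD_eq_getElem _ _ (by simpa using h)]
      simp
    rw [hb]
    split_ifs with h1 h2 h3
    · rw [Option.map_some, enc_inc h h2]
    · rfl
    · rw [Option.map_some, enc_dec h]
    · rfl
  · rw [if_neg h, dif_neg h]; rfl

/-- flip the last bit of the index -/
def flipIdx (i : ℕ) : ℕ := if i % 2 = 0 then i + 1 else i - 1

theorem flipIdx_flipIdx (i : ℕ) : flipIdx (flipIdx i) = i := by
  have e : ∀ j, flipIdx j = if j % 2 = 0 then j + 1 else j - 1 := fun _ => rfl
  rcases Nat.mod_two_eq_zero_or_one i with h | h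
  · rw [e i, if_pos h, e (i + 1), if_neg (by omega)]; omega
  · rw [e i, if_neg (by omega), e (i - 1), if_pos (by omega)]; omega

theorem boxM_flip {x y : Box b} {i : ℕ} (h : boxM x i = some y) :
    boxM y (flipIdx i) = some x := by
  unfold boxM at h
  by_cases hi : i / 2 < M
  · rw [dif_pos hi] at h
    rcases Nat.mod_two_eq_zero_or_one i with h2 | h2
    · rw [if_pos h2] at h
      split_ifs at h with h3
      rw [Option.some.injEq] at h
      subst h
      have e1 : flipIdx i = i + 1 := by simp [flipIdx, h2]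
      have e2 : (i + 1) / 2 = i / 2 := by omega
      unfold boxM
      rw [e1, dif_pos (e2 ▸ hi), if_neg (by omega)]
      have e3 : (⟨(i + 1) / 2, e2 ▸ hi⟩ : Fin M) = ⟨i / 2, hi⟩ := Fin.ext e2
      rw [e3, if_pos (by rw [inc_apply_self h3]; omega), dec_inc h3]
    · rw [if_neg (by omega)] at h
      split_ifs at h with h3
      rw [Option.some.injEq] at h
      subst h
      have e1 : flipIdx i = i - 1 := by simp [flipIdx, h2]
      have e2 : (i - 1) / 2 = i / 2 := by omega
      unfold boxM
      rw [e1, dif_pos (e2 ▸ hi), if_pos (by omega)]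
      have e3 : (⟨(i - 1) / 2, e2 ▸ hi⟩ : Fin M) = ⟨i / 2, hi⟩ := Fin.ext e2
      rw [e3, if_pos (by rw [dec_apply_self]; have := (x ⟨i / 2, hi⟩).isLt; omega), inc_dec h3]
  · rw [dif_neg hi] at h
    exact absurd h (by simp)

theorem isProp_box {q : ℕ} (hq : 4 * M ≤ 2 ^ q) (hq1 : 1 ≤ q) : IsProp (prop q (boxM (b := b))) := by
  refine isProp_prop flipIdx ?_ flipIdx_flipIdx (fun x y i _ h => boxM_flip h) ?_
  · intro i hi
    unfold flipIdx
    obtain ⟨r, rfl⟩ : ∃ r, q = r + 1 := ⟨q - 1, by omega⟩
    rw [pow_succ] at hi ⊢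
    split_ifs <;> omega
  · intro x
    have h1 : (range (2 ^ q)).filter (fun i => boxM x i ≠ none) ⊆ range (2 * M) := by
      intro i hi
      rw [mem_filter] at hi
      rw [mem_range]
      by_contra h
      apply hi.2
      unfold boxM
      rw [dif_neg (by omega)]
    have h2 := card_le_card h1
    rw [card_range] at h2
    omega

/-- The Dirichlet form of the box. -/
noncomputable def boxDir (w : Box b → ℝ) (f : Box b → ℝ) : ℝ :=
  ∑ x, ∑ e, min (w x) (w (inc x e)) * (f (inc x e) - f x) ^ 2

theorem sum_boxM (x : Box b) {q : ℕ} (hq : 2 * M ≤ 2 ^ q) (ψ : Box b → ℝ) (hψ : ψ x = 0) :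
    ∑ i ∈ range (2 ^ q), (boxM x i).elim 0 ψ =
      ∑ e, ψ (inc x e) + ∑ e, (if 0 < (x e : ℕ) then ψ (dec x e) else 0) := by
  have h1 : ∑ i ∈ range (2 ^ q), (boxM x i).elim 0 ψ =
      ∑ i ∈ range (2 * M), (boxM x i).elim 0 ψ := by
    symm
    refine sum_subset (range_subset_range.mpr hq) fun i _ hi => ?_
    rw [mem_range] at hi
    have : boxM x i = none := by
      unfold boxM
      rw [dif_neg (by omega)]
    rw [this]
    rfl
  rw [h1, mul_comm 2 M, ← sum_add_distrib]
  have h2 : ∀ (g : ℕ → ℝ) (n : ℕ), ∑ i ∈ range (n * 2), g i =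
      ∑ e ∈ range n, (g (2 * e) + g (2 * e + 1)) := by
    intro g n
    induction n with
    | zero => simp
    | succ n ih =>
      rw [show (n + 1) * 2 = n * 2 + 1 + 1 by ring, sum_range_succ, sum_range_succ, ih,
        sum_range_succ, mul_comm n 2]
      ring
  rw [h2, ← Fin.sum_univ_eq_sum_range
    (fun e => (boxM x (2 * e)).elim 0 ψ +
      (boxM x (2 * e + 1)).elim 0 ψ)]
  refine sum_congr rfl fun e _ => ?_
  have e1 : (2 * (e : ℕ)) / 2 = e := by omega
  have e2 : (2 * (e : ℕ) + 1) / 2 = e := by omega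
  have hM : boxM x (2 * e) = if (x e : ℕ) < b e then some (inc x e) else none := by
    unfold boxM
    have e3 : (⟨2 * (e : ℕ) / 2, by rw [e1]; exact e.isLt⟩ : Fin M) = e := Fin.ext e1
    rw [dif_pos (by rw [e1]; exact e.isLt), if_pos (by omega), e3]
  have hM' : boxM x (2 * e + 1) = if 0 < (x e : ℕ) then some (dec x e) else none := by
    unfold boxM
    have e3 : (⟨(2 * (e : ℕ) + 1) / 2, by rw [e2]; exact e.isLt⟩ : Fin M) = e := Fin.ext e2
    rw [dif_pos (by rw [e2]; exact e.isLt), if_neg (by omega), e3]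
  rw [hM, hM']
  congr 1
  · by_cases h : (x e : ℕ) < b e
    · rw [if_pos h]
      rfl
    · rw [if_neg h]
      simp [inc, h, hψ]
  · split_ifs <;> rfl

theorem sum_dec_eq (ψ : Box b → Box b → ℝ) (hψ : ∀ x, ψ x x = 0) (e : Fin M) :
    ∑ x, (if 0 < (x e : ℕ) then ψ x (dec x e) else 0) = ∑ x, ψ (inc x e) x := by
  have h1 : ∑ x : Box b, ψ (inc x e) x = ∑ x : Box b,
      (if (x e : ℕ) < b e then ψ (inc x e) x else 0) := by
    refine sum_congr rfl fun x _ => ?_
    split_ifs with h
    · rfl
    · simp [inc, h, hψ]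
  rw [h1, ← sum_filter, ← sum_filter]
  refine sum_bij' (fun x _ => dec x e) (fun x _ => inc x e) ?_ ?_ ?_ ?_ ?_
  · intro x hx
    rw [mem_filter] at hx ⊢
    refine ⟨mem_univ _, ?_⟩
    rw [dec_apply_self]
    have := (x e).isLt
    omega
  · intro x hx
    rw [mem_filter] at hx ⊢
    refine ⟨mem_univ _, ?_⟩
    rw [inc_apply_self hx.2]
    omega
  · intro x hx
    exact inc_dec (mem_filter.mp hx).2
  · intro x hx
    exact dec_inc (mem_filter.mp hx).2
  · intro x hx
    rw [inc_dec (mem_filter.mp hx).2]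

theorem dir_box {q : ℕ} (hq : 2 * M ≤ 2 ^ q) (w : Box b → ℝ) (f : Box b → ℝ) :
    (∑ x, ∑ y, prop q (boxM (b := b)) x y * min (w x) (w y) * (f x - f y) ^ 2) / 2 =
      boxDir w f / 2 ^ q := by
  have h1 : ∀ x, ∑ y, prop q (boxM (b := b)) x y * min (w x) (w y) * (f x - f y) ^ 2 =
      (∑ e, min (w x) (w (inc x e)) * (f x - f (inc x e)) ^ 2 +
        ∑ e, (if 0 < (x e : ℕ) then min (w x) (w (dec x e)) * (f x - f (dec x e)) ^ 2 else 0))
          / 2 ^ q := by
    intro x
    have := sum_prop_mul q (boxM (b := b)) x (fun y => min (w x) (w y) * (f x - f y) ^ 2)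
    rw [sum_boxM x hq (fun y => min (w x) (w y) * (f x - f y) ^ 2) (by simp)] at this
    rw [← this]
    exact sum_congr rfl fun y _ => by ring
  simp only [h1]
  rw [← sum_div, sum_add_distrib]
  have h2 : ∑ x : Box b, ∑ e,
      (if 0 < (x e : ℕ) then min (w x) (w (dec x e)) * (f x - f (dec x e)) ^ 2 else 0) =
      boxDir w f := by
    rw [sum_comm, boxDir]
    conv_rhs => rw [sum_comm]
    refine sum_congr rfl fun e _ => ?_
    rw [sum_dec_eq (fun x y => min (w x) (w y) * (f x - f y) ^ 2) (by simp) e]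
    exact sum_congr rfl fun x _ => by rw [min_comm]
  have h3 : ∑ x : Box b, ∑ e, min (w x) (w (inc x e)) * (f x - f (inc x e)) ^ 2 = boxDir w f := by
    unfold boxDir
    refine sum_congr rfl fun x _ => sum_congr rfl fun e _ => ?_
    ring
  rw [h2, h3]
  ring

end Crest.Agent.R309.MC
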