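import Crest.Agent.R309.Count632C

/-!
# The counting algorithm and its polynomial running time
-/

set_option autoImplicit false

namespace Crest.Agent.R309.Count632

open Crest.Agent.Lib.PT Crest.Agent.R309.Iface Crest.Agent.R309.Conv Crest.Tables
open Crest.Agent.R309.Tape Crest.Agent.R309.PTX

/-- instance, accuracy `E` (relative error `1/E`), amplification `t` (failure probability `2^(-t)`) -/
abbrev Ctx := Inst × Un × Un

/-- number of rounds -/
def cJ (c : Ctx) : ℕ := sz c.1 + 1
/-- accuracy -/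
def cE (c : Ctx) : ℕ := c.2.1.val
/-- samples per round -/
def cK (c : Ctx) : ℕ := 64 * cJ c ^ 3 * cE c ^ 2
/-- accuracy of a sample -/
def cm (c : Ctx) : ℕ := 8 * cJ c * cE c
/-- half the number of runs -/
def cM (c : Ctx) : ℕ := 3 * c.2.2.val
/-- bits per sample; `q` bounds `tau * len` -/
def cr (q : Polynomial ℕ) (c : Ctx) : ℕ := cm c * q.eval (sz c.1 + 9)

theorem ptu_cJ : PTU cJ := by
  unfold cJ; fun_prop

theorem ptu_cE : PTU cE := by
  unfold cE; fun_prop

theorem ptu_cK : PTU cK := by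
  have h1 := ptu_cJ
  have h2 := ptu_cE
  unfold cK; fun_prop

theorem ptu_cm : PTU cm := by
  have h1 := ptu_cJ
  have h2 := ptu_cE
  unfold cm; fun_prop

theorem ptu_cM : PTU cM := by
  unfold cM; fun_prop

theorem ptu_cr (q : Polynomial ℕ) : PTU (cr q) := by
  have h1 := ptu_cm
  have h2 : PTU (fun c : Ctx => q.eval (sz c.1 + 9)) := PTU.eval q (by fun_prop)
  unfold cr
  exact PTU.mul h1 h2

section alg

variable (feas : Inst → Option Tab) (step : Inst × Tab → List Bool → Tab) (len tau : Inst → ℕ)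
  (q : Polynomial ℕ)

/-- one run -/
def run (c : Ctx) (l : List Bool) : ℚ :=
  base (coin feas step len tau (cm c)) lo hi fin (fun I => (feas I).isSome) (cr q c) (cK c) (cJ c) c.1 l

/-- the counting algorithm -/
def alg (c : Ctx) (l : List Bool) : ℚ :=
  est (coin feas step len tau (cm c)) lo hi fin (fun I => (feas I).isSome) (cr q c) (cK c) (cJ c)
    (cM c) c.1 l

/-- the number of random bits of the counting algorithm -/
def algLen (c : Ctx) : ℕ := 2 * cM c * (cJ c * (cK c * cr q c))

theorem ptu_algLen : PTU (algLen q) := by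
  have h1 := ptu_cM
  have h2 := ptu_cJ
  have h3 := ptu_cK
  have h4 := ptu_cr q
  unfold algLen; fun_prop

variable {feas step len tau q}

theorem leaf_iff (hf1 : ∀ I X, feas I = some X → IsTab I X)
    (hf2 : ∀ I, feas I = none → ∀ X, ¬ IsTab I X) (I : Inst) :
    (feas I).isSome = true ↔ 0 < cnt I := by
  unfold cnt
  rw [Finset.card_pos]
  constructor
  · intro h
    obtain ⟨X, hX⟩ := Option.isSome_iff_exists.1 h
    exact ⟨X, mem_tabs.2 (hf1 I X hX)⟩
  · rintro ⟨X, hX⟩
    by_contra h
    have : feas I = none := by simpa using h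
    exact hf2 I this X (mem_tabs.1 hX)

theorem alg_nonneg (c : Ctx) (l : List Bool) : 0 ≤ alg feas step len tau q c l :=
  est_nonneg _ _ _ _ _ _ _ _ _ _ _

theorem alg_zero (hf1 : ∀ I X, feas I = some X → IsTab I X)
    (hf2 : ∀ I, feas I = none → ∀ X, ¬ IsTab I X) (c : Ctx) (hs : Shaped c.1) (h0 : cnt c.1 = 0)
    (l : List Bool) : alg feas step len tau q c l = 0 :=
  est_eq_zero (split_inst _ (leaf_iff hf1 hf2) (sz c.1 + 9) (by omega)) _ _ _ _ _ _
    ⟨hs, by omega⟩ h0 l

theorem alg_pr (hf1 : ∀ I X, feas I = some X → IsTab I X)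
    (hf2 : ∀ I, feas I = none → ∀ X, ¬ IsTab I X)
    (hC : ∀ I X, IsTab I X →
      (∀ t : List Bool, t.length = len I → IsTab I (step (I, X) t)) ∧
      ∀ (m : ℕ) (φ : Tab → ℝ), (∀ Y, 0 ≤ φ Y ∧ φ Y ≤ 1) →
        |(markov (fun Y t => step (I, Y) t) (len I))^[m * tau I] φ X - unif I φ| ≤ (1 / 2 : ℝ) ^ m)
    (hq : ∀ I, tau I * len I ≤ q.eval (sz I)) (c : Ctx) (hs : Shaped c.1) (hE : 1 ≤ cE c) :
    1 - (1 / 2) ^ c.2.2.val ≤ pr (algLen q c) (fun l =>
      (1 - 1 / (cE c : ℚ)) * cnt c.1 ≤ alg feas step len tau q c l ∧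
      alg feas step len tau q c l ≤ (1 + 1 / (cE c : ℚ)) * cnt c.1) := by
  have hJ : 1 ≤ cJ c := by unfold cJ; omega
  have h := est_pr (split_inst _ (leaf_iff hf1 hf2) (sz c.1 + 9) (by omega))
    (coin feas step len tau (cm c)) (cr q c) (cK c) (cJ c) (cE c) (cM c) hJ hE le_rfl
    (fun s hV hf hN => by
      have hr : cm c * tau s * len s ≤ cr q c := by
        unfold cr
        rw [mul_assoc]
        exact Nat.mul_le_mul_left _ ((hq s).trans (eval_mono q hV.2))
      refine (coin_law hf1 hf2 hC (cm c) s hV.1 hf hN (cr q c) hr).trans ?_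
      have h1 : (cm c : ℝ) < 2 ^ cm c := by exact_mod_cast Nat.lt_two_pow_self
      have h2 : (0 : ℝ) < cm c := by
        have : 0 < cm c := by unfold cm; positivity
        exact_mod_cast this
      have h3 : ((cm c : ℕ) : ℝ) = 8 * cJ c * cE c := by unfold cm; push_cast; ring
      rw [← h3, one_div_pow]
      exact one_div_le_one_div_of_le h2 h1.le)
    c.1 ⟨hs, by omega⟩ ((mu_le_sz c.1).trans (by unfold cJ; omega))
  refine le_trans ?_ h
  have : ((3 : ℝ) / 4) ^ cM c ≤ (1 / 2) ^ c.2.2.val := by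
    unfold cM
    rw [pow_mul]
    exact pow_le_pow_left₀ (by norm_num) (by norm_num) _
  linarith

end alg

/-! ### polynomial time -/

section pt

variable {feas : Inst → Option Tab} {step : Inst × Tab → List Bool → Tab} {len tau : Inst → ℕ}
  {q : Polynomial ℕ}

theorem ptf_round (hfeas : PTF feas)
    (hstep : PTF (fun p : (Inst × Tab) × List Bool => step p.1 p.2)) (hlen : PTU len) (htau : PTU tau) :
    PTF (fun p : Ctx × (Inst × ℕ × ℕ) × List Bool =>
      round (coin feas step len tau (cm p.1)) lo hi fin (cr q p.1) (cK p.1) p.2.1 p.2.2) := by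
  unfold round
  have hJ := ptu_cJ
  have hE := ptu_cE
  have hK := ptu_cK
  have hm := ptu_cm
  have hr := ptu_cr q
  have hK' : PTU (fun p : Ctx × (Inst × ℕ × ℕ) × List Bool => cK p.1) := PTU.comp hK (by fun_prop)
  have hr' : PTU (fun p : Ctx × (Inst × ℕ × ℕ) × List Bool => cr q p.1) := PTU.comp hr (by fun_prop)
  have hb : PTF (fun p : Ctx × (Inst × ℕ × ℕ) × List Bool => blocks (cr q p.1) (cK p.1) p.2.2) :=
    ptf_blocks (PTU.toPTF hr') hK' (by fun_prop)
  have hc : PTU (fun p : Ctx × (Inst × ℕ × ℕ) × List Bool =>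
      (blocks (cr q p.1) (cK p.1) p.2.2).countP (coin feas step len tau (cm p.1) p.2.1.1)) := by
    refine PTU.countP (p := fun (p : Ctx × (Inst × ℕ × ℕ) × List Bool) (l : List Bool) =>
      coin feas step len tau (cm p.1) p.2.1.1 l) hb ?_
    exact ptf_coin (γ := (Ctx × (Inst × ℕ × ℕ) × List Bool) × List Bool) hfeas hstep hlen htau
      (PTU.comp hm (by fun_prop)) (by fun_prop) (by fun_prop)
  have hc' := PTU.toPTF hc
  have hK'' := PTU.toPTF hK'
  have hfin : PTF (fun p : Ctx × (Inst × ℕ × ℕ) × List Bool => fin p.2.1.1) :=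
    PTF.comp (g := fun I => fin I) ptf_fin (by fun_prop)
  have hlo : PTF (fun p : Ctx × (Inst × ℕ × ℕ) × List Bool => lo p.2.1.1) :=
    PTF.comp (g := fun I => lo I) ptf_lo (by fun_prop)
  have hhi : PTF (fun p : Ctx × (Inst × ℕ × ℕ) × List Bool => hi p.2.1.1) :=
    PTF.comp (g := fun I => hi I) ptf_hi (by fun_prop)
  refine PTF.cond hfin (by fun_prop) (PTF.cond ?_ ?_ ?_)
  · exact PTPred.toPTF (PTPred.natLe hK'' (PTF.natMul (PTF.const 2) hc'))
  · exact PTF.prodMk hlo (PTF.prodMk (PTF.natMul (by fun_prop) hK'') (PTF.natMul (by fun_prop) hc'))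
  · exact PTF.prodMk hhi (PTF.prodMk (PTF.natMul (by fun_prop) hK'') (PTF.natMul (by fun_prop)
      (PTF.natSub hK'' hc')))

theorem size_mul_le (a b : ℕ) : (a * b).size ≤ a.size + b.size := by
  rw [Nat.size_le, pow_add]
  exact Nat.mul_lt_mul'' (Nat.lt_size_self a) (Nat.lt_size_self b)

theorem sz_round (coin : Inst → List Bool → Bool) (r K : ℕ) (x : Inst × ℕ × ℕ) (l : List Bool) :
    sz (round coin lo hi fin r K x l) ≤ sz x + (18 + 3 * sz K) := by
  obtain ⟨I, a, d⟩ := x
  have h1 := sz_lo I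
  have h2 := sz_hi I
  have h3 : sz (a * K) ≤ sz a + sz K := by
    rw [sz_nat, sz_nat, sz_nat]; exact size_mul_le a K
  have hcK := blocks_countP_le r K l (coin I)
  have h4 : sz (d * (blocks r K l).countP (coin I)) ≤ sz d + sz K := by
    refine le_trans ?_ (Nat.add_le_add_left (sz_nat_mono hcK) _)
    rw [sz_nat, sz_nat, sz_nat]; exact size_mul_le _ _
  have h5 : sz (d * (K - (blocks r K l).countP (coin I))) ≤ sz d + sz K := by
    refine le_trans ?_ (Nat.add_le_add_left (sz_nat_mono (Nat.sub_le K ((blocks r K l).countP (coin I)))) _)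
    rw [sz_nat, sz_nat, sz_nat]; exact size_mul_le _ _
  have e : ∀ (I : Inst) (a d : ℕ), sz (I, a, d) = 2 * sz I + 1 + (2 * sz a + 1 + sz d) := by
    intro I a d
    rw [sz_prod (I, a, d), sz_prod (a, d)]
  rw [e]
  unfold round
  cases fin I
  · simp only [cond_false]
    by_cases h : K ≤ 2 * (blocks r K l).countP (coin I)
    · simp only [h, decide_true, cond_true]
      rw [e]; omega
    · simp only [h, decide_false, cond_false]
      rw [e]; omega
  · simp only [cond_true]
    rw [e]; omega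

theorem ptf_run (hfeas : PTF feas)
    (hstep : PTF (fun p : (Inst × Tab) × List Bool => step p.1 p.2)) (hlen : PTU len) (htau : PTU tau) :
    PTF (fun p : Ctx × List Bool => run feas step len tau q p.1 p.2) := by
  unfold run base
  have hJ := ptu_cJ
  have hK := ptu_cK
  have hr := ptu_cr q
  have hK' := PTU.toPTF hK
  have hr' := PTU.toPTF hr
  have hround := ptf_round (q := q) hfeas hstep hlen htau
  have hrun : PTF (fun p : Ctx × List Bool =>
      runSteps (round (coin feas step len tau (cm p.1)) lo hi fin (cr q p.1) (cK p.1))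
        (cK p.1 * cr q p.1) (cJ p.1) (p.1.1, 1, 1) p.2) := by
    refine ptf_runSteps_add (γ := Ctx × List Bool)
      (f := fun p => round (coin feas step len tau (cm p.1)) lo hi fin (cr q p.1) (cK p.1))
      (r := fun p => cK p.1 * cr q p.1) (k := fun p => cJ p.1) (s := fun p => (p.1.1, 1, 1))
      (t := fun p => p.2) ?_ ?_ ?_ ?_ ?_ (G := fun p => 18 + 3 * sz (cK p.1)) ?_ ?_
    · exact PTF.comp (g := fun p : Ctx × (Inst × ℕ × ℕ) × List Bool =>
        round (coin feas step len tau (cm p.1)) lo hi fin (cr q p.1) (cK p.1) p.2.1 p.2.2)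
        (f := fun p : (Ctx × List Bool) × (Inst × ℕ × ℕ) × List Bool => (p.1.1, p.2.1, p.2.2))
        hround (by fun_prop)
    · exact PTF.natMul (PTF.comp (g := cK) hK' (by fun_prop)) (PTF.comp (g := cr q) hr' (by fun_prop))
    · exact PTU.comp hJ (by fun_prop)
    · fun_prop
    · fun_prop
    · have : PTF (fun p : Ctx × List Bool => cK p.1) := PTF.comp (g := cK) hK' (by fun_prop)
      fun_prop
    · intro c x l
      exact sz_round _ _ _ x l
  refine PTF.cond ?_ (PTF.ratDiv ?_ ?_) (PTF.const 0)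
  · exact PTF.isSome (PTF.comp (g := feas) hfeas (PTF.comp (g := fun p : Inst × ℕ × ℕ => p.1)
      (by fun_prop) hrun))
  · exact PTF.ratNatCast (PTF.comp (g := fun p : Inst × ℕ × ℕ => p.2.1) (by fun_prop) hrun)
  · exact PTF.ratNatCast (PTF.comp (g := fun p : Inst × ℕ × ℕ => p.2.2) (by fun_prop) hrun)

theorem ptf_alg (hfeas : PTF feas)
    (hstep : PTF (fun p : (Inst × Tab) × List Bool => step p.1 p.2)) (hlen : PTU len) (htau : PTU tau) :
    PTF (fun p : Ctx × List Bool => alg feas step len tau q p.1 p.2) := by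
  unfold alg est
  have hrun := ptf_run (q := q) hfeas hstep hlen htau
  have hJ := ptu_cJ
  have hK := ptu_cK
  have hM := ptu_cM
  have hr := ptu_cr q
  refine ptf_med (PTF.map (f := fun (p : Ctx × List Bool) (l : List Bool) =>
    run feas step len tau q p.1 l) (ptf_blocks ?_ ?_ ?_) ?_)
  · refine PTU.toPTF ?_
    exact PTU.mul (PTU.comp hJ (by fun_prop)) (PTU.mul (PTU.comp hK (by fun_prop))
      (PTU.comp hr (by fun_prop)))
  · exact PTU.mul (PTU.const 2) (PTU.comp hM (by fun_prop))
  · fun_prop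
  · exact PTF.comp (g := fun p : Ctx × List Bool => run feas step len tau q p.1 p.2)
      (f := fun p : (Ctx × List Bool) × List Bool => (p.1.1, p.2)) hrun (by fun_prop)

end pt

end Crest.Agent.R309.Count632
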