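import Mathlib
import Crest.Agent.R309.MCMetro

/-!
Row 309 (helper585): `t`-step transition probabilities are reversible; functional form of the
total variation distance.
-/

set_option autoImplicit false
open Finset

namespace Crest.Agent.R309.MC

variable {α : Type*} [Fintype α]

theorem law_succ' (K : α → α → ℝ) (p : α → ℝ) (t : ℕ) :
    law K p (t + 1) = law K (push K p) t := by
  induction t with
  | zero => rfl
  | succ t ih =>
    change push K (law K p (t + 1)) = push K (law K (push K p) t)
    rw [ih]

theorem law_linear [DecidableEq α] (K : α → α → ℝ) (p : α → ℝ) (t : ℕ) (x : α) :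
    law K p t x = ∑ z, p z * law K (pt z) t x := by
  induction t generalizing x with
  | zero => simp [law, pt]
  | succ t ih =>
    change ∑ y, law K p t y * K y x = ∑ z, p z * ∑ y, law K (pt z) t y * K y x
    simp only [mul_sum]
    rw [sum_comm]
    refine sum_congr rfl fun y _ => ?_
    rw [ih y, sum_mul]
    exact sum_congr rfl fun z _ => by ring

theorem push_pt [DecidableEq α] (K : α → α → ℝ) (x : α) : push K (pt x) = K x := by
  funext y
  simp [push, pt]

/-- `t`-step reversibility -/
theorem law_rev [DecidableEq α] {w : α → ℝ} {K : α → α → ℝ} (hr : Rev w K) (t : ℕ) (x y : α) :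
    w x * law K (pt x) t y = w y * law K (pt y) t x := by
  induction t generalizing x y with
  | zero =>
    by_cases h : x = y
    · subst h; rfl
    · simp [law, pt, h, Ne.symm h]
  | succ t ih =>
    have e1 : law K (pt x) (t + 1) y = ∑ z, law K (pt x) t z * K z y := rfl
    have e2 : law K (pt y) (t + 1) x = ∑ z, K y z * law K (pt z) t x := by
      rw [law_succ', push_pt, law_linear]
    rw [e1, e2, mul_sum, mul_sum]
    refine sum_congr rfl fun z _ => ?_
    calc w x * (law K (pt x) t z * K z y) = (w x * law K (pt x) t z) * K z y := by ring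
      _ = (w z * K z y) * law K (pt z) t x := by rw [ih x z]; ring
      _ = w y * (K y z * law K (pt z) t x) := by rw [hr z y]; ring

/-- functional form of the total variation distance -/
theorem abs_sum_mul_sub_le_tv {p q : α → ℝ} (h : ∑ x, p x = ∑ x, q x) {φ : α → ℝ}
    (h0 : ∀ x, 0 ≤ φ x) (h1 : ∀ x, φ x ≤ 1) :
    |∑ x, p x * φ x - ∑ x, q x * φ x| ≤ tv p q := by
  have e : ∑ x, p x * φ x - ∑ x, q x * φ x = ∑ x, (p x - q x) * (φ x - 1 / 2) := by
    have : ∑ x, (p x - q x) * (φ x - 1 / 2) =
        ∑ x, p x * φ x - ∑ x, q x * φ x - (∑ x, p x - ∑ x, q x) / 2 := by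
      rw [← sum_sub_distrib, ← sum_sub_distrib, sum_div, ← sum_sub_distrib]
      exact sum_congr rfl fun x _ => by ring
    rw [this, h]; ring
  rw [e]
  refine (abs_sum_le_sum_abs _ _).trans ?_
  unfold tv
  rw [sum_div]
  refine sum_le_sum fun x _ => ?_
  rw [abs_mul]
  have : |φ x - 1 / 2| ≤ 1 / 2 := by
    rw [abs_le]; constructor <;> linarith [h0 x, h1 x]
  calc |p x - q x| * |φ x - 1 / 2| ≤ |p x - q x| * (1 / 2) :=
        mul_le_mul_of_nonneg_left this (abs_nonneg _)
    _ = |p x - q x| / 2 := by ring

end Crest.Agent.R309.MC
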