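import Crest.Agent.R309.RAMDec

/-!
# The complete machine running a bit-tape process

State: a bit string `s`. While the first bit of `s` is not `true`: draw `|s|` random bits `τ` and
replace `s` by `f s τ`. When the first bit is `true`, the rest of `s` codes the output list.
-/

set_option autoImplicit false

namespace Crest.Agent.R309.RAM

open Crest.WordRAM hiding init
open Crest.Agent.Lib.PT Function

/-- boot, encode, run the initial program `h` -/
def preP (K : ℕ) (h : Cmd) : Prog :=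
  .seq (boot K) (.seq encP (.seq (tr h) (.blk [.load 2 (12 + 0)])))

/-- one turn of the main loop -/
def turnP (c : Cmd) : Prog := .seq (roundP c) (.blk [.load 2 (12 + 0)])

/-- the main loop -/
def mainP (c : Cmd) : Prog := .loop (.eq 2 4) (turnP c)

/-- the whole program -/
def wholeP (K : ℕ) (h c : Cmd) : Prog := .seq (preP K h) (.seq (mainP c) decP)

instance (K : ℕ) : NeZero (12 + K) := ⟨by omega⟩

/-- the machine -/
def machine (K : ℕ) (h c : Cmd) : Program where
  numRegs := 12 + K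
  code := (wholeP K h c).comp (12 + K) 0

instance (K : ℕ) (h c : Cmd) : NeZero (machine K h c).numRegs :=
  inferInstanceAs (NeZero (12 + K))

theorem boot_ok (K : ℕ) : (boot K).ok (12 + K) := by
  refine ⟨⟨?_, ?_, ?_⟩, ?_⟩
  · intro i hi
    simp only [List.mem_cons, List.not_mem_nil, or_false] at hi
    rcases hi with rfl | rfl | rfl | rfl <;> simp only [Op.ok] <;> omega
  · simp only [Cond.ok]; omega
  · intro i hi
    simp only [List.mem_cons, List.not_mem_nil, or_false] at hi
    rcases hi with rfl | rfl <;> simp only [Op.ok] <;> omega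
  · intro i hi
    simp only [List.mem_cons, List.mem_flatMap, List.mem_range, sentinel, List.not_mem_nil,
      or_false] at hi
    rcases hi with rfl | ⟨k, hk, rfl | rfl | rfl⟩ <;> simp only [Op.ok] <;> omega

theorem encP_ok (K : ℕ) (hK : 0 < K) : encP.ok (12 + K) := by
  simp [encP, encNum, encNum1, encNum2, Prog.ok, Op.ok, Cond.ok, pushB]
  omega

theorem decP_ok (K : ℕ) (hK : 0 < K) : decP.ok (12 + K) := by
  simp [decP, decNum, decBits, Prog.ok, Op.ok, Cond.ok, popB]
  omega

theorem drawP_ok (K : ℕ) (hK : 2 < K) : drawP.ok (12 + K) := by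
  simp [drawP, drawBody, Prog.ok, Op.ok, Cond.ok, popB, pushB]
  omega

theorem wholeP_ok {K : ℕ} {h c : Cmd} (hK : 2 < K) (hh : h.maxVar < K) (hc : c.maxVar < K) :
    (wholeP K h c).ok (12 + K) := by
  have hr : (roundC c).maxVar < K := by
    simp only [roundC, Cmd.maxVar, mv, mvMap, pushAll]
    omega
  have hl : (Prog.blk [.load 2 (12 + 0)]).ok (12 + K) := by
    simp [Prog.ok, Op.ok]
    omega
  refine ⟨⟨boot_ok K, encP_ok K (by omega), tr_ok hh, hl⟩, ⟨?_, ⟨drawP_ok K hK, tr_ok hr⟩, hl⟩,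
    decP_ok K (by omega)⟩
  simp only [Cond.ok]
  omega

/-- the final configuration -/
def hcfg (r pc : ℕ) (s : St) : Cfg r where
  pc := pc
  halted := true
  regs := fun j => s.regs j
  mem := s.mem
  drawn := s.drawn

theorem step_end {P : Program} {w : ℕ} {ρ : ℕ → ℕ} {pc : ℕ} {s : St} (h : P.code[pc]? = none) :
    step P w ρ (cfg P.numRegs pc s) = hcfg P.numRegs pc s := by
  unfold step
  simp only [cfg, Bool.false_eq_true, if_false, h, hcfg]

theorem hcfg_output {r pc : ℕ} {s : St} {out : List ℕ} (hr : 1 < r) (h0 : s.regs 0 = out.length)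
    (h1 : s.regs 1 = 0) (hm : ∀ i (h : i < out.length), s.mem i = out[i]) :
    (hcfg r pc s).output = out := by
  unfold Cfg.output Cfg.reg
  rw [dif_pos (show 0 < r by omega), dif_pos (show 1 < r by omega)]
  show (List.range (s.regs 0)).map (fun i => s.mem (s.regs 1 + i)) = out
  rw [h0, h1]
  apply List.ext_getElem
  · simp
  · intro i hi hi'
    simp only [List.getElem_map, List.getElem_range, zero_add]
    exact hm i hi'

/-- the configuration `c` is at the head of the main loop with state `s` -/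
def Head (w K : ℕ) (h p : Cmd) (s : List Bool) (c : Cfg (machine K h p).numRegs) : Prop :=
  ∃ σ : St, Rep w K (init s) σ ∧ c = cfg (machine K h p).numRegs (preP K h).len (ld 0 σ)

theorem Head.not_halted {w K : ℕ} {h p : Cmd} {s : List Bool} {c : Cfg (machine K h p).numRegs}
    (h : Head w K h p s c) : c.halted = false := by
  obtain ⟨σ, _, rfl⟩ := h
  rfl

theorem length_le_enc (L : List ℕ) : L.length ≤ (enc L).length := by
  induction L with
  | nil => simp
  | cons a L ih =>
    have : enc (a :: L) = pair (enc a) (enc L) := rfl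
    rw [this, core_length_pair, List.length_cons]
    omega

/-- reaching the main loop, general form -/
theorem machine_start_gen {w K H T : ℕ} {h p : Cmd} (ρ : ℕ → ℕ) (hK : 2 < K) (hh : h.maxVar < K)
    (hp : p.maxVar < K) (hw : 2 ≤ w) (hH : K * (H + 1) ≤ 2 ^ (w - 1)) (L : List ℕ)
    (hL : ∀ a ∈ L, a + 1 < 2 ^ w) {s0 : List Bool}
    (htr : ∀ σ, Rep w K (init (false :: enc L)) σ → ∃ σ' t, Ex w ρ (tr h) σ σ' t ∧ t ≤ T ∧
      Rep w K (init s0) σ' ∧ σ'.drawn = σ.drawn) (hroom : (enc L).length + 2 ≤ H) :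
    ∃ t c, t ≤ 4 * w + 3 * K + 11 + (10 + 12 * w) * L.length + T ∧
      (step (machine K h p) w ρ)^[t] (WordRAM.init (machine K h p) w L) = c ∧
      Head w K h p s0 c ∧ c.drawn = 0 := by
  have hB := two_pow_half (show 1 ≤ w by omega)
  have hKle : 3 * (H + 1) ≤ 2 ^ (w - 1) :=
    (Nat.mul_le_mul_right (H + 1) (show 3 ≤ K by omega)).trans hH
  have hK3 : K * 3 ≤ 2 ^ (w - 1) :=
    (Nat.mul_le_mul_left K (show 3 ≤ H + 1 by omega)).trans hH
  have hlen : L.length ≤ (enc L).length := length_le_enc L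
  set σ0 : St := { regs := fun j => if j = 0 then L.length % 2 ^ w else 0
                   mem := fun i => L[i]?.getD 0 % 2 ^ w
                   drawn := 0 } with hσ0
  have hinit : WordRAM.init (machine K h p) w L = cfg (machine K h p).numRegs 0 σ0 := rfl
  obtain ⟨σ1, t1, e1, b1, r1, c0, cm, cd⟩ := boot_run (K := K) ρ hw (by omega) σ0 rfl
  obtain ⟨σ2, t2, e2, b2, r2, d2⟩ := encP_run ρ (show 1 ≤ w by omega) hH (by omega) L hL (by omega)
    (by omega) σ1 r1 (by
      rw [c0]
      show L.length % 2 ^ w = L.length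
      exact Nat.mod_eq_of_lt (by omega)) (by
      intro j hj
      rw [cm j (by omega)]
      show L[j]?.getD 0 % 2 ^ w = L[j]
      rw [List.getElem?_eq_getElem hj, Option.getD_some]
      exact Nat.mod_eq_of_lt (by have := hL _ (List.getElem_mem hj); omega))
  obtain ⟨σ3, t4, e4, b4, r4, d4⟩ := htr σ2 r2
  have hpre : Ex w ρ (preP K h) σ0 (ld 0 σ3) (t1 + (t2 + (t4 + 1))) :=
    Ex.seq e1 (Ex.seq e2 (Ex.seq e4 (Ex.blk [.load 2 (12 + 0)] _)))
  refine ⟨t1 + (t2 + (t4 + 1)), cfg (machine K h p).numRegs (preP K h).len (ld 0 σ3), ?_, ?_,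
    ⟨σ3, r4, rfl⟩, ?_⟩
  · omega
  · rw [hinit]
    have hat : At (machine K h p).code 0 ((wholeP K h p).comp (12 + K) 0) := At.self _
    have h1 := hat.app.1
    have := hpre.run (P := machine K h p) (o := 0) (wholeP_ok hK hh hp).1 h1
    rw [zero_add] at this
    exact this
  · show (ld 0 σ3).drawn = 0
    rw [ld_drawn, d4, d2, cd]

/-- reaching the main loop -/
theorem machine_start {w K H n : ℕ} {h p : Cmd} (ρ : ℕ → ℕ) (hK : 2 < K) (hh : h.maxVar < K)
    (hp : p.maxVar < K) (hw : 2 ≤ w) (hH : K * (H + 1) ≤ 2 ^ (w - 1)) (L : List ℕ)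
    (hL : ∀ a ∈ L, a + 1 < 2 ^ w) {s0 : List Bool}
    (hrun : Run h (init (false :: enc L)) (init s0) n) (hroom : (enc L).length + 2 + n ≤ H) :
    ∃ t c, t ≤ 4 * w + 3 * K + 11 + (10 + 12 * w) * L.length + 5 * n ∧
      (step (machine K h p) w ρ)^[t] (WordRAM.init (machine K h p) w L) = c ∧
      Head w K h p s0 c ∧ c.drawn = 0 := by
  obtain ⟨t3, b3, e3⟩ := hrun
  refine machine_start_gen (T := 5 * n) ρ hK hh hp hw hH L hL (fun σ r => ?_) (by omega)
  obtain ⟨σ3, t4, e4, b4, r4, d4⟩ := exec_tr ρ (show 1 ≤ w by omega) hH e3 hh (by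
    intro k
    have : ((init (false :: enc L) : Store) k).length ≤ (enc L).length + 1 := by
      unfold init
      split <;> simp
    omega) σ r
  exact ⟨σ3, t4, e4, by omega, r4, d4⟩

/-- reaching the main loop when there is no initial program -/
theorem machine_start_skip {w K H : ℕ} {p : Cmd} (ρ : ℕ → ℕ) (hK : 2 < K)
    (hp : p.maxVar < K) (hw : 2 ≤ w) (hH : K * (H + 1) ≤ 2 ^ (w - 1)) (L : List ℕ)
    (hL : ∀ a ∈ L, a + 1 < 2 ^ w) (hroom : (enc L).length + 2 ≤ H) :
    ∃ t c, t ≤ 4 * w + 3 * K + 11 + (10 + 12 * w) * L.length ∧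
      (step (machine K .skip p) w ρ)^[t] (WordRAM.init (machine K .skip p) w L) = c ∧
      Head w K .skip p (false :: enc L) c ∧ c.drawn = 0 :=
  machine_start_gen (T := 0) (h := .skip) ρ hK (show Cmd.maxVar .skip < K from
    (show (0 : ℕ) < K by omega)) hp hw hH L hL
    (fun σ r => ⟨σ, 0, Ex.blk [] σ, le_rfl, r, rfl⟩) hroom

theorem at_main (K : ℕ) (h p : Cmd) : At (r := (machine K h p).numRegs) (machine K h p).code
    (preP K h).len (((mainP p).seq decP).comp (machine K h p).numRegs (preP K h).len) := by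
  have hat : At (r := 12 + K) ((wholeP K h p).comp (12 + K) 0) 0 ((wholeP K h p).comp (12 + K) 0) :=
    At.self _
  have h1 : At (r := 12 + K) ((wholeP K h p).comp (12 + K) 0)
    (0 + ((preP K h).comp (12 + K) 0).length)
    (((mainP p).seq decP).comp (12 + K) (0 + (preP K h).len)) := hat.app.2
  rw [Prog.length_comp, zero_add] at h1
  exact h1

/-- one round -/
theorem machine_round {w K H n : ℕ} {h p : Cmd} (ρ : ℕ → ℕ) (hK : 2 < K) (hh : h.maxVar < K)
    (hp : p.maxVar < K)
    (hw : 1 ≤ w) (hH : K * (H + 1) ≤ 2 ^ (w - 1)) {s y : List Bool}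
    {c : Cfg (machine K h p).numRegs} (hc : Head w K h p s c) (hs : s.head? ≠ some true)
    (hr : Run p (init (pair s (rbits w ρ c.drawn s.length))) (init y) n)
    (hn : 13 * s.length + 3 + n ≤ H) :
    ∃ t c', 1 ≤ t ∧ t ≤ 20 + 70 * s.length + 5 * n ∧
      (step (machine K h p) w ρ)^[t] c = c' ∧ Head w K h p y c' ∧ c'.drawn = c.drawn + s.length := by
  obtain ⟨σ, hσ, rfl⟩ := hc
  obtain ⟨σ1, t, e, ht, r, d⟩ := roundP_run ρ hw hH hK hp (hσ.ld 0) hr hn
  have hbody : Ex w ρ (turnP p) (ld 0 σ) (ld 0 σ1) (t + 1) :=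
    Ex.seq e (Ex.blk [.load 2 (12 + 0)] _)
  have hcond : ¬ (Cond.eq 2 4).eval (ld 0 σ) := by
    rw [hσ.ld_eval4 (by omega)]
    exact hs
  refine ⟨t + 1 + 2, cfg (machine K h p).numRegs (preP K h).len (ld 0 σ1), by omega, by omega, ?_, ⟨σ1, r, rfl⟩, ?_⟩
  · have h2 := (at_main K h p).app.1
    exact loop_iter (P := machine K h p) hcond hbody (wholeP_ok hK hh hp).2.1 h2
  · show (ld 0 σ1).drawn = (ld 0 σ).drawn + s.length
    rw [ld_drawn, d]

/-- halting -/
theorem machine_halt {w K : ℕ} {h p : Cmd} (ρ : ℕ → ℕ) (hK : 2 < K) (hh : h.maxVar < K)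
    (hp : p.maxVar < K)
    (hw : 1 ≤ w) {out : List ℕ} {c : Cfg (machine K h p).numRegs} (hc : Head w K h p (true :: enc out) c)
    (hout : ∀ a ∈ out, a < 2 ^ w) (hlen : out.length ≤ 2 ^ (w - 1)) :
    ∃ t c', t ≤ 7 + 9 * (enc out).length ∧
      (step (machine K h p) w ρ)^[t] c = c' ∧ c'.halted = true ∧ c'.output = out := by
  obtain ⟨σ, hσ, rfl⟩ := hc
  obtain ⟨σ', t, e, ht, h0, h1, hm, hd⟩ := decP_run ρ hw (by omega) out σ hσ hout hlen
  have hcond : (Cond.eq 2 4).eval (ld 0 σ) := by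
    rw [hσ.ld_eval4 (by omega)]
    rfl
  have hloop : Ex w ρ (mainP p) (ld 0 σ) (ld 0 σ) 1 := Ex.loop_done hcond
  have g1 := at_main K h p
  have hrun := (Ex.seq hloop e).run (P := machine K h p) (o := (preP K h).len) (wholeP_ok hK hh hp).2 g1
  set pc := (preP K h).len + ((mainP p).seq decP).len with hpc
  have hnone : (machine K h p).code[pc]? = none := by
    apply List.getElem?_eq_none
    have : (machine K h p).code.length = (wholeP K h p).len := Prog.length_comp _ _ _
    rw [this, hpc]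
    exact le_rfl
  refine ⟨1 + t + 1, hcfg (machine K h p).numRegs pc σ', by omega, ?_, rfl, ?_⟩
  · rw [show 1 + t + 1 = 1 + (1 + t) by omega, Function.iterate_add_apply, Function.iterate_one,
      hrun, step_end hnone]
  · exact hcfg_output (show 1 < 12 + K by omega) h0 h1 hm

end Crest.Agent.R309.RAM
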