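import Crest.Agent.R309.Exact9Cost
import Crest.Prelude.Def_WordRAMProb

/-!
# R309, exactness layer (S0481), part 6: typed processes on the word RAM

`ProcessSpec`: the word-RAM process theorem for raw bit-string processes (proved in the RAM layer).
`typed_process`: its typed form, with split costs.
-/

set_option autoImplicit false

namespace Crest.Agent.R309.Exact9

open Crest.Agent.R309.Tape Crest.Agent.Lib.PT Crest.WordRAM

/-- the cost of one round on the machine -/
def rcost (len n : ℕ) : ℕ := 20 + 70 * len + 5 * n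

/-- the cost of halting -/
def hcost (len : ℕ) : ℕ := 7 + 9 * len

/-- the cost of the start -/
def scost (w K len : ℕ) : ℕ := 4 * w + 3 * K + 11 + (10 + 12 * w) * len

/-- the process theorem for raw processes -/
def ProcessSpec : Prop :=
  ∀ (c : Cmd) (F : List Bool → List Bool → List Bool) (n : List Bool → ℕ),
    (∀ s τ, τ.length = s.length →
      Run c (Crest.Agent.Lib.PT.init (pair s τ)) (Crest.Agent.Lib.PT.init (F s τ)) (n s)) →
    ∃ (P : Program) (K : ℕ), ∀ (w H : ℕ) (L : List ℕ) (inv : List Bool → Prop),
      2 ≤ w → K * (H + 1) ≤ 2 ^ (w - 1) → (∀ a ∈ L, a + 1 < 2 ^ w) → (enc L).length + 2 ≤ H →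
      inv (false :: enc L) →
      (∀ s, inv s → s.head? ≠ some true → 13 * s.length + 3 + n s ≤ H ∧
        ∀ τ : List Bool, τ.length = s.length → inv (F s τ)) →
      (∀ s, inv s → s.head? = some true → ∃ out : List ℕ, s = true :: enc out ∧
        (∀ a ∈ out, a < 2 ^ w) ∧ out.length ≤ 2 ^ (w - 1)) →
      (∀ (ρ : ℕ → ℕ) (T : ℕ) (out : List ℕ), HaltsWithin P w ρ L T out → inv (true :: enc out)) ∧
      (∀ V : List Bool → ℝ, (∀ s, inv s → 0 ≤ V s) →
        (∀ s, inv s → s.head? ≠ some true →
          (rcost s.length (n s) : ℝ) + avg s.length (fun τ => V (F s τ)) ≤ V s) →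
        (∀ s, inv s → s.head? = some true → (hcost s.length : ℝ) ≤ V s) →
        expectedTime P w L ≤ ENNReal.ofReal ((scost w K L.length : ℝ) + V (false :: enc L)) ∧
        ∀ (Good : List ℕ → Prop) (h : List Bool → ℝ), (∀ s, inv s → 0 ≤ h s ∧ h s ≤ 1) →
          (∀ s, inv s → s.head? ≠ some true → h s = avg s.length (fun τ => h (F s τ))) →
          (∀ out : List ℕ, inv (true :: enc out) → h (true :: enc out) = ind (Good out)) →
          probHaltsWith P w L Good = h (false :: enc L))

theorem code_injective {C : Type} [PTCode C] : Function.Injective (code : C → List Bool) := by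
  intro s t h
  unfold code at h
  simp only [List.cons.injEq, true_and] at h
  have := (pair_inj h).2
  exact enc_injective this

theorem length_code {C : Type} [PTCode C] (s : C) : (code s).length = sz s + 4 := by
  unfold code sz
  simp only [List.length_cons, length_pair, List.length_nil]
  omega

theorem head?_code {C : Type} [PTCode C] (s : C) : (code s).head? = some false := rfl

theorem code_ne_start {C : Type} [PTCode C] (s : C) (L : List ℕ) : code s ≠ false :: enc L := by
  intro h
  unfold code at h
  simp only [List.cons.injEq, true_and] at h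
  rcases L with _ | ⟨a, L⟩
  · exact pair_ne_nil _ _ h
  · simp only [enc_cons, enc_nat] at h
    have h1 := (pair_inj h).1
    have h2 : Arith.msb a.bits.reverse = Arith.msb [false].reverse := by rw [h1]
    rw [Arith.msb_bits_reverse] at h2
    have h3 : a = 0 := by simpa [Arith.msb] using h2
    rw [h3] at h1
    simp at h1

theorem true_enc_inj {o o' : List ℕ} (h : true :: enc o = true :: enc o') : o = o' := by
  simpa using h

/-- **typed process theorem**: the round cost polynomial `qf` is fixed before the start function. -/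
theorem typed_process (HP : ProcessSpec) {C : Type} [PTCode C] {f : C × Bits → C ⊕ List ℕ}
    (hf : PTF f) :
    ∃ qf : Polynomial ℕ, ∀ g : List ℕ → C, PTF g →
      ∃ (P : Program) (K : ℕ) (qg : Polynomial ℕ),
        ∀ (w H : ℕ) (L : List ℕ) (inv : C → Prop) (outs : List ℕ → Prop) (B : ℕ),
        2 ≤ w → K * (H + 1) ≤ 2 ^ (w - 1) → (∀ a ∈ L, a + 1 < 2 ^ w) → (enc L).length + 2 ≤ H →
        13 * (sz L + 1) + 3 + qg.eval (sz L) ≤ H →
        inv (g L) →
        (∀ s, inv s → 13 * (sz s + 4) + 3 + qf.eval (sz s) ≤ H ∧
          ∀ τ : List Bool, τ.length = sz s + 4 →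
            (∀ s', f (s, ⟨τ⟩) = Sum.inl s' → inv s') ∧
            (∀ o, f (s, ⟨τ⟩) = Sum.inr o → outs o)) →
        (∀ o, outs o → (∀ a ∈ o, a < 2 ^ w) ∧ o.length ≤ 2 ^ (w - 1) ∧ hcost (sz o + 1) ≤ B) →
        (∀ (ρ : ℕ → ℕ) (T : ℕ) (out : List ℕ), HaltsWithin P w ρ L T out → outs out) ∧
        (∀ V : C → ℝ, (∀ s, inv s → 0 ≤ V s) →
          (∀ s, inv s → (rcost (sz s + 4) (qf.eval (sz s)) : ℝ) +
            avg (sz s + 4) (fun τ => match f (s, ⟨τ⟩) with
              | Sum.inl s' => V s'
              | Sum.inr _ => 0) ≤ V s) →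
          expectedTime P w L ≤ ENNReal.ofReal ((scost w K L.length : ℝ) +
            (rcost (sz L + 1) (qg.eval (sz L)) : ℝ) + V (g L) + B) ∧
          ∀ (Good : List ℕ → Prop) (h : C → ℝ), (∀ s, inv s → 0 ≤ h s ∧ h s ≤ 1) →
            (∀ s, inv s → h s = avg (sz s + 4) (fun τ => match f (s, ⟨τ⟩) with
              | Sum.inl s' => h s'
              | Sum.inr o => ind (Good o))) →
            probHaltsWith P w L Good = h (g L)) := by
  classical
  obtain ⟨qf, hqf⟩ := raw_round hf
  refine ⟨qf, fun g hg => ?_⟩
  obtain ⟨c, F, qg, n, hrun, hF0, hn0, hF1, hn1⟩ := hqf g hg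
  obtain ⟨P, K, hP⟩ := HP c F n hrun
  refine ⟨P, K, qg, fun w H L inv outs B hw hH hL hLH hLH2 hinv0 hinv houts => ?_⟩
  -- the raw invariant
  set Inv' : List Bool → Prop := fun x =>
    x = false :: enc L ∨ (∃ s : C, inv s ∧ x = code s) ∨ (∃ o, outs o ∧ x = true :: enc o) with hInv'
  have key := hP w H L Inv' hw hH hL hLH (Or.inl rfl) ?_ ?_
  rotate_left
  · rintro x (rfl | ⟨s, hs, rfl⟩ | ⟨o, ho, rfl⟩) hx
    · refine ⟨?_, fun τ _ => Or.inr (Or.inl ⟨g L, hinv0, hF0 L τ⟩)⟩
      have h1 := hn0 L
      have h2 : (false :: enc L).length = sz L + 1 := rfl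
      rw [h2]
      omega
    · obtain ⟨h1, h2⟩ := hinv s hs
      refine ⟨?_, fun τ hτ => ?_⟩
      · have h3 := hn1 s
        rw [length_code]
        omega
      · rw [length_code] at hτ
        obtain ⟨h3, h4⟩ := h2 τ hτ
        rw [hF1]
        rcases hfs : f (s, ⟨τ⟩) with s' | o
        · exact Or.inr (Or.inl ⟨s', h3 s' hfs, rfl⟩)
        · exact Or.inr (Or.inr ⟨o, h4 o hfs, rfl⟩)
    · simp at hx
  · rintro x (rfl | ⟨s, hs, rfl⟩ | ⟨o, ho, rfl⟩) hx
    · simp at hx
    · simp [head?_code] at hx
    · exact ⟨o, rfl, (houts o ho).1, (houts o ho).2.1⟩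
  obtain ⟨k1, k2⟩ := key
  refine ⟨?_, ?_⟩
  · intro ρ T out hh
    rcases k1 ρ T out hh with h | ⟨s, _, h⟩ | ⟨o, ho, h⟩
    · simp at h
    · simp [code] at h
    · rw [true_enc_inj h]; exact ho
  · intro V hV0 hV
    -- raw potential
    set c0 : ℝ := (rcost (sz L + 1) (qg.eval (sz L)) : ℝ) with hc0
    set V' : List Bool → ℝ := fun x =>
      if x = false :: enc L then c0 + (V (g L) + B)
      else if h : ∃ s : C, inv s ∧ x = code s then V h.choose + B else B with hV'
    have hVs : ∀ s, inv s → V' (code s) = V s + B := by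
      intro s hs
      have h1 : code s ≠ false :: enc L := code_ne_start s L
      have h2 : ∃ s' : C, inv s' ∧ code s = code s' := ⟨s, hs, rfl⟩
      simp only [hV', if_neg h1, dif_pos h2]
      rw [← code_injective h2.choose_spec.2]
    have hVo : ∀ o : List ℕ, V' (true :: enc o) = B := by
      intro o
      have h1 : (true :: enc o : List Bool) ≠ false :: enc L := by simp
      have h2 : ¬ ∃ s' : C, inv s' ∧ (true :: enc o : List Bool) = code s' := by
        rintro ⟨s', _, h⟩
        simp [code] at h
      simp only [hV', if_neg h1, dif_neg h2]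
    have hV0' : V' (false :: enc L) = c0 + (V (g L) + B) := by simp only [hV', if_true]
    have k2' := k2 V' ?_ ?_ ?_
    rotate_left
    · rintro x (rfl | ⟨s, hs, rfl⟩ | ⟨o, ho, rfl⟩)
      · rw [hV0']
        have := hV0 _ hinv0
        positivity
      · rw [hVs s hs]
        have := hV0 s hs
        positivity
      · rw [hVo]; positivity
    · rintro x (rfl | ⟨s, hs, rfl⟩ | ⟨o, ho, rfl⟩) hx
      · rw [hV0']
        have e1 : ∀ τ, V' (F (false :: enc L) τ) = V (g L) + B := fun τ => by
          rw [hF0, hVs _ hinv0]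
        simp_rw [e1]
        rw [avg_const]
        refine add_le_add_left ?_ _
        rw [hc0]
        have h1 := hn0 L
        have h2 : (false :: enc L).length = sz L + 1 := rfl
        rw [h2]
        have : rcost (sz L + 1) (n (false :: enc L)) ≤ rcost (sz L + 1) (qg.eval (sz L)) := by
          unfold rcost; omega
        exact_mod_cast this
      · rw [hVs s hs, length_code]
        have h1 : (rcost (sz s + 4) (n (code s)) : ℝ) ≤ rcost (sz s + 4) (qf.eval (sz s)) := by
          have := hn1 s
          have : rcost (sz s + 4) (n (code s)) ≤ rcost (sz s + 4) (qf.eval (sz s)) := by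
            unfold rcost; omega
          exact_mod_cast this
        have h2 : avg (sz s + 4) (fun τ => V' (F (code s) τ)) =
            avg (sz s + 4) (fun τ => match f (s, ⟨τ⟩) with
              | Sum.inl s' => V s'
              | Sum.inr _ => 0) + B := by
          rw [← avg_const (sz s + 4) (B : ℝ), ← avg_add]
          refine avg_congr fun τ hτ => ?_
          rw [hF1]
          obtain ⟨h3, h4⟩ := (hinv s hs).2 τ hτ
          rcases hfs : f (s, ⟨τ⟩) with s' | o
          · simp only [avg_const]
            exact hVs s' (h3 s' hfs)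
          · simp only [avg_const, zero_add]
            exact hVo o
        rw [h2]
        have := hV s hs
        linarith
      · simp at hx
    · rintro x (rfl | ⟨s, hs, rfl⟩ | ⟨o, ho, rfl⟩) hx
      · simp at hx
      · simp [head?_code] at hx
      · rw [hVo]
        have h1 := (houts o ho).2.2
        have h2 : (true :: enc o).length = sz o + 1 := rfl
        rw [h2]
        exact_mod_cast h1
    obtain ⟨k3, k4⟩ := k2'
    refine ⟨?_, ?_⟩
    · rw [hV0'] at k3
      refine k3.trans (le_of_eq ?_)
      congr 1
      ring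
    · intro Good h h01 hharm
      set h' : List Bool → ℝ := fun x =>
        if x = false :: enc L then h (g L)
        else if hx : ∃ s : C, inv s ∧ x = code s then h hx.choose
        else if hx : ∃ o : List ℕ, x = true :: enc o then ind (Good hx.choose) else 0 with hh'
      have hhs : ∀ s, inv s → h' (code s) = h s := by
        intro s hs
        have h1 : code s ≠ false :: enc L := code_ne_start s L
        have h2 : ∃ s' : C, inv s' ∧ code s = code s' := ⟨s, hs, rfl⟩
        simp only [hh', if_neg h1, dif_pos h2]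
        rw [← code_injective h2.choose_spec.2]
      have hho : ∀ o : List ℕ, h' (true :: enc o) = ind (Good o) := by
        intro o
        have h1 : (true :: enc o : List Bool) ≠ false :: enc L := by simp
        have h2 : ¬ ∃ s' : C, inv s' ∧ (true :: enc o : List Bool) = code s' := by
          rintro ⟨s', _, h⟩
          simp [code] at h
        have h3 : ∃ o' : List ℕ, (true :: enc o : List Bool) = true :: enc o' := ⟨o, rfl⟩
        simp only [hh', if_neg h1, dif_neg h2, dif_pos h3]
        rw [← true_enc_inj h3.choose_spec]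
      have hh0 : h' (false :: enc L) = h (g L) := by simp only [hh', if_true]
      rw [← hh0]
      refine k4 Good h' ?_ ?_ (fun out _ => hho out)
      · rintro x (rfl | ⟨s, hs, rfl⟩ | ⟨o, ho, rfl⟩)
        · rw [hh0]; exact h01 _ hinv0
        · rw [hhs s hs]; exact h01 s hs
        · rw [hho]; exact ⟨ind_nonneg _, ind_le_one _⟩
      · rintro x (rfl | ⟨s, hs, rfl⟩ | ⟨o, ho, rfl⟩) hx
        · rw [hh0]
          have e1 : ∀ τ, h' (F (false :: enc L) τ) = h (g L) := fun τ => by
            rw [hF0, hhs _ hinv0]
          simp_rw [e1]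
          rw [avg_const]
        · rw [hhs s hs, length_code, hharm s hs]
          refine avg_congr fun τ hτ => ?_
          rw [hF1]
          obtain ⟨h3, h4⟩ := (hinv s hs).2 τ hτ
          rcases hfs : f (s, ⟨τ⟩) with s' | o
          · exact (hhs s' (h3 s' hfs)).symm
          · exact (hho o).symm
        · simp at hx

end Crest.Agent.R309.Exact9
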