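import Crest.Agent.R309.RAMProcess
import Crest.Agent.R309.Exact9Typed

/-!
# The process theorem in the form used by the exact sampler
-/

set_option autoImplicit false

namespace Crest.Agent.R309.RAM

open Crest.WordRAM hiding init
open Crest.Agent.Lib.PT Function
open scoped ENNReal

theorem ofReal_avg (n : ℕ) (g : List Bool → ℝ) (h : ∀ τ : List Bool, τ.length = n → 0 ≤ g τ) :
    0 ≤ Tape.avg n g ∧ ENNReal.ofReal (Tape.avg n g) = B n (fun τ => ENNReal.ofReal (g τ)) := by
  induction n generalizing g with
  | zero => exact ⟨h [] rfl, rfl⟩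
  | succ n ih =>
    obtain ⟨a1, a2⟩ := ih (fun l => g (false :: l)) fun τ hτ => h _ (by simp [hτ])
    obtain ⟨b1, b2⟩ := ih (fun l => g (true :: l)) fun τ hτ => h _ (by simp [hτ])
    rw [Tape.avg_succ]
    refine ⟨by positivity, ?_⟩
    rw [ENNReal.ofReal_div_of_pos (by norm_num), ENNReal.ofReal_add a1 b1, a2, b2]
    simp [B]

theorem ofReal_ind (p : Prop) : ENNReal.ofReal (Tape.ind p) = RAM.ind p := by
  by_cases hp : p
  · rw [RAM.ind_true hp]
    simp [Tape.ind, hp]
  · rw [RAM.ind_false hp]
    simp [Tape.ind, hp]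

/-- **ProcessSpec** -/
theorem processSpec : Exact9.ProcessSpec := by
  classical
  intro c F n hrun
  have hcK : c.maxVar < c.maxVar + 3 := by omega
  refine ⟨machine (c.maxVar + 3) .skip c, c.maxVar + 3, ?_⟩
  generalize hKdef : c.maxVar + 3 = K at hcK
  have hK3 : 2 < K := by omega
  intro w H L inv hw hH hL hLH h0 hinv hout
  have hB := two_pow_half (show 1 ≤ w by omega)
  -- the simulation
  have S : Sim (machine K .skip c) w L F {s | inv s} (false :: enc L) outOf
      (Exact9.scost w K L.length)
      (fun s => if s.head? = some true then Exact9.hcost s.length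
        else Exact9.rcost s.length (n s)) :=
    { Hd := Head w K .skip c
      nh := fun s c h => h.not_halted
      start := fun ρ => machine_start_skip ρ hK3 hcK hw hH L hL hLH
      round := by
        intro s hs hnh cf hcf ρ
        obtain ⟨h1, h2⟩ := hinv s hs hnh
        have hr := hrun s (rbits w ρ cf.drawn s.length) (rbits_length _ _ _ _)
        obtain ⟨t, c', g1, g2, g3, g4, g5⟩ := machine_round (n := n s) ρ hK3
          (show Cmd.maxVar .skip < K from (show (0 : ℕ) < K by omega)) hcK (by omega) hH hcf hnh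
          hr h1
        refine ⟨t, c', g1, ?_, g3, g4, g5⟩
        rw [if_neg hnh]
        exact g2
      stop := by
        intro s hs hh' cf hcf ρ
        obtain ⟨o, rfl, ho, hol⟩ := hout s hs hh'
        obtain ⟨t, c', h1, h2, h3, h4⟩ := machine_halt ρ hK3
          (show Cmd.maxVar .skip < K from (show (0 : ℕ) < K by omega)) hcK (by omega) hcf ho hol
        refine ⟨t, c', ?_, h2, h3, by rw [h4, outOf_eq]⟩
        rw [if_pos hh', List.length_cons]
        unfold Exact9.hcost
        omega
      mem0 := h0
      closed := fun s hs hnh τ hτ => (hinv s hs hnh).2 τ hτ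
      hw := by omega }
  refine ⟨?_, ?_⟩
  · intro ρ T out hh
    obtain ⟨s, hs, h1, h2⟩ := S.halts ρ T out hh
    obtain ⟨o, rfl, _, _⟩ := hout s hs h1
    rw [outOf_eq] at h2
    rw [← h2]
    exact hs
  · intro V hV0 hV1 hV2
    have htime : expectedTime (machine K .skip c) w L ≤
        ENNReal.ofReal ((Exact9.scost w K L.length : ℝ) + V (false :: enc L)) := by
      have := S.expectedTime_le (fun s => ENNReal.ofReal (V s)) ?_ ?_
      · rw [ENNReal.ofReal_add (by positivity) (hV0 _ h0), ENNReal.ofReal_natCast]
        exact this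
      · intro s hs hnh
        rw [if_neg hnh]
        obtain ⟨a1, a2⟩ := ofReal_avg s.length (fun τ => V (F s τ))
          (fun τ hτ => hV0 _ ((hinv s hs hnh).2 τ hτ))
        rw [← a2, ← ENNReal.ofReal_natCast, ← ENNReal.ofReal_add (by positivity) a1]
        exact ENNReal.ofReal_le_ofReal (hV1 s hs hnh)
      · intro s hs hh'
        rw [if_pos hh', ← ENNReal.ofReal_natCast]
        exact ENNReal.ofReal_le_ofReal (hV2 s hs hh')
    refine ⟨htime, ?_⟩
    intro Good h hh0 hh1 hh2
    have hfin : expectedTime (machine K .skip c) w L ≠ ⊤ :=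
      ne_top_of_le_ne_top ENNReal.ofReal_ne_top htime
    have := S.probHaltsWith_eq Good (fun s => ENNReal.ofReal (h s)) ?_ ?_ ?_ hfin
    · have hp : 0 ≤ probHaltsWith (machine K .skip c) w L Good := by
        unfold probHaltsWith
        apply Real.iSup_nonneg
        intro T
        unfold probAfter Crest.FinProb.uniformProb
        positivity
      exact (ENNReal.ofReal_eq_ofReal_iff hp (hh0 _ h0).1).1 this
    · intro s hs hnh
      obtain ⟨a1, a2⟩ := ofReal_avg s.length (fun τ => h (F s τ))
        (fun τ hτ => (hh0 _ ((hinv s hs hnh).2 τ hτ)).1)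
      rw [← a2, ← hh1 s hs hnh]
    · intro s hs hh'
      obtain ⟨o, rfl, _, _⟩ := hout s hs hh'
      rw [hh2 o hs, outOf_eq, ofReal_ind]
    · intro s hs
      rw [ENNReal.ofReal_le_one]
      exact (hh0 s hs).2

end Crest.Agent.R309.RAM
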