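import Crest.Agent.R309.Tape2

/-!
# Abstract bisection counting

A type `σ` of instances with a count `N`, a bisection `N s = N (lo s) + N (hi s)` and a randomised
coin whose bias is close to `N (lo s) / N s` gives an estimator of `N s`: follow the majority half and
multiply the inverse frequencies.
-/

set_option autoImplicit false

namespace Crest.Agent.R309.Count632

open Crest.Agent.R309.Tape

variable {σ : Type*}

/-- one bisection round: `(instance, numerator, denominator)` -/
def round (coin : σ → List Bool → Bool) (lo hi : σ → σ) (fin : σ → Bool) (r K : ℕ)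
    (x : σ × ℕ × ℕ) (l : List Bool) : σ × ℕ × ℕ :=
  bif fin x.1 then x else
    bif decide (K ≤ 2 * (blocks r K l).countP (coin x.1)) then
      (lo x.1, x.2.1 * K, x.2.2 * (blocks r K l).countP (coin x.1))
    else (hi x.1, x.2.1 * K, x.2.2 * (K - (blocks r K l).countP (coin x.1)))

/-- the instance of one run of the estimator -/
def base (coin : σ → List Bool → Bool) (lo hi : σ → σ) (fin leaf : σ → Bool) (r K J : ℕ)
    (s : σ) (l : List Bool) : ℚ :=
  bif leaf (runSteps (round coin lo hi fin r K) (K * r) J (s, 1, 1) l).1 then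
    ((runSteps (round coin lo hi fin r K) (K * r) J (s, 1, 1) l).2.1 : ℚ) /
      (runSteps (round coin lo hi fin r K) (K * r) J (s, 1, 1) l).2.2
  else 0

/-- the data of a bisection scheme -/
structure Split (N μ : σ → ℕ) (lo hi : σ → σ) (fin leaf : σ → Bool) (V : σ → Prop) : Prop where
  fin_of : ∀ s, V s → μ s = 0 → fin s = true
  mu_of : ∀ s, V s → fin s = true → μ s = 0
  V_lo : ∀ s, V s → fin s = false → V (lo s)
  V_hi : ∀ s, V s → fin s = false → V (hi s)
  mu_lo : ∀ s, V s → fin s = false → μ (lo s) < μ s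
  mu_hi : ∀ s, V s → fin s = false → μ (hi s) < μ s
  split : ∀ s, V s → fin s = false → N s = N (lo s) + N (hi s)
  fin_le : ∀ s, V s → fin s = true → N s ≤ 1
  leaf_iff : ∀ s, V s → (leaf s = true ↔ 0 < N s)

theorem step_arith {A N q η : ℝ} (hN : 0 < N) (hq : 1 / 2 ≤ q) (h : |q - A / N| < η)
    (hη : η ≤ 1 / 4) :
    0 < A ∧ (1 - 2 * η) * N ≤ A / q ∧ A / q ≤ (1 + 2 * η) * N := by
  rw [abs_lt] at h
  have hq0 : 0 < q := by linarith
  have hAN : A = A / N * N := by field_simp
  set p := A / N with hp
  have hp1 : q - η < p := by linarith [h.2]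
  have hp2 : p < q + η := by linarith [h.1]
  have hη0 : 0 < η := by linarith
  refine ⟨?_, ?_, ?_⟩
  · rw [hAN]; exact mul_pos (by linarith) hN
  · rw [le_div_iff₀ hq0, hAN]
    have : (1 - 2 * η) * q ≤ p := by nlinarith
    nlinarith
  · rw [div_le_iff₀ hq0, hAN]
    have : p ≤ (1 + 2 * η) * q := by nlinarith
    nlinarith

theorem blocks_countP_le (r K : ℕ) (l : List Bool) (P : List Bool → Bool) :
    (blocks r K l).countP P ≤ K := by
  have := List.countP_le_length (p := P) (l := blocks r K l)
  rwa [length_blocks] at this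

/-- the estimator is within `1 ± 1/E` with probability at least `3/4` -/
theorem base_pr {N μ : σ → ℕ} {lo hi : σ → σ} {fin leaf : σ → Bool} {V : σ → Prop}
    (hS : Split N μ lo hi fin leaf V) (coin : σ → List Bool → Bool) (r K J E : ℕ)
    (hJ : 1 ≤ J) (hE : 1 ≤ E) (hK : 64 * J ^ 3 * E ^ 2 ≤ K)
    (hcoin : ∀ s, V s → fin s = false → 0 < N s →
      |pr r (fun l => coin s l = true) - (N (lo s) : ℝ) / N s| ≤ 1 / (8 * J * E))
    (s₀ : σ) (hV : V s₀) (hμ : μ s₀ ≤ J) (hN : 0 < N s₀) :
    3 / 4 ≤ pr (J * (K * r)) (fun l =>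
      (1 - 1 / (E : ℚ)) * N s₀ ≤ base coin lo hi fin leaf r K J s₀ l ∧
      base coin lo hi fin leaf r K J s₀ l ≤ (1 + 1 / (E : ℚ)) * N s₀) := by
  have hJR : (1 : ℝ) ≤ J := by exact_mod_cast hJ
  have hER : (1 : ℝ) ≤ E := by exact_mod_cast hE
  have hKR : (64 : ℝ) * J ^ 3 * E ^ 2 ≤ K := by exact_mod_cast hK
  have hK0 : 0 < K := by
    refine lt_of_lt_of_le ?_ hK
    positivity
  have hKpos : (0 : ℝ) < K := by exact_mod_cast hK0
  set η : ℝ := 1 / (8 * J * E) with hηdef
  have hη0 : 0 < η := by rw [hηdef]; positivity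
  have hη8 : η ≤ 1 / 8 := by
    rw [hηdef]
    refine one_div_le_one_div_of_le (by norm_num) ?_
    nlinarith
  set x : ℝ := 2 * (2 * η) with hxdef
  have hx1 : x ≤ 1 / 2 := by rw [hxdef]; linarith
  have hx0 : 0 < x := by rw [hxdef]; linarith
  let Inv : ℕ → σ × ℕ × ℕ → Prop := fun i y =>
    V y.1 ∧ μ y.1 ≤ J - i ∧ 0 < N y.1 ∧ 0 < y.2.2 ∧
      (1 - x) ^ i * N s₀ ≤ (y.2.1 : ℝ) / y.2.2 * N y.1 ∧
      (y.2.1 : ℝ) / y.2.2 * N y.1 ≤ (1 + x) ^ i * N s₀
  have hmain := runSteps_inv (round coin lo hi fin r K) (K * r) Inv (1 / (4 * J)) (by positivity) J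
    (by
      rintro i hiJ ⟨s, a, d⟩ ⟨h1, h2, h3, h4, h5, h6⟩
      simp only at h1 h2 h3 h4 h5 h6
      have hN0 : (0 : ℝ) ≤ N s₀ := Nat.cast_nonneg _
      by_cases hf : fin s = true
      · -- nothing happens
        have e : ∀ l, round coin lo hi fin r K (s, a, d) l = (s, a, d) := by
          intro l; simp [round, hf]
        have : pr (K * r) (fun l => Inv (i + 1) (round coin lo hi fin r K (s, a, d) l)) = 1 := by
          refine pr_eq_one fun l _ => ?_
          rw [e]
          refine ⟨h1, ?_, h3, h4, ?_, ?_⟩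
          · have := hS.mu_of s h1 hf
            simp only; omega
          · refine le_trans ?_ h5
            refine mul_le_mul_of_nonneg_right ?_ hN0
            exact pow_le_pow_of_le_one (by linarith) (by linarith) (Nat.le_succ i)
          · refine h6.trans ?_
            refine mul_le_mul_of_nonneg_right ?_ hN0
            exact pow_le_pow_right₀ (by linarith) (Nat.le_succ i)
        rw [this]
        have : (0 : ℝ) ≤ 1 / (4 * J) := by positivity
        linarith
      · have hf' : fin s = false := by simpa using hf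
        have hc := hcoin s h1 hf' h3
        have hch := chebyshev r K (coin s) _ rfl η hη0 hK0
        have hbound : 1 / (4 * (K : ℝ) * η ^ 2) ≤ 1 / (4 * J) := by
          refine one_div_le_one_div_of_le (by positivity) ?_
          have e : η ^ 2 = 1 / (64 * J ^ 2 * E ^ 2) := by
            rw [hηdef, div_pow, one_pow]; ring
          rw [e, mul_one_div, le_div_iff₀ (by positivity)]
          nlinarith
        have hcompl : 1 - 1 / (4 * (J : ℝ)) ≤ pr (K * r) (fun t => ¬ (η ≤ |(((blocks r K t).countP (coin s) : ℕ) : ℝ) / K - pr r (fun l => coin s l = true)|)) := by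
          rw [pr_not]; linarith
        refine hcompl.trans (pr_mono fun t ht hgood => ?_)
        push Not at hgood
        set c := (blocks r K t).countP (coin s) with hcdef
        have hcK : c ≤ K := blocks_countP_le r K t (coin s)
        have hcKR : (c : ℝ) ≤ K := by exact_mod_cast hcK
        set p : ℝ := (N (lo s) : ℝ) / N s with hpdef
        have hdev : |(c : ℝ) / K - p| < 2 * η := by
          calc |(c : ℝ) / K - p| ≤ |(c : ℝ) / K - pr r (fun l => coin s l = true)| +
              |pr r (fun l => coin s l = true) - p| := abs_sub_le _ _ _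
            _ < 2 * η := by linarith
        have hsplit : (N s : ℝ) = N (lo s) + N (hi s) := by
          exact_mod_cast hS.split s h1 hf'
        have hNs : (0 : ℝ) < N s := by exact_mod_cast h3
        have had : (0 : ℝ) ≤ (a : ℝ) / d := by positivity
        have hd0 : (0 : ℝ) < d := by exact_mod_cast h4
        -- generic closing argument
        have close : ∀ (s' : σ) (c' : ℕ), 1 / 2 ≤ (c' : ℝ) / K →
            |(c' : ℝ) / K - (N s' : ℝ) / N s| < 2 * η → V s' → μ s' < μ s →
            Inv (i + 1) (s', a * K, d * c') := by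
          intro s' c' hc' hdev' hV' hμ'
          obtain ⟨g1, g2, g3⟩ := step_arith hNs hc' hdev' (by linarith)
          have hc'0 : 0 < c' := by
            by_contra h
            have : c' = 0 := by omega
            rw [this] at hc'
            norm_num at hc'
          have hc'R : (0 : ℝ) < c' := by exact_mod_cast hc'0
          have e : ((a * K : ℕ) : ℝ) / ((d * c' : ℕ) : ℝ) * N s' =
              (a : ℝ) / d * ((N s' : ℝ) / ((c' : ℝ) / K)) := by
            push_cast
            field_simp
          refine ⟨hV', ?_, by exact_mod_cast g1, Nat.mul_pos h4 hc'0, ?_, ?_⟩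
          · simp only; omega
          · rw [e]
            calc (1 - x) ^ (i + 1) * N s₀ = (1 - x) * ((1 - x) ^ i * N s₀) := by ring
              _ ≤ (1 - x) * ((a : ℝ) / d * N s) :=
                  mul_le_mul_of_nonneg_left h5 (by linarith)
              _ = (a : ℝ) / d * ((1 - x) * N s) := by ring
              _ ≤ (a : ℝ) / d * ((N s' : ℝ) / ((c' : ℝ) / K)) :=
                  mul_le_mul_of_nonneg_left g2 had
          · rw [e]
            calc (a : ℝ) / d * ((N s' : ℝ) / ((c' : ℝ) / K)) ≤ (a : ℝ) / d * ((1 + x) * N s) :=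
                  mul_le_mul_of_nonneg_left g3 had
              _ = (1 + x) * ((a : ℝ) / d * N s) := by ring
              _ ≤ (1 + x) * ((1 + x) ^ i * N s₀) :=
                  mul_le_mul_of_nonneg_left h6 (by linarith)
              _ = (1 + x) ^ (i + 1) * N s₀ := by ring
        have hround : round coin lo hi fin r K (s, a, d) t =
            if K ≤ 2 * c then (lo s, a * K, d * c) else (hi s, a * K, d * (K - c)) := by
          simp only [round, hf', cond_false, ← hcdef]
          by_cases h : K ≤ 2 * c <;> simp [h]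
        rw [hround]
        by_cases h2c : K ≤ 2 * c
        · rw [if_pos h2c]
          have h2cR : (K : ℝ) ≤ 2 * c := by exact_mod_cast h2c
          refine close (lo s) c ?_ hdev (hS.V_lo s h1 hf') (hS.mu_lo s h1 hf')
          rw [div_le_div_iff₀ (by norm_num) hKpos]; linarith
        · rw [if_neg h2c]
          have h2cR : 2 * (c : ℝ) ≤ K := by
            have : 2 * c ≤ K := by omega
            exact_mod_cast this
          have hsub : ((K - c : ℕ) : ℝ) / K = 1 - (c : ℝ) / K := by
            rw [Nat.cast_sub hcK]; field_simp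
          refine close (hi s) (K - c) ?_ ?_ (hS.V_hi s h1 hf') (hS.mu_hi s h1 hf')
          · rw [hsub]
            have : (c : ℝ) / K ≤ 1 / 2 := by
              rw [div_le_div_iff₀ hKpos (by norm_num)]; linarith
            linarith
          · rw [hsub]
            have : (N (hi s) : ℝ) / N s = 1 - p := by
              rw [hpdef, eq_sub_iff_add_eq, ← add_div, div_eq_one_iff_eq hNs.ne']
              linarith
            rw [this]
            have e : 1 - (c : ℝ) / K - (1 - p) = -((c : ℝ) / K - p) := by ring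
            rw [e, abs_neg]
            exact hdev)
    J 0 (by omega) (s₀, 1, 1) ⟨hV, by simpa using hμ, hN, by norm_num, by simp, by simp⟩
  have h34 : (3 : ℝ) / 4 ≤ 1 - J * (1 / (4 * J)) := by
    have : (J : ℝ) * (1 / (4 * J)) = 1 / 4 := by field_simp
    rw [this]; norm_num
  refine h34.trans (hmain.trans (pr_mono fun l _ hI => ?_))
  set y := runSteps (round coin lo hi fin r K) (K * r) J (s₀, 1, 1) l with hy
  obtain ⟨h1, h2, h3, h4, h5, h6⟩ := hI
  have hfin : fin y.1 = true := hS.fin_of _ h1 (by omega)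
  have hN1 : N y.1 = 1 := by
    have := hS.fin_le _ h1 hfin
    omega
  have hleaf : leaf y.1 = true := (hS.leaf_iff _ h1).2 h3
  have hbase : base coin lo hi fin leaf r K J s₀ l = (y.2.1 : ℚ) / y.2.2 := by
    simp only [base, ← hy, hleaf, cond_true]
  rw [hN1] at h5 h6
  simp only [Nat.cast_one, mul_one] at h5 h6
  have hJx : (J : ℝ) * x = 1 / (2 * E) := by
    rw [hxdef, hηdef]; field_simp; ring
  have hE0 : (0 : ℝ) < E := by linarith
  have hNs0 : (0 : ℝ) ≤ N s₀ := Nat.cast_nonneg _
  have hlow : 1 - 1 / (E : ℝ) ≤ (1 - x) ^ J := by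
    have hb := one_add_mul_le_pow (a := -x) (by linarith) J
    have e1 : 1 + (J : ℝ) * -x = 1 - 1 / (2 * E) := by rw [mul_neg, hJx]; ring
    rw [e1] at hb
    have e2 : (1 : ℝ) + -x = 1 - x := by ring
    rw [e2] at hb
    refine le_trans ?_ hb
    have : 1 / (2 * (E : ℝ)) ≤ 1 / E := one_div_le_one_div_of_le hE0 (by linarith)
    linarith
  have hhigh : (1 + x) ^ J ≤ 1 + 1 / (E : ℝ) := by
    have h7 : (1 + x) ^ J ≤ Real.exp (J * x) := by
      have := Real.add_one_le_exp x
      calc (1 + x) ^ J ≤ (Real.exp x) ^ J := pow_le_pow_left₀ (by linarith) (by linarith) J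
        _ = Real.exp (J * x) := by rw [← Real.exp_nat_mul]
    refine h7.trans ?_
    rw [hJx]
    have h8 : (0 : ℝ) ≤ 1 / (2 * E) := by positivity
    have h9 : 1 / (2 * (E : ℝ)) ≤ 1 / 2 := one_div_le_one_div_of_le (by norm_num) (by linarith)
    have h10 := Real.abs_exp_sub_one_sub_id_le (x := 1 / (2 * (E : ℝ))) (by
      rw [abs_of_nonneg h8]; linarith)
    have h11 := le_of_abs_le h10
    have e3 : 1 / (E : ℝ) = 2 * (1 / (2 * E)) := by field_simp
    rw [e3]
    nlinarith
  constructor
  · rw [hbase]
    have : (((1 - 1 / (E : ℚ)) * N s₀ : ℚ) : ℝ) ≤ (((y.2.1 : ℚ) / y.2.2 : ℚ) : ℝ) := by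
      push_cast
      exact (mul_le_mul_of_nonneg_right hlow hNs0).trans h5
    exact_mod_cast this
  · rw [hbase]
    have : (((y.2.1 : ℚ) / y.2.2 : ℚ) : ℝ) ≤ (((1 + 1 / (E : ℚ)) * N s₀ : ℚ) : ℝ) := by
      push_cast
      exact h6.trans (mul_le_mul_of_nonneg_right hhigh hNs0)
    exact_mod_cast this

/-- the estimator is nonnegative -/
theorem base_nonneg (coin : σ → List Bool → Bool) (lo hi : σ → σ) (fin leaf : σ → Bool) (r K J : ℕ)
    (s : σ) (l : List Bool) : 0 ≤ base coin lo hi fin leaf r K J s l := by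
  unfold base
  cases leaf (runSteps (round coin lo hi fin r K) (K * r) J (s, 1, 1) l).1
  · simp
  · simp only [cond_true]; positivity

/-- a deterministic invariant of `runSteps` -/
theorem runSteps_det {S : Type*} (f : S → List Bool → S) (r : ℕ) (P : S → Prop)
    (h : ∀ s l, P s → P (f s l)) (n : ℕ) (s : S) (l : List Bool) (hs : P s) :
    P (runSteps f r n s l) := by
  induction n generalizing s l with
  | zero => exact hs
  | succ n ih => exact ih _ _ (h _ _ hs)

/-- if there is nothing to count the estimator is exactly `0` on every tape -/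
theorem base_eq_zero {N μ : σ → ℕ} {lo hi : σ → σ} {fin leaf : σ → Bool} {V : σ → Prop}
    (hS : Split N μ lo hi fin leaf V) (coin : σ → List Bool → Bool) (r K J : ℕ)
    (s : σ) (hV : V s) (hN : N s = 0) (l : List Bool) :
    base coin lo hi fin leaf r K J s l = 0 := by
  have h := runSteps_det (round coin lo hi fin r K) (K * r) (fun y => V y.1 ∧ N y.1 = 0) (by
    rintro ⟨s, a, d⟩ l ⟨h1, h2⟩
    simp only at h1 h2
    by_cases hf : fin s = true
    · simpa [round, hf] using ⟨h1, h2⟩
    · have hf' : fin s = false := by simpa using hf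
      have hsplit := hS.split s h1 hf'
      simp only [round, hf', cond_false]
      by_cases h : K ≤ 2 * (blocks r K l).countP (coin s)
      · simp only [h, decide_true, cond_true]
        exact ⟨hS.V_lo s h1 hf', by omega⟩
      · simp only [h, decide_false, cond_false]
        exact ⟨hS.V_hi s h1 hf', by omega⟩) J (s, 1, 1) l ⟨hV, hN⟩
  unfold base
  have hl : leaf (runSteps (round coin lo hi fin r K) (K * r) J (s, 1, 1) l).1 = false := by
    have := (hS.leaf_iff _ h.1).1.mt (by omega)
    simpa using this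
  rw [hl]
  rfl

/-- the amplified estimator -/
def est (coin : σ → List Bool → Bool) (lo hi : σ → σ) (fin leaf : σ → Bool) (r K J M : ℕ)
    (s : σ) (l : List Bool) : ℚ :=
  med ((blocks (J * (K * r)) (2 * M) l).map (base coin lo hi fin leaf r K J s))

theorem est_mem (coin : σ → List Bool → Bool) (lo hi : σ → σ) (fin leaf : σ → Bool) (r K J M : ℕ)
    (s : σ) (l : List Bool) (P : ℚ → Prop) (h0 : P 0)
    (h : ∀ l, P (base coin lo hi fin leaf r K J s l)) :
    P (est coin lo hi fin leaf r K J M s l) := by
  unfold est med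
  rcases hf : ((blocks (J * (K * r)) (2 * M) l).map (base coin lo hi fin leaf r K J s)).find?
    (fun z => decide (2 * ((blocks (J * (K * r)) (2 * M) l).map (base coin lo hi fin leaf r K J s)).countP (fun x => decide (x < z)) ≤ ((blocks (J * (K * r)) (2 * M) l).map (base coin lo hi fin leaf r K J s)).length) &&
    decide (2 * ((blocks (J * (K * r)) (2 * M) l).map (base coin lo hi fin leaf r K J s)).countP (fun x => decide (z < x)) ≤ ((blocks (J * (K * r)) (2 * M) l).map (base coin lo hi fin leaf r K J s)).length)) with _ | z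
  · simpa using h0
  · have := List.mem_of_find?_eq_some hf
    obtain ⟨l', _, rfl⟩ := List.mem_map.1 this
    exact h l'

theorem est_nonneg (coin : σ → List Bool → Bool) (lo hi : σ → σ) (fin leaf : σ → Bool) (r K J M : ℕ)
    (s : σ) (l : List Bool) : 0 ≤ est coin lo hi fin leaf r K J M s l :=
  est_mem coin lo hi fin leaf r K J M s l (fun z => 0 ≤ z) le_rfl
    (fun l => base_nonneg coin lo hi fin leaf r K J s l)

theorem est_eq_zero {N μ : σ → ℕ} {lo hi : σ → σ} {fin leaf : σ → Bool} {V : σ → Prop}
    (hS : Split N μ lo hi fin leaf V) (coin : σ → List Bool → Bool) (r K J M : ℕ)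
    (s : σ) (hV : V s) (hN : N s = 0) (l : List Bool) :
    est coin lo hi fin leaf r K J M s l = 0 :=
  est_mem coin lo hi fin leaf r K J M s l (fun z => z = 0) rfl
    (fun l => base_eq_zero hS coin r K J s hV hN l)

/-- the amplified estimator is within `1 ± 1/E` with probability at least `1 - (3/4)^M` -/
theorem est_pr {N μ : σ → ℕ} {lo hi : σ → σ} {fin leaf : σ → Bool} {V : σ → Prop}
    (hS : Split N μ lo hi fin leaf V) (coin : σ → List Bool → Bool) (r K J E M : ℕ)
    (hJ : 1 ≤ J) (hE : 1 ≤ E) (hK : 64 * J ^ 3 * E ^ 2 ≤ K)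
    (hcoin : ∀ s, V s → fin s = false → 0 < N s →
      |pr r (fun l => coin s l = true) - (N (lo s) : ℝ) / N s| ≤ 1 / (8 * J * E))
    (s₀ : σ) (hV : V s₀) (hμ : μ s₀ ≤ J) :
    1 - (3 / 4) ^ M ≤ pr (2 * M * (J * (K * r))) (fun l =>
      (1 - 1 / (E : ℚ)) * N s₀ ≤ est coin lo hi fin leaf r K J M s₀ l ∧
      est coin lo hi fin leaf r K J M s₀ l ≤ (1 + 1 / (E : ℚ)) * N s₀) := by
  rcases Nat.eq_zero_or_pos (N s₀) with h0 | hN
  · rw [pr_eq_one]
    · have : (0 : ℝ) ≤ (3 / 4) ^ M := by positivity
      linarith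
    · intro l _
      rw [est_eq_zero hS coin r K J M s₀ hV h0 l, h0]
      simp
  · exact pr_med _ _ _ _ _ (base_pr hS coin r K J E hJ hE hK hcoin s₀ hV hμ hN)

end Crest.Agent.R309.Count632
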