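import Crest.Agent.R309.FeasPT
import Crest.Prelude.Def_Tables

/-!
# Row 309: the feasibility oracle

`feas : Inst → Option (List (List ℕ))`, `ptf_feas`, `feas_some`, `feas_none`, `feas_isSome_iff`,
`numBoundedTables_pos_iff`.
-/

set_option autoImplicit false

namespace Crest.Agent.R309.Feas

open Finset Crest.Agent.Lib.PT Crest.Tables

/-- table instances: row sums, column sums, cell bounds -/
abbrev Inst : Type := List ℕ × List ℕ × List (List ℕ)

/-- the instance given by functions -/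
def mkInst {m n : ℕ} (rs : Fin m → ℕ) (cs : Fin n → ℕ) (b : Fin m → Fin n → ℕ) : Inst :=
  (List.ofFn rs, List.ofFn cs, List.ofFn fun i => List.ofFn (b i))

/-- the matrix of a function -/
def ofFn2 {m n : ℕ} (X : Fin m → Fin n → ℕ) : List (List ℕ) := List.ofFn fun i => List.ofFn (X i)

/-- the feasibility oracle: a table with the given margins and bounds, if there is one -/
def feas (x : Inst) : Option (List (List ℕ)) :=
  (feasCore x.1.length x.2.1.length x.1 x.2.1 x.2.2).map fun X =>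
    tab x.1.length x.2.1.length (get X)

theorem ptf_feas : PTF feas := by
  have h1 : PTF (fun x : Inst => x.1) := by fun_prop
  have h2 : PTF (fun x : Inst => x.2.1) := by fun_prop
  have h3 : PTF (fun x : Inst => x.2.2) := by fun_prop
  have hm : PTU (fun x : Inst => x.1.length) := PTU.length h1
  have hn : PTU (fun x : Inst => x.2.1.length) := PTU.length h2
  refine PTF.optionMap (g := fun (x : Inst) X => tab x.1.length x.2.1.length (get X))
    (ptf_feasCore hm hn h1 h2 h3) ?_
  refine ptf_tab (γ := Inst × Mat) (m := fun q => q.1.1.length) (n := fun q => q.1.2.1.length)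
    (PTU.comp (n := fun x : Inst => x.1.length) (f := fun q : Inst × Mat => q.1) hm PTF.fst)
    (PTU.comp (n := fun x : Inst => x.2.1.length) (f := fun q : Inst × Mat => q.1) hn PTF.fst)
    (f := fun q i j => get q.2 i j) ?_
  exact ptf_get (PTF.snd.comp (PTF.fst.comp PTF.fst)) (PTF.snd.comp PTF.fst) PTF.snd

/-! ### translation to functions -/

theorem getD_ofFn {α : Type} {m : ℕ} (f : Fin m → α) (i : Fin m) (d : α) :
    (List.ofFn f).getD i d = f i := by
  rw [List.getD_eq_getElem?_getD, List.getElem?_eq_getElem (by simp)]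
  simp

theorem get_ofFn2 {m n : ℕ} (X : Fin m → Fin n → ℕ) (i : Fin m) (j : Fin n) :
    get (ofFn2 X) i j = X i j := by
  unfold get ofFn2
  rw [getD_ofFn, getD_ofFn]

theorem tab_eq_ofFn2 (m n : ℕ) (f : ℕ → ℕ → ℕ) :
    tab m n f = ofFn2 (fun (i : Fin m) (j : Fin n) => f i j) := by
  unfold tab ofFn2
  have h : ∀ {β : Type} (k : ℕ) (g : ℕ → β), (List.range k).map g = List.ofFn fun i : Fin k => g i := by
    intro β k g
    apply List.ext_getElem
    · simp
    · intro i h1 h2
      simp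
  rw [h m]
  congr 1
  funext i
  rw [h n]

theorem ofFn2_inj {m n : ℕ} {X Y : Fin m → Fin n → ℕ} (h : ofFn2 X = ofFn2 Y) : X = Y := by
  funext i j
  rw [← get_ofFn2 X i j, ← get_ofFn2 Y i j, h]

/-- a bounded table, in `Fin` form -/
def IsBTable {m n : ℕ} (rs : Fin m → ℕ) (cs : Fin n → ℕ) (b X : Fin m → Fin n → ℕ) : Prop :=
  (∀ i j, X i j ≤ b i j) ∧ (∀ i, ∑ j, X i j = rs i) ∧ ∀ j, ∑ i, X i j = cs j

theorem tab_iff {m n : ℕ} {rs : Fin m → ℕ} {cs : Fin n → ℕ} {b : Fin m → Fin n → ℕ}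
    {X : ℕ → ℕ → ℕ} :
    Tab m n (fun i => (List.ofFn rs).getD i 0) (fun j => (List.ofFn cs).getD j 0)
      (get (ofFn2 b)) X ↔ IsBTable rs cs b (fun i j => X i j) := by
  constructor
  · intro h
    refine ⟨fun i j => ?_, fun i => ?_, fun j => ?_⟩
    · have := h.le i i.2 j j.2
      rwa [get_ofFn2] at this
    · have := h.row i i.2
      simp only [getD_ofFn] at this
      rw [← this, Finset.sum_range]
    · have := h.col j j.2
      simp only [getD_ofFn] at this
      rw [← this, Finset.sum_range]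
  · rintro ⟨h1, h2, h3⟩
    refine ⟨fun i hi j hj => ?_, fun i hi => ?_, fun j hj => ?_⟩
    · have := h1 ⟨i, hi⟩ ⟨j, hj⟩
      have e := get_ofFn2 b ⟨i, hi⟩ ⟨j, hj⟩
      simp only at e this
      rw [e]
      exact this
    · have := h2 ⟨i, hi⟩
      have e := getD_ofFn rs ⟨i, hi⟩ 0
      simp only at e this ⊢
      rw [e, ← this, Finset.sum_range]
    · have := h3 ⟨j, hj⟩
      have e := getD_ofFn cs ⟨j, hj⟩ 0
      simp only at e this ⊢
      rw [e, ← this, Finset.sum_range]

theorem feas_some {m n : ℕ} {rs : Fin m → ℕ} {cs : Fin n → ℕ} {b : Fin m → Fin n → ℕ}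
    {X : List (List ℕ)} (h : feas (mkInst rs cs b) = some X) :
    ∃ Y : Fin m → Fin n → ℕ, X = ofFn2 Y ∧ IsBTable rs cs b Y := by
  unfold feas mkInst at h
  simp only [List.length_ofFn] at h
  obtain ⟨Z, hZ, rfl⟩ := Option.map_eq_some_iff.1 h
  refine ⟨fun i j => get Z i j, tab_eq_ofFn2 _ _ _, ?_⟩
  exact tab_iff.1 (feasCore_some hZ)

theorem feas_none {m n : ℕ} {rs : Fin m → ℕ} {cs : Fin n → ℕ} {b : Fin m → Fin n → ℕ}
    (h : feas (mkInst rs cs b) = none) (Y : Fin m → Fin n → ℕ) : ¬ IsBTable rs cs b Y := by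
  unfold feas mkInst at h
  simp only [List.length_ofFn, Option.map_eq_none_iff] at h
  intro hY
  refine feasCore_none h (fun i j => get (ofFn2 Y) i j) ((tab_iff (rs := rs) (cs := cs) (b := b)).2 ?_)
  have : (fun (i : Fin m) (j : Fin n) => get (ofFn2 Y) i j) = Y := by
    funext i j
    exact get_ofFn2 Y i j
  simpa [this] using hY

theorem feas_isSome_iff {m n : ℕ} {rs : Fin m → ℕ} {cs : Fin n → ℕ} {b : Fin m → Fin n → ℕ} :
    (feas (mkInst rs cs b)).isSome = true ↔ ∃ Y, IsBTable rs cs b Y := by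
  constructor
  · intro h
    obtain ⟨X, hX⟩ := Option.isSome_iff_exists.1 h
    obtain ⟨Y, _, hY⟩ := feas_some hX
    exact ⟨Y, hY⟩
  · rintro ⟨Y, hY⟩
    by_contra h
    exact feas_none (by simpa using h) Y hY

/-- bounded tables as functions into `ℕ` -/
theorem numBoundedTables_pos_iff {m n : ℕ} {rs : Fin m → ℕ} {cs : Fin n → ℕ}
    {b : Fin m → Fin n → ℕ} : 0 < numBoundedTables rs cs b ↔ ∃ Y, IsBTable rs cs b Y := by
  unfold numBoundedTables
  rw [Fintype.card_pos_iff]
  constructor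
  · rintro ⟨X, h1, h2⟩
    exact ⟨fun i j => X i j, fun i j => Nat.lt_succ_iff.1 (X i j).2, h1, h2⟩
  · rintro ⟨Y, h0, h1, h2⟩
    exact ⟨⟨fun i j => ⟨Y i j, Nat.lt_succ_of_le (h0 i j)⟩, h1, h2⟩⟩

theorem feas_eq_none_iff {m n : ℕ} {rs : Fin m → ℕ} {cs : Fin n → ℕ} {b : Fin m → Fin n → ℕ} :
    feas (mkInst rs cs b) = none ↔ numBoundedTables rs cs b = 0 := by
  rw [← not_iff_not, ← ne_eq (numBoundedTables rs cs b), ← Nat.pos_iff_ne_zero,
    numBoundedTables_pos_iff, ← feas_isSome_iff]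
  cases feas (mkInst rs cs b) <;> simp

end Crest.Agent.R309.Feas
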