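import Crest.Agent.R287.Codec
import Crest.Agent.Lib.PT.ArithRat
import Crest.Agent.Lib.PT.ArithMore
import Crest.Agent.R309.Feas
import Crest.Prelude.Def_Tables
import Crest.Prelude.Def_BitEnc

/-!
# Row 309: codes of inputs and outputs

* `readK k l`: read `k` natural numbers; `readRat l`: read a rational.
* `parseIn : List Bool → Inst × ℚ × ℚ × List Bool` for S0479 (`parseIn_code`, `ptf_parseIn`).
* `parseM : List Bool → (List ℕ × List ℕ) × List Bool` for S0480 (`parseM_code`, `ptf_parseM`).
* `matCode : List (List ℕ) → List Bool` with the dimensions given (`matCode_eq`, `ptf_matCode`).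
* `ptf_ratCode`.
-/

set_option autoImplicit false

namespace Crest.Agent.R309.Parse

open Crest.Agent.Lib.PT Crest.Enc Crest.Tables Crest.Agent.R309.Feas Crest.Agent.R287

/-- read one more number -/
def rkStep (s : List ℕ × List Bool) : List ℕ × List Bool :=
  ((readNat s.2).1 :: s.1, (readNat s.2).2)

/-- read `k` natural numbers (at most as many as there are bits) -/
def readK (k : ℕ) (l : List Bool) : List ℕ × List Bool :=
  ((rkStep^[min k l.length] ([], l)).1.reverse, (rkStep^[min k l.length] ([], l)).2)

theorem rkStep_iter (ns acc : List ℕ) (r : List Bool) :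
    rkStep^[ns.length] (acc, (ns.map natCode).flatten ++ r) = (ns.reverse ++ acc, r) := by
  induction ns generalizing acc with
  | nil => simp
  | cons n ns ih =>
    rw [List.length_cons, Function.iterate_succ_apply, List.map_cons, List.flatten_cons,
      List.append_assoc]
    have h : rkStep (acc, natCode n ++ ((ns.map natCode).flatten ++ r)) =
        (n :: acc, (ns.map natCode).flatten ++ r) := by
      unfold rkStep
      simp only [readNat_natCode]
    rw [h, ih]
    simp

theorem readK_code (ns : List ℕ) (r : List Bool) :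
    readK ns.length ((ns.map natCode).flatten ++ r) = (ns, r) := by
  unfold readK
  have h : min ns.length ((ns.map natCode).flatten ++ r).length = ns.length := by
    refine min_eq_left ?_
    have := length_le_natCodes ns
    rw [List.length_append]
    omega
  rw [h, rkStep_iter]
  simp

/-- read a rational -/
def readRat (l : List Bool) : ℚ × List Bool :=
  (mkRat (bif l.headD false then -((readNat l.tail).1 : ℤ) else ((readNat l.tail).1 : ℤ))
      (readNat (readNat l.tail).2).1,
    (readNat (readNat l.tail).2).2)

theorem readRat_code (q : ℚ) (r : List Bool) : readRat (ratCode q ++ r) = (q, r) := by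
  unfold readRat ratCode
  simp only [List.cons_append, List.headD_cons, List.tail_cons, List.append_assoc,
    readNat_natCode]
  refine Prod.ext ?_ rfl
  simp only
  have h : (bif decide (q.num < 0) then -((q.num.natAbs : ℕ) : ℤ) else ((q.num.natAbs : ℕ) : ℤ)) =
      q.num := by
    by_cases h : q.num < 0
    · simp [h, abs_of_neg h]
    · push Not at h
      simp [not_lt.2 h, abs_of_nonneg h]
  rw [h, Rat.mkRat_self]

/-- rows of a matrix with `n` columns from the list of its entries -/
def rowsOf (m n : ℕ) (l : List ℕ) : List (List ℕ) := tab m n fun i j => l.getD (i * n + j) 0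

theorem getD_flatten_const {α : Type} {n : ℕ} (L : List (List α)) (hL : ∀ l ∈ L, l.length = n)
    (i j : ℕ) (hj : j < n) (d : α) :
    L.flatten.getD (i * n + j) d = (L.getD i []).getD j d := by
  induction L generalizing i with
  | nil => simp
  | cons a L ih =>
    have ha : a.length = n := hL a (by simp)
    cases i with
    | zero =>
      simp only [Nat.zero_mul, Nat.zero_add, List.flatten_cons, List.getD_cons_zero]
      rw [List.getD_append _ _ _ _ (by omega)]
    | succ i =>
      have e : (i + 1) * n + j = a.length + (i * n + j) := by rw [ha]; ring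
      rw [e, List.flatten_cons, List.getD_append_right _ _ _ _ (by omega),
        Nat.add_sub_cancel_left, ih (fun l hl => hL l (by simp [hl])) i]
      rfl

theorem rowsOf_flatten {m n : ℕ} (X : Fin m → Fin n → ℕ) :
    rowsOf m n ((ofFn2 X).flatten) = ofFn2 X := by
  unfold rowsOf
  rw [tab_eq_ofFn2]
  congr 1
  funext i j
  rw [getD_flatten_const (n := n) _ (by
    intro l hl
    unfold ofFn2 at hl
    obtain ⟨i, rfl⟩ := (List.mem_ofFn' _ _).1 hl
    simp) _ _ j.2]
  exact get_ofFn2 X i j

theorem boundsCode_eq {m n : ℕ} (b : Fin m → Fin n → ℕ) :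
    boundsCode b = (((ofFn2 b).flatten).map natCode).flatten := by
  unfold boundsCode ofFn2
  rw [List.map_flatten, List.flatten_flatten, List.map_ofFn, List.map_ofFn]
  rfl

theorem matrixCode_eq {m n : ℕ} (X : Fin m → Fin n → ℕ) :
    matrixCode X = natCode m ++ natCode n ++ (((ofFn2 X).flatten).map natCode).flatten := by
  have := boundsCode_eq X
  unfold boundsCode at this
  unfold matrixCode
  rw [this]

theorem length_flatten_ofFn2 {m n : ℕ} (X : Fin m → Fin n → ℕ) :
    ((ofFn2 X).flatten).length = m * n := by
  unfold ofFn2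
  rw [List.length_flatten, List.map_ofFn]
  have h : (List.length ∘ fun i => List.ofFn (X i)) = fun _ : Fin m => n := by
    funext i
    simp
  rw [h, List.ofFn_const]
  simp

/-- parse margins -/
def parseM (l : List Bool) : (List ℕ × List ℕ) × List Bool :=
  let m := (readNat l).1
  let n := (readNat (readNat l).2).1
  let t := (readNat (readNat l).2).2
  (((readK m t).1, (readK n (readK m t).2).1), (readK n (readK m t).2).2)

theorem parseM_code {m n : ℕ} (rs : Fin m → ℕ) (cs : Fin n → ℕ) (r : List Bool) :
    parseM (marginsCode rs cs ++ r) = ((List.ofFn rs, List.ofFn cs), r) := by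
  unfold parseM marginsCode
  simp only [List.append_assoc, readNat_natCode]
  have h1 := readK_code (List.ofFn rs) (((List.ofFn cs).map natCode).flatten ++ r)
  rw [List.length_ofFn] at h1
  rw [h1]
  simp only
  have h2 := readK_code (List.ofFn cs) r
  rw [List.length_ofFn] at h2
  rw [h2]

/-- parse an input of S0479: instance, `ε`, `δ`, rest -/
def parseIn (l : List Bool) : Inst × ℚ × ℚ × List Bool :=
  let M := parseM l
  let m := M.1.1.length
  let n := M.1.2.length
  let B := readK (m * n) M.2
  let E := readRat B.2
  let D := readRat E.2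
  ((M.1.1, M.1.2, rowsOf m n B.1), E.1, D.1, D.2)

theorem parseIn_code {m n : ℕ} (rs : Fin m → ℕ) (cs : Fin n → ℕ) (b : Fin m → Fin n → ℕ)
    (ε δ : ℚ) (r : List Bool) :
    parseIn (marginsCode rs cs ++ boundsCode b ++ ratCode ε ++ ratCode δ ++ r) =
      (mkInst rs cs b, ε, δ, r) := by
  unfold parseIn
  simp only [List.append_assoc, parseM_code, List.length_ofFn]
  rw [boundsCode_eq]
  have h := readK_code ((ofFn2 b).flatten) (ratCode ε ++ (ratCode δ ++ r))
  rw [length_flatten_ofFn2] at h
  rw [h]
  simp only [readRat_code, rowsOf_flatten]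
  rfl

/-- code of a matrix given as a list of lists with given dimensions -/
def matCode (m n : ℕ) (X : List (List ℕ)) : List Bool :=
  natCode m ++ natCode n ++ ((X.flatten).map natCode).flatten

theorem matCode_eq {m n : ℕ} (X : Fin m → Fin n → ℕ) : matCode m n (ofFn2 X) = matrixCode X :=
  (matrixCode_eq X).symm

/-! ### polynomial time -/

section pt

variable {γ : Type} [PTCode γ]

theorem readNat_len (l : List Bool) : (readNat l).2.length ≤ l.length := by
  have := readNat_size l
  omega

theorem rkStep_size (s : List ℕ × List Bool) :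
    sz (rkStep s).1 + (rkStep s).2.length ≤ sz s.1 + s.2.length + 1 := by
  unfold rkStep
  simp only [sz_cons]
  have := readNat_size s.2
  omega

theorem rkStep_iter_size (k : ℕ) (s : List ℕ × List Bool) :
    sz (rkStep^[k] s).1 + (rkStep^[k] s).2.length ≤ sz s.1 + s.2.length + k := by
  induction k with
  | zero => simp
  | succ k ih =>
    rw [Function.iterate_succ_apply']
    have := rkStep_size (rkStep^[k] s)
    omega

theorem ptf_readK {k : γ → ℕ} {l : γ → List Bool} (hk : PTF k) (hl : PTF l) :
    PTF (fun c => readK (k c) (l c)) := by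
  have hst : PTF rkStep := by
    unfold rkStep
    have h := ptf_readNat (γ := List ℕ × List Bool) (l := fun s => s.2) (by fun_prop)
    exact PTF.prodMk (PTF.listCons (PTF.comp (g := fun p : ℕ × List Bool => p.1) (by fun_prop) h)
      (by fun_prop)) (PTF.comp (g := fun p : ℕ × List Bool => p.2) (by fun_prop) h)
  have h : PTF (fun c => rkStep^[min (k c) (l c).length] ([], l c)) := by
    refine PTF.iterate' (f := fun (_ : γ) s => rkStep s)
      (a := fun c => (([], l c) : List ℕ × List Bool))
      (PTF.natMinUn hk (PTU.length hl)) (hst.comp PTF.snd) (by fun_prop)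
      (B := fun c => 2 * (2 * (l c).length) + 1 + 3 * (2 * (l c).length)) ?_ ?_
    · have h1 := (PTU.length hl).pb
      fun_prop
    · intro c i hi
      have h := rkStep_iter_size i ([], l c)
      have h2 : i ≤ (l c).length := hi.trans (min_le_right _ _)
      simp only [sz_nil, Nat.zero_add] at h
      change sz (rkStep^[i] ([], l c)) ≤ _
      rw [sz_prod, sz_listBool]
      omega
  unfold readK
  exact PTF.prodMk (PTF.reverse (PTF.comp (g := fun s : List ℕ × List Bool => s.1) (by fun_prop) h))
    (PTF.comp (g := fun s : List ℕ × List Bool => s.2) (by fun_prop) h)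

theorem ptf_readRat {l : γ → List Bool} (hl : PTF l) : PTF (fun c => readRat (l c)) := by
  unfold readRat
  have ht := PTF.tail hl
  have h1 := ptf_readNat ht
  have h11 := PTF.comp (g := fun p : ℕ × List Bool => p.1) (by fun_prop) h1
  have h12 := PTF.comp (g := fun p : ℕ × List Bool => p.2) (by fun_prop) h1
  have h2 := ptf_readNat h12
  have h21 := PTF.comp (g := fun p : ℕ × List Bool => p.1) (by fun_prop) h2
  have h22 := PTF.comp (g := fun p : ℕ × List Bool => p.2) (by fun_prop) h2
  have hh : PTF (fun c => (l c).headD false) := by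
    have := PTF.optionGetD (PTF.head? hl) (PTF.const false)
    refine PTF.of_eq this (fun c => ?_)
    cases l c <;> rfl
  refine PTF.prodMk (PTF.ratMk (PTF.cond hh (PTF.intNeg (PTF.intNatCast h11))
    (PTF.intNatCast h11)) h21) h22

theorem ptf_rowsOf {m n : γ → ℕ} {l : γ → List ℕ} (hm : PTU m) (hn : PTU n) (hl : PTF l) :
    PTF (fun c => rowsOf (m c) (n c) (l c)) := by
  unfold rowsOf
  refine ptf_tab hm hn (f := fun c i j => (l c).getD (i * n c + j) 0) ?_
  have h1 : PTF (fun q : (γ × ℕ) × ℕ => q.1.1) := by fun_prop
  have h2 : PTF (fun q : (γ × ℕ) × ℕ => q.1.2) := by fun_prop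
  have h3 : PTF (fun q : (γ × ℕ) × ℕ => q.2) := by fun_prop
  have h4 : PTF (fun q : (γ × ℕ) × ℕ => n q.1.1) := (PTU.toPTF hn).comp h1
  exact ptf_getDB (PTF.natAdd (PTF.natMul h2 h4) h3) (hl.comp h1) (PTF.const 0)

theorem ptf_parseM {l : γ → List Bool} (hl : PTF l) : PTF (fun c => parseM (l c)) := by
  unfold parseM
  have h1 := ptf_readNat hl
  have h11 := PTF.comp (g := fun p : ℕ × List Bool => p.1) (by fun_prop) h1
  have h12 := PTF.comp (g := fun p : ℕ × List Bool => p.2) (by fun_prop) h1
  have h2 := ptf_readNat h12
  have h21 := PTF.comp (g := fun p : ℕ × List Bool => p.1) (by fun_prop) h2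
  have h22 := PTF.comp (g := fun p : ℕ × List Bool => p.2) (by fun_prop) h2
  have h3 := ptf_readK h11 h22
  have h31 := PTF.comp (g := fun p : List ℕ × List Bool => p.1) (by fun_prop) h3
  have h32 := PTF.comp (g := fun p : List ℕ × List Bool => p.2) (by fun_prop) h3
  have h4 := ptf_readK h21 h32
  have h41 := PTF.comp (g := fun p : List ℕ × List Bool => p.1) (by fun_prop) h4
  have h42 := PTF.comp (g := fun p : List ℕ × List Bool => p.2) (by fun_prop) h4
  exact PTF.prodMk (PTF.prodMk h31 h41) h42

theorem ptf_parseIn {l : γ → List Bool} (hl : PTF l) : PTF (fun c => parseIn (l c)) := by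
  unfold parseIn
  have hM := ptf_parseM hl
  have hM1 := PTF.comp (g := fun p : (List ℕ × List ℕ) × List Bool => p.1.1) (by fun_prop) hM
  have hM2 := PTF.comp (g := fun p : (List ℕ × List ℕ) × List Bool => p.1.2) (by fun_prop) hM
  have hM3 := PTF.comp (g := fun p : (List ℕ × List ℕ) × List Bool => p.2) (by fun_prop) hM
  have hm := PTU.length hM1
  have hn := PTU.length hM2
  have hB := ptf_readK (PTF.natMul (PTU.toPTF hm) (PTU.toPTF hn)) hM3
  have hB1 := PTF.comp (g := fun p : List ℕ × List Bool => p.1) (by fun_prop) hB
  have hB2 := PTF.comp (g := fun p : List ℕ × List Bool => p.2) (by fun_prop) hB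
  have hE := ptf_readRat hB2
  have hE1 := PTF.comp (g := fun p : ℚ × List Bool => p.1) (by fun_prop) hE
  have hE2 := PTF.comp (g := fun p : ℚ × List Bool => p.2) (by fun_prop) hE
  have hD := ptf_readRat hE2
  have hD1 := PTF.comp (g := fun p : ℚ × List Bool => p.1) (by fun_prop) hD
  have hD2 := PTF.comp (g := fun p : ℚ × List Bool => p.2) (by fun_prop) hD
  exact PTF.prodMk (PTF.prodMk hM1 (PTF.prodMk hM2 (ptf_rowsOf hm hn hB1)))
    (PTF.prodMk hE1 (PTF.prodMk hD1 hD2))

theorem ptf_matCode {m n : γ → ℕ} {X : γ → List (List ℕ)} (hm : PTF m) (hn : PTF n) (hX : PTF X) :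
    PTF (fun c => matCode (m c) (n c) (X c)) := by
  unfold matCode
  refine PTF.append (PTF.append (ptf_natCode hm) (ptf_natCode hn)) (PTF.flatten (PTF.map
    (f := fun _ n => natCode n) (PTF.flatten hX) (ptf_natCode PTF.snd)))

theorem ptf_ratCode {q : γ → ℚ} (hq : PTF q) : PTF (fun c => ratCode (q c)) := by
  unfold ratCode
  exact PTF.listCons (PTF.intIsNeg (PTF.ratNum hq)) (PTF.append
    (ptf_natCode (PTF.intNatAbs (PTF.ratNum hq))) (ptf_natCode (PTF.ratDen hq)))

end pt

end Crest.Agent.R309.Parse
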