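import Mathlib
import Crest.Agent.R309.Blocks959
import Crest.Agent.R309.Tape

/-!
# Row 309: symmetric lazy chains built from block kernels (helper959)

* `SymKer s K` : a symmetric stochastic kernel on the finite set `s`.
* `kop` : its action on functions; `dirf` its Dirichlet form.
* `kop_mixing` : Poincaré inequality + laziness give exponential convergence, all test functions.
* `mixture_poinc` : lazy mixtures of block kernels with `K_i x y ≥ c / |block|`.
* `tape_mixing` : the same for a randomised step reading a tape (`Tape.markov`).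
-/

set_option autoImplicit false

namespace Crest.Agent.R309.Blocks

open Finset

variable {X K T : Type*} [DecidableEq X] [DecidableEq K] [DecidableEq T]

/-- action of a kernel on functions -/
noncomputable def kop (s : Finset X) (P : X → X → ℝ) (f : X → ℝ) (x : X) : ℝ :=
  ∑ y ∈ s, P x y * f y

/-- symmetric stochastic kernel on `s` -/
structure SymKer (s : Finset X) (P : X → X → ℝ) : Prop where
  nonneg : ∀ x ∈ s, ∀ y ∈ s, 0 ≤ P x y
  sum_one : ∀ x ∈ s, ∑ y ∈ s, P x y = 1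
  symm : ∀ x ∈ s, ∀ y ∈ s, P x y = P y x

/-- Dirichlet form -/
noncomputable def dirf (s : Finset X) (P : X → X → ℝ) (f : X → ℝ) : ℝ :=
  (∑ x ∈ s, ∑ y ∈ s, P x y * (f x - f y) ^ 2) / 2

omit [DecidableEq X] in
lemma SymKer.sum_one' {s : Finset X} {P : X → X → ℝ} (h : SymKer s P) {y : X} (hy : y ∈ s) :
    ∑ x ∈ s, P x y = 1 := by
  rw [← h.sum_one y hy]
  exact Finset.sum_congr rfl fun x hx => h.symm x hx y hy

omit [DecidableEq X] in
lemma sum_sum_left {s : Finset X} {P : X → X → ℝ} (h : SymKer s P) (g : X → ℝ) :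
    ∑ x ∈ s, ∑ y ∈ s, P x y * g x = ∑ x ∈ s, g x := by
  refine Finset.sum_congr rfl fun x hx => ?_
  rw [← Finset.sum_mul, h.sum_one x hx, one_mul]

omit [DecidableEq X] in
lemma sum_sum_right {s : Finset X} {P : X → X → ℝ} (h : SymKer s P) (g : X → ℝ) :
    ∑ x ∈ s, ∑ y ∈ s, P x y * g y = ∑ x ∈ s, g x := by
  rw [Finset.sum_comm]
  refine Finset.sum_congr rfl fun x hx => ?_
  rw [← Finset.sum_mul, h.sum_one' hx, one_mul]

omit [DecidableEq X] in
lemma sum_kop {s : Finset X} {P : X → X → ℝ} (h : SymKer s P) (f : X → ℝ) :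
    ∑ x ∈ s, kop s P f x = ∑ x ∈ s, f x := sum_sum_right h f

omit [DecidableEq X] in
lemma sum_kop_mul {s : Finset X} {P : X → X → ℝ} (h : SymKer s P) (f g : X → ℝ) :
    ∑ x ∈ s, kop s P f x * g x = ∑ x ∈ s, f x * kop s P g x := by
  unfold kop
  simp only [Finset.sum_mul, Finset.mul_sum]
  rw [Finset.sum_comm]
  refine Finset.sum_congr rfl fun y hy => Finset.sum_congr rfl fun x hx => ?_
  rw [h.symm x hx y hy]
  ring

omit [DecidableEq X] in
lemma dirf_eq {s : Finset X} {P : X → X → ℝ} (h : SymKer s P) (f : X → ℝ) :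
    dirf s P f = ∑ x ∈ s, f x ^ 2 - ∑ x ∈ s, f x * kop s P f x := by
  have e : ∑ x ∈ s, ∑ y ∈ s, P x y * (f x - f y) ^ 2 =
      ∑ x ∈ s, ∑ y ∈ s, P x y * f x ^ 2 + ∑ x ∈ s, ∑ y ∈ s, P x y * f y ^ 2
        - 2 * ∑ x ∈ s, f x * kop s P f x := by
    unfold kop
    rw [← Finset.sum_add_distrib, Finset.mul_sum, ← Finset.sum_sub_distrib]
    refine Finset.sum_congr rfl fun x _ => ?_
    rw [← Finset.sum_add_distrib, Finset.mul_sum, Finset.mul_sum, ← Finset.sum_sub_distrib]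
    exact Finset.sum_congr rfl fun y _ => by ring
  unfold dirf
  rw [e, sum_sum_left h (fun x => f x ^ 2), sum_sum_right h (fun x => f x ^ 2)]
  ring

omit [DecidableEq X] in
lemma psd_of_lazy {s : Finset X} {P : X → X → ℝ} (h : SymKer s P)
    (hl : ∀ x ∈ s, 1 / 2 ≤ P x x) (f : X → ℝ) : 0 ≤ ∑ x ∈ s, f x * kop s P f x := by
  have e : ∑ x ∈ s, ∑ y ∈ s, P x y * (f x + f y) ^ 2 =
      ∑ x ∈ s, ∑ y ∈ s, P x y * f x ^ 2 + ∑ x ∈ s, ∑ y ∈ s, P x y * f y ^ 2
        + 2 * ∑ x ∈ s, f x * kop s P f x := by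
    unfold kop
    rw [← Finset.sum_add_distrib, Finset.mul_sum, ← Finset.sum_add_distrib]
    refine Finset.sum_congr rfl fun x _ => ?_
    rw [← Finset.sum_add_distrib, Finset.mul_sum, Finset.mul_sum, ← Finset.sum_add_distrib]
    exact Finset.sum_congr rfl fun y _ => by ring
  rw [sum_sum_left h (fun x => f x ^ 2), sum_sum_right h (fun x => f x ^ 2)] at e
  have lb : ∑ x ∈ s, 2 * f x ^ 2 ≤ ∑ x ∈ s, ∑ y ∈ s, P x y * (f x + f y) ^ 2 := by
    refine Finset.sum_le_sum fun x hx => ?_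
    calc 2 * f x ^ 2 ≤ P x x * (f x + f x) ^ 2 := by nlinarith [hl x hx, sq_nonneg (f x)]
      _ ≤ ∑ y ∈ s, P x y * (f x + f y) ^ 2 :=
        Finset.single_le_sum (f := fun y => P x y * (f x + f y) ^ 2)
          (fun y hy => mul_nonneg (h.nonneg x hx y hy) (sq_nonneg _)) hx
  rw [← Finset.mul_sum] at lb
  linarith

omit [DecidableEq X] in
lemma kop_add_smul {s : Finset X} {P : X → X → ℝ} (f g : X → ℝ) (t : ℝ) (x : X) :
    kop s P (fun y => f y - t * g y) x = kop s P f x - t * kop s P g x := by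
  unfold kop
  rw [Finset.mul_sum, ← Finset.sum_sub_distrib]
  exact Finset.sum_congr rfl fun y _ => by ring

omit [DecidableEq X] in
/-- One-step contraction, centred form. -/
lemma kop_contract_aux {s : Finset X} {P : X → X → ℝ} (h : SymKer s P)
    (hl : ∀ x ∈ s, 1 / 2 ≤ P x x) {γ : ℝ} (hγ : γ ≤ 1)
    (hP : ∀ f : X → ℝ, γ * sv s f ≤ dirf s P f) (f : X → ℝ) (h0 : ∑ x ∈ s, f x = 0) :
    ∑ x ∈ s, kop s P f x ^ 2 ≤ (1 - γ) ^ 2 * ∑ x ∈ s, f x ^ 2 := by
  set g : X → ℝ := kop s P f with hg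
  have hg0 : ∑ x ∈ s, g x = 0 := by rw [hg, sum_kop h, h0]
  have quad : ∀ u : X → ℝ, ∑ x ∈ s, u x = 0 →
      ∑ x ∈ s, u x * kop s P u x ≤ (1 - γ) * ∑ x ∈ s, u x ^ 2 := by
    intro u hu
    have h1 := hP u
    rw [sv_of_sum_zero s u hu, dirf_eq h] at h1
    linarith
  have hgg : ∑ x ∈ s, g x ^ 2 = ∑ x ∈ s, f x * kop s P g x := by
    rw [← sum_kop_mul h f g]
    exact Finset.sum_congr rfl fun x _ => by rw [pow_two]
  -- for all t: 2 t |g|² ≤ ⟨f,Pf⟩ + t² ⟨g,Pg⟩
  have key : ∀ t : ℝ, 2 * t * ∑ x ∈ s, g x ^ 2 ≤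
      ∑ x ∈ s, f x * kop s P f x + t ^ 2 * ∑ x ∈ s, g x * kop s P g x := by
    intro t
    have h1 := psd_of_lazy h hl (fun y => f y - t * g y)
    have e : ∑ x ∈ s, (f x - t * g x) * kop s P (fun y => f y - t * g y) x =
        ∑ x ∈ s, f x * kop s P f x - t * ∑ x ∈ s, f x * kop s P g x
          - t * ∑ x ∈ s, g x * kop s P f x + t ^ 2 * ∑ x ∈ s, g x * kop s P g x := by
      rw [Finset.mul_sum, Finset.mul_sum, Finset.mul_sum, ← Finset.sum_sub_distrib,
        ← Finset.sum_sub_distrib, ← Finset.sum_add_distrib]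
      exact Finset.sum_congr rfl fun x _ => by rw [kop_add_smul]; ring
    have e2 : ∑ x ∈ s, g x * kop s P f x = ∑ x ∈ s, g x ^ 2 :=
      Finset.sum_congr rfl fun x _ => by rw [← hg, pow_two]
    rw [e, e2, ← hgg] at h1
    linarith
  have hq1 := quad f h0
  have hq2 := quad g hg0
  have hG : 0 ≤ ∑ x ∈ s, g x ^ 2 := Finset.sum_nonneg fun _ _ => sq_nonneg _
  have hF : 0 ≤ ∑ x ∈ s, f x ^ 2 := Finset.sum_nonneg fun _ _ => sq_nonneg _
  rcases (sub_nonneg.mpr hγ).eq_or_lt with hz | hpos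
  · rw [← hz] at hq1 hq2 ⊢
    have h1 := key 1
    nlinarith
  · have h1 := key (1 / (1 - γ))
    set θ := 1 - γ with hθ
    have h2 : 2 * (1 / θ) * ∑ x ∈ s, g x ^ 2 ≤
        θ * ∑ x ∈ s, f x ^ 2 + (1 / θ) ^ 2 * (θ * ∑ x ∈ s, g x ^ 2) := by
      have := mul_le_mul_of_nonneg_left hq2 (sq_nonneg (1 / θ))
      linarith
    have e1 : (1 / θ) ^ 2 * (θ * ∑ x ∈ s, g x ^ 2) = (1 / θ) * ∑ x ∈ s, g x ^ 2 := by
      field_simp
    rw [e1] at h2
    have h3 : (1 / θ) * ∑ x ∈ s, g x ^ 2 ≤ θ * ∑ x ∈ s, f x ^ 2 := by linarith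
    have h4 := mul_le_mul_of_nonneg_left h3 hpos.le
    have e2 : θ * (1 / θ * ∑ x ∈ s, g x ^ 2) = ∑ x ∈ s, g x ^ 2 := by field_simp
    rw [e2] at h4
    linarith [h4]

omit [DecidableEq X] in
lemma kop_sub_const {s : Finset X} {P : X → X → ℝ} (h : SymKer s P) (f : X → ℝ) (c : ℝ) {x : X}
    (hx : x ∈ s) : kop s P (fun y => f y - c) x = kop s P f x - c := by
  unfold kop
  simp only [mul_sub, Finset.sum_sub_distrib]
  rw [← Finset.sum_mul, h.sum_one x hx, one_mul]

omit [DecidableEq X] in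
lemma avg_kop {s : Finset X} {P : X → X → ℝ} (h : SymKer s P) (f : X → ℝ) :
    avg s (kop s P f) = avg s f := by
  unfold avg; rw [sum_kop h]

omit [DecidableEq X] in
lemma sv_kop_le {s : Finset X} {P : X → X → ℝ} (h : SymKer s P)
    (hl : ∀ x ∈ s, 1 / 2 ≤ P x x) {γ : ℝ} (hγ : γ ≤ 1)
    (hP : ∀ f : X → ℝ, γ * sv s f ≤ dirf s P f) (f : X → ℝ) :
    sv s (kop s P f) ≤ (1 - γ) ^ 2 * sv s f := by
  rcases s.eq_empty_or_nonempty with hs | hs
  · subst hs; simp [sv]
  have hcard : (s.card : ℝ) ≠ 0 := by exact_mod_cast (Finset.card_pos.mpr hs).ne'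
  have hz : ∑ x ∈ s, (f x - avg s f) = 0 := by
    rw [Finset.sum_sub_distrib, Finset.sum_const, nsmul_eq_mul, avg, mul_div_cancel₀ _ hcard,
      sub_self]
  have h1 := kop_contract_aux h hl hγ hP (fun y => f y - avg s f) hz
  have e : sv s (kop s P f) = ∑ x ∈ s, kop s P (fun y => f y - avg s f) x ^ 2 := by
    unfold sv
    rw [avg_kop h]
    exact Finset.sum_congr rfl fun x hx => by rw [kop_sub_const h _ _ hx]
  rw [e]
  exact h1

omit [DecidableEq X] in
/-- **Exponential convergence** for a lazy symmetric kernel with a Poincaré inequality. -/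
theorem kop_mixing {s : Finset X} {P : X → X → ℝ} (h : SymKer s P)
    (hl : ∀ x ∈ s, 1 / 2 ≤ P x x) {γ : ℝ} (hγ : γ ≤ 1)
    (hP : ∀ f : X → ℝ, γ * sv s f ≤ dirf s P f) (f : X → ℝ) (n : ℕ) {x : X} (hx : x ∈ s) :
    |(kop s P)^[n] f x - avg s f| ≤ (1 - γ) ^ n * √(sv s f) := by
  have hθ0 : 0 ≤ 1 - γ := sub_nonneg.mpr hγ
  have ha : ∀ m : ℕ, avg s ((kop s P)^[m] f) = avg s f := by
    intro m
    induction m with
    | zero => rfl
    | succ m ih => rw [Function.iterate_succ_apply', avg_kop h, ih]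
  have hv : ∀ m : ℕ, sv s ((kop s P)^[m] f) ≤ ((1 - γ) ^ m) ^ 2 * sv s f := by
    intro m
    induction m with
    | zero => simp
    | succ m ih =>
      rw [Function.iterate_succ_apply']
      refine (sv_kop_le h hl hγ hP _).trans ?_
      calc (1 - γ) ^ 2 * sv s ((kop s P)^[m] f)
          ≤ (1 - γ) ^ 2 * (((1 - γ) ^ m) ^ 2 * sv s f) :=
            mul_le_mul_of_nonneg_left ih (sq_nonneg _)
        _ = ((1 - γ) ^ (m + 1)) ^ 2 * sv s f := by ring
  refine abs_le_of_sq_le_sq ?_ (by positivity)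
  calc ((kop s P)^[n] f x - avg s f) ^ 2
      = ((kop s P)^[n] f x - avg s ((kop s P)^[n] f)) ^ 2 := by rw [ha]
    _ ≤ sv s ((kop s P)^[n] f) :=
        Finset.single_le_sum (f := fun y => ((kop s P)^[n] f y - avg s ((kop s P)^[n] f)) ^ 2)
          (fun _ _ => sq_nonneg _) hx
    _ ≤ ((1 - γ) ^ n) ^ 2 * sv s f := hv n
    _ = ((1 - γ) ^ n * √(sv s f)) ^ 2 := by
        rw [mul_pow, Real.sq_sqrt (sv_nonneg s f)]

/-! ### Block kernels -/

omit [DecidableEq X] in
/-- Pair form of the conditional variance. -/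
lemma csv_pair (s : Finset X) (κ : X → K) (f : X → ℝ) :
    csv s κ f = (∑ x ∈ s, ∑ y ∈ s, (if κ y = κ x then 1 / ((fib s κ x).card : ℝ) else 0)
      * (f x - f y) ^ 2) / 2 := by
  have hP : SymKer s (fun x y => if κ y = κ x then 1 / ((fib s κ x).card : ℝ) else 0) := by
    refine ⟨fun x _ y _ => ?_, fun x hx => ?_, fun x _ y _ => ?_⟩
    · split_ifs
      · positivity
      · exact le_rfl
    · rw [← Finset.sum_filter, Finset.sum_const, nsmul_eq_mul]
      exact mul_one_div_cancel (fib_card_pos hx).ne'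
    · by_cases h : κ y = κ x
      · rw [if_pos h, if_pos h.symm, fib_eq h]
      · rw [if_neg h, if_neg (fun h' => h h'.symm)]
  have h1 := dirf_eq hP f
  unfold dirf at h1
  rw [h1, csv_eq, sum_cavg_sq]
  congr 1
  refine Finset.sum_congr rfl fun x _ => ?_
  congr 1
  rw [cavg_eq_sum]
  unfold kop
  refine Finset.sum_congr rfl fun y _ => ?_
  by_cases h : κ y = κ x
  · simp only [if_pos h]; ring
  · simp only [if_neg h]; ring

omit [DecidableEq X] in
/-- A kernel dominating `c ×` the block heat bath off the diagonal. -/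
lemma dirf_ge_csv {s : Finset X} {κ : X → K} {P : X → X → ℝ} {c : ℝ}
    (hn : ∀ x ∈ s, ∀ y ∈ s, 0 ≤ P x y)
    (hc : ∀ x ∈ s, ∀ y ∈ s, κ y = κ x → y ≠ x → c / ((fib s κ x).card : ℝ) ≤ P x y)
    (f : X → ℝ) : c * csv s κ f ≤ dirf s P f := by
  rw [csv_pair]
  unfold dirf
  rw [← mul_div_assoc, Finset.mul_sum]
  refine div_le_div_of_nonneg_right (Finset.sum_le_sum fun x hx => ?_) (by norm_num)
  rw [Finset.mul_sum]
  refine Finset.sum_le_sum fun y hy => ?_
  by_cases hxy : y = x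
  · rw [hxy]; simp
  by_cases h : κ y = κ x
  · rw [if_pos h]
    calc c * (1 / ((fib s κ x).card : ℝ) * (f x - f y) ^ 2)
        = c / ((fib s κ x).card : ℝ) * (f x - f y) ^ 2 := by ring
      _ ≤ P x y * (f x - f y) ^ 2 :=
        mul_le_mul_of_nonneg_right (hc x hx y hy h hxy) (sq_nonneg _)
  · rw [if_neg h, zero_mul, mul_zero]
    exact mul_nonneg (hn x hx y hy) (sq_nonneg _)

/-! ### Tape form -/

open Crest.Agent.R309.Tape in
/-- The transition probabilities of a randomised step. -/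
noncomputable def ker (f : X → List Bool → X) (r : ℕ) (x y : X) : ℝ := pr r (fun t => f x t = y)

omit [DecidableEq X] in
open Crest.Agent.R309.Tape in
lemma markov_eq_kop {s : Finset X} {f : X → List Bool → X} {r : ℕ}
    (hs : ∀ x ∈ s, ∀ t : List Bool, t.length = r → f x t ∈ s) (φ : X → ℝ) {x : X} (hx : x ∈ s) :
    markov f r φ x = kop s (ker f r) φ x := by
  classical
  unfold markov kop ker pr
  simp_rw [← avg_mul_right]
  rw [← avg_sum]
  refine avg_congr fun t ht => ?_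
  rw [Finset.sum_eq_single (f x t)]
  · rw [ind_of rfl, one_mul]
  · intro y _ hy
    rw [ind_of_not (fun h => hy h.symm), zero_mul]
  · intro h; exact absurd (hs x hx t ht) h

omit [DecidableEq X] in
lemma kop_congr {s : Finset X} {P : X → X → ℝ} {φ ψ : X → ℝ} (h : ∀ y ∈ s, φ y = ψ y) (x : X) :
    kop s P φ x = kop s P ψ x :=
  Finset.sum_congr rfl fun y hy => by rw [h y hy]

omit [DecidableEq X] in
open Crest.Agent.R309.Tape in
lemma markov_iter_eq_kop {s : Finset X} {f : X → List Bool → X} {r : ℕ}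
    (hs : ∀ x ∈ s, ∀ t : List Bool, t.length = r → f x t ∈ s) (φ : X → ℝ) (n : ℕ) :
    ∀ x ∈ s, (markov f r)^[n] φ x = (kop s (ker f r))^[n] φ x := by
  induction n with
  | zero => intro x _; rfl
  | succ n ih =>
    intro x hx
    rw [Function.iterate_succ_apply', Function.iterate_succ_apply', markov_eq_kop hs _ hx]
    exact kop_congr ih x

omit [DecidableEq X] in
open Crest.Agent.R309.Tape in
lemma ker_sum_one {s : Finset X} {f : X → List Bool → X} {r : ℕ}
    (hs : ∀ x ∈ s, ∀ t : List Bool, t.length = r → f x t ∈ s) {x : X} (hx : x ∈ s) :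
    ∑ y ∈ s, ker f r x y = 1 := by
  have h := markov_eq_kop hs (fun _ => (1 : ℝ)) hx
  unfold kop at h
  simp only [mul_one] at h
  rw [← h]
  unfold markov
  simp

omit [DecidableEq X] in
open Crest.Agent.R309.Tape in
lemma symKer_ker {s : Finset X} {f : X → List Bool → X} {r : ℕ}
    (hs : ∀ x ∈ s, ∀ t : List Bool, t.length = r → f x t ∈ s)
    (hsym : ∀ x ∈ s, ∀ y ∈ s, x ≠ y → ker f r x y = ker f r y x) : SymKer s (ker f r) :=
  ⟨fun _ _ _ _ => pr_nonneg _ _, fun _ hx => ker_sum_one hs hx, fun x hx y hy => by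
    by_cases h : x = y
    · rw [h]
    · exact hsym x hx y hy h⟩

omit [DecidableEq X] in
open Crest.Agent.R309.Tape in
/-- **Tape version of exponential convergence.** -/
theorem tape_mixing {s : Finset X} {f : X → List Bool → X} {r : ℕ}
    (hs : ∀ x ∈ s, ∀ t : List Bool, t.length = r → f x t ∈ s)
    (hsym : ∀ x ∈ s, ∀ y ∈ s, x ≠ y → ker f r x y = ker f r y x)
    (hl : ∀ x ∈ s, 1 / 2 ≤ ker f r x x) {γ : ℝ} (hγ : γ ≤ 1)
    (hP : ∀ g : X → ℝ, γ * sv s g ≤ dirf s (ker f r) g)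
    (φ : X → ℝ) (hφ : ∀ x ∈ s, |φ x| ≤ 1) (n : ℕ) {x : X} (hx : x ∈ s) :
    |(markov f r)^[n] φ x - (∑ y ∈ s, φ y) / (s.card : ℝ)| ≤ (1 - γ) ^ n * √(s.card : ℝ) := by
  rw [markov_iter_eq_kop hs φ n x hx]
  refine (kop_mixing (symKer_ker hs hsym) hl hγ hP φ n hx).trans ?_
  exact mul_le_mul_of_nonneg_left (Real.sqrt_le_sqrt (sv_le_card s φ hφ))
    (pow_nonneg (sub_nonneg.mpr hγ) n)


/-! ### Lazy mixture over an index read from the tape -/

/-- Lazy block step: first bit `true` = stay; otherwise read an index string of length `q` and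
run the inner step of that block on the rest of the tape. -/
def lazyStep (inner : List Bool → X → List Bool → X) (q : ℕ) (x : X) : List Bool → X
  | [] => x
  | b :: t => if b then x else inner (t.take q) x (t.drop q)

omit [DecidableEq X] in
open Crest.Agent.R309.Tape in
lemma ker_lazyStep (inner : List Bool → X → List Bool → X) (q r : ℕ) (x y : X) :
    ker (lazyStep inner q) (q + r + 1) x y =
      (ind (x = y) + Tape.avg q (fun l => ker (inner l) r x y)) / 2 := by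
  unfold ker pr
  rw [avg_succ]
  simp only [lazyStep, Bool.false_eq_true, if_false, if_true]
  rw [avg_take_drop q r (fun l l' => ind (inner l x l' = y)), avg_const]
  ring

omit [DecidableEq X] in
open Crest.Agent.R309.Tape in
lemma lazyStep_mem {s : Finset X} {inner : List Bool → X → List Bool → X} {q r : ℕ}
    (hs : ∀ l : List Bool, l.length = q → ∀ x ∈ s, ∀ t : List Bool, t.length = r →
      inner l x t ∈ s) : ∀ x ∈ s, ∀ t : List Bool, t.length = q + r + 1 →
      lazyStep inner q x t ∈ s := by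
  intro x hx t ht
  cases t with
  | nil => simp at ht
  | cons b t =>
    simp only [List.length_cons, add_left_inj] at ht
    cases b
    · simp only [lazyStep, Bool.false_eq_true, if_false]
      exact hs _ (by simp; omega) x hx _ (by simp; omega)
    · simpa [lazyStep] using hx

omit [DecidableEq X] in
open Crest.Agent.R309.Tape in
lemma dirf_lazyStep (s : Finset X) (inner : List Bool → X → List Bool → X) (q r : ℕ)
    (f : X → ℝ) :
    dirf s (ker (lazyStep inner q) (q + r + 1)) f =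
      Tape.avg q (fun l => dirf s (ker (inner l) r) f) / 2 := by
  have h1 : ∀ x ∈ s, ∀ y ∈ s, ker (lazyStep inner q) (q + r + 1) x y * (f x - f y) ^ 2 =
      Tape.avg q (fun l => ker (inner l) r x y * (f x - f y) ^ 2) / 2 := by
    intro x _ y _
    rw [ker_lazyStep, avg_mul_right]
    by_cases h : x = y
    · rw [h]; simp
    · rw [ind_of_not h]; ring
  have h2 : Tape.avg q (fun l => dirf s (ker (inner l) r) f) =
      (∑ x ∈ s, ∑ y ∈ s, Tape.avg q (fun l => ker (inner l) r x y * (f x - f y) ^ 2)) / 2 := by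
    unfold dirf
    simp_rw [div_eq_mul_inv]
    rw [avg_mul_right]
    congr 1
    rw [avg_sum]
    refine Finset.sum_congr rfl fun x _ => ?_
    rw [avg_sum]
  rw [h2]
  unfold dirf
  rw [Finset.sum_congr rfl fun x hx => Finset.sum_congr rfl fun y hy => h1 x hx y hy]
  simp_rw [← Finset.sum_div]

omit [DecidableEq X] in
open Crest.Agent.R309.Tape in
/-- **Mixing of the lazy block chain on tapes.** `inner l` moves inside the blocks of the key
`κ l`, with symmetric transition probabilities at least `c / |block|` off the diagonal, and the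
variance is controlled by the average of the block variances. -/
theorem tape_block_mixing {s : Finset X} {inner : List Bool → X → List Bool → X} {q r : ℕ}
    {κ : List Bool → X → K} {c C : ℝ} (hc0 : 0 ≤ c) (hC0 : 0 < C) (hcC : c ≤ 2 * C)
    (hs : ∀ l : List Bool, l.length = q → ∀ x ∈ s, ∀ t : List Bool, t.length = r →
      inner l x t ∈ s)
    (hsym : ∀ l : List Bool, l.length = q → ∀ x ∈ s, ∀ y ∈ s, x ≠ y →
      ker (inner l) r x y = ker (inner l) r y x)
    (hlow : ∀ l : List Bool, l.length = q → ∀ x ∈ s, ∀ y ∈ s, κ l y = κ l x → y ≠ x →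
      c / ((fib s (κ l) x).card : ℝ) ≤ ker (inner l) r x y)
    (hC : ∀ f : X → ℝ, sv s f ≤ C * Tape.avg q (fun l => csv s (κ l) f))
    (φ : X → ℝ) (hφ : ∀ x ∈ s, |φ x| ≤ 1) (n : ℕ) {x : X} (hx : x ∈ s) :
    |(markov (lazyStep inner q) (q + r + 1))^[n] φ x - (∑ y ∈ s, φ y) / (s.card : ℝ)| ≤
      (1 - c / (2 * C)) ^ n * √(s.card : ℝ) := by
  refine tape_mixing (lazyStep_mem hs) ?_ ?_ ?_ ?_ φ hφ n hx
  · intro x hx y hy hxy
    rw [ker_lazyStep, ker_lazyStep, ind_of_not hxy, ind_of_not (fun h => hxy h.symm),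
      avg_congr fun l hl => hsym l hl x hx y hy hxy]
  · intro x _
    rw [ker_lazyStep, ind_of rfl]
    have : 0 ≤ Tape.avg q (fun l => ker (inner l) r x x) := avg_nonneg fun l _ => pr_nonneg _ _
    linarith
  · rw [div_le_one (by positivity)]; exact hcC
  · intro g
    rw [dirf_lazyStep]
    have h1 : Tape.avg q (fun l => c * csv s (κ l) g) ≤ Tape.avg q (fun l => dirf s (ker (inner l) r) g) :=
      avg_mono fun l hl => dirf_ge_csv (fun _ _ _ _ => pr_nonneg _ _) (hlow l hl) g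
    rw [avg_mul_left] at h1
    have h2 := hC g
    have h3 : c / (2 * C) * sv s g ≤ c / (2 * C) * (C * Tape.avg q (fun l => csv s (κ l) g)) :=
      mul_le_mul_of_nonneg_left h2 (by positivity)
    have e : c / (2 * C) * (C * Tape.avg q (fun l => csv s (κ l) g)) =
        (c * Tape.avg q (fun l => csv s (κ l) g)) / 2 := by field_simp
    rw [e] at h3
    linarith


/-! ### Uniform index and the final statement for the outer chain -/

open Crest.Agent.R309.Tape in
/-- Average over a uniformly distributed index read from the tape. -/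
lemma avg_uniform_idx {ι : Type*} {I : Finset ι} {q : ℕ} {idx : List Bool → ι}
    (hI : ∀ l : List Bool, l.length = q → idx l ∈ I)
    (hu : ∀ i ∈ I, pr q (fun l => idx l = i) = 1 / (I.card : ℝ)) (g : ι → ℝ) :
    Tape.avg q (fun l => g (idx l)) = (∑ i ∈ I, g i) / (I.card : ℝ) := by
  classical
  have h1 : Tape.avg q (fun l => g (idx l)) =
      Tape.avg q (fun l => ∑ i ∈ I, ind (idx l = i) * g i) := by
    refine avg_congr fun l hl => ?_
    rw [Finset.sum_eq_single (idx l)]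
    · rw [ind_of rfl, one_mul]
    · intro i _ hi
      rw [ind_of_not (fun h => hi h.symm), zero_mul]
    · intro h; exact absurd (hI l hl) h
  rw [h1, avg_sum, Finset.sum_div]
  refine Finset.sum_congr rfl fun i hi => ?_
  rw [avg_mul_right]
  have := hu i hi
  unfold pr at this
  rw [this]
  ring

omit [DecidableEq X] [DecidableEq T] in
open Crest.Agent.R309.Tape in
/-- **Outer chain theorem.** Residue keys `r 0, …, r J`, shifted window keys `B j t` (`t ∈ Ts`),
near independence (`Coupled`) with `√(2δ) ≤ 1/J`; a uniform index `(j,t)` read from `q` tape bits;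
inner block moves that are symmetric with transition probabilities `≥ c/|block|` off the
diagonal. Then the lazy chain is within `(1 - c/(8J))^n √|s|` of uniform after `n` steps. -/
theorem outer_mixing {K' : Type*} [DecidableEq K'] {s : Finset X} {Ts : Finset T}
    (J : ℕ) (hJ2 : 2 ≤ J) (hTs : Ts.Nonempty)
    (res : ℕ → X → K) (B : ℕ → T → X → K') {δ : ℝ} (hδ : 0 ≤ δ) (hδ1 : √(2 * δ) ≤ 1 / J)
    (h0 : ∀ x ∈ s, ∀ y ∈ s, res 0 x = res 0 y)
    (hJ : ∀ x ∈ s, ∀ y ∈ s, res J x = res J y → x = y)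
    (hnest : ∀ j < J, ∀ x ∈ s, ∀ y ∈ s, res (j + 1) x = res (j + 1) y → res j x = res j y)
    (hcpl : ∀ j < J, ∀ x ∈ s, Coupled (fib s (res j) x) (res (j + 1)) Ts (B j) δ)
    {q r : ℕ} {idx : List Bool → ℕ × T}
    (hidx : ∀ l : List Bool, l.length = q → idx l ∈ Finset.range J ×ˢ Ts)
    (huni : ∀ i ∈ Finset.range J ×ˢ Ts,
      pr q (fun l => idx l = i) = 1 / ((Finset.range J ×ˢ Ts).card : ℝ))
    {inner : ℕ × T → X → List Bool → X} {c : ℝ} (hc0 : 0 ≤ c) (hc1 : c ≤ 1)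
    (hs : ∀ i ∈ Finset.range J ×ˢ Ts, ∀ x ∈ s, ∀ t : List Bool, t.length = r →
      inner i x t ∈ s)
    (hsym : ∀ i ∈ Finset.range J ×ˢ Ts, ∀ x ∈ s, ∀ y ∈ s, x ≠ y →
      ker (inner i) r x y = ker (inner i) r y x)
    (hlow : ∀ i ∈ Finset.range J ×ˢ Ts, ∀ x ∈ s, ∀ y ∈ s,
      (res i.1 y, B i.1 i.2 y) = (res i.1 x, B i.1 i.2 x) → y ≠ x →
      c / ((fib s (fun z => (res i.1 z, B i.1 i.2 z)) x).card : ℝ) ≤ ker (inner i) r x y)
    (φ : X → ℝ) (hφ : ∀ x ∈ s, |φ x| ≤ 1) (n : ℕ) {x : X} (hx : x ∈ s) :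
    |(markov (lazyStep (fun l => inner (idx l)) q) (q + r + 1))^[n] φ x
        - (∑ y ∈ s, φ y) / (s.card : ℝ)| ≤ (1 - c / (8 * J)) ^ n * √(s.card : ℝ) := by
  have hJr : (2 : ℝ) ≤ (J : ℝ) := by exact_mod_cast hJ2
  have hcard : (0 : ℝ) < ((Finset.range J ×ˢ Ts).card : ℝ) := by
    have : 0 < (Finset.range J ×ˢ Ts).card :=
      Finset.card_pos.mpr (Finset.Nonempty.product ⟨0, by simp; omega⟩ hTs)
    exact_mod_cast this
  have h8 : (8 : ℝ) * J = 2 * (4 * J) := by ring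
  rw [h8]
  refine tape_block_mixing (κ := fun l z => (res (idx l).1 z, B (idx l).1 (idx l).2 z)) hc0
    (by positivity) (by linarith) (fun l hl => hs _ (hidx l hl)) (fun l hl => hsym _ (hidx l hl))
    (fun l hl => hlow _ (hidx l hl)) ?_ φ hφ n hx
  intro f
  have h1 := block_poincare J hJ2 res B hδ hδ1 h0 hJ hnest hcpl f
  rw [avg_uniform_idx hidx huni
    (fun p => csv s (fun z => (res p.1 z, B p.1 p.2 z)) f), ← mul_div_assoc, le_div_iff₀ hcard]
  exact h1


/-! ### Explicit number of steps -/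

/-- Numerical corollary: `(1-γ)^(m τ) √N ≤ 2^(-m)` for `m ≥ 1`, `τ ≥ (b+1)/γ`, `N ≤ 2^b`. -/
lemma pow_mul_sqrt_le {γ : ℝ} (hγ0 : 0 < γ) (hγ1 : γ ≤ 1) {N b m τ : ℕ} (hN : N ≤ 2 ^ b)
    (hm : 1 ≤ m) (hτ : ((b : ℝ) + 1) / γ ≤ τ) :
    (1 - γ) ^ (m * τ) * √(N : ℝ) ≤ (1 / 2 : ℝ) ^ m := by
  have h1 : (1 - γ) ^ (m * τ) ≤ Real.exp (-(γ * (m * τ : ℕ))) := by
    have : 1 - γ ≤ Real.exp (-γ) := by linarith [Real.add_one_le_exp (-γ)]
    calc (1 - γ) ^ (m * τ) ≤ Real.exp (-γ) ^ (m * τ) :=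
          pow_le_pow_left₀ (sub_nonneg.mpr hγ1) this _
      _ = Real.exp (-(γ * (m * τ : ℕ))) := by
          rw [← Real.exp_nat_mul]; congr 1; ring
  have hτ' : (b : ℝ) + 1 ≤ γ * τ := by
    rw [div_le_iff₀ hγ0] at hτ; linarith
  have hmr : (1 : ℝ) ≤ m := by exact_mod_cast hm
  have h2 : Real.exp (-(γ * (m * τ : ℕ))) ≤ Real.exp (-(m * ((b : ℝ) + 1))) := by
    refine Real.exp_le_exp.mpr ?_
    push_cast
    nlinarith
  have h3 : √(N : ℝ) ≤ Real.exp (m * b) := by
    have hN1 : (N : ℝ) ≤ Real.exp 1 ^ b := by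
      calc (N : ℝ) ≤ (2 : ℝ) ^ b := by exact_mod_cast hN
        _ ≤ Real.exp 1 ^ b := pow_le_pow_left₀ (by norm_num) (by
            have := Real.add_one_le_exp (1 : ℝ); linarith) _
    have hN2 : (N : ℝ) ≤ Real.exp b := by
      rw [← Real.exp_nat_mul, mul_one] at hN1; exact hN1
    have hb : (b : ℝ) ≤ m * b := by nlinarith [Nat.cast_nonneg (α := ℝ) b]
    rw [Real.sqrt_le_left (Real.exp_pos _).le]
    calc (N : ℝ) ≤ Real.exp b := hN2
      _ ≤ Real.exp (m * b) := Real.exp_le_exp.mpr hb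
      _ ≤ Real.exp (m * b) ^ 2 := by
        have : 1 ≤ Real.exp (m * b) := Real.one_le_exp (by positivity)
        nlinarith
  have h4 : Real.exp (-(m * ((b : ℝ) + 1))) * Real.exp (m * b) = Real.exp (-1) ^ m := by
    rw [← Real.exp_add, ← Real.exp_nat_mul]; congr 1; ring
  have h5 : Real.exp (-1) ≤ 1 / 2 := by
    rw [Real.exp_neg, one_div]
    refine inv_anti₀ (by norm_num) ?_
    have := Real.add_one_le_exp (1 : ℝ); linarith
  calc (1 - γ) ^ (m * τ) * √(N : ℝ)
      ≤ Real.exp (-(m * ((b : ℝ) + 1))) * Real.exp (m * b) :=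
        mul_le_mul (h1.trans h2) h3 (Real.sqrt_nonneg _) (Real.exp_pos _).le
    _ = Real.exp (-1) ^ m := h4
    _ ≤ (1 / 2) ^ m := pow_le_pow_left₀ (Real.exp_pos _).le h5 _

omit [DecidableEq X] in
open Crest.Agent.R309.Tape in
/-- For `[0,1]`-valued functions the distance of `markov^n` from the average is at most one. -/
lemma markov_iter_abs_le_one {s : Finset X} {f : X → List Bool → X} {r : ℕ}
    (hs : ∀ x ∈ s, ∀ t : List Bool, t.length = r → f x t ∈ s) (φ : X → ℝ)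
    (hφ : ∀ x ∈ s, 0 ≤ φ x ∧ φ x ≤ 1) (n : ℕ) {x : X} (hx : x ∈ s) :
    |(markov f r)^[n] φ x - (∑ y ∈ s, φ y) / (s.card : ℝ)| ≤ 1 := by
  have h1 : ∀ m : ℕ, ∀ x ∈ s, 0 ≤ (markov f r)^[m] φ x ∧ (markov f r)^[m] φ x ≤ 1 := by
    intro m
    induction m with
    | zero => exact hφ
    | succ m ih =>
      intro x hx
      rw [Function.iterate_succ_apply']
      exact ⟨avg_nonneg fun t ht => (ih _ (hs x hx t ht)).1,
        avg_le_const fun t ht => (ih _ (hs x hx t ht)).2⟩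
  have hc : (0 : ℝ) < (s.card : ℝ) := by exact_mod_cast Finset.card_pos.mpr ⟨x, hx⟩
  have h2 : 0 ≤ (∑ y ∈ s, φ y) / (s.card : ℝ) :=
    div_nonneg (Finset.sum_nonneg fun y hy => (hφ y hy).1) hc.le
  have h3 : (∑ y ∈ s, φ y) / (s.card : ℝ) ≤ 1 := by
    rw [div_le_one hc]
    calc ∑ y ∈ s, φ y ≤ ∑ _y ∈ s, (1 : ℝ) := Finset.sum_le_sum fun y hy => (hφ y hy).2
      _ = (s.card : ℝ) := by simp
  have h4 := h1 n x hx
  rw [abs_le]
  constructor <;> linarith


omit [DecidableEq X] [DecidableEq T] in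
open Crest.Agent.R309.Tape in
/-- **Outer chain theorem with explicit relaxation time**: after `m * τ` steps the lazy block chain
is within `2^{-m}` of uniform, `τ ≥ 8 J (b+1) / c`, `|s| ≤ 2^b`. -/
theorem outer_mixing_tau {K' : Type*} [DecidableEq K'] {s : Finset X} {Ts : Finset T}
    (J : ℕ) (hJ2 : 2 ≤ J) (hTs : Ts.Nonempty)
    (res : ℕ → X → K) (B : ℕ → T → X → K') {δ : ℝ} (hδ : 0 ≤ δ) (hδ1 : √(2 * δ) ≤ 1 / J)
    (h0 : ∀ x ∈ s, ∀ y ∈ s, res 0 x = res 0 y)
    (hJ : ∀ x ∈ s, ∀ y ∈ s, res J x = res J y → x = y)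
    (hnest : ∀ j < J, ∀ x ∈ s, ∀ y ∈ s, res (j + 1) x = res (j + 1) y → res j x = res j y)
    (hcpl : ∀ j < J, ∀ x ∈ s, Coupled (fib s (res j) x) (res (j + 1)) Ts (B j) δ)
    {q r : ℕ} {idx : List Bool → ℕ × T}
    (hidx : ∀ l : List Bool, l.length = q → idx l ∈ Finset.range J ×ˢ Ts)
    (huni : ∀ i ∈ Finset.range J ×ˢ Ts,
      pr q (fun l => idx l = i) = 1 / ((Finset.range J ×ˢ Ts).card : ℝ))
    {inner : ℕ × T → X → List Bool → X} {c : ℝ} (hc0 : 0 < c) (hc1 : c ≤ 1)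
    (hs : ∀ i ∈ Finset.range J ×ˢ Ts, ∀ x ∈ s, ∀ t : List Bool, t.length = r →
      inner i x t ∈ s)
    (hsym : ∀ i ∈ Finset.range J ×ˢ Ts, ∀ x ∈ s, ∀ y ∈ s, x ≠ y →
      ker (inner i) r x y = ker (inner i) r y x)
    (hlow : ∀ i ∈ Finset.range J ×ˢ Ts, ∀ x ∈ s, ∀ y ∈ s,
      (res i.1 y, B i.1 i.2 y) = (res i.1 x, B i.1 i.2 x) → y ≠ x →
      c / ((fib s (fun z => (res i.1 z, B i.1 i.2 z)) x).card : ℝ) ≤ ker (inner i) r x y)
    {b τ : ℕ} (hcard : s.card ≤ 2 ^ b) (hτ : 8 * (J : ℝ) * ((b : ℝ) + 1) / c ≤ τ)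
    (φ : X → ℝ) (hφ : ∀ x ∈ s, 0 ≤ φ x ∧ φ x ≤ 1) (m : ℕ) {x : X} (hx : x ∈ s) :
    |(markov (lazyStep (fun l => inner (idx l)) q) (q + r + 1))^[m * τ] φ x
        - (∑ y ∈ s, φ y) / (s.card : ℝ)| ≤ (1 / 2 : ℝ) ^ m := by
  have hJr : (2 : ℝ) ≤ (J : ℝ) := by exact_mod_cast hJ2
  rcases Nat.eq_zero_or_pos m with hm | hm
  · subst hm
    rw [pow_zero]
    exact markov_iter_abs_le_one
      (lazyStep_mem (fun l hl => hs _ (hidx l hl))) φ hφ _ hx
  · refine (outer_mixing J hJ2 hTs res B hδ hδ1 h0 hJ hnest hcpl hidx huni hc0.le hc1 hs hsym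
      hlow φ (fun y hy => by rw [abs_of_nonneg (hφ y hy).1]; exact (hφ y hy).2) (m * τ) hx).trans ?_
    refine pow_mul_sqrt_le (by positivity) ?_ hcard hm ?_
    · rw [div_le_one (by positivity)]; linarith
    · refine le_trans (le_of_eq ?_) hτ
      field_simp

end Crest.Agent.R309.Blocks
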