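import Mathlib

/-!
# Row 309, stability chain, part 1 (helper550)

Flow systems on a multigraph with box constraints; the token walk; the self-improvement principle;
the general Rayleigh inequality `rayleigh`.
-/

set_option autoImplicit false
set_option linter.unusedSectionVars false

namespace Crest.Agent.R309.Stab

open Finset

variable {E V : Type} [Fintype E] [DecidableEq E] [Fintype V] [DecidableEq V]

/-- incidence vector of the cell `e` -/
def chi (s t : E → V) (e : E) (v : V) : ℤ := (if s e = v then 1 else 0) - (if t e = v then 1 else 0)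

/-- boundary of `x` -/
def bd (s t : E → V) (x : E → ℤ) (v : V) : ℤ := ∑ e, x e * chi s t e v

/-- box -/
noncomputable def box (lo hi : E → ℤ) : Finset (E → ℤ) := Fintype.piFinset fun e => Finset.Icc (lo e) (hi e)

/-- integer points of the box with boundary `β` -/
noncomputable def sys (s t : E → V) (lo hi : E → ℤ) (β : V → ℤ) : Finset (E → ℤ) :=
  (box lo hi).filter fun x => bd s t x = β

/-- unit vector -/
abbrev uv (v : V) : V → ℤ := Pi.single v 1

theorem mem_box {lo hi x : E → ℤ} : x ∈ box lo hi ↔ ∀ e, lo e ≤ x e ∧ x e ≤ hi e := by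
  simp [box]

theorem mem_sys {s t : E → V} {lo hi x : E → ℤ} {β : V → ℤ} :
    x ∈ sys s t lo hi β ↔ (∀ e, lo e ≤ x e ∧ x e ≤ hi e) ∧ bd s t x = β := by
  simp [sys, mem_box]

theorem bd_add (s t : E → V) (x y : E → ℤ) : bd s t (x + y) = bd s t x + bd s t y := by
  funext v; simp [bd, add_mul, Finset.sum_add_distrib]

theorem bd_sub (s t : E → V) (x y : E → ℤ) : bd s t (x - y) = bd s t x - bd s t y := by
  funext v; simp [bd, sub_mul, Finset.sum_sub_distrib]

theorem bd_smul (s t : E → V) (k : ℤ) (x : E → ℤ) : bd s t (k • x) = k • bd s t x := by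
  funext v; simp [bd, mul_assoc, Finset.mul_sum]

theorem bd_single (s t : E → V) (e : E) (k : ℤ) :
    bd s t (Pi.single e k) = k • chi s t e := by
  funext v
  simp only [bd, Pi.smul_apply, smul_eq_mul]
  rw [Finset.sum_eq_single e]
  · simp
  · intro b _ hb
    simp [Pi.single_eq_of_ne hb]
  · simp

theorem chi_eq (s t : E → V) (e : E) : chi s t e = uv (s e) - uv (t e) := by
  funext v
  simp only [chi, uv, Pi.sub_apply, Pi.single_apply]
  congr 1 <;> simp [eq_comm]

/-- total boundary is zero -/
theorem sum_bd (s t : E → V) (x : E → ℤ) : ∑ v, bd s t x v = 0 := by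
  simp only [bd]
  rw [Finset.sum_comm]
  apply Finset.sum_eq_zero
  intro e _
  rw [← Finset.mul_sum]
  simp [chi]

/-! ### the token walk -/

/-- If `x` has less boundary than `y` at `c`, some unit can be moved from a vertex `a` where `x` has more
boundary than `y` to `c`, staying between `x` and `y`. -/
theorem walk (s t : E → V) (hst : ∀ e, s e ≠ t e) (n : ℕ) :
    ∀ (x y : E → ℤ), ∑ e, (x e - y e).natAbs = n → ∀ c, bd s t x c < bd s t y c →
      ∃ a, bd s t y a < bd s t x a ∧ ∃ z : E → ℤ,
        (∀ e, (x e ≤ z e ∧ z e ≤ y e) ∨ (y e ≤ z e ∧ z e ≤ x e)) ∧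
        bd s t z = bd s t x - uv a + uv c := by
  induction n with
  | zero =>
    intro x y h c hc
    have hxy : x = y := by
      funext e
      have := (Finset.sum_eq_zero_iff.mp h) e (Finset.mem_univ _)
      omega
    subst hxy
    exact absurd hc (lt_irrefl _)
  | succ n ih =>
    intro x y h c hc
    -- a cell whose contribution at `c` is too small
    obtain ⟨e, he⟩ : ∃ e, x e * chi s t e c < y e * chi s t e c := by
      by_contra hcon
      push Not at hcon
      exact absurd hc (not_lt.mpr (Finset.sum_le_sum fun e _ => hcon e))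
    -- `σ` and the other end
    obtain ⟨σ, u, huc, hσ, hχ⟩ : ∃ (σ : ℤ) (u : V), u ≠ c ∧ (σ = 1 ∨ σ = -1) ∧
        chi s t e = σ • (uv c - uv u) := by
      by_cases h1 : s e = c
      · refine ⟨1, t e, ?_, Or.inl rfl, ?_⟩
        · rintro h2; exact hst e (h1.trans h2.symm)
        · rw [chi_eq, h1, one_smul]
      · by_cases h2 : t e = c
        · refine ⟨-1, s e, h1, Or.inr rfl, ?_⟩
          rw [chi_eq, h2]; simp
        · exfalso
          simp [chi, h1, h2] at he
    have hχc : chi s t e c = σ := by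
      rw [hχ]; simp [huc.symm]
    rw [hχc] at he
    set x1 : E → ℤ := x + Pi.single e σ with hx1
    have hx1e : x1 e = x e + σ := by simp [hx1]
    have hx1ne : ∀ e', e' ≠ e → x1 e' = x e' := by
      intro e' h'; simp [hx1, h']
    have hsq : σ * σ = 1 := by rcases hσ with rfl | rfl <;> norm_num
    have hbd1 : bd s t x1 = bd s t x + uv c - uv u := by
      rw [hx1, bd_add, bd_single, hχ, smul_smul, hsq, one_smul]
      abel
    have hbtw : ∀ e', (x e' ≤ x1 e' ∧ x1 e' ≤ y e') ∨ (y e' ≤ x1 e' ∧ x1 e' ≤ x e') := by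
      intro e'
      by_cases h' : e' = e
      · subst h'
        rw [hx1e]
        rcases hσ with rfl | rfl
        · left; constructor <;> omega
        · right; constructor <;> omega
      · rw [hx1ne e' h']
        rcases le_total (x e') (y e') with h2 | h2
        · left; exact ⟨le_rfl, h2⟩
        · right; exact ⟨h2, le_rfl⟩
    have hsum : ∑ e', (x1 e' - y e').natAbs = n := by
      have h1 : ∑ e', (x e' - y e').natAbs = (∑ e', (x1 e' - y e').natAbs) + 1 := by
        rw [← Finset.add_sum_erase _ _ (Finset.mem_univ e),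
          ← Finset.add_sum_erase _ (fun e' => (x1 e' - y e').natAbs) (Finset.mem_univ e)]
        have h2 : ∑ e' ∈ univ.erase e, (x1 e' - y e').natAbs =
            ∑ e' ∈ univ.erase e, (x e' - y e').natAbs := by
          apply Finset.sum_congr rfl
          intro e' h'
          rw [hx1ne e' (Finset.ne_of_mem_erase h')]
        rw [h2, hx1e]
        have h3 : (x e - y e).natAbs = (x e + σ - y e).natAbs + 1 := by
          rcases hσ with rfl | rfl <;> omega
        omega
      omega
    by_cases hu : bd s t y u < bd s t x u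
    · refine ⟨u, hu, x1, hbtw, ?_⟩
      rw [hbd1]; abel
    · have hu1 : bd s t x1 u < bd s t y u := by
        rw [hbd1]
        simp only [Pi.sub_apply, Pi.add_apply, uv, Pi.single_eq_same, Pi.single_eq_of_ne huc]
        omega
      obtain ⟨a, ha, z, hz, hzb⟩ := ih x1 y hsum u hu1
      have hau : a ≠ u := by
        rintro rfl; omega
      have hac : a ≠ c := by
        rintro rfl
        rw [hbd1] at ha
        simp only [Pi.sub_apply, Pi.add_apply, uv, Pi.single_eq_same, Pi.single_eq_of_ne huc.symm] at ha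
        omega
      refine ⟨a, ?_, z, ?_, ?_⟩
      · rw [hbd1] at ha
        simp only [Pi.sub_apply, Pi.add_apply, uv, Pi.single_eq_of_ne hau,
          Pi.single_eq_of_ne hac] at ha
        omega
      · intro e'
        have h1 := hbtw e'
        have h2 := hz e'
        omega
      · rw [hzb, hbd1]; abel

/-! ### the self-improvement principle -/

/-- lower bound of the box of `x` when `x + x' = S` is fixed -/
def loS (lo hi S : E → ℤ) (e : E) : ℤ := max (lo e) (S e - hi e)
/-- upper bound of the box of `x` when `x + x' = S` is fixed -/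
def hiS (lo hi S : E → ℤ) (e : E) : ℤ := min (hi e) (S e - lo e)

theorem mem_sysS {s t : E → V} {lo hi S x : E → ℤ} {A : V → ℤ} :
    x ∈ sys s t (loS lo hi S) (hiS lo hi S) A ↔
      (∀ e, lo e ≤ x e ∧ x e ≤ hi e) ∧ (∀ e, lo e ≤ S e - x e ∧ S e - x e ≤ hi e) ∧
        bd s t x = A := by
  rw [mem_sys]
  simp only [loS, hiS, max_le_iff, le_min_iff]
  constructor
  · rintro ⟨h1, h2⟩
    refine ⟨fun e => ⟨(h1 e).1.1, (h1 e).2.1⟩, fun e => ?_, h2⟩
    have := h1 e
    omega
  · rintro ⟨h1, h2, h3⟩
    refine ⟨fun e => ?_, h3⟩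
    have := h1 e; have := h2 e
    omega

theorem card_sysS_symm (s t : E → V) (lo hi S : E → ℤ) (A B : V → ℤ)
    (hS : bd s t S = A + B) :
    (sys s t (loS lo hi S) (hiS lo hi S) A).card =
      (sys s t (loS lo hi S) (hiS lo hi S) B).card := by
  apply Finset.card_bij (fun x _ => S - x)
  · intro x hx
    rw [mem_sysS] at hx ⊢
    obtain ⟨h1, h2, h3⟩ := hx
    refine ⟨h2, fun e => ?_, ?_⟩
    · simpa using h1 e
    · rw [bd_sub, hS, h3]; abel
  · intro x _ y _ h
    simpa using h
  · intro y hy
    rw [mem_sysS] at hy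
    obtain ⟨h1, h2, h3⟩ := hy
    refine ⟨S - y, ?_, by abel⟩
    rw [mem_sysS]
    refine ⟨h2, fun e => ?_, ?_⟩
    · simpa using h1 e
    · rw [bd_sub, hS, h3]; abel

theorem card_mul_card (s t : E → V) (lo hi : E → ℤ) (A B : V → ℤ) :
    (sys s t lo hi A).card * (sys s t lo hi B).card =
      ∑ S ∈ sys s t (2 • lo) (2 • hi) (A + B),
        (sys s t (loS lo hi S) (hiS lo hi S) A).card := by
  rw [← Finset.card_product]
  rw [Finset.card_eq_sum_card_fiberwise (f := fun p : (E → ℤ) × (E → ℤ) => p.1 + p.2)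
    (t := sys s t (2 • lo) (2 • hi) (A + B))]
  · apply Finset.sum_congr rfl
    intro S hS
    rw [mem_sys] at hS
    apply Finset.card_bij (fun p _ => p.1)
    · intro p hp
      rw [Finset.mem_filter, Finset.mem_product, mem_sys, mem_sys] at hp
      obtain ⟨⟨⟨h1, h2⟩, h3, h4⟩, h5⟩ := hp
      rw [mem_sysS]
      refine ⟨h1, fun e => ?_, h2⟩
      have : S e - p.1 e = p.2 e := by rw [← h5]; simp
      rw [this]; exact h3 e
    · intro p hp q hq h
      rw [Finset.mem_filter] at hp hq
      have h1 := hp.2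
      have h2 := hq.2
      have : p.2 = q.2 := by
        have h3 : p.1 + p.2 = q.1 + q.2 := by rw [h1, h2]
        rw [h] at h3
        exact add_left_cancel h3
      exact Prod.ext h this
    · intro x hx
      rw [mem_sysS] at hx
      obtain ⟨h1, h2, h3⟩ := hx
      refine ⟨(x, S - x), ?_, rfl⟩
      rw [Finset.mem_filter, Finset.mem_product, mem_sys, mem_sys]
      refine ⟨⟨⟨h1, h3⟩, h2, ?_⟩, by simp⟩
      rw [bd_sub, hS.2, h3]; abel
  · intro p hp
    rw [Finset.mem_coe, Finset.mem_product, mem_sys, mem_sys] at hp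
    obtain ⟨⟨h1, h2⟩, h3, h4⟩ := hp
    rw [Finset.mem_coe, mem_sys]
    refine ⟨fun e => ?_, ?_⟩
    · have := h1 e; have := h3 e
      simp only [Pi.smul_apply, Pi.add_apply, nsmul_eq_mul]
      push_cast
      omega
    · rw [bd_add, h2, h4]

/-- Self-improvement: an inequality of type `N(A) N(B) ≤ N(C) N(D)`, `A + B = C + D`, holds as soon as it
holds qualitatively for all subboxes. -/
theorem self_improve (s t : E → V) (A B C D : V → ℤ) (hABCD : A + B = C + D) (lo₀ hi₀ : E → ℤ)
    (hpos : ∀ lo hi : E → ℤ, (∀ e, lo₀ e ≤ lo e) → (∀ e, hi e ≤ hi₀ e) →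
      (sys s t lo hi A).Nonempty → (sys s t lo hi B).Nonempty →
      (sys s t lo hi C).Nonempty ∧ (sys s t lo hi D).Nonempty) :
    (sys s t lo₀ hi₀ A).card * (sys s t lo₀ hi₀ B).card ≤
      (sys s t lo₀ hi₀ C).card * (sys s t lo₀ hi₀ D).card := by
  set T : ℝ := ((box lo₀ hi₀).card : ℝ) ^ 2 with hT
  have hT0 : 0 ≤ T := by positivity
  have key : ∀ n : ℕ, ∀ lo hi : E → ℤ, (∀ e, lo₀ e ≤ lo e) → (∀ e, hi e ≤ hi₀ e) →
      ((sys s t lo hi A).card : ℝ) * (sys s t lo hi B).card ≤
        (1 + T / 2 ^ n) * ((sys s t lo hi C).card * (sys s t lo hi D).card) := by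
    intro n
    induction n with
    | zero =>
      intro lo hi hlo hhi
      by_cases hA : (sys s t lo hi A).Nonempty
      · by_cases hB : (sys s t lo hi B).Nonempty
        · obtain ⟨hC, hD⟩ := hpos lo hi hlo hhi hA hB
          have h1 : ∀ X : V → ℤ, ((sys s t lo hi X).card : ℝ) ≤ (box lo₀ hi₀).card := by
            intro X
            have : sys s t lo hi X ⊆ box lo₀ hi₀ := by
              intro x hx
              rw [mem_sys] at hx
              rw [mem_box]
              intro e
              exact ⟨(hlo e).trans (hx.1 e).1, (hx.1 e).2.trans (hhi e)⟩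
            exact_mod_cast Finset.card_le_card this
          have h2 : (1 : ℝ) ≤ (sys s t lo hi C).card := by exact_mod_cast hC.card_pos
          have h3 : (1 : ℝ) ≤ (sys s t lo hi D).card := by exact_mod_cast hD.card_pos
          have h4 : ((sys s t lo hi A).card : ℝ) * (sys s t lo hi B).card ≤ T := by
            rw [hT, sq]
            exact mul_le_mul (h1 A) (h1 B) (by positivity) (by positivity)
          have h5 : (1 : ℝ) ≤ (sys s t lo hi C).card * (sys s t lo hi D).card := by nlinarith
          have : T ≤ (1 + T / 2 ^ 0) * 1 := by simp; 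
          calc _ ≤ T := h4
            _ ≤ (1 + T / 2 ^ 0) * 1 := this
            _ ≤ _ := by
              apply mul_le_mul_of_nonneg_left h5
              positivity
        · rw [Finset.not_nonempty_iff_eq_empty] at hB
          rw [hB]; simp only [Finset.card_empty, Nat.cast_zero, mul_zero]; positivity
      · rw [Finset.not_nonempty_iff_eq_empty] at hA
        rw [hA]; simp only [Finset.card_empty, Nat.cast_zero, zero_mul]; positivity
    | succ n ih =>
      intro lo hi hlo hhi
      have e1 := card_mul_card s t lo hi A B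
      have e2 := card_mul_card s t lo hi C D
      rw [← hABCD] at e2
      have e1' : ((sys s t lo hi A).card : ℝ) * (sys s t lo hi B).card =
          ∑ S ∈ sys s t (2 • lo) (2 • hi) (A + B),
            ((sys s t (loS lo hi S) (hiS lo hi S) A).card : ℝ) := by exact_mod_cast e1
      have e2' : ((sys s t lo hi C).card : ℝ) * (sys s t lo hi D).card =
          ∑ S ∈ sys s t (2 • lo) (2 • hi) (A + B),
            ((sys s t (loS lo hi S) (hiS lo hi S) C).card : ℝ) := by exact_mod_cast e2
      rw [e1', e2', Finset.mul_sum]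
      apply Finset.sum_le_sum
      intro S hS
      rw [mem_sys] at hS
      have hlo' : ∀ e, lo₀ e ≤ loS lo hi S e := fun e => (hlo e).trans (le_max_left _ _)
      have hhi' : ∀ e, hiS lo hi S e ≤ hi₀ e := fun e => (min_le_left _ _).trans (hhi e)
      have h1 := ih (loS lo hi S) (hiS lo hi S) hlo' hhi'
      rw [← card_sysS_symm s t lo hi S A B hS.2,
        ← card_sysS_symm s t lo hi S C D (hS.2.trans hABCD)] at h1
      set a : ℝ := ((sys s t (loS lo hi S) (hiS lo hi S) A).card : ℝ)
      set c : ℝ := ((sys s t (loS lo hi S) (hiS lo hi S) C).card : ℝ)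
      have hc : 0 ≤ c := by positivity
      have ha : 0 ≤ a := by positivity
      have h2 : a ^ 2 ≤ ((1 + T / 2 ^ (n + 1)) * c) ^ 2 := by
        have h3 : (1 + T / 2 ^ n) ≤ (1 + T / 2 ^ (n + 1)) ^ 2 := by
          have : T / 2 ^ n = 2 * (T / 2 ^ (n + 1)) := by rw [pow_succ]; field_simp
          nlinarith [sq_nonneg (T / 2 ^ (n + 1))]
        calc a ^ 2 = a * a := sq a
          _ ≤ (1 + T / 2 ^ n) * (c * c) := h1
          _ ≤ (1 + T / 2 ^ (n + 1)) ^ 2 * (c * c) :=
              mul_le_mul_of_nonneg_right h3 (by positivity)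
          _ = _ := by ring
      exact abs_le_of_sq_le_sq' h2 (by positivity) |>.2
  have hlim : ((sys s t lo₀ hi₀ A).card : ℝ) * (sys s t lo₀ hi₀ B).card ≤
      (1 + 0) * ((sys s t lo₀ hi₀ C).card * (sys s t lo₀ hi₀ D).card) := by
    refine ge_of_tendsto' (x := Filter.atTop)
      (f := fun n : ℕ => (1 + T / 2 ^ n) *
        (((sys s t lo₀ hi₀ C).card : ℝ) * (sys s t lo₀ hi₀ D).card)) ?_
      (fun n => key n lo₀ hi₀ (fun _ => le_rfl) (fun _ => le_rfl))
    apply Filter.Tendsto.mul_const
    apply Filter.Tendsto.const_add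
    have h1 : Filter.Tendsto (fun n : ℕ => T * (1 / 2 : ℝ) ^ n) Filter.atTop (nhds (T * 0)) :=
      (tendsto_pow_atTop_nhds_zero_of_lt_one (by norm_num) (by norm_num)).const_mul T
    rw [mul_zero] at h1
    refine h1.congr fun n => ?_
    rw [one_div, inv_pow]; rfl
  rw [add_zero, one_mul] at hlim
  exact_mod_cast hlim

/-! ### the general Rayleigh inequality -/

/-- If `δ` is nonpositive off `a` then `N(κ+δ+e_a) N(κ+e_c) ≤ N(κ+e_a) N(κ+δ+e_c)`. -/
theorem rayleigh (s t : E → V) (hst : ∀ e, s e ≠ t e) (lo hi : E → ℤ) (κ δ : V → ℤ) (a c : V)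
    (hδ : ∀ v, v ≠ a → δ v ≤ 0) :
    (sys s t lo hi (κ + δ + uv a)).card * (sys s t lo hi (κ + uv c)).card ≤
      (sys s t lo hi (κ + uv a)).card * (sys s t lo hi (κ + δ + uv c)).card := by
  by_cases hac : a = c
  · subst hac
    rw [mul_comm]
  apply self_improve s t _ _ _ _ (by abel)
  intro lo' hi' _ _ ⟨x, hx⟩ ⟨y, hy⟩
  rw [mem_sys] at hx hy
  have hc : bd s t x c < bd s t y c := by
    rw [hx.2, hy.2]
    have := hδ c (Ne.symm hac)
    simp only [Pi.add_apply, uv, Pi.single_eq_same, Pi.single_eq_of_ne (Ne.symm hac)]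
    omega
  obtain ⟨a', ha', z, hz, hzb⟩ := walk s t hst _ x y rfl c hc
  have haa : a' = a := by
    by_contra hne
    rw [hx.2, hy.2] at ha'
    have h1 := hδ a' hne
    have h2 : (0 : ℤ) ≤ uv c a' := by
      by_cases h : a' = c
      · subst h; simp
      · simp [h]
    simp only [Pi.add_apply, uv, Pi.single_eq_of_ne hne] at ha' h2
    omega
  subst haa
  refine ⟨⟨x + y - z, ?_⟩, ⟨z, ?_⟩⟩
  · rw [mem_sys]
    refine ⟨fun e => ?_, ?_⟩
    · have h1 := hx.1 e; have h2 := hy.1 e; have h3 := hz e
      simp only [Pi.sub_apply, Pi.add_apply]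
      omega
    · rw [bd_sub, bd_add, hzb, hx.2, hy.2]; abel
  · rw [mem_sys]
    refine ⟨fun e => ?_, ?_⟩
    · have h1 := hx.1 e; have h2 := hy.1 e; have h3 := hz e
      omega
    · rw [hzb, hx.2]; abel

end Crest.Agent.R309.Stab
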