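import Mathlib
import Crest.Prelude.Def_Tables
import Crest.Agent.R309.Stab1

/-!
# R309: conversions (helper694), part 1

Contingency tables as integer flows in a box (`Stab.sys`), as functions and as lists.
-/

set_option autoImplicit false

namespace Crest.Agent.R309.Conv

open Finset
open Crest.Tables Crest.Agent.R309.Stab

/-! ### tables as functions -/

section fn
variable {m n : ℕ}

/-- bounded tables as functions into `ℕ` -/
def IsBTable (r : Fin m → ℕ) (c : Fin n → ℕ) (b : Fin m → Fin n → ℕ) (X : Fin m → Fin n → ℕ) : Prop :=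
  (∀ i j, X i j ≤ b i j) ∧ (∀ i, ∑ j, X i j = r i) ∧ ∀ j, ∑ i, X i j = c j

instance (r : Fin m → ℕ) (c : Fin n → ℕ) (b : Fin m → Fin n → ℕ) (X : Fin m → Fin n → ℕ) :
    Decidable (IsBTable r c b X) := by
  unfold IsBTable; infer_instance

/-- the finite set of bounded tables, as functions into `ℕ` -/
def ftabs (r : Fin m → ℕ) (c : Fin n → ℕ) (b : Fin m → Fin n → ℕ) : Finset (Fin m → Fin n → ℕ) :=
  (Fintype.piFinset fun i => Fintype.piFinset fun j => Finset.range (b i j + 1)).filter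
    fun X => (∀ i, ∑ j, X i j = r i) ∧ ∀ j, ∑ i, X i j = c j

theorem mem_ftabs {r : Fin m → ℕ} {c : Fin n → ℕ} {b : Fin m → Fin n → ℕ} {X : Fin m → Fin n → ℕ} :
    X ∈ ftabs r c b ↔ IsBTable r c b X := by
  simp [ftabs, IsBTable]

theorem card_ftabs (r : Fin m → ℕ) (c : Fin n → ℕ) (b : Fin m → Fin n → ℕ) :
    (ftabs r c b).card = numBoundedTables r c b := by
  classical
  unfold numBoundedTables
  rw [← Fintype.card_coe (ftabs r c b)]
  refine Fintype.card_congr ?_
  refine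
    { toFun := fun X => ⟨fun i j => ⟨X.1 i j, Nat.lt_succ_iff.2 ((mem_ftabs.1 X.2).1 i j)⟩,
        (mem_ftabs.1 X.2).2⟩
      invFun := fun Y => ⟨fun i j => (Y.1 i j : ℕ), mem_ftabs.2
        ⟨fun i j => Nat.lt_succ_iff.1 (Y.1 i j).2, Y.2⟩⟩
      left_inv := fun X => by ext; rfl
      right_inv := fun Y => by ext; rfl }

theorem isTable_iff (r : Fin m → ℕ) (c : Fin n → ℕ) (X : Fin m → Fin n → ℕ) :
    IsTable r c X ↔ IsBTable r c (fun _ _ => ∑ i, r i) X := by
  constructor
  · intro h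
    refine ⟨fun i j => ?_, h.1, h.2⟩
    calc X i j ≤ ∑ j, X i j := Finset.single_le_sum (f := fun j => X i j) (fun _ _ => Nat.zero_le _) (mem_univ j)
      _ = r i := h.1 i
      _ ≤ ∑ i, r i := Finset.single_le_sum (f := r) (fun _ _ => Nat.zero_le _) (mem_univ i)
  · intro h; exact h.2

theorem mem_ftabs_top {r : Fin m → ℕ} {c : Fin n → ℕ} {X : Fin m → Fin n → ℕ} :
    X ∈ ftabs r c (fun _ _ => ∑ i, r i) ↔ IsTable r c X := by
  rw [mem_ftabs, isTable_iff]

/-- tail of the cell `(i,j)`: the row `i` -/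
def cs (e : Fin m × Fin n) : Fin m ⊕ Fin n := Sum.inl e.1
/-- head of the cell `(i,j)`: the column `j` -/
def ct (e : Fin m × Fin n) : Fin m ⊕ Fin n := Sum.inr e.2

theorem cs_ne_ct (e : Fin m × Fin n) : (cs e : Fin m ⊕ Fin n) ≠ ct e := by simp [cs, ct]

/-- the boundary vector with margins `r`, `c` -/
def marg (r : Fin m → ℕ) (c : Fin n → ℕ) : Fin m ⊕ Fin n → ℤ :=
  Sum.elim (fun i => (r i : ℤ)) (fun j => -(c j : ℤ))

theorem bd_inl (x : Fin m × Fin n → ℤ) (i : Fin m) : bd cs ct x (Sum.inl i) = ∑ j, x (i, j) := by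
  simp only [bd, chi, cs, ct]
  rw [Fintype.sum_prod_type]
  simp only [Sum.inl.injEq, reduceCtorEq, if_false, sub_zero, mul_ite, mul_one, mul_zero]
  rw [Finset.sum_eq_single i]
  · simp
  · intro k _ hk; simp [hk]
  · simp

theorem bd_inr (x : Fin m × Fin n → ℤ) (j : Fin n) : bd cs ct x (Sum.inr j) = -∑ i, x (i, j) := by
  simp only [bd, chi, cs, ct]
  rw [Fintype.sum_prod_type_right]
  simp only [Sum.inr.injEq, reduceCtorEq, if_false, zero_sub, mul_neg, mul_ite, mul_one, mul_zero]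
  rw [Finset.sum_eq_single j]
  · simp
  · intro k _ hk; simp [hk]
  · simp

/-- the flow of a table -/
def toFlow (X : Fin m → Fin n → ℕ) : Fin m × Fin n → ℤ := fun e => (X e.1 e.2 : ℤ)

/-- the table of a (nonnegative) flow -/
def ofFlow (x : Fin m × Fin n → ℤ) : Fin m → Fin n → ℕ := fun i j => (x (i, j)).toNat

@[simp] theorem ofFlow_toFlow (X : Fin m → Fin n → ℕ) : ofFlow (toFlow X) = X := by
  funext i j; simp [ofFlow, toFlow]

theorem toFlow_ofFlow {x : Fin m × Fin n → ℤ} (h : ∀ e, 0 ≤ x e) : toFlow (ofFlow x) = x := by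
  funext ⟨i, j⟩; simp [ofFlow, toFlow, h]

theorem toFlow_zero : (toFlow (fun _ _ => 0) : Fin m × Fin n → ℤ) = fun _ => 0 := by
  funext e; simp [toFlow]

theorem toFlow_injective : Function.Injective (toFlow : (Fin m → Fin n → ℕ) → _) := fun X Y h => by
  rw [← ofFlow_toFlow X, h, ofFlow_toFlow]

theorem bd_toFlow_eq_marg_iff {r : Fin m → ℕ} {c : Fin n → ℕ} {X : Fin m → Fin n → ℕ} :
    bd cs ct (toFlow X) = marg r c ↔ (∀ i, ∑ j, X i j = r i) ∧ ∀ j, ∑ i, X i j = c j := by
  rw [funext_iff, Sum.forall]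
  simp only [bd_inl, bd_inr, marg, Sum.elim_inl, Sum.elim_inr, toFlow, neg_inj]
  constructor
  · rintro ⟨h1, h2⟩
    exact ⟨fun i => by exact_mod_cast h1 i, fun j => by exact_mod_cast h2 j⟩
  · rintro ⟨h1, h2⟩
    exact ⟨fun i => by exact_mod_cast h1 i, fun j => by exact_mod_cast h2 j⟩

/-- tables with lower and upper bounds form a box system -/
theorem toFlow_mem_sys_iff {r : Fin m → ℕ} {c : Fin n → ℕ} {lo b : Fin m → Fin n → ℕ}
    {X : Fin m → Fin n → ℕ} :
    toFlow X ∈ sys cs ct (toFlow lo) (toFlow b) (marg r c) ↔ (∀ i j, lo i j ≤ X i j) ∧ IsBTable r c b X := by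
  rw [mem_sys, bd_toFlow_eq_marg_iff]
  unfold IsBTable toFlow
  constructor
  · rintro ⟨h1, h2⟩
    refine ⟨fun i j => by exact_mod_cast (h1 (i, j)).1, fun i j => by exact_mod_cast (h1 (i, j)).2, h2⟩
  · rintro ⟨h1, h2, h3⟩
    exact ⟨fun e => ⟨by exact_mod_cast h1 e.1 e.2, by exact_mod_cast h2 e.1 e.2⟩, h3⟩

/-- bounded tables = integer flows in the box `[0,b]` -/
theorem sys_eq_image (r : Fin m → ℕ) (c : Fin n → ℕ) (b : Fin m → Fin n → ℕ) :
    sys cs ct (fun _ => 0) (toFlow b) (marg r c) = (ftabs r c b).image toFlow := by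
  classical
  ext x
  rw [mem_image]
  constructor
  · intro hx
    have h0 : ∀ e, 0 ≤ x e := fun e => ((mem_sys.1 hx).1 e).1
    refine ⟨ofFlow x, ?_, toFlow_ofFlow h0⟩
    rw [mem_ftabs]
    have := (toFlow_mem_sys_iff (r := r) (c := c) (lo := fun _ _ => 0) (b := b) (X := ofFlow x)).1
    rw [toFlow_ofFlow h0] at this
    rw [toFlow_zero] at this
    exact (this hx).2
  · rintro ⟨X, hX, rfl⟩
    have := (toFlow_mem_sys_iff (r := r) (c := c) (lo := fun _ _ => 0) (b := b) (X := X)).2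
      ⟨fun _ _ => Nat.zero_le _, mem_ftabs.1 hX⟩
    rwa [toFlow_zero] at this

theorem card_sys (r : Fin m → ℕ) (c : Fin n → ℕ) (b : Fin m → Fin n → ℕ) :
    (sys cs ct (fun _ => 0) (toFlow b) (marg r c)).card = numBoundedTables r c b := by
  classical
  rw [sys_eq_image, card_image_of_injective _ toFlow_injective, card_ftabs]

/-- sums over flows of a box system are sums over tables -/
theorem sum_sys {M : Type*} [AddCommMonoid M] (r : Fin m → ℕ) (c : Fin n → ℕ) (b : Fin m → Fin n → ℕ)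
    (f : (Fin m × Fin n → ℤ) → M) :
    ∑ x ∈ sys cs ct (fun _ => 0) (toFlow b) (marg r c), f x = ∑ X ∈ ftabs r c b, f (toFlow X) := by
  classical
  rw [sys_eq_image, Finset.sum_image (fun _ _ _ _ h => toFlow_injective h)]

end fn

end Crest.Agent.R309.Conv
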