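import Mathlib
import Crest.Prelude.Def_Tables
import Crest.Agent.Lib.PT.ArithRat
import Crest.Agent.R309.Tape

/-!
# R309: the black-box interfaces of the row

* `Inst`, `Tab`, `IsTab`, `tabs`: bounded contingency tables as lists.
* `FeasSpec`: deterministic feasibility.
* `ChainSpec`: one tape-driven chain whose law converges to the uniform law for EVERY accuracy.
* `CountSpec`: the randomised counter.
-/

set_option autoImplicit false

namespace Crest.Agent.R309.Iface

open Crest.Agent.Lib.PT Crest.Agent.R309.Tape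

/-- table instances: rows, columns, cell bounds (one list per row) -/
abbrev Inst := List ℕ × List ℕ × List (List ℕ)

/-- a table, row by row -/
abbrev Tab := List (List ℕ)

/-- sum of column `j` -/
def colSum (X : Tab) (j : ℕ) : ℕ := (X.map fun r => r.getD j 0).sum

/-- `X` is a table of the instance `I` -/
structure IsTab (I : Inst) (X : Tab) : Prop where
  rows : X.map List.sum = I.1
  len : ∀ r ∈ X, r.length = I.2.1.length
  cols : ∀ j < I.2.1.length, colSum X j = I.2.1.getD j 0
  bds : List.Forall₂ (List.Forall₂ (· ≤ ·)) X I.2.2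

theorem finite_forall₂_le (B : List ℕ) : {x : List ℕ | List.Forall₂ (· ≤ ·) x B}.Finite := by
  induction B with
  | nil => 
    refine Set.Finite.subset (Set.finite_singleton []) ?_
    intro x hx
    simpa using hx
  | cons b B ih =>
    refine Set.Finite.subset (((Set.finite_Iic b).prod ih).image fun p => p.1 :: p.2) ?_
    intro x hx
    cases hx with
    | cons h1 h2 => exact ⟨(_, _), ⟨h1, h2⟩, rfl⟩

theorem finite_forall₂₂_le (B : List (List ℕ)) :
    {X : Tab | List.Forall₂ (List.Forall₂ (· ≤ ·)) X B}.Finite := by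
  induction B with
  | nil =>
    refine Set.Finite.subset (Set.finite_singleton []) ?_
    intro x hx
    simpa using hx
  | cons b B ih =>
    refine Set.Finite.subset (((finite_forall₂_le b).prod ih).image fun p => p.1 :: p.2) ?_
    intro x hx
    cases hx with
    | cons h1 h2 => exact ⟨(_, _), ⟨h1, h2⟩, rfl⟩

theorem finite_isTab (I : Inst) : {X : Tab | IsTab I X}.Finite :=
  (finite_forall₂₂_le I.2.2).subset fun _ hX => hX.bds

/-- the tables of the instance `I` -/
noncomputable def tabs (I : Inst) : Finset Tab := (finite_isTab I).toFinset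

@[simp] theorem mem_tabs {I : Inst} {X : Tab} : X ∈ tabs I ↔ IsTab I X := by
  simp [tabs]

/-- average of `φ` over the tables of `I` -/
noncomputable def unif (I : Inst) (φ : Tab → ℝ) : ℝ := (∑ X ∈ tabs I, φ X) / (tabs I).card

/-- deterministic feasibility -/
def FeasSpec : Prop :=
  ∃ feas : Inst → Option Tab, PTF feas ∧
    (∀ I X, feas I = some X → IsTab I X) ∧ (∀ I, feas I = none → ∀ X, ¬ IsTab I X)

/-- THE CHAIN: `step` maps tables to tables on every tape; after `m * tau I` steps the law is within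
`2 ^ (-m)` of uniform, from any start, for every `m`. -/
def ChainSpec : Prop :=
  ∃ (step : Inst × Tab → List Bool → Tab) (len tau : Inst → ℕ),
    PTF (fun p : (Inst × Tab) × List Bool => step p.1 p.2) ∧ PTU len ∧ PTU tau ∧
    ∀ I X, IsTab I X →
      (∀ t : List Bool, t.length = len I → IsTab I (step (I, X) t)) ∧
      ∀ (m : ℕ) (φ : Tab → ℝ), (∀ Y, 0 ≤ φ Y ∧ φ Y ≤ 1) →
        |(markov (fun Y t => step (I, Y) t) (len I))^[m * tau I] φ X - unif I φ| ≤ (1 / 2 : ℝ) ^ m

/-- randomised approximate counting: relative accuracy `1/(k+1)`, failure probability `2^(-t)`;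
the answer is `num / den` with `den > 0` on every tape, and `num = 0` on every tape if there is no table. -/
def CountSpec : Prop :=
  ∃ (cnt : Inst × Un × Un → List Bool → ℕ × ℕ) (len : Inst × Un × Un → ℕ),
    PTF (fun p : (Inst × Un × Un) × List Bool => cnt p.1 p.2) ∧ PTU len ∧
    ∀ (I : Inst) (k t : ℕ),
      (∀ l : List Bool, 0 < (cnt (I, ⟨k⟩, ⟨t⟩) l).2) ∧
      ((tabs I).card = 0 → ∀ l : List Bool, (cnt (I, ⟨k⟩, ⟨t⟩) l).1 = 0) ∧
      1 - (1 / 2 : ℝ) ^ t ≤ pr (len (I, ⟨k⟩, ⟨t⟩)) (fun l =>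
        (1 - 1 / ((k : ℝ) + 1)) * (tabs I).card ≤ ((cnt (I, ⟨k⟩, ⟨t⟩) l).1 : ℝ) / (cnt (I, ⟨k⟩, ⟨t⟩) l).2 ∧
        ((cnt (I, ⟨k⟩, ⟨t⟩) l).1 : ℝ) / (cnt (I, ⟨k⟩, ⟨t⟩) l).2 ≤ (1 + 1 / ((k : ℝ) + 1)) * (tabs I).card)

end Crest.Agent.R309.Iface
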