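import Crest.Agent.R309.Conv2
import Crest.Agent.R309.Count632A

/-!
# Bisection of table instances
-/

set_option autoImplicit false

namespace Crest.Agent.R309.Count632

open Finset
open Crest.Agent.Lib.PT Crest.Agent.R309.Iface Crest.Agent.R309.Conv Crest.Tables

/-! ### functions -/

section fn

variable {m n : ℕ}

/-- change one entry of a matrix -/
def setM (b : Fin m → Fin n → ℕ) (i : Fin m) (j : Fin n) (v : ℕ) : Fin m → Fin n → ℕ :=
  Function.update b i (Function.update (b i) j v)

theorem setM_same (b : Fin m → Fin n → ℕ) (i : Fin m) (j : Fin n) (v : ℕ) : setM b i j v i j = v := by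
  simp [setM]

theorem setM_apply (b : Fin m → Fin n → ℕ) (i : Fin m) (j : Fin n) (v : ℕ) (i' : Fin m) (j' : Fin n) :
    setM b i j v i' j' = if i' = i ∧ j' = j then v else b i' j' := by
  unfold setM
  by_cases hi : i' = i
  · subst hi
    by_cases hj : j' = j
    · subst hj; simp
    · simp [hj]
  · simp [hi]

theorem filter_lo (r : Fin m → ℕ) (c : Fin n → ℕ) (b : Fin m → Fin n → ℕ) (i : Fin m) (j : Fin n)
    (v : ℕ) (hv : v ≤ b i j) :
    (ftabs r c b).filter (fun X => X i j ≤ v) = ftabs r c (setM b i j v) := by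
  ext X
  rw [mem_filter, mem_ftabs, mem_ftabs]
  constructor
  · rintro ⟨⟨h1, h2⟩, h3⟩
    refine ⟨fun i' j' => ?_, h2⟩
    rw [setM_apply]
    split_ifs with h
    · rw [h.1, h.2]; exact h3
    · exact h1 i' j'
  · rintro ⟨h1, h2⟩
    have h3 : X i j ≤ v := by simpa [setM_same] using h1 i j
    refine ⟨⟨fun i' j' => ?_, h2⟩, h3⟩
    have := h1 i' j'
    rw [setM_apply] at this
    split_ifs at this with h
    · rw [h.1, h.2]; exact h3.trans hv
    · exact this

theorem sum_setM_row (X : Fin m → Fin n → ℕ) (i : Fin m) (j : Fin n) (v : ℕ) (i' : Fin m) :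
    (∑ j', setM X i j v i' j') + (if i' = i then X i j else 0) =
      (∑ j', X i' j') + (if i' = i then v else 0) := by
  by_cases h : i' = i
  · subst h
    simp only [if_true]
    have e1 := Finset.add_sum_erase (univ : Finset (Fin n)) (fun j' => setM X i' j v i' j') (mem_univ j)
    have e2 := Finset.add_sum_erase (univ : Finset (Fin n)) (fun j' => X i' j') (mem_univ j)
    have e3 : ∑ j' ∈ (univ : Finset (Fin n)).erase j, setM X i' j v i' j' =
        ∑ j' ∈ (univ : Finset (Fin n)).erase j, X i' j' := by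
      refine Finset.sum_congr rfl fun j' hj' => ?_
      rw [setM_apply, if_neg]
      rintro ⟨_, h⟩
      exact (Finset.ne_of_mem_erase hj') h
    rw [← e1, ← e2, e3]
    simp only [setM_same]
    ring
  · simp only [h, if_false, add_zero]
    refine Finset.sum_congr rfl fun j' _ => ?_
    rw [setM_apply, if_neg]
    rintro ⟨h', _⟩
    exact h h'

theorem sum_setM_col (X : Fin m → Fin n → ℕ) (i : Fin m) (j : Fin n) (v : ℕ) (j' : Fin n) :
    (∑ i', setM X i j v i' j') + (if j' = j then X i j else 0) =
      (∑ i', X i' j') + (if j' = j then v else 0) := by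
  by_cases h : j' = j
  · subst h
    simp only [if_true]
    have e1 := Finset.add_sum_erase (univ : Finset (Fin m)) (fun i' => setM X i j' v i' j') (mem_univ i)
    have e2 := Finset.add_sum_erase (univ : Finset (Fin m)) (fun i' => X i' j') (mem_univ i)
    have e3 : ∑ i' ∈ (univ : Finset (Fin m)).erase i, setM X i j' v i' j' =
        ∑ i' ∈ (univ : Finset (Fin m)).erase i, X i' j' := by
      refine Finset.sum_congr rfl fun i' hi' => ?_
      rw [setM_apply, if_neg]
      rintro ⟨h, _⟩
      exact (Finset.ne_of_mem_erase hi') h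
    rw [← e1, ← e2, e3]
    simp only [setM_same]
    ring
  · simp only [h, if_false, add_zero]
    refine Finset.sum_congr rfl fun i' _ => ?_
    rw [setM_apply, if_neg]
    rintro ⟨_, h'⟩
    exact h h'

theorem setM_setM (b : Fin m → Fin n → ℕ) (i : Fin m) (j : Fin n) (v w : ℕ) :
    setM (setM b i j v) i j w = setM b i j w := by
  funext i' j'
  rw [setM_apply, setM_apply, setM_apply]
  split_ifs <;> rfl

theorem setM_self (b : Fin m → Fin n → ℕ) (i : Fin m) (j : Fin n) :
    setM b i j (b i j) = b := by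
  funext i' j'
  rw [setM_apply]
  split_ifs with h
  · rw [h.1, h.2]
  · rfl

theorem card_hi (r : Fin m → ℕ) (c : Fin n → ℕ) (b : Fin m → Fin n → ℕ) (i : Fin m) (j : Fin n)
    (t : ℕ) (hb : t ≤ b i j) (hr : t ≤ r i) (hc : t ≤ c j) :
    ((ftabs r c b).filter (fun X => t ≤ X i j)).card =
      (ftabs (Function.update r i (r i - t)) (Function.update c j (c j - t))
        (setM b i j (b i j - t))).card := by
  refine Finset.card_nbij' (fun X => setM X i j (X i j - t)) (fun X => setM X i j (X i j + t)) ?_ ?_ ?_ ?_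
  · intro X hX
    rw [mem_coe, mem_filter, mem_ftabs] at hX
    obtain ⟨⟨h1, h2, h3⟩, h4⟩ := hX
    rw [mem_coe, mem_ftabs]
    refine ⟨fun i' j' => ?_, fun i' => ?_, fun j' => ?_⟩
    · beta_reduce
      rw [setM_apply, setM_apply]
      split_ifs with h
      · exact Nat.sub_le_sub_right (h1 i j) t
      · exact h1 i' j'
    · have := sum_setM_row X i j (X i j - t) i'
      rw [h2] at this
      by_cases h : i' = i
      · subst h
        simp only [if_true, Function.update_self] at this ⊢
        omega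
      · simp only [h, if_false, add_zero] at this
        rw [this, Function.update_of_ne h]
    · have := sum_setM_col X i j (X i j - t) j'
      rw [h3] at this
      by_cases h : j' = j
      · subst h
        simp only [if_true, Function.update_self] at this ⊢
        omega
      · simp only [h, if_false, add_zero] at this
        rw [this, Function.update_of_ne h]
  · intro X hX
    rw [mem_coe, mem_ftabs] at hX
    obtain ⟨h1, h2, h3⟩ := hX
    rw [mem_coe, mem_filter, mem_ftabs]
    refine ⟨⟨fun i' j' => ?_, fun i' => ?_, fun j' => ?_⟩, ?_⟩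
    · have := h1 i' j'
      rw [setM_apply] at this
      beta_reduce
      rw [setM_apply]
      split_ifs with h
      · rw [if_pos h, h.1, h.2] at this
        rw [h.1, h.2]
        omega
      · rwa [if_neg h] at this
    · have := sum_setM_row X i j (X i j + t) i'
      rw [h2] at this
      by_cases h : i' = i
      · subst h
        simp only [if_true, Function.update_self] at this ⊢
        omega
      · simp only [h, if_false, add_zero] at this
        rw [this, Function.update_of_ne h]
    · have := sum_setM_col X i j (X i j + t) j'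
      rw [h3] at this
      by_cases h : j' = j
      · subst h
        simp only [if_true, Function.update_self] at this ⊢
        omega
      · simp only [h, if_false, add_zero] at this
        rw [this, Function.update_of_ne h]
    · beta_reduce
      rw [setM_same]; omega
  · intro X hX
    rw [mem_coe, mem_filter] at hX
    simp only [setM_same, setM_setM]
    rw [Nat.sub_add_cancel hX.2, setM_self]
  · intro X _
    simp only [setM_same, setM_setM]
    rw [Nat.add_sub_cancel, setM_self]

theorem entry_le_row {r : Fin m → ℕ} {c : Fin n → ℕ} {b : Fin m → Fin n → ℕ} {X : Fin m → Fin n → ℕ}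
    (h : X ∈ ftabs r c b) (i : Fin m) (j : Fin n) : X i j ≤ r i := by
  rw [mem_ftabs] at h
  rw [← h.2.1 i]
  exact Finset.single_le_sum (f := fun j => X i j) (fun _ _ => Nat.zero_le _) (mem_univ j)

theorem entry_le_col {r : Fin m → ℕ} {c : Fin n → ℕ} {b : Fin m → Fin n → ℕ} {X : Fin m → Fin n → ℕ}
    (h : X ∈ ftabs r c b) (i : Fin m) (j : Fin n) : X i j ≤ c j := by
  rw [mem_ftabs] at h
  rw [← h.2.2 j]
  exact Finset.single_le_sum (f := fun i => X i j) (fun _ _ => Nat.zero_le _) (mem_univ i)

end fn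

/-! ### lists -/

/-- entry of a list matrix -/
def bnd (B : Tab) (i j : ℕ) : ℕ := (B.getD i []).getD j 0

/-- change one entry of a list matrix -/
def setL (B : Tab) (i j v : ℕ) : Tab := B.modify i (fun row => row.set j v)

theorem bnd_toL {m n : ℕ} (b : Fin m → Fin n → ℕ) (i : Fin m) (j : Fin n) :
    bnd (toL b) i j = b i j := by
  have := congrFun (congrFun (ofL_toL b) i) j
  exact this

theorem ofFn_update {n : ℕ} (f : Fin n → ℕ) (i : Fin n) (v : ℕ) :
    List.ofFn (Function.update f i v) = (List.ofFn f).set i v := by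
  apply List.ext_getElem (by simp)
  intro k h1 h2
  rw [List.getElem_set]
  simp only [List.getElem_ofFn]
  by_cases h : (i : ℕ) = k
  · subst h
    simp
  · rw [if_neg h, Function.update_of_ne]
    intro h'
    exact h (by rw [← h'])

theorem toL_setM {m n : ℕ} (b : Fin m → Fin n → ℕ) (i : Fin m) (j : Fin n) (v : ℕ) :
    toL (setM b i j v) = setL (toL b) i j v := by
  unfold setL
  apply List.ext_getElem (by simp [toL])
  intro k h1 h2
  rw [List.getElem_modify]
  simp only [toL, List.getElem_ofFn]
  by_cases h : (i : ℕ) = k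
  · subst h
    simp only [if_true, Fin.eta]
    rw [← ofFn_update]
    simp [setM]
  · rw [if_neg h]
    congr 1
    unfold setM
    rw [Function.update_of_ne]
    intro h'
    exact h (by rw [← h'])

/-- the cells of an instance -/
def cells (I : Inst) : List (ℕ × ℕ) :=
  (List.range I.1.length).flatMap fun i => (List.range I.2.1.length).map fun j => (i, j)

/-- the first cell with positive bound -/
def pos? (I : Inst) : Option (ℕ × ℕ) := (cells I).find? fun p => decide (0 < bnd I.2.2 p.1 p.2)

/-- all bounds are `0` -/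
def fin (I : Inst) : Bool := !(pos? I).isSome

/-- the row of the cell to bisect -/
def pi (I : Inst) : ℕ := ((pos? I).getD (0, 0)).1

/-- the column of the cell to bisect -/
def pj (I : Inst) : ℕ := ((pos? I).getD (0, 0)).2

/-- the bound of the cell to bisect -/
def pb (I : Inst) : ℕ := bnd I.2.2 (pi I) (pj I)

/-- lower half -/
def lo (I : Inst) : Inst := (I.1, I.2.1, setL I.2.2 (pi I) (pj I) (pb I / 2))

/-- an instance without tables -/
def dead : Inst := ([1], [], [[]])

/-- upper half -/
def hi (I : Inst) : Inst :=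
  if pb I / 2 + 1 ≤ I.1.getD (pi I) 0 ∧ pb I / 2 + 1 ≤ I.2.1.getD (pj I) 0 then
    (I.1.set (pi I) (I.1.getD (pi I) 0 - (pb I / 2 + 1)),
     I.2.1.set (pj I) (I.2.1.getD (pj I) 0 - (pb I / 2 + 1)),
     setL I.2.2 (pi I) (pj I) (pb I - (pb I / 2 + 1)))
  else dead

/-- number of tables -/
noncomputable def cnt (I : Inst) : ℕ := (tabs I).card

/-- total size of the bounds -/
def mu (I : Inst) : ℕ := (I.2.2.map fun row => (row.map Nat.size).sum).sum

theorem mu_inst {m n : ℕ} (r : Fin m → ℕ) (c : Fin n → ℕ) (b : Fin m → Fin n → ℕ) :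
    mu (inst r c b) = ∑ i, ∑ j, (b i j).size := by
  simp [mu, inst, toL, List.map_ofFn, Function.comp_def, List.sum_ofFn]

theorem pos?_some {m n : ℕ} {r : Fin m → ℕ} {c : Fin n → ℕ} {b : Fin m → Fin n → ℕ}
    (h : fin (inst r c b) = false) : ∃ (i : Fin m) (j : Fin n), pi (inst r c b) = i ∧
      pj (inst r c b) = j ∧ pb (inst r c b) = b i j ∧ 0 < b i j := by
  unfold fin at h
  simp only [Bool.not_eq_false'] at h
  obtain ⟨⟨i, j⟩, hp⟩ := Option.isSome_iff_exists.1 h
  have h1 := List.find?_some hp
  have h2 := List.mem_of_find?_eq_some hp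
  simp only [cells, List.mem_flatMap, List.mem_map, List.mem_range, Prod.mk.injEq, inst_fst,
    inst_snd_fst, List.length_ofFn] at h2
  obtain ⟨i', hi', j', hj', rfl, rfl⟩ := h2
  have e1 : pi (inst r c b) = i' := by unfold pi; rw [hp]; rfl
  have e2 : pj (inst r c b) = j' := by unfold pj; rw [hp]; rfl
  refine ⟨⟨i', hi'⟩, ⟨j', hj'⟩, e1, e2, ?_, ?_⟩
  · unfold pb; rw [e1, e2]
    exact bnd_toL b ⟨i', hi'⟩ ⟨j', hj'⟩
  · have := bnd_toL b ⟨i', hi'⟩ ⟨j', hj'⟩
    simp only at this
    rw [← this]
    simpa using h1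

theorem bnd_zero_of_fin {m n : ℕ} {r : Fin m → ℕ} {c : Fin n → ℕ} {b : Fin m → Fin n → ℕ}
    (h : fin (inst r c b) = true) (i : Fin m) (j : Fin n) : b i j = 0 := by
  unfold fin at h
  simp only [Bool.not_eq_true', Option.isSome_eq_false_iff, Option.isNone_iff_eq_none] at h
  unfold pos? at h
  rw [List.find?_eq_none] at h
  have := h ((i : ℕ), (j : ℕ)) (by
    simp [cells, List.mem_flatMap, List.mem_map, List.mem_range])
  simp only [inst_snd_snd, bnd_toL, decide_eq_true_eq, not_lt, Nat.le_zero] at this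
  exact this

theorem lo_inst {m n : ℕ} {r : Fin m → ℕ} {c : Fin n → ℕ} {b : Fin m → Fin n → ℕ} {i : Fin m}
    {j : Fin n} (h1 : pi (inst r c b) = i) (h2 : pj (inst r c b) = j)
    (h3 : pb (inst r c b) = b i j) :
    lo (inst r c b) = inst r c (setM b i j (b i j / 2)) := by
  unfold lo
  rw [h1, h2, h3]
  simp only [inst, toL_setM]

theorem hi_inst {m n : ℕ} {r : Fin m → ℕ} {c : Fin n → ℕ} {b : Fin m → Fin n → ℕ} {i : Fin m}
    {j : Fin n} (h1 : pi (inst r c b) = i) (h2 : pj (inst r c b) = j)
    (h3 : pb (inst r c b) = b i j) :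
    hi (inst r c b) = if b i j / 2 + 1 ≤ r i ∧ b i j / 2 + 1 ≤ c j then
      inst (Function.update r i (r i - (b i j / 2 + 1))) (Function.update c j (c j - (b i j / 2 + 1)))
        (setM b i j (b i j - (b i j / 2 + 1))) else dead := by
  unfold hi
  rw [h1, h2, h3]
  have e1 : (inst r c b).1.getD i 0 = r i := by simp [List.getD_eq_getElem?_getD]
  have e2 : (inst r c b).2.1.getD j 0 = c j := by simp [List.getD_eq_getElem?_getD]
  rw [e1, e2]
  split_ifs with h
  · simp only [inst, toL_setM, ofFn_update]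
  · rfl

theorem shaped_dead : Shaped dead := by
  unfold Shaped dead; simp

theorem cnt_dead : cnt dead = 0 := by
  unfold cnt
  rw [Finset.card_eq_zero, Finset.eq_empty_iff_forall_notMem]
  intro X hX
  rw [mem_tabs] at hX
  have h1 := hX.rows
  have h2 := hX.len
  simp only [dead, List.map_eq_cons_iff, List.map_eq_nil_iff] at h1
  obtain ⟨row, t, rfl, h3, rfl⟩ := h1
  have := h2 row (by simp)
  simp only [dead, List.length_nil, List.length_eq_zero_iff] at this
  rw [this] at h3
  simp at h3

theorem mu_dead : mu dead = 0 := by simp [mu, dead]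

theorem shaped_lo {I : Inst} (h : Shaped I) (hf : fin I = false) : Shaped (lo I) := by
  obtain ⟨r, c, b, rfl'⟩ := exists_inst h
  rw [rfl'] at hf
  obtain ⟨i, j, h1, h2, h3, _⟩ := pos?_some hf
  rw [rfl', lo_inst h1 h2 h3]
  exact shaped_inst _ _ _

theorem shaped_hi {I : Inst} (h : Shaped I) (hf : fin I = false) : Shaped (hi I) := by
  obtain ⟨r, c, b, rfl'⟩ := exists_inst h
  rw [rfl'] at hf
  obtain ⟨i, j, h1, h2, h3, _⟩ := pos?_some hf
  rw [rfl', hi_inst h1 h2 h3]
  split_ifs
  · exact shaped_inst _ _ _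
  · exact shaped_dead

theorem cnt_split {I : Inst} (h : Shaped I) (hf : fin I = false) : cnt I = cnt (lo I) + cnt (hi I) := by
  obtain ⟨r, c, b, e⟩ := exists_inst h
  rw [e] at hf
  obtain ⟨i, j, h1, h2, h3, h4⟩ := pos?_some hf
  rw [e, lo_inst h1 h2 h3, hi_inst h1 h2 h3]
  unfold cnt
  rw [card_tabs_inst, card_tabs_inst, ← card_ftabs, ← card_ftabs]
  rw [← filter_lo r c b i j (b i j / 2) (Nat.div_le_self _ _)]
  rw [← Finset.card_filter_add_card_filter_not (s := ftabs r c b) (fun X => X i j ≤ b i j / 2)]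
  congr 1
  have e2 : (ftabs r c b).filter (fun X => ¬ X i j ≤ b i j / 2) =
      (ftabs r c b).filter (fun X => b i j / 2 + 1 ≤ X i j) := by
    refine Finset.filter_congr fun X _ => ?_
    omega
  rw [e2]
  split_ifs with hc
  · rw [card_tabs_inst, ← card_ftabs, card_hi r c b i j _ (by omega) hc.1 hc.2]
  · have := cnt_dead
    unfold cnt at this
    rw [this, Finset.card_eq_zero, Finset.filter_eq_empty_iff]
    intro X hX hle
    exact hc ⟨hle.trans (entry_le_row hX i j), hle.trans (entry_le_col hX i j)⟩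

theorem size_div_two_lt {x : ℕ} (h : 0 < x) : (x / 2).size < x.size := by
  have h1 : x.size ≠ 0 := by
    intro h'
    rw [Nat.size_eq_zero] at h'
    omega
  obtain ⟨k, hk⟩ := Nat.exists_eq_succ_of_ne_zero h1
  rw [hk, Nat.succ_eq_add_one, Nat.lt_add_one_iff]
  rw [Nat.size_le]
  have h2 : x < 2 ^ (k + 1) := by
    rw [← Nat.size_le, hk]
  omega

theorem mu_lt {m n : ℕ} (r r' : Fin m → ℕ) (c c' : Fin n → ℕ) (b : Fin m → Fin n → ℕ) (i : Fin m)
    (j : Fin n) (v : ℕ) (hv : v.size < (b i j).size) :
    mu (inst r' c' (setM b i j v)) < mu (inst r c b) := by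
  rw [mu_inst, mu_inst]
  refine Finset.sum_lt_sum (fun i' _ => Finset.sum_le_sum fun j' _ => ?_)
    ⟨i, mem_univ _, Finset.sum_lt_sum (fun j' _ => ?_) ⟨j, mem_univ _, ?_⟩⟩
  · rw [setM_apply]
    split_ifs with h
    · rw [h.1, h.2]; exact hv.le
    · exact le_rfl
  · rw [setM_apply]
    split_ifs with h
    · rw [h.2]; exact hv.le
    · exact le_rfl
  · rw [setM_same]; exact hv

theorem mu_lo {I : Inst} (h : Shaped I) (hf : fin I = false) : mu (lo I) < mu I := by
  obtain ⟨r, c, b, e⟩ := exists_inst h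
  rw [e] at hf
  obtain ⟨i, j, h1, h2, h3, h4⟩ := pos?_some hf
  rw [e, lo_inst h1 h2 h3]
  exact mu_lt _ _ _ _ _ _ _ _ (size_div_two_lt h4)

theorem mu_hi {I : Inst} (h : Shaped I) (hf : fin I = false) : mu (hi I) < mu I := by
  obtain ⟨r, c, b, e⟩ := exists_inst h
  rw [e] at hf
  obtain ⟨i, j, h1, h2, h3, h4⟩ := pos?_some hf
  rw [e, hi_inst h1 h2 h3]
  split_ifs
  · refine mu_lt _ _ _ _ _ _ _ _ (lt_of_le_of_lt (Nat.size_le_size ?_) (size_div_two_lt h4))
    omega
  · rw [mu_dead, mu_inst]
    refine Finset.sum_pos' (fun _ _ => Nat.zero_le _) ⟨i, mem_univ _, ?_⟩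
    refine Finset.sum_pos' (fun _ _ => Nat.zero_le _) ⟨j, mem_univ _, ?_⟩
    exact Nat.size_pos.2 h4

theorem mu_of_fin {I : Inst} (h : Shaped I) (hf : fin I = true) : mu I = 0 := by
  obtain ⟨r, c, b, e⟩ := exists_inst h
  rw [e] at hf ⊢
  rw [mu_inst]
  simp [bnd_zero_of_fin hf]

theorem fin_of_mu {I : Inst} (h : Shaped I) (hm : mu I = 0) : fin I = true := by
  by_contra hf
  have hf' : fin I = false := by simpa using hf
  have := mu_lo h hf'
  omega

theorem cnt_le_of_fin {I : Inst} (h : Shaped I) (hf : fin I = true) : cnt I ≤ 1 := by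
  obtain ⟨r, c, b, e⟩ := exists_inst h
  rw [e] at hf ⊢
  unfold cnt
  rw [card_tabs_inst, ← card_ftabs, Finset.card_le_one]
  intro X hX Y hY
  rw [mem_ftabs] at hX hY
  funext i j
  have h1 := hX.1 i j
  have h2 := hY.1 i j
  rw [bnd_zero_of_fin hf i j] at h1 h2
  omega

/-- the fraction of tables in the lower half -/
theorem unif_lo {I : Inst} (h : Shaped I) (hf : fin I = false) :
    unif I (fun X => Tape.ind (bnd X (pi I) (pj I) ≤ pb I / 2)) = (cnt (lo I) : ℝ) / cnt I := by
  obtain ⟨r, c, b, e⟩ := exists_inst h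
  rw [e] at hf ⊢
  obtain ⟨i, j, h1, h2, h3, h4⟩ := pos?_some hf
  rw [lo_inst h1 h2 h3]
  unfold cnt
  rw [unif, sum_tabs_inst, card_tabs_inst, card_tabs_inst, ← card_ftabs, ← card_ftabs]
  congr 1
  rw [← filter_lo r c b i j (b i j / 2) (Nat.div_le_self _ _), Finset.card_filter]
  push_cast
  refine Finset.sum_congr rfl fun X _ => ?_
  rw [h1, h2, h3, bnd_toL]
  by_cases hx : X i j ≤ b i j / 2
  · rw [Tape.ind_of hx, if_pos hx]
  · rw [Tape.ind_of_not hx, if_neg hx]

/-! ### sizes -/

theorem sz_nat_mono {a b : ℕ} (h : a ≤ b) : sz a ≤ sz b := by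
  rw [sz_nat, sz_nat]; exact Nat.size_le_size h

theorem sz_set_le {l : List ℕ} {j v : ℕ} (h : v ≤ l.getD j 0) : sz (l.set j v) ≤ sz l := by
  induction l generalizing j with
  | nil => simp
  | cons a l ih =>
    cases j with
    | zero =>
      simp only [List.getD_cons_zero] at h
      have := sz_nat_mono h
      simp only [List.set_cons_zero, sz_cons]
      omega
    | succ j =>
      simp only [List.getD_cons_succ] at h
      have := ih h
      simp only [List.set_cons_succ, sz_cons]
      omega

theorem sz_setL_le {B : Tab} {i j v : ℕ} (h : v ≤ bnd B i j) : sz (setL B i j v) ≤ sz B := by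
  unfold setL
  unfold bnd at h
  induction B generalizing i with
  | nil => simp
  | cons a B ih =>
    cases i with
    | zero =>
      simp only [List.getD_cons_zero] at h
      have := sz_set_le h
      simp only [List.modify_zero_cons, sz_cons]
      omega
    | succ i =>
      simp only [List.getD_cons_succ] at h
      have := ih h
      simp only [List.modify_succ_cons, sz_cons]
      omega

theorem sz_lo (I : Inst) : sz (lo I) ≤ sz I := by
  have h := sz_setL_le (B := I.2.2) (i := pi I) (j := pj I) (v := pb I / 2) (Nat.div_le_self _ _)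
  obtain ⟨a, b, d⟩ := I
  simp only [lo, sz_prod] at h ⊢
  omega

theorem sz_dead : sz dead = 9 := by
  have e1 : sz ([1] : List ℕ) = 3 := by
    rw [sz_cons, sz_nil, sz_nat]; rfl
  have e2 : sz ([[]] : List (List ℕ)) = 1 := by simp
  unfold dead
  rw [sz_prod, sz_prod, e1, e2]
  simp

theorem sz_hi (I : Inst) : sz (hi I) ≤ sz I + 9 := by
  unfold hi
  split_ifs with hc
  · have h := sz_setL_le (B := I.2.2) (i := pi I) (j := pj I) (v := pb I - (pb I / 2 + 1)) (Nat.sub_le _ _)
    have h1 := sz_set_le (l := I.1) (j := pi I) (v := I.1.getD (pi I) 0 - (pb I / 2 + 1)) (Nat.sub_le _ _)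
    have h2 := sz_set_le (l := I.2.1) (j := pj I) (v := I.2.1.getD (pj I) 0 - (pb I / 2 + 1)) (Nat.sub_le _ _)
    have e : sz I = 2 * sz I.1 + 1 + (2 * sz I.2.1 + 1 + sz I.2.2) := by
      rw [sz_prod, sz_prod]
    rw [e, sz_prod, sz_prod]
    simp only
    omega
  · rw [sz_dead]; omega

theorem sz_hi' (I : Inst) (S : ℕ) (h : sz I ≤ S) (h9 : 9 ≤ S) : sz (hi I) ≤ S := by
  unfold hi
  split_ifs with hc
  · have h := sz_setL_le (B := I.2.2) (i := pi I) (j := pj I) (v := pb I - (pb I / 2 + 1)) (Nat.sub_le _ _)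
    have h1 := sz_set_le (l := I.1) (j := pi I) (v := I.1.getD (pi I) 0 - (pb I / 2 + 1)) (Nat.sub_le _ _)
    have h2 := sz_set_le (l := I.2.1) (j := pj I) (v := I.2.1.getD (pj I) 0 - (pb I / 2 + 1)) (Nat.sub_le _ _)
    have e : sz I = 2 * sz I.1 + 1 + (2 * sz I.2.1 + 1 + sz I.2.2) := by
      rw [sz_prod, sz_prod]
    rw [sz_prod, sz_prod]
    simp only
    omega
  · rw [sz_dead]; exact h9

theorem mu_le_sz (I : Inst) : mu I ≤ sz I := by
  have e : sz I = 2 * sz I.1 + 1 + (2 * sz I.2.1 + 1 + sz I.2.2) := by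
    rw [sz_prod, sz_prod]
  have h1 : ∀ row : List ℕ, (row.map Nat.size).sum ≤ sz row := by
    intro row
    induction row with
    | nil => simp
    | cons a row ih =>
      simp only [List.map_cons, List.sum_cons, sz_cons, sz_nat]
      omega
  have h2 : ∀ B : Tab, (B.map fun row => (row.map Nat.size).sum).sum ≤ sz B := by
    intro B
    induction B with
    | nil => simp
    | cons a B ih =>
      have := h1 a
      simp only [List.map_cons, List.sum_cons, sz_cons]
      omega
  have := h2 I.2.2
  unfold mu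
  omega

/-- the bisection scheme of table instances -/
theorem split_inst (leaf : Inst → Bool) (hleaf : ∀ I, leaf I = true ↔ 0 < cnt I) (S : ℕ) (hS : 9 ≤ S) :
    Split cnt mu lo hi fin leaf (fun I => Shaped I ∧ sz I ≤ S) where
  fin_of := fun _ h hm => fin_of_mu h.1 hm
  mu_of := fun _ h hf => mu_of_fin h.1 hf
  V_lo := fun I h hf => ⟨shaped_lo h.1 hf, (sz_lo I).trans h.2⟩
  V_hi := fun I h hf => ⟨shaped_hi h.1 hf, sz_hi' I S h.2 hS⟩
  mu_lo := fun _ h hf => mu_lo h.1 hf
  mu_hi := fun _ h hf => mu_hi h.1 hf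
  split := fun _ h hf => cnt_split h.1 hf
  fin_le := fun _ h hf => cnt_le_of_fin h.1 hf
  leaf_iff := fun I _ => hleaf I

end Crest.Agent.R309.Count632
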