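import Crest.Agent.R309.Count632B
import Crest.Agent.R309.PTSolve

/-!
# The sampler made from a chain and a feasibility oracle, and its coin
-/

set_option autoImplicit false

namespace Crest.Agent.R309.Count632

open Crest.Agent.Lib.PT Crest.Agent.R309.Iface Crest.Agent.R309.Conv Crest.Tables
open Crest.Agent.R309.Tape Crest.Agent.R309.PTX

theorem runSteps_take {S : Type*} (f : S → List Bool → S) (r k : ℕ) (s : S) (l : List Bool) :
    runSteps f r k s (l.take (k * r)) = runSteps f r k s l := by
  induction k generalizing s l with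
  | zero => rfl
  | succ k ih =>
    rw [runSteps, runSteps, List.take_take, List.drop_take]
    have e1 : min r ((k + 1) * r) = r := min_eq_left (Nat.le_mul_of_pos_left r (by omega))
    have e2 : (k + 1) * r - r = k * r := by rw [Nat.succ_mul]; omega
    rw [e1, e2, ih]

theorem sz_list_nat_mono {x y : List ℕ} (h : List.Forall₂ (· ≤ ·) x y) : sz x ≤ sz y := by
  induction h with
  | nil => simp
  | cons h _ ih =>
    have := sz_nat_mono h
    simp only [sz_cons]; omega

theorem sz_tab_mono {X Y : Tab} (h : List.Forall₂ (List.Forall₂ (· ≤ ·)) X Y) : sz X ≤ sz Y := by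
  induction h with
  | nil => simp
  | cons h _ ih =>
    have := sz_list_nat_mono h
    simp only [sz_cons]; omega

theorem IsTab_sz {I : Inst} {X : Tab} (h : IsTab I X) : sz X ≤ sz I := by
  have h1 := sz_tab_mono h.bds
  have e : sz I = 2 * sz I.1 + 1 + (2 * sz I.2.1 + 1 + sz I.2.2) := by
    rw [sz_prod, sz_prod]
  omega

/-- the sampler: `m * tau I` steps of the chain from a feasible table -/
def sample (feas : Inst → Option Tab) (step : Inst × Tab → List Bool → Tab) (len tau : Inst → ℕ)
    (m : ℕ) (I : Inst) (l : List Bool) : Tab :=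
  match feas I with
  | none => []
  | some X => runSteps (guard (sz I) (fun Y t => step (I, Y) t)) (len I) (m * tau I) X l

/-- the coin: is the bisected entry of a sample in the lower half -/
def coin (feas : Inst → Option Tab) (step : Inst × Tab → List Bool → Tab) (len tau : Inst → ℕ)
    (m : ℕ) (I : Inst) (l : List Bool) : Bool :=
  decide (bnd (sample feas step len tau m I l) (pi I) (pj I) ≤ pb I / 2)

section law

variable {step : Inst × Tab → List Bool → Tab} {len : Inst → ℕ}

theorem runSteps_guard_eq {I : Inst}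
    (hst : ∀ X, IsTab I X → ∀ t : List Bool, t.length = len I → IsTab I (step (I, X) t))
    (k : ℕ) (X : Tab) (hX : IsTab I X) (l : List Bool) (hl : k * len I ≤ l.length) :
    runSteps (guard (sz I) (fun Y t => step (I, Y) t)) (len I) k X l =
      runSteps (fun Y t => step (I, Y) t) (len I) k X l := by
  induction k generalizing X l with
  | zero => rfl
  | succ k ih =>
    rw [Nat.succ_mul] at hl
    have h1 : (l.take (len I)).length = len I := by rw [List.length_take]; omega
    have h2 := hst X hX _ h1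
    have h3 := IsTab_sz h2
    rw [runSteps, runSteps]
    have e : guard (sz I) (fun Y t => step (I, Y) t) X (l.take (len I)) =
        step (I, X) (l.take (len I)) := by
      unfold PTX.guard
      rw [if_pos h3]
    rw [e]
    refine ih _ h2 _ ?_
    rw [List.length_drop]; omega

theorem sample_law {feas : Inst → Option Tab} {tau : Inst → ℕ}
    (hf1 : ∀ I X, feas I = some X → IsTab I X) (hf2 : ∀ I, feas I = none → ∀ X, ¬ IsTab I X)
    (hC : ∀ I X, IsTab I X →
      (∀ t : List Bool, t.length = len I → IsTab I (step (I, X) t)) ∧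
      ∀ (m : ℕ) (φ : Tab → ℝ), (∀ Y, 0 ≤ φ Y ∧ φ Y ≤ 1) →
        |(markov (fun Y t => step (I, Y) t) (len I))^[m * tau I] φ X - unif I φ| ≤ (1 / 2 : ℝ) ^ m)
    (m : ℕ) (I : Inst) (hI : 0 < cnt I) (r : ℕ) (hr : m * tau I * len I ≤ r)
    (φ : Tab → ℝ) (hφ : ∀ Y, 0 ≤ φ Y ∧ φ Y ≤ 1) :
    |avg r (fun l => φ (sample feas step len tau m I l)) - unif I φ| ≤ (1 / 2 : ℝ) ^ m := by
  rcases hfe : feas I with _ | X
  · exfalso
    obtain ⟨X, hX⟩ := Finset.card_pos.1 hI
    exact hf2 I hfe X (mem_tabs.1 hX)
  · have hX := hf1 I X hfe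
    have hst : ∀ X, IsTab I X → ∀ t : List Bool, t.length = len I → IsTab I (step (I, X) t) :=
      fun X hX => (hC I X hX).1
    have e1 : avg r (fun l => φ (sample feas step len tau m I l)) =
        avg (m * tau I * len I) (fun l => φ (runSteps (fun Y t => step (I, Y) t) (len I) (m * tau I) X l)) := by
      rw [← avg_take hr (fun l => φ (runSteps (fun Y t => step (I, Y) t) (len I) (m * tau I) X l))]
      refine avg_congr fun l hl => ?_
      have : sample feas step len tau m I l =
          runSteps (guard (sz I) (fun Y t => step (I, Y) t)) (len I) (m * tau I) X l := by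
        unfold sample; rw [hfe]
      rw [this, runSteps_guard_eq hst _ X hX l (by omega), runSteps_take]
    rw [e1, avg_runSteps]
    exact (hC I X hX).2 m φ hφ

theorem coin_law {feas : Inst → Option Tab} {tau : Inst → ℕ}
    (hf1 : ∀ I X, feas I = some X → IsTab I X) (hf2 : ∀ I, feas I = none → ∀ X, ¬ IsTab I X)
    (hC : ∀ I X, IsTab I X →
      (∀ t : List Bool, t.length = len I → IsTab I (step (I, X) t)) ∧
      ∀ (m : ℕ) (φ : Tab → ℝ), (∀ Y, 0 ≤ φ Y ∧ φ Y ≤ 1) →
        |(markov (fun Y t => step (I, Y) t) (len I))^[m * tau I] φ X - unif I φ| ≤ (1 / 2 : ℝ) ^ m)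
    (m : ℕ) (I : Inst) (hs : Shaped I) (hf : fin I = false) (hI : 0 < cnt I) (r : ℕ)
    (hr : m * tau I * len I ≤ r) :
    |pr r (fun l => coin feas step len tau m I l = true) - (cnt (lo I) : ℝ) / cnt I| ≤
      (1 / 2 : ℝ) ^ m := by
  rw [← unif_lo hs hf]
  have := sample_law hf1 hf2 hC m I hI r hr (fun X => ind (bnd X (pi I) (pj I) ≤ pb I / 2))
    (fun Y => ⟨ind_nonneg _, ind_le_one _⟩)
  have e : pr r (fun l => coin feas step len tau m I l = true) =
      avg r (fun l => ind (bnd (sample feas step len tau m I l) (pi I) (pj I) ≤ pb I / 2)) := by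
    unfold pr coin
    simp only [decide_eq_true_eq]
  rw [e]
  exact this

end law

/-! ### polynomial time -/

section pt

variable {γ : Type} [PTCode γ]

theorem ptf_sample {feas : Inst → Option Tab} {step : Inst × Tab → List Bool → Tab}
    {len tau : Inst → ℕ} (hfeas : PTF feas)
    (hstep : PTF (fun p : (Inst × Tab) × List Bool => step p.1 p.2)) (hlen : PTU len) (htau : PTU tau)
    {m : γ → ℕ} {I : γ → Inst} {l : γ → List Bool} (hm : PTU m) (hI : PTF I) (hl : PTF l) :
    PTF (fun c => sample feas step len tau (m c) (I c) (l c)) := by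
  have h1 : PTF (fun c => feas (I c)) := PTF.comp (g := feas) hfeas hI
  refine PTF.of_eq (PTF.optionCasesOn (s := fun c => feas (I c)) (f := fun _ => ([] : Tab))
    (g := fun c X => runSteps (guard (sz (I c)) (fun Y t => step (I c, Y) t)) (len (I c))
      (m c * tau (I c)) X (l c)) h1 (PTF.const _) ?_) (fun c => ?_)
  · refine ptf_runSteps_guard (γ := γ × Tab)
      (f := fun p Y t => step (I p.1, Y) t) (r := fun p => len (I p.1))
      (k := fun p => m p.1 * tau (I p.1)) (s := fun p => p.2) (t := fun p => l p.1)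
      (B := fun p => sz (I p.1)) ?_ ?_ ?_ ?_ ?_ ?_
    · exact PTF.comp (g := fun p : (Inst × Tab) × List Bool => step p.1 p.2)
        (f := fun p : (γ × Tab) × Tab × List Bool => ((I p.1.1, p.2.1), p.2.2)) hstep
        (by fun_prop)
    · exact PTU.toPTF (PTU.comp hlen (by fun_prop))
    · exact PTU.mul (PTU.comp hm (by fun_prop)) (PTU.comp htau (by fun_prop))
    · fun_prop
    · fun_prop
    · exact PTF.szU (by fun_prop)
  · unfold sample
    cases feas (I c) <;> rfl

theorem ptf_cells : PTF (fun I : Inst => cells I) := by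
  unfold cells
  pt_solve

theorem ptf_bnd {B : γ → Tab} {i j : γ → ℕ} (hB : PTF B) (hi : PTF i) (hj : PTF j) :
    PTF (fun c => bnd (B c) (i c) (j c)) := by
  unfold bnd
  pt_solve

theorem ptf_pos? : PTF (fun I : Inst => pos? I) := by
  unfold pos?
  refine PTF.find? ptf_cells ?_
  refine PTPred.toPTF (PTPred.natLt (PTF.const 0) (ptf_bnd ?_ ?_ ?_)) <;> fun_prop

theorem ptf_fin : PTF (fun I : Inst => fin I) := by
  unfold fin
  exact PTF.not (PTF.isSome ptf_pos?)

theorem ptf_pi : PTF (fun I : Inst => pi I) := by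
  unfold pi
  exact PTF.comp (g := fun p : ℕ × ℕ => p.1) PTF.fst (PTF.optionGetD ptf_pos? (PTF.const _))

theorem ptf_pj : PTF (fun I : Inst => pj I) := by
  unfold pj
  exact PTF.comp (g := fun p : ℕ × ℕ => p.2) PTF.snd (PTF.optionGetD ptf_pos? (PTF.const _))

theorem ptf_pb : PTF (fun I : Inst => pb I) := by
  unfold pb
  exact ptf_bnd (by fun_prop) ptf_pi ptf_pj

theorem ptf_setL {B : γ → Tab} {i j v : γ → ℕ} (hB : PTF B) (hi : PTF i) (hj : PTF j) (hv : PTF v) :
    PTF (fun c => setL (B c) (i c) (j c) (v c)) := by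
  unfold setL
  refine ptf_modify' hB hi ?_
  exact ptf_set' (by fun_prop) (by fun_prop) (by fun_prop)

theorem ptf_lo : PTF (fun I : Inst => lo I) := by
  unfold lo
  have h1 := ptf_pi
  have h2 := ptf_pj
  have h3 := ptf_pb
  exact PTF.prodMk (by fun_prop) (PTF.prodMk (by fun_prop) (ptf_setL (by fun_prop) h1 h2
    (by fun_prop)))

theorem ptf_hi : PTF (fun I : Inst => hi I) := by
  unfold hi
  have h1 := ptf_pi
  have h2 := ptf_pj
  have h3 := ptf_pb
  have h4 : PTF (fun I : Inst => I.1.getD (pi I) 0) := ptf_getD' h1 (by fun_prop) (by fun_prop)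
  have h5 : PTF (fun I : Inst => I.2.1.getD (pj I) 0) := ptf_getD' h2 (by fun_prop) (by fun_prop)
  refine PTF.ite ?_ (PTF.prodMk ?_ (PTF.prodMk ?_ ?_)) (PTF.const _)
  · exact PTPred.and (PTPred.natLe (by fun_prop) h4) (PTPred.natLe (by fun_prop) h5)
  · exact ptf_set' (by fun_prop) h1 (by fun_prop)
  · exact ptf_set' (by fun_prop) h2 (by fun_prop)
  · exact ptf_setL (by fun_prop) h1 h2 (by fun_prop)

theorem ptf_coin {feas : Inst → Option Tab} {step : Inst × Tab → List Bool → Tab}
    {len tau : Inst → ℕ} (hfeas : PTF feas)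
    (hstep : PTF (fun p : (Inst × Tab) × List Bool => step p.1 p.2)) (hlen : PTU len) (htau : PTU tau)
    {m : γ → ℕ} {I : γ → Inst} {l : γ → List Bool} (hm : PTU m) (hI : PTF I) (hl : PTF l) :
    PTF (fun c => coin feas step len tau (m c) (I c) (l c)) := by
  unfold coin
  have h1 := ptf_pi
  have h2 := ptf_pj
  have h3 := ptf_pb
  have h4 := ptf_sample hfeas hstep hlen htau hm hI hl
  refine PTPred.toPTF (PTPred.natLe (ptf_bnd h4 ?_ ?_) ?_)
  · exact PTF.comp (g := fun I => pi I) h1 hI
  · exact PTF.comp (g := fun I => pj I) h2 hI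
  · exact PTF.natDiv (PTF.comp (g := fun I => pb I) h3 hI) (PTF.const 2)

theorem ptf_med {l : γ → List ℚ} (hl : PTF l) : PTF (fun c => med (l c)) := by
  unfold med
  have hlen : ∀ {δ : Type} [PTCode δ] {l : δ → List ℚ} (hl : PTF l), PTF (fun c => (l c).length) :=
    fun hl => PTU.toPTF (PTU.length hl)
  refine PTF.optionGetD (PTF.find? hl ?_) (PTF.const 0)
  refine PTF.and (PTPred.toPTF (PTPred.natLe ?_ ?_)) (PTPred.toPTF (PTPred.natLe ?_ ?_))
  · refine PTF.natMul (PTF.const 2) (PTU.toPTF (PTU.countP (l := fun p : γ × ℚ => l p.1)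
      (p := fun p x => decide (x < p.2)) (by fun_prop) ?_))
    exact PTPred.toPTF (PTPred.ratLt (by fun_prop) (by fun_prop))
  · exact hlen (by fun_prop)
  · refine PTF.natMul (PTF.const 2) (PTU.toPTF (PTU.countP (l := fun p : γ × ℚ => l p.1)
      (p := fun p x => decide (p.2 < x)) (by fun_prop) ?_))
    exact PTPred.toPTF (PTPred.ratLt (by fun_prop) (by fun_prop))
  · exact hlen (by fun_prop)

end pt

end Crest.Agent.R309.Count632
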