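import Crest.Agent.R309.Exact9Proc

/-!
# R309, exactness layer (S0481), part 4: harmonic functions and potential of the process
-/

set_option autoImplicit false

namespace Crest.Agent.R309.Exact9

open Crest.Agent.R309.Tape Crest.Agent.Lib.PT Crest.Agent.Lib.PT.Arith

variable {I X : Type} [DecidableEq X]

/-- what an environment has to satisfy -/
structure Good (D : Data I X) (e : Env I) (tabs : List X) : Prop where
  nodup : tabs.Nodup
  start : D.start e.1 ∈ tabs
  closed : ∀ x ∈ tabs, ∀ l : List Bool, l.length = eR e → D.stp e.1 x l ∈ tabs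
  enum : D.enum e.1 (2 ^ eD e) = tabs
  seeds : eR e ≤ eD e
  nonneg : ∀ y ∈ tabs, tabs.length * (2 ^ eK e - 1) *
    law (D.stp e.1) (eR e) tabs (D.start e.1) (eT e) y ≤ 2 ^ eK e * 2 ^ (eR e * eT e)
  bitsR : eR e ≤ eL e
  bitsK : eK e ≤ eL e
  bitsJ : (tabs.length * 2 ^ (eR e * eT e)).size ≤ eL e

/-- the residual weight of `y` -/
def wt (D : Data I X) (e : Env I) (tabs : List X) (y : X) : ℕ :=
  2 ^ eK e * 2 ^ (eR e * eT e) - tabs.length * (2 ^ eK e - 1) *
    law (D.stp e.1) (eR e) tabs (D.start e.1) (eT e) y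

section basic

variable {D : Data I X} {e : Env I} {tabs : List X} (h : Good D e tabs)
include h

theorem Good.length_pos : 0 < tabs.length := List.length_pos_of_mem h.start

theorem Good.wts_eq : wts D e (2 ^ eD e) = tabs.map (fun y => (y, wt D e tabs y)) := by
  unfold wts
  rw [h.enum, listsOf_eq (by simp) (by simpa using Nat.pow_le_pow_right (by norm_num) h.seeds),
    listsFull_bool, lawL_eq h.nodup h.start h.closed, List.map_map]
  rfl

theorem Good.sum_wt : (tabs.map (wt D e tabs)).sum = tabs.length * 2 ^ (eR e * eT e) := by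
  rw [← List.sum_toFinset _ h.nodup]
  have h1 : ∀ y ∈ tabs.toFinset, ((wt D e tabs y : ℕ) : ℤ) = 2 ^ eK e * 2 ^ (eR e * eT e) -
      tabs.length * (2 ^ eK e - 1) *
        (law (D.stp e.1) (eR e) tabs (D.start e.1) (eT e) y : ℤ) := by
    intro y hy
    unfold wt
    rw [Nat.cast_sub (h.nonneg y (by simpa using hy))]
    push_cast
    rw [Nat.cast_sub Nat.one_le_two_pow]
    push_cast
    ring
  have h2 : ((∑ y ∈ tabs.toFinset, wt D e tabs y : ℕ) : ℤ) =
      ((tabs.length * 2 ^ (eR e * eT e) : ℕ) : ℤ) := by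
    have h3 : (∑ y ∈ tabs.toFinset,
        (law (D.stp e.1) (eR e) tabs (D.start e.1) (eT e) y : ℤ)) = 2 ^ (eR e * eT e) := by
      exact_mod_cast law_sum h.nodup h.start h.closed (eT e)
    rw [Nat.cast_sum, Finset.sum_congr rfl h1, Finset.sum_sub_distrib, ← Finset.mul_sum,
      ← Finset.mul_sum, h3, Finset.sum_const, List.toFinset_card_of_nodup h.nodup, nsmul_eq_mul]
    push_cast
    ring
  exact_mod_cast h2

theorem Good.tot_eq : tot D e (2 ^ eD e) = tabs.length * 2 ^ (eR e * eT e) := by
  unfold tot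
  rw [h.wts_eq, List.map_map, ← h.sum_wt]
  rfl

end basic

/-- the invariant of the process -/
def Inv (e : Env I) (tabs : List X) (s : Conf I X) : Prop :=
  s.1 = e ∧ match s.2 with
    | Sum.inl xu => xu.1 ∈ tabs ∧ xu.2.val ≤ eT e
    | Sum.inr pk => pk.1.val * 2 ^ pk.2.val = 2 ^ eD e ∧ pk.2.val ≤ eD e

/-- value of `G` under the residual law -/
noncomputable def resid (D : Data I X) (e : Env I) (tabs : List X) (G : List ℕ → ℝ) : ℝ :=
  (tabs.map (fun y => (wt D e tabs y : ℝ) * G (D.out e.1 y))).sum /
    (tabs.length * 2 ^ (eR e * eT e))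

/-- the harmonic function with boundary values `G` -/
noncomputable def Hf (D : Data I X) (e : Env I) (tabs : List X) (G : List ℕ → ℝ)
    (s : Conf I X) : ℝ :=
  match s.2 with
  | Sum.inl xu => (1 - (2 : ℝ)⁻¹ ^ eK e) *
      (markov (D.stp e.1) (eR e))^[xu.2.val] (fun y => G (D.out e.1 y)) xu.1 +
      (2 : ℝ)⁻¹ ^ eK e * resid D e tabs G
  | Sum.inr _ => resid D e tabs G

/-- value of the next state -/
noncomputable def nxt (V : Conf I X → ℝ) (G : List ℕ → ℝ) : Conf I X ⊕ List ℕ → ℝ
  | Sum.inl s => V s
  | Sum.inr o => G o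

theorem tail_eq (T K : ℕ) (hK : K ≤ T) (a b : ℝ) (c : List Bool → ℝ)
    (hc : ∀ τ : List Bool, c τ = if (τ.take K).all (fun b => b) = true then a else b) :
    avg T c = (1 - (2 : ℝ)⁻¹ ^ K) * b + (2 : ℝ)⁻¹ ^ K * a := by
  rw [show c = fun τ => (fun σ : List Bool => if σ.all (fun b => b) = true then a else b)
    (τ.take K) from funext hc]
  exact (avg_take hK (fun σ : List Bool => if σ.all (fun b => b) = true then a else b)).trans
    (avg_all_true K a b)

section main

variable [PTCode I] [PTCode X]

theorem eL_le_sz (s : Conf I X) : eL s.1 ≤ sz s := by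
  unfold eL
  obtain ⟨⟨i, a, b, c, d, l⟩, m⟩ := s
  simp only [sz_prod, sz_un]
  omega

variable {D : Data I X} {e : Env I} {tabs : List X}

/-- the invariant is preserved and outputs are outputs of states -/
theorem inv_rnd (h : Good D e tabs) {s : Conf I X} (hs : Inv e tabs s) (τ : List Bool)
    (hτ : eL s.1 ≤ τ.length) :
    (∀ s', rnd D s τ = Sum.inl s' → Inv e tabs s') ∧
      (∀ o, rnd D s τ = Sum.inr o → ∃ y ∈ tabs, o = D.out e.1 y) := by
  obtain ⟨e', m⟩ := s
  obtain ⟨he, hm⟩ := hs
  simp only at he hτ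
  subst he
  have hR := h.bitsR
  rcases m with ⟨x, u⟩ | ⟨p, k⟩
  · simp only at hm
    by_cases hu : u.val = 0
    · by_cases hall : (τ.take (eK e')).all (fun b => b) = true
      · have e1 : rnd D (e', Sum.inl (x, u)) τ = Sum.inl (e', Sum.inr (⟨1⟩, ⟨eD e'⟩)) := by
          simp only [rnd, hu, if_true, hall]
        rw [e1]
        refine ⟨?_, fun o ho => by simp at ho⟩
        intro s' hs'
        simp only [Sum.inl.injEq] at hs'
        subst hs'
        exact ⟨rfl, by simp⟩
      · have e1 : rnd D (e', Sum.inl (x, u)) τ = Sum.inr (D.out e'.1 x) := by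
          simp only [rnd, hu, if_true, hall]
          simp
        rw [e1]
        refine ⟨fun s' hs' => by simp at hs', ?_⟩
        intro o ho
        simp only [Sum.inr.injEq] at ho
        exact ⟨x, hm.1, ho.symm⟩
    · have e1 : rnd D (e', Sum.inl (x, u)) τ =
          Sum.inl (e', Sum.inl (D.stp e'.1 x (τ.take (eR e')), ⟨u.val - 1⟩)) := by
        simp only [rnd, hu, if_false]
      rw [e1]
      refine ⟨?_, fun o ho => by simp at ho⟩
      intro s' hs'
      simp only [Sum.inl.injEq] at hs'
      subst hs'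
      refine ⟨rfl, h.closed x hm.1 _ ?_, ?_⟩
      · rw [List.length_take]
        omega
      · simp only
        omega
  · simp only at hm
    by_cases hk : k.val = 0
    · have hp : p.val = 2 ^ eD e' := by
        have := hm.1
        rw [hk] at this
        simpa using this
      rcases hpick : pick (wts D e' p.val) (msb (τ.take (tot D e' p.val).size)) with _ | y
      · have e1 : rnd D (e', Sum.inr (p, k)) τ = Sum.inl (e', Sum.inr (p, k)) := by
          simp only [rnd, hk, if_true, hpick]
        rw [e1]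
        refine ⟨?_, fun o ho => by simp at ho⟩
        intro s' hs'
        simp only [Sum.inl.injEq] at hs'
        subst hs'
        exact ⟨rfl, hm⟩
      · have e1 : rnd D (e', Sum.inr (p, k)) τ = Sum.inr (D.out e'.1 y) := by
          simp only [rnd, hk, if_true, hpick]
        rw [e1]
        refine ⟨fun s' hs' => by simp at hs', ?_⟩
        intro o ho
        simp only [Sum.inr.injEq] at ho
        refine ⟨y, ?_, ho.symm⟩
        rw [hp, h.wts_eq] at hpick
        have key : ∀ (l : List X) (v : ℕ) (y : X),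
            pick (l.map (fun y => (y, wt D e' tabs y))) v = some y → y ∈ l := by
          intro l
          induction l with
          | nil => intro v y hy; simp [pick] at hy
          | cons a l ih =>
            intro v y hy
            rw [List.map_cons, pick] at hy
            split_ifs at hy with hv
            · simp only [Option.some.injEq] at hy
              simp [hy]
            · exact List.mem_cons_of_mem _ (ih _ _ hy)
        exact key _ _ _ hpick
    · have e1 : rnd D (e', Sum.inr (p, k)) τ =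
          Sum.inl (e', Sum.inr (⟨2 * p.val⟩, ⟨k.val - 1⟩)) := by
        simp only [rnd, hk, if_false]
      rw [e1]
      refine ⟨?_, fun o ho => by simp at ho⟩
      intro s' hs'
      simp only [Sum.inl.injEq] at hs'
      subst hs'
      refine ⟨rfl, ?_, ?_⟩
      · simp only
        rw [← hm.1]
        obtain ⟨j, hj⟩ : ∃ j, k.val = j + 1 := ⟨k.val - 1, by omega⟩
        rw [hj, Nat.add_sub_cancel, pow_succ]
        ring
      · simp only
        omega

/-- one-round averages in all cases, for arbitrary `V`, `G` -/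
theorem avg_rnd (h : Good D e tabs) {s : Conf I X} (hs : Inv e tabs s) (V : Conf I X → ℝ)
    (G : List ℕ → ℝ) {ℓ : ℕ} (hL : eL s.1 ≤ ℓ) :
    avg ℓ (fun τ => nxt V G (rnd D s τ)) =
      match s.2 with
      | Sum.inl xu =>
        if xu.2.val = 0 then
          (1 - (2 : ℝ)⁻¹ ^ eK e) * G (D.out e.1 xu.1) +
            (2 : ℝ)⁻¹ ^ eK e * V (e, Sum.inr (⟨1⟩, ⟨eD e⟩))
        else markov (D.stp e.1) (eR e) (fun x => V (e, Sum.inl (x, ⟨xu.2.val - 1⟩))) xu.1
      | Sum.inr pk =>
        if pk.2.val = 0 then
          ((tabs.map (fun y => (wt D e tabs y : ℝ) * G (D.out e.1 y))).sum +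
            ((2 : ℝ) ^ (tabs.length * 2 ^ (eR e * eT e)).size -
              (tabs.length * 2 ^ (eR e * eT e) : ℕ)) * V s) /
            2 ^ (tabs.length * 2 ^ (eR e * eT e)).size
        else V (e, Sum.inr (⟨2 * pk.1.val⟩, ⟨pk.2.val - 1⟩)) := by
  obtain ⟨e', m⟩ := s
  obtain ⟨he, hm⟩ := hs
  simp only at he hL
  subst he
  have hR := h.bitsR
  have hK := h.bitsK
  have hJ := h.bitsJ
  rcases m with ⟨x, u⟩ | ⟨p, k⟩
  · simp only at hm ⊢
    by_cases hu : u.val = 0
    · simp only [hu, if_true]
      refine tail_eq _ _ (hK.trans hL) _ _ _ (fun τ => ?_)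
      by_cases hall : (τ.take (eK e')).all (fun b => b) = true
      · have e1 : rnd D (e', Sum.inl (x, u)) τ = Sum.inl (e', Sum.inr (⟨1⟩, ⟨eD e'⟩)) := by
          simp only [rnd, hu, if_true, hall]
        rw [e1, if_pos hall]
        rfl
      · have e1 : rnd D (e', Sum.inl (x, u)) τ = Sum.inr (D.out e'.1 x) := by
          simp only [rnd, hu, if_true, hall]
          simp
        rw [e1, if_neg hall]
        rfl
    · simp only [hu, if_false]
      have e1 : ∀ τ, nxt V G (rnd D (e', Sum.inl (x, u)) τ) =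
          V (e', Sum.inl (D.stp e'.1 x (τ.take (eR e')), ⟨u.val - 1⟩)) := by
        intro τ
        have : rnd D (e', Sum.inl (x, u)) τ =
          Sum.inl (e', Sum.inl (D.stp e'.1 x (τ.take (eR e')), ⟨u.val - 1⟩)) := by
          simp only [rnd, hu, if_false]
        rw [this]
        rfl
      simp_rw [e1]
      exact avg_take (hR.trans hL)
        (fun σ => V (e', Sum.inl (D.stp e'.1 x σ, ⟨u.val - 1⟩)))
  · simp only at hm ⊢
    by_cases hk : k.val = 0
    · have hp : p.val = 2 ^ eD e' := by
        have := hm.1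
        rw [hk] at this
        simpa using this
      simp only [hk, if_true]
      set g : Option X → ℝ := fun o => match o with
        | none => V (e', Sum.inr (p, k))
        | some y => G (D.out e'.1 y) with hg
      have e1 : ∀ τ, nxt V G (rnd D (e', Sum.inr (p, k)) τ) =
          g (pick (wts D e' p.val) (msb (τ.take (tot D e' p.val).size))) := by
        intro τ
        rcases hpick : pick (wts D e' p.val) (msb (τ.take (tot D e' p.val).size)) with _ | y
        · have : rnd D (e', Sum.inr (p, k)) τ = Sum.inl (e', Sum.inr (p, k)) := by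
            simp only [rnd, hk, if_true, hpick]
          rw [this]
          rfl
        · have : rnd D (e', Sum.inr (p, k)) τ = Sum.inr (D.out e'.1 y) := by
            simp only [rnd, hk, if_true, hpick]
          rw [this]
          rfl
      simp_rw [e1, hp, h.tot_eq, h.wts_eq]
      rw [avg_take (hJ.trans hL) (fun σ => g (pick (tabs.map (fun y => (y, wt D e' tabs y)))
        (msb σ)))]
      have hsum : ((tabs.map (fun y => (y, wt D e' tabs y))).map Prod.snd).sum =
          tabs.length * 2 ^ (eR e' * eT e') := by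
        rw [List.map_map, ← h.sum_wt]
        rfl
      rw [avg_pick _ _ (by rw [hsum]; exact (Nat.lt_size_self _).le), hsum, List.map_map]
      rfl
    · simp only [hk, if_false]
      have e1 : ∀ τ, nxt V G (rnd D (e', Sum.inr (p, k)) τ) =
          V (e', Sum.inr (⟨2 * p.val⟩, ⟨k.val - 1⟩)) := by
        intro τ
        have : rnd D (e', Sum.inr (p, k)) τ =
            Sum.inl (e', Sum.inr (⟨2 * p.val⟩, ⟨k.val - 1⟩)) := by
          simp only [rnd, hk, if_false]
        rw [this]
        rfl
      simp_rw [e1]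
      exact avg_const _ _

theorem markov_affine {stp : X → List Bool → X} {R : ℕ} (a b : ℝ) (φ : X → ℝ) (x : X) :
    markov stp R (fun y => a * φ y + b) x = a * markov stp R φ x + b := by
  unfold markov
  rw [avg_add, avg_mul_left, avg_const]

/-- **harmonicity** -/
theorem harmonic (h : Good D e tabs) {s : Conf I X} (hs : Inv e tabs s) (G : List ℕ → ℝ)
    {ℓ : ℕ} (hL : eL s.1 ≤ ℓ) :
    avg ℓ (fun τ => nxt (Hf D e tabs G) G (rnd D s τ)) = Hf D e tabs G s := by
  rw [avg_rnd h hs _ _ hL]
  obtain ⟨e', m⟩ := s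
  obtain ⟨he, hm⟩ := hs
  simp only at he
  subst he
  rcases m with ⟨x, u⟩ | ⟨p, k⟩
  · by_cases hu : u.val = 0
    · simp [Hf, hu]
    · obtain ⟨j, hj⟩ : ∃ j, u.val = j + 1 := ⟨u.val - 1, by omega⟩
      simp only [Hf, hu, if_false]
      rw [markov_affine, hj, Nat.add_sub_cancel, Function.iterate_succ_apply']
  · by_cases hk : k.val = 0
    · simp only [Hf, hk, if_true]
      have hpos : (0 : ℝ) < (2 : ℝ) ^ (tabs.length * 2 ^ (eR e' * eT e')).size := by positivity
      have hN : (0 : ℝ) < (tabs.length : ℝ) * 2 ^ (eR e' * eT e') := by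
        have := h.length_pos
        positivity
      have e2 : (tabs.map (fun y => (wt D e' tabs y : ℝ) * G (D.out e'.1 y))).sum =
          resid D e' tabs G * ((tabs.length : ℝ) * 2 ^ (eR e' * eT e')) := by
        unfold resid
        exact (div_mul_cancel₀ _ hN.ne').symm
      rw [e2, div_eq_iff hpos.ne']
      push_cast
      ring
    · simp only [Hf, hk, if_false]

/-- the value of the harmonic function at the start is the uniform average -/
theorem Hf_start (h : Good D e tabs) (G : List ℕ → ℝ) (u : Un) (hu : u.val = eT e) :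
    Hf D e tabs G (e, Sum.inl (D.start e.1, u)) =
      (tabs.map (fun y => G (D.out e.1 y))).sum / tabs.length := by
  unfold Hf resid
  simp only [hu]
  rw [iterate_markov_eq_law h.nodup h.start h.closed, ← List.sum_toFinset _ h.nodup,
    ← List.sum_toFinset _ h.nodup, Finset.mul_sum, Finset.sum_div, Finset.mul_sum,
    ← Finset.sum_add_distrib, Finset.sum_div]
  refine Finset.sum_congr rfl fun y hy => ?_
  have h1 : ((wt D e tabs y : ℕ) : ℝ) = 2 ^ eK e * 2 ^ (eR e * eT e) -
      tabs.length * (2 ^ eK e - 1) *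
        (law (D.stp e.1) (eR e) tabs (D.start e.1) (eT e) y : ℝ) := by
    unfold wt
    rw [Nat.cast_sub (h.nonneg y (by simpa using hy))]
    push_cast
    rw [Nat.cast_sub Nat.one_le_two_pow]
    push_cast
    ring
  rw [h1]
  have hN : (0 : ℝ) < (tabs.length : ℝ) := by
    have := h.length_pos
    positivity
  have h2 : (0 : ℝ) < 2 ^ (eR e * eT e) := by positivity
  have h3 : (0 : ℝ) < 2 ^ eK e := by positivity
  rw [inv_pow]
  field_simp
  ring

/-- the potential -/
noncomputable def Vf (e : Env I) (a b : ℝ) (s : Conf I X) : ℝ :=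
  match s.2 with
  | Sum.inl xu => (xu.2.val + 1) * a + (2 : ℝ)⁻¹ ^ eK e * ((eD e + 2) * b)
  | Sum.inr pk => (pk.2.val + 2) * b

theorem Vf_nonneg {a b : ℝ} (ha : 0 ≤ a) (hb : 0 ≤ b) (s : Conf I X) : 0 ≤ Vf e a b s := by
  unfold Vf
  rcases s.2 with xu | pk <;> positivity

/-- **potential inequality** -/
theorem potential (h : Good D e tabs) {a b : ℝ} (ha : 0 ≤ a) (hb : 0 ≤ b) {s : Conf I X}
    (hs : Inv e tabs s) (c : ℝ) (hcA : (∃ xu, s.2 = Sum.inl xu) → c ≤ a)
    (hcB : (∃ pk, s.2 = Sum.inr pk) → c ≤ b) {ℓ : ℕ} (hL : eL s.1 ≤ ℓ) :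
    c + avg ℓ (fun τ => nxt (Vf e a b) (fun _ => 0) (rnd D s τ)) ≤ Vf e a b s := by
  rw [avg_rnd h hs _ _ hL]
  obtain ⟨e', m⟩ := s
  obtain ⟨he, hm⟩ := hs
  simp only at he
  subst he
  rcases m with ⟨x, u⟩ | ⟨p, k⟩
  · have hc := hcA ⟨_, rfl⟩
    by_cases hu : u.val = 0
    · simp only [Vf, hu, if_true]
      push_cast
      linarith
    · obtain ⟨j, hj⟩ : ∃ j, u.val = j + 1 := ⟨u.val - 1, by omega⟩
      simp only [Vf, hu, if_false]
      unfold markov
      rw [avg_const, hj, Nat.add_sub_cancel]
      push_cast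
      linarith
  · have hc := hcB ⟨_, rfl⟩
    by_cases hk : k.val = 0
    · simp only [Vf, hk, if_true]
      set M := tabs.length * 2 ^ (eR e' * eT e') with hM
      have hMpos : 0 < M := Nat.mul_pos h.length_pos (by positivity)
      have hpos : (0 : ℝ) < (2 : ℝ) ^ M.size := by positivity
      have hhalf : (2 : ℝ) ^ M.size ≤ 2 * M := by
        have h1 : M.size ≠ 0 := by
          intro h0
          have := Nat.size_eq_zero.1 h0
          omega
        obtain ⟨j, hj⟩ : ∃ j, M.size = j + 1 := ⟨M.size - 1, by omega⟩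
        have h2 : 2 ^ j ≤ M := Nat.lt_size.1 (by omega)
        rw [hj, pow_succ]
        have h3 : ((2 ^ j : ℕ) : ℝ) ≤ M := by exact_mod_cast h2
        push_cast at h3
        linarith
      have e3 : (tabs.map (fun y => (wt D e' tabs y : ℝ) * (0 : ℝ))).sum = 0 := by simp
      rw [e3]
      push_cast
      rw [zero_add, zero_add]
      have h4 : ((2 : ℝ) ^ M.size - M) * (2 * b) / 2 ^ M.size ≤ b := by
        rw [div_le_iff₀ hpos]
        nlinarith
      linarith
    · obtain ⟨j, hj⟩ : ∃ j, k.val = j + 1 := ⟨k.val - 1, by omega⟩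
      simp only [Vf, hk, if_false]
      rw [hj, Nat.add_sub_cancel]
      push_cast
      linarith

end main

end Crest.Agent.R309.Exact9
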