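import Crest.Agent.R309.Tape
import Crest.Agent.Lib.PT.ArithPure

/-!
# R309, exactness layer (S0481), part 1: pure kernel theory

* `allBits R`: all bit strings of length `R`;
* `cnt stp R x y`: the number of tapes of length `R` moving `x` to `y`;
* `doeblin`: a symmetric chain with `cnt x y ≥ c 2^R / N` on an `N`-element set mixes pointwise;
* `law`: exact integer law of the chain after `s` steps;
* `pick`, `avg_pick`: sampling from integer weights.
-/

set_option autoImplicit false

namespace Crest.Agent.R309.Exact9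

open Finset Crest.Agent.R309.Tape Crest.Agent.Lib.PT.Arith

/-- all bit strings of length `R` -/
def allBits : ℕ → List (List Bool)
  | 0 => [[]]
  | R + 1 => (allBits R).map (false :: ·) ++ (allBits R).map (true :: ·)

theorem length_allBits (R : ℕ) : (allBits R).length = 2 ^ R := by
  induction R with
  | zero => rfl
  | succ R ih => simp [allBits, ih, pow_succ]; ring

theorem mem_allBits {R : ℕ} {l : List Bool} : l ∈ allBits R ↔ l.length = R := by
  induction R generalizing l with
  | zero => simp [allBits]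
  | succ R ih =>
    simp only [allBits, List.mem_append, List.mem_map]
    constructor
    · rintro (⟨a, ha, rfl⟩ | ⟨a, ha, rfl⟩) <;> simp [ih.1 ha]
    · intro h
      cases l with
      | nil => simp at h
      | cons b t =>
        have ht : t ∈ allBits R := ih.2 (by simpa using h)
        cases b
        · exact Or.inl ⟨t, ht, rfl⟩
        · exact Or.inr ⟨t, ht, rfl⟩

theorem avg_eq_allBits (R : ℕ) (g : List Bool → ℝ) :
    avg R g = ((allBits R).map g).sum / 2 ^ R := by
  induction R generalizing g with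
  | zero => simp [allBits]
  | succ R ih =>
    rw [avg_succ, ih, ih, allBits, List.map_append, List.map_map, List.map_map, List.sum_append,
      pow_succ]
    simp only [Function.comp_def]
    field_simp

section chain

variable {X : Type} [DecidableEq X] (stp : X → List Bool → X) (R : ℕ)

/-- number of tapes of length `R` that move `x` to `y` -/
def cnt (x y : X) : ℕ := (allBits R).countP (fun τ => decide (stp x τ = y))

theorem list_sum_map_eq (l : List (List Bool)) (f : List Bool → X) (φ : X → ℝ) (Ω : Finset X)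
    (h : ∀ τ ∈ l, f τ ∈ Ω) :
    (l.map (fun τ => φ (f τ))).sum =
      ∑ y ∈ Ω, (l.countP (fun τ => decide (f τ = y)) : ℝ) * φ y := by
  induction l with
  | nil => simp
  | cons a l ih =>
    rw [List.map_cons, List.sum_cons, ih (fun τ hτ => h τ (by simp [hτ]))]
    have h1 : ∀ y ∈ Ω, (((a :: l).countP (fun τ => decide (f τ = y)) : ℕ) : ℝ) * φ y =
        (if f a = y then φ y else 0) + (l.countP (fun τ => decide (f τ = y)) : ℝ) * φ y := by
      intro y _
      rw [List.countP_cons]
      by_cases hy : f a = y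
      · simp [hy]; ring
      · simp [hy]
    rw [Finset.sum_congr rfl h1, Finset.sum_add_distrib, Finset.sum_ite_eq, if_pos (h a (by simp))]

variable {stp R}

theorem markov_eq {Ω : Finset X} (hcl : ∀ x ∈ Ω, ∀ l : List Bool, l.length = R → stp x l ∈ Ω)
    (φ : X → ℝ) {x : X} (hx : x ∈ Ω) :
    markov stp R φ x = ∑ y ∈ Ω, (cnt stp R x y : ℝ) / 2 ^ R * φ y := by
  unfold markov
  rw [avg_eq_allBits, list_sum_map_eq (allBits R) (stp x) φ Ω
    (fun τ hτ => hcl x hx τ (mem_allBits.1 hτ)), Finset.sum_div]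
  refine Finset.sum_congr rfl fun y _ => ?_
  unfold cnt
  ring

theorem sum_cnt {Ω : Finset X} (hcl : ∀ x ∈ Ω, ∀ l : List Bool, l.length = R → stp x l ∈ Ω)
    {x : X} (hx : x ∈ Ω) : ∑ y ∈ Ω, cnt stp R x y = 2 ^ R := by
  have h := list_sum_map_eq (allBits R) (stp x) (fun _ => (1 : ℝ)) Ω
    (fun τ hτ => hcl x hx τ (mem_allBits.1 hτ))
  simp only [List.map_const', List.sum_replicate, mul_one, length_allBits,
    nsmul_eq_mul] at h
  have h2 : ((∑ y ∈ Ω, cnt stp R x y : ℕ) : ℝ) = ((2 ^ R : ℕ) : ℝ) := by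
    push_cast
    unfold cnt
    rw [← h]
    push_cast
    rfl
  exact_mod_cast h2

/-- **Doeblin**: pointwise mixing of a symmetric chain with a uniform lower bound on transitions. -/
theorem doeblin {Ω : Finset X} {c : ℝ} (hΩ : Ω.Nonempty)
    (hcl : ∀ x ∈ Ω, ∀ l : List Bool, l.length = R → stp x l ∈ Ω)
    (hsymm : ∀ x ∈ Ω, ∀ y ∈ Ω, cnt stp R x y = cnt stp R y x)
    (hlow : ∀ x ∈ Ω, ∀ y ∈ Ω, c / Ω.card ≤ (cnt stp R x y : ℝ) / 2 ^ R)
    (t : ℕ) : ∀ (φ : X → ℝ) (a b : ℝ), (∀ x ∈ Ω, a ≤ φ x ∧ φ x ≤ b) → ∀ x ∈ Ω,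
      (1 - (1 - c) ^ t) * ((∑ y ∈ Ω, φ y) / Ω.card) + (1 - c) ^ t * a ≤ (markov stp R)^[t] φ x ∧
      (markov stp R)^[t] φ x ≤ (1 - (1 - c) ^ t) * ((∑ y ∈ Ω, φ y) / Ω.card) + (1 - c) ^ t * b := by
  have hN : (0 : ℝ) < Ω.card := by exact_mod_cast Finset.card_pos.2 hΩ
  have hrow : ∀ x ∈ Ω, ∑ y ∈ Ω, (cnt stp R x y : ℝ) / 2 ^ R = 1 := by
    intro x hx
    have h := sum_cnt hcl hx
    rw [← Finset.sum_div]
    have h2 : (∑ y ∈ Ω, (cnt stp R x y : ℝ)) = 2 ^ R := by exact_mod_cast h
    rw [h2]
    exact div_self (by positivity)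
  induction t with
  | zero =>
    intro φ a b h x hx
    simpa using h x hx
  | succ t ih =>
    intro φ a b h x hx
    set m := (∑ y ∈ Ω, φ y) / Ω.card with hm
    have hmul : ∀ x ∈ Ω, markov stp R φ x =
        c * m + ∑ y ∈ Ω, ((cnt stp R x y : ℝ) / 2 ^ R - c / Ω.card) * φ y := by
      intro x hx
      rw [markov_eq hcl φ hx]
      simp_rw [sub_mul, Finset.sum_sub_distrib]
      rw [← Finset.mul_sum, hm]
      field_simp
      ring
    have hsum : ∀ x ∈ Ω, ∑ y ∈ Ω, ((cnt stp R x y : ℝ) / 2 ^ R - c / Ω.card) = 1 - c := by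
      intro x hx
      rw [Finset.sum_sub_distrib, hrow x hx]
      simp only [Finset.sum_const, nsmul_eq_mul]
      field_simp
    have hbd : ∀ x ∈ Ω, c * m + (1 - c) * a ≤ markov stp R φ x ∧
        markov stp R φ x ≤ c * m + (1 - c) * b := by
      intro x hx
      rw [hmul x hx, ← hsum x hx, Finset.sum_mul, Finset.sum_mul]
      constructor
      · refine add_le_add le_rfl (Finset.sum_le_sum fun y hy => ?_)
        exact mul_le_mul_of_nonneg_left (h y hy).1 (sub_nonneg.2 (hlow x hx y hy))
      · refine add_le_add le_rfl (Finset.sum_le_sum fun y hy => ?_)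
        exact mul_le_mul_of_nonneg_left (h y hy).2 (sub_nonneg.2 (hlow x hx y hy))
    have hmean : (∑ y ∈ Ω, markov stp R φ y) / Ω.card = m := by
      rw [hm]
      congr 1
      calc ∑ x ∈ Ω, markov stp R φ x
          = ∑ x ∈ Ω, ∑ y ∈ Ω, (cnt stp R x y : ℝ) / 2 ^ R * φ y :=
            Finset.sum_congr rfl fun x hx => markov_eq hcl φ hx
        _ = ∑ y ∈ Ω, ∑ x ∈ Ω, (cnt stp R x y : ℝ) / 2 ^ R * φ y := Finset.sum_comm
        _ = ∑ y ∈ Ω, φ y := by
            refine Finset.sum_congr rfl fun y hy => ?_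
            rw [← Finset.sum_mul]
            have : ∑ x ∈ Ω, (cnt stp R x y : ℝ) / 2 ^ R = 1 := by
              rw [← hrow y hy]
              refine Finset.sum_congr rfl fun x hx => ?_
              rw [hsymm x hx y hy]
            rw [this, one_mul]
    have h2 := ih (markov stp R φ) _ _ hbd x hx
    rw [hmean] at h2
    rw [Function.iterate_succ_apply]
    constructor
    · refine le_trans (le_of_eq ?_) h2.1
      ring
    · refine h2.2.trans (le_of_eq ?_)
      ring

/-- exact integer law of the chain after `s` steps, started at `x₀`, on the list `tabs` -/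
def law (stp : X → List Bool → X) (R : ℕ) (tabs : List X) (x₀ : X) : ℕ → X → ℕ
  | 0, y => if y = x₀ then 1 else 0
  | s + 1, y => (tabs.map (fun x => law stp R tabs x₀ s x * cnt stp R x y)).sum

theorem law_sum {tabs : List X} (hnd : tabs.Nodup) {x₀ : X} (hx₀ : x₀ ∈ tabs)
    (hcl : ∀ x ∈ tabs, ∀ l : List Bool, l.length = R → stp x l ∈ tabs) (s : ℕ) :
    ∑ y ∈ tabs.toFinset, law stp R tabs x₀ s y = 2 ^ (R * s) := by
  induction s with
  | zero => simp [law, hx₀]
  | succ s ih =>
    have hcl' : ∀ x ∈ tabs.toFinset, ∀ l : List Bool, l.length = R → stp x l ∈ tabs.toFinset := by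
      simpa using hcl
    simp only [law]
    have h1 : ∀ y, (tabs.map (fun x => law stp R tabs x₀ s x * cnt stp R x y)).sum =
        ∑ x ∈ tabs.toFinset, law stp R tabs x₀ s x * cnt stp R x y := fun y =>
      (List.sum_toFinset _ hnd).symm
    simp_rw [h1]
    rw [Finset.sum_comm]
    have h2 : ∀ x ∈ tabs.toFinset, ∑ y ∈ tabs.toFinset, law stp R tabs x₀ s x * cnt stp R x y =
        law stp R tabs x₀ s x * 2 ^ R := by
      intro x hx
      rw [← Finset.mul_sum, sum_cnt hcl' hx]
    rw [Finset.sum_congr rfl h2, ← Finset.sum_mul, ih]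
    ring

theorem iterate_markov_eq_law {tabs : List X} (hnd : tabs.Nodup) {x₀ : X} (hx₀ : x₀ ∈ tabs)
    (hcl : ∀ x ∈ tabs, ∀ l : List Bool, l.length = R → stp x l ∈ tabs) (s : ℕ) (φ : X → ℝ) :
    (markov stp R)^[s] φ x₀ =
      ∑ y ∈ tabs.toFinset, (law stp R tabs x₀ s y : ℝ) / 2 ^ (R * s) * φ y := by
  induction s generalizing φ with
  | zero =>
    simp only [Function.iterate_zero, id_eq, law, mul_zero, pow_zero, div_one]
    simp [hx₀]
  | succ s ih =>
    have hcl' : ∀ x ∈ tabs.toFinset, ∀ l : List Bool, l.length = R → stp x l ∈ tabs.toFinset := by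
      simpa using hcl
    rw [Function.iterate_succ_apply, ih]
    have h0 : ∀ x ∈ tabs.toFinset, (law stp R tabs x₀ s x : ℝ) / 2 ^ (R * s) * markov stp R φ x =
        ∑ y ∈ tabs.toFinset, (law stp R tabs x₀ s x : ℝ) * cnt stp R x y / 2 ^ (R * (s + 1)) * φ y := by
      intro x hx
      rw [markov_eq hcl' φ hx, Finset.mul_sum]
      refine Finset.sum_congr rfl fun y _ => ?_
      rw [mul_add, pow_add, mul_one]
      field_simp
    rw [Finset.sum_congr rfl h0, Finset.sum_comm]
    refine Finset.sum_congr rfl fun y _ => ?_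
    rw [← Finset.sum_mul, ← Finset.sum_div]
    congr 2
    simp only [law]
    rw [← List.sum_toFinset _ hnd]
    push_cast
    rfl

end chain

section pick

variable {X : Type}

/-- choose the item of an integer-weighted list that contains position `v` -/
def pick : List (X × ℕ) → ℕ → Option X
  | [], _ => none
  | p :: l, v => if v < p.2 then some p.1 else pick l (v - p.2)

theorem sum_pick (l : List (X × ℕ)) (M : ℕ) (hM : (l.map Prod.snd).sum ≤ M)
    (g : Option X → ℝ) :
    ∑ v ∈ range M, g (pick l v) =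
      (l.map (fun p => (p.2 : ℝ) * g (some p.1))).sum +
        ((M : ℝ) - ((l.map Prod.snd).sum : ℕ)) * g none := by
  induction l generalizing M with
  | nil => simp [pick]
  | cons p l ih =>
    simp only [List.map_cons, List.sum_cons] at hM ⊢
    obtain ⟨M', rfl⟩ := Nat.exists_eq_add_of_le (show p.2 ≤ M by omega)
    rw [Finset.sum_range_add]
    have h1 : ∑ v ∈ range p.2, g (pick (p :: l) v) = (p.2 : ℝ) * g (some p.1) := by
      rw [Finset.sum_congr rfl (g := fun _ => g (some p.1))]
      · simp
      · intro v hv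
        simp [pick, Finset.mem_range.1 hv]
    have h2 : ∑ v ∈ range M', g (pick (p :: l) (p.2 + v)) = ∑ v ∈ range M', g (pick l v) := by
      refine Finset.sum_congr rfl fun v _ => ?_
      simp [pick]
    rw [h1, h2, ih M' (by omega)]
    push_cast
    ring

theorem sum_msb (J : ℕ) (h : ℕ → ℝ) : avg J (fun τ => h (msb τ)) = (∑ v ∈ range (2 ^ J), h v) / 2 ^ J := by
  induction J generalizing h with
  | zero => simp
  | succ J ih =>
    rw [avg_succ]
    have e1 : avg J (fun l => h (msb (false :: l))) = avg J (fun l => h (msb l)) :=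
      avg_congr fun l hl => by rw [msb_cons]; simp
    have e2 : avg J (fun l => h (msb (true :: l))) = avg J (fun l => h (2 ^ J + msb l)) :=
      avg_congr fun l hl => by rw [msb_cons, hl]; simp
    rw [e1, e2, ih h, ih (fun v => h (2 ^ J + v)), pow_succ 2 J, mul_two, Finset.sum_range_add,
      pow_succ (2 : ℝ) J]
    ring

/-- sampling an item from an integer-weighted list with `J` fair bits -/
theorem avg_pick (l : List (X × ℕ)) (J : ℕ) (hJ : (l.map Prod.snd).sum ≤ 2 ^ J)
    (g : Option X → ℝ) :
    avg J (fun τ => g (pick l (msb τ))) =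
      ((l.map (fun p => (p.2 : ℝ) * g (some p.1))).sum +
        ((2 : ℝ) ^ J - ((l.map Prod.snd).sum : ℕ)) * g none) / 2 ^ J := by
  rw [sum_msb J (fun v => g (pick l v)), sum_pick l (2 ^ J) hJ]
  push_cast
  rfl

theorem avg_all_true (K : ℕ) (a b : ℝ) :
    avg K (fun τ => if τ.all id then a else b) = (1 - (2 : ℝ)⁻¹ ^ K) * b + (2 : ℝ)⁻¹ ^ K * a := by
  induction K with
  | zero => simp
  | succ K ih =>
    rw [avg_succ]
    have e1 : avg K (fun l => if (false :: l).all id then a else b) = b := by
      rw [← avg_const K b]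
      exact avg_congr fun l _ => by simp
    have e2 : avg K (fun l => if (true :: l).all id then a else b) =
        avg K (fun l => if l.all id then a else b) := avg_congr fun l _ => by simp
    rw [e1, e2, ih, pow_succ]
    ring

end pick

end Crest.Agent.R309.Exact9
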