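import Crest.Agent.R309.Exact9Cert

/-!
# R309, exactness layer (S0481), part 5: the raw round function with split costs

The round program branches on a tag: on later states it runs the typed round function `f`, whose
cost polynomial is fixed FIRST; on the start state it runs the start function `g`.
-/

set_option autoImplicit false

namespace Crest.Agent.R309.Exact9

open Crest.Agent.R309.Tape Crest.Agent.Lib.PT

/-- A branching program with separate costs for the two branches. -/
theorem branch_cost {t f : List Bool → List Bool} (ht : PT t) (hf : PT f) :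
    ∃ qf : Polynomial ℕ, ∀ g : List Bool → List Bool, PT g →
      ∃ (c : Cmd) (qg : Polynomial ℕ), ∀ x,
        Run c (init x) (init (if (t x).head? = some true then f x else g x))
          (if (t x).head? = some true then qf.eval x.length else qg.eval x.length) := by
  obtain ⟨bc, hbc⟩ := ht.length_bound
  obtain ⟨cc, r, hcc⟩ := ht
  obtain ⟨cf, p, hcf⟩ := hf
  refine ⟨r + p + 13 * Polynomial.X + 2 * bc + 5, ?_⟩
  rintro g ⟨cg, q, hcg⟩
  refine ⟨.seq dup (.seq (cc.shift 1) (.ite 1 cg (.seq (clear 1) cf) (.seq (clear 1) cg))),
    r + q + 13 * Polynomial.X + 2 * bc + 5, fun x => ?_⟩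
  have h1 := run_dup x
  have h2 := call_one (hcc x) x
  have b1 := hbc x
  have h3 : Run (.ite 1 cg (.seq (clear 1) cf) (.seq (clear 1) cg)) (st4 x (t x) [] [])
      (init (if (t x).head? = some true then f x else g x))
      (2 + 2 * bc.eval x.length +
        (if (t x).head? = some true then p.eval x.length else q.eval x.length)) := by
    have hcl : Run (clear 1) (st4 x (t x) [] []) (init x) (2 * (t x).length + 1) :=
      (run_clear 1 _).of_eq (by simp [init_eq_st4]) (by simp)
    rcases hcx : t x with _ | ⟨b, l⟩
    · have := hcg x
      rw [init_eq_st4 x] at this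
      simpa using (Run.ite_nil (k := 1) (e := cg) (c := .seq (clear 1) cf)
        (d := .seq (clear 1) cg) (s := st4 x [] [] []) rfl this).mono (by omega)
    · rw [hcx] at hcl b1
      cases b
      · simpa using (Run.ite_false (k := 1) (e := cg) (c := .seq (clear 1) cf)
          (d := .seq (clear 1) cg) (s := st4 x (false :: l) [] []) (l := l) rfl
          (hcl.seq (hcg x))).mono (by omega)
      · simpa using (Run.ite_true (k := 1) (e := cg) (c := .seq (clear 1) cf)
          (d := .seq (clear 1) cg) (s := st4 x (true :: l) [] []) (l := l) rfl
          (hcl.seq (hcf x))).mono (by omega)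
  refine (h1.seq (h2.seq h3)).mono ?_
  split_ifs <;>
  · simp only [Polynomial.eval_add, Polynomial.eval_mul, Polynomial.eval_ofNat, Polynomial.eval_X]
    omega

/-- is the state a later state (tag `[false]`)? -/
def tag (x : List Bool) : List Bool := [decide (Crest.Agent.Lib.PT.fst (Crest.Agent.Lib.PT.fst x).tail = [false])]

theorem pt_tag : PT tag :=
  PTB.comp (PTB.eqConst [false]) (PT.fst' (PT.tail' PT.fst))

/-- put the tag on the next state -/
def wrap (y : List Bool) : List Bool :=
  if y.head? = some true then y else false :: pair [false] y.tail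

theorem pt_wrap : PT wrap :=
  PT.ite PT.id PT.id (PT.cons' false (PT.pair (PT.const [false]) PT.tail))

/-- the code of a running state -/
def code {C : Type} [PTCode C] (s : C) : List Bool := false :: pair [false] (enc s)

/-- the raw round function of a typed process -/
theorem raw_round {C : Type} [PTCode C] {f : C × Bits → C ⊕ List ℕ} (hf : PTF f) :
    ∃ qf : Polynomial ℕ, ∀ g : List ℕ → C, PTF g →
      ∃ (c : Cmd) (F : List Bool → List Bool → List Bool) (qg : Polynomial ℕ) (n : List Bool → ℕ),
        (∀ s τ, τ.length = s.length → Run c (init (pair s τ)) (init (F s τ)) (n s)) ∧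
        (∀ (L : List ℕ) τ, F (false :: enc L) τ = code (g L)) ∧
        (∀ L : List ℕ, n (false :: enc L) ≤ qg.eval (sz L)) ∧
        (∀ (s : C) τ, F (code s) τ = match f (s, ⟨τ⟩) with
          | Sum.inl s' => code s'
          | Sum.inr o => true :: enc o) ∧
        (∀ s : C, n (code s) ≤ qf.eval (sz s)) := by
  obtain ⟨f', hf', hf⟩ := hf
  set R : List Bool → List Bool := fun x =>
    wrap (f' (pair (Crest.Agent.Lib.PT.snd (Crest.Agent.Lib.PT.fst x).tail)
      (Crest.Agent.Lib.PT.snd x))) with hR
  have hRp : PT R := PT.comp pt_wrap (PT.comp hf' (PT.pair (PT.snd' (PT.tail' PT.fst)) PT.snd))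
  obtain ⟨q, hq⟩ := branch_cost pt_tag hRp
  refine ⟨q.comp (3 * Polynomial.X + 13), ?_⟩
  rintro g ⟨g', hg', hg⟩
  set G : List Bool → List Bool := fun x =>
    false :: pair [false] (g' (Crest.Agent.Lib.PT.fst x).tail) with hG
  have hGp : PT G := PT.cons' false (PT.pair (PT.const [false]) (PT.comp hg' (PT.tail' PT.fst)))
  obtain ⟨c, qg, hc⟩ := hq G hGp
  refine ⟨c, fun s τ => if (tag (pair s τ)).head? = some true then R (pair s τ) else G (pair s τ),
    qg.comp (3 * Polynomial.X + 4), fun s => if (tag (pair s [])).head? = some true then
      q.eval (3 * s.length + 1) else qg.eval (3 * s.length + 1), ?_, ?_, ?_, ?_, ?_⟩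
  · intro s τ hτ
    have h1 := hc (pair s τ)
    have e1 : tag (pair s τ) = tag (pair s []) := by
      unfold tag
      simp
    have e2 : (pair s τ).length = 3 * s.length + 1 := by
      rw [length_pair, hτ]; ring
    rw [e2] at h1
    rw [e1] at h1
    simp only [e1]
    exact h1
  · intro L τ
    have e1 : (tag (pair (false :: enc L) τ)).head? ≠ some true := by
      unfold tag
      simp only [fst_pair, List.tail_cons, List.head?_cons, ne_eq, Option.some.injEq,
        decide_eq_true_eq]
      rcases L with _ | ⟨a, L⟩
      · simp [Crest.Agent.Lib.PT.fst]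
      · simp only [enc_cons, fst_pair, enc_nat]
        intro h
        have h2 : Arith.msb a.bits.reverse = Arith.msb [false].reverse := by rw [h]
        rw [Arith.msb_bits_reverse] at h2
        have h3 : a = 0 := by simpa [Arith.msb] using h2
        rw [h3] at h
        simp at h
    simp only [if_neg e1]
    simp only [hG, fst_pair, List.tail_cons, hg]
    rfl
  · intro L
    have e1 : (tag (pair (false :: enc L) [])).head? ≠ some true := by
      unfold tag
      simp only [fst_pair, List.tail_cons, List.head?_cons, ne_eq, Option.some.injEq,
        decide_eq_true_eq]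
      rcases L with _ | ⟨a, L⟩
      · simp [Crest.Agent.Lib.PT.fst]
      · simp only [enc_cons, fst_pair, enc_nat]
        intro h
        have h2 : Arith.msb a.bits.reverse = Arith.msb [false].reverse := by rw [h]
        rw [Arith.msb_bits_reverse] at h2
        have h3 : a = 0 := by simpa [Arith.msb] using h2
        rw [h3] at h
        simp at h
    simp only [if_neg e1]
    rw [Polynomial.eval_comp]
    refine polyEval_mono qg ?_
    simp only [Polynomial.eval_add, Polynomial.eval_mul, Polynomial.eval_ofNat, Polynomial.eval_X,
      List.length_cons, sz]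
    omega
  · intro s τ
    have e1 : (tag (pair (code s) τ)).head? = some true := by
      unfold tag code
      simp
    simp only [if_pos e1]
    simp only [hR, fst_pair, snd_pair, code, List.tail_cons]
    have h1 := hf (s, ⟨τ⟩)
    simp only [enc_prod, enc_bits] at h1
    rw [h1]
    rcases f (s, ⟨τ⟩) with s' | o
    · simp [wrap]
    · simp [wrap]
  · intro s
    have e1 : (tag (pair (code s) [])).head? = some true := by
      unfold tag code
      simp
    simp only [if_pos e1]
    rw [Polynomial.eval_comp]
    refine polyEval_mono q ?_
    simp only [Polynomial.eval_add, Polynomial.eval_mul, Polynomial.eval_ofNat, Polynomial.eval_X,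
      code, List.length_cons, length_pair, sz, List.length_nil]
    omega

end Crest.Agent.R309.Exact9
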