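import Mathlib
import Crest.Agent.Lib.PT.ArithMore
import Crest.Agent.Lib.PT.ListFns2
import Crest.Prelude.Def_Tables

/-!
# R309: the north-west corner table

For margins `rs`, `cs` with the same total, `nw rs cs` is a table with these margins, given by a
closed formula.
-/

set_option autoImplicit false

namespace Crest.Agent.R309.NW

open Crest.Agent.Lib.PT

/-- clamp `x` to the interval `[a, b]` -/
def clamp (a b x : ℕ) : ℕ := min b (max a x)

/-- prefix sum -/
def pre (l : List ℕ) (i : ℕ) : ℕ := (l.take i).sum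

/-- an entry of the north-west corner table -/
def ent (rs cs : List ℕ) (i j : ℕ) : ℕ :=
  clamp (pre rs i) (pre rs (i + 1)) (pre cs (j + 1)) - clamp (pre rs i) (pre rs (i + 1)) (pre cs j)

/-- the north-west corner table -/
def nw (rs cs : List ℕ) : List (List ℕ) :=
  (List.range rs.length).map fun i => (List.range cs.length).map fun j => ent rs cs i j

theorem clamp_mono (a b : ℕ) : Monotone (clamp a b) := fun _ _ h =>
  min_le_min_left _ (max_le_max_left _ h)

theorem pre_zero (l : List ℕ) : pre l 0 = 0 := by simp [pre]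

theorem pre_length (l : List ℕ) : pre l l.length = l.sum := by simp [pre]

theorem pre_succ (l : List ℕ) (i : ℕ) : pre l (i + 1) = pre l i + l.getD i 0 := by
  unfold pre
  rw [List.take_add_one, List.sum_append]
  congr 1
  rcases h : l[i]? with _ | a
  · simp [List.getD, h]
  · simp [List.getD, h]

theorem pre_mono (l : List ℕ) : Monotone (pre l) :=
  monotone_nat_of_le_succ fun i => by rw [pre_succ]; omega

theorem pre_le_sum (l : List ℕ) (i : ℕ) : pre l i ≤ l.sum := by
  rcases le_total i l.length with h | h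
  · rw [← pre_length]; exact pre_mono l h
  · unfold pre; rw [List.take_of_length_le h]

theorem length_nw (rs cs : List ℕ) : (nw rs cs).length = rs.length := by simp [nw]

theorem length_row_nw {rs cs : List ℕ} {row : List ℕ} (h : row ∈ nw rs cs) :
    row.length = cs.length := by
  simp only [nw, List.mem_map, List.mem_range] at h
  obtain ⟨i, _, rfl⟩ := h
  simp

theorem getD_nw (rs cs : List ℕ) (i : ℕ) (hi : i < rs.length) :
    (nw rs cs).getD i [] = (List.range cs.length).map fun j => ent rs cs i j := by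
  simp [nw, List.getD, hi]

theorem getD_getD_nw (rs cs : List ℕ) (i j : ℕ) (hi : i < rs.length) (hj : j < cs.length) :
    ((nw rs cs).getD i []).getD j 0 = ent rs cs i j := by
  rw [getD_nw rs cs i hi]
  simp [List.getD, hj]

theorem sum_range_ent_row (rs cs : List ℕ) (i n : ℕ) :
    ∑ j ∈ Finset.range n, ent rs cs i j =
      clamp (pre rs i) (pre rs (i + 1)) (pre cs n) - clamp (pre rs i) (pre rs (i + 1)) (pre cs 0) := by
  unfold ent
  exact Finset.sum_range_tsub (f := fun j => clamp (pre rs i) (pre rs (i + 1)) (pre cs j))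
    (fun a b h => clamp_mono _ _ (pre_mono cs h)) n

theorem sum_row (rs cs : List ℕ) (h : rs.sum = cs.sum) (i : ℕ) :
    ∑ j ∈ Finset.range cs.length, ent rs cs i j = rs.getD i 0 := by
  rw [sum_range_ent_row, pre_length, pre_zero, ← h]
  have h1 := pre_le_sum rs (i + 1)
  have h2 := pre_mono rs (Nat.le_succ i)
  have h3 := pre_succ rs i
  unfold clamp
  simp only [Nat.succ_eq_add_one] at h2
  omega

theorem ent_eq (rs cs : List ℕ) (i j : ℕ) :
    (ent rs cs i j : ℤ) = ((min (pre rs (i + 1)) (pre cs (j + 1)) : ℕ) - (min (pre rs (i + 1)) (pre cs j) : ℕ))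
      - ((min (pre rs i) (pre cs (j + 1)) : ℕ) - (min (pre rs i) (pre cs j) : ℕ)) := by
  have h1 := pre_mono rs (Nat.le_succ i)
  have h2 := pre_mono cs (Nat.le_succ j)
  unfold ent clamp
  simp only [Nat.succ_eq_add_one] at h1 h2
  omega

theorem sum_col (rs cs : List ℕ) (h : rs.sum = cs.sum) (j : ℕ) :
    ∑ i ∈ Finset.range rs.length, ent rs cs i j = cs.getD j 0 := by
  have key : ∀ n, ((∑ i ∈ Finset.range n, ent rs cs i j : ℕ) : ℤ) =
      (min (pre rs n) (pre cs (j + 1)) : ℕ) - (min (pre rs n) (pre cs j) : ℕ) := by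
    intro n
    induction n with
    | zero => simp [pre_zero]
    | succ n ih =>
      rw [Finset.sum_range_succ, Nat.cast_add, ih, ent_eq]
      ring
  have h1 := key rs.length
  rw [pre_length] at h1
  have h2 := pre_le_sum cs (j + 1)
  have h3 := pre_le_sum cs j
  have h4 := pre_succ cs j
  rw [h] at h1
  rw [min_eq_right h2, min_eq_right h3] at h1
  omega

theorem ent_le_row (rs cs : List ℕ) (i j : ℕ) : ent rs cs i j ≤ rs.getD i 0 := by
  have h3 := pre_succ rs i
  unfold ent clamp
  omega

theorem ent_le_col (rs cs : List ℕ) (i j : ℕ) : ent rs cs i j ≤ cs.getD j 0 := by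
  have h3 := pre_succ cs j
  unfold ent clamp
  omega

theorem getD_le_sum (l : List ℕ) (i : ℕ) : l.getD i 0 ≤ l.sum := by
  have h1 := pre_succ l i
  have h2 := pre_le_sum l (i + 1)
  omega

/-- the north-west corner table of functions is a table -/
theorem isTable_ent {m n : ℕ} (rs : Fin m → ℕ) (cs : Fin n → ℕ) (h : ∑ i, rs i = ∑ j, cs j) :
    Crest.Tables.IsTable rs cs (fun i j => ent (List.ofFn rs) (List.ofFn cs) i j) := by
  have h' : (List.ofFn rs).sum = (List.ofFn cs).sum := by simpa [List.sum_ofFn] using h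
  constructor
  · intro i
    have := sum_row (List.ofFn rs) (List.ofFn cs) h' i
    rw [List.length_ofFn, Finset.sum_range] at this
    rw [this]
    simp [List.getD]
  · intro j
    have := sum_col (List.ofFn rs) (List.ofFn cs) h' j
    rw [List.length_ofFn, Finset.sum_range] at this
    rw [this]
    simp [List.getD]

theorem nw_ofFn {m n : ℕ} (rs : Fin m → ℕ) (cs : Fin n → ℕ) :
    nw (List.ofFn rs) (List.ofFn cs) =
      List.ofFn fun i : Fin m => List.ofFn fun j : Fin n =>
        ent (List.ofFn rs) (List.ofFn cs) i j := by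
  unfold nw
  rw [List.length_ofFn, List.length_ofFn]
  apply List.ext_getElem (by simp)
  intro i h1 h2
  simp only [List.getElem_map, List.getElem_range, List.getElem_ofFn]
  apply List.ext_getElem (by simp)
  intro j h3 h4
  simp

theorem ptf_pre : PTF (fun p : List ℕ × ℕ => pre p.1 p.2) := by
  have h : PTF (fun p : List ℕ × ℕ => (p.1.take (min p.2 p.1.length)).sum) := by
    have h1 : PTU (fun p : List ℕ × ℕ => min p.2 p.1.length) :=
      PTF.natMinUn PTF.snd (PTU.length PTF.fst)
    exact PTF.natSum (PTF.take h1 PTF.fst)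
  refine PTF.of_eq h fun p => ?_
  unfold pre
  congr 1
  rcases le_total p.2 p.1.length with h | h
  · rw [min_eq_left h]
  · rw [min_eq_right h, List.take_of_length_le le_rfl, List.take_of_length_le h]

theorem ptf_clamp {α : Type} [PTCode α] {a b x : α → ℕ} (ha : PTF a) (hb : PTF b) (hx : PTF x) :
    PTF (fun c => clamp (a c) (b c) (x c)) :=
  PTF.natMin hb (PTF.natMax ha hx)

theorem ptf_ent : PTF (fun p : (List ℕ × List ℕ) × ℕ × ℕ => ent p.1.1 p.1.2 p.2.1 p.2.2) := by
  have hp : ∀ {f : (List ℕ × List ℕ) × ℕ × ℕ → List ℕ} {g : (List ℕ × List ℕ) × ℕ × ℕ → ℕ},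
      PTF f → PTF g → PTF (fun p => pre (f p) (g p)) := fun hf hg =>
    PTF.comp (g := fun p : List ℕ × ℕ => pre p.1 p.2) ptf_pre (PTF.prodMk hf hg)
  have hR : PTF (fun p : (List ℕ × List ℕ) × ℕ × ℕ => pre p.1.1 p.2.1) := hp (by fun_prop) (by fun_prop)
  have hR' : PTF (fun p : (List ℕ × List ℕ) × ℕ × ℕ => pre p.1.1 (p.2.1 + 1)) :=
    hp (by fun_prop) (by fun_prop)
  have hC : PTF (fun p : (List ℕ × List ℕ) × ℕ × ℕ => pre p.1.2 p.2.2) := hp (by fun_prop) (by fun_prop)
  have hC' : PTF (fun p : (List ℕ × List ℕ) × ℕ × ℕ => pre p.1.2 (p.2.2 + 1)) :=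
    hp (by fun_prop) (by fun_prop)
  exact PTF.natSub (ptf_clamp hR hR' hC') (ptf_clamp hR hR' hC)

theorem ptf_nw : PTF (fun p : List ℕ × List ℕ => nw p.1 p.2) := by
  unfold nw
  refine PTF.tabulate (n := fun p : List ℕ × List ℕ => p.1.length)
    (f := fun p i => (List.range p.2.length).map fun j => ent p.1 p.2 i j) (by fun_prop) ?_
  refine PTF.tabulate (n := fun q : (List ℕ × List ℕ) × ℕ => q.1.2.length)
    (f := fun q j => ent q.1.1 q.1.2 q.2 j) (by fun_prop) ?_
  exact PTF.comp (g := fun p : (List ℕ × List ℕ) × ℕ × ℕ => ent p.1.1 p.1.2 p.2.1 p.2.2)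
    (f := fun q : ((List ℕ × List ℕ) × ℕ) × ℕ => (q.1.1, q.1.2, q.2)) ptf_ent (by fun_prop)

end Crest.Agent.R309.NW
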