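import Crest.Agent.R309.Tape

/-!
# R309: independent blocks of a tape, Chebyshev, median amplification
-/

set_option autoImplicit false

namespace Crest.Agent.R309.Tape

open Finset

/-- the first `k` blocks of length `r` of a tape -/
def blocks (r : ℕ) : ℕ → List Bool → List (List Bool)
  | 0, _ => []
  | k + 1, t => t.take r :: blocks r k (t.drop r)

@[simp] theorem blocks_zero (r : ℕ) (t : List Bool) : blocks r 0 t = [] := rfl

theorem blocks_succ (r k : ℕ) (t : List Bool) :
    blocks r (k + 1) t = t.take r :: blocks r k (t.drop r) := rfl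

@[simp] theorem length_blocks (r k : ℕ) (t : List Bool) : (blocks r k t).length = k := by
  induction k generalizing t with
  | zero => rfl
  | succ k ih => simp [blocks_succ, ih]

theorem blocks_eq_range (r k : ℕ) (t : List Bool) :
    blocks r k t = (List.range k).map (fun i => (t.drop (i * r)).take r) := by
  induction k generalizing t with
  | zero => rfl
  | succ k ih =>
    rw [blocks_succ, ih, List.range_succ_eq_map, List.map_cons, List.map_map]
    congr 1
    · simp
    · refine List.map_congr_left fun i _ => ?_
      simp only [Function.comp_apply, List.drop_drop]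
      congr 2
      simp only [Nat.succ_eq_add_one]
      ring

theorem length_of_mem_blocks {r k : ℕ} {t l : List Bool} (ht : k * r ≤ t.length)
    (hl : l ∈ blocks r k t) : l.length = r := by
  induction k generalizing t with
  | zero => simp at hl
  | succ k ih =>
    rw [blocks_succ, List.mem_cons] at hl
    have h1 : (k + 1) * r = k * r + r := by ring
    rcases hl with rfl | hl
    · simp only [List.length_take]; omega
    · exact ih (t := t.drop r) (by simp only [List.length_drop]; omega) hl

/-- independence of the blocks, product form -/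
theorem avg_blocks_prod (r k : ℕ) (g : List Bool → ℝ) :
    avg (k * r) (fun t => ((blocks r k t).map g).prod) = (avg r g) ^ k := by
  induction k with
  | zero => simp
  | succ k ih =>
    rw [show (k + 1) * r = r + k * r by ring]
    simp only [blocks_succ, List.map_cons, List.prod_cons]
    rw [avg_take_drop r (k * r) (fun l l' => g l * ((blocks r k l').map g).prod)]
    simp_rw [avg_mul_left, ih]
    rw [avg_mul_right, pow_succ]
    ring

theorem avg_blocks_sum (r k : ℕ) (g : List Bool → ℝ) :
    avg (k * r) (fun t => ((blocks r k t).map g).sum) = k * avg r g := by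
  induction k with
  | zero => simp
  | succ k ih =>
    rw [show (k + 1) * r = r + k * r by ring]
    simp only [blocks_succ, List.map_cons, List.sum_cons]
    rw [avg_take_drop r (k * r) (fun l l' => g l + ((blocks r k l').map g).sum)]
    simp_rw [avg_add, avg_const, ih]
    push_cast
    ring

/-- second moment of a sum of independent centred terms -/
theorem avg_blocks_sq (r k : ℕ) (g : List Bool → ℝ) (hg : avg r g = 0) :
    avg (k * r) (fun t => ((blocks r k t).map g).sum ^ 2) = k * avg r (fun l => g l ^ 2) := by
  induction k with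
  | zero => simp
  | succ k ih =>
    have h0 := avg_blocks_sum r k g
    rw [hg, mul_zero] at h0
    rw [show (k + 1) * r = r + k * r by ring]
    simp only [blocks_succ, List.map_cons, List.sum_cons]
    rw [avg_take_drop r (k * r) (fun l l' => (g l + ((blocks r k l').map g).sum) ^ 2)]
    have e : ∀ l, avg (k * r) (fun l' => (g l + ((blocks r k l').map g).sum) ^ 2) =
        g l ^ 2 + k * avg r (fun l => g l ^ 2) := by
      intro l
      have : (fun l' => (g l + ((blocks r k l').map g).sum) ^ 2) =
          fun l' => g l ^ 2 + (2 * g l) * ((blocks r k l').map g).sum +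
            ((blocks r k l').map g).sum ^ 2 := by
        funext l'; ring
      rw [this, avg_add, avg_add, avg_const, avg_mul_left, h0, ih]
      ring
    simp_rw [e]
    rw [avg_add, avg_const]
    push_cast
    ring

/-- Chebyshev's inequality for the number of blocks satisfying `P`. -/
theorem chebyshev (r k : ℕ) (P : List Bool → Bool) (p : ℝ) (hp : pr r (fun l => P l = true) = p)
    (η : ℝ) (hη : 0 < η) (hk : 0 < k) :
    pr (k * r) (fun t => η ≤ |(((blocks r k t).countP P : ℕ) : ℝ) / k - p|) ≤
      1 / (4 * k * η ^ 2) := by
  set g : List Bool → ℝ := fun l => ind (P l = true) - p with hgdef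
  have hg0 : avg r g = 0 := by
    rw [hgdef, avg_sub, avg_const]
    change pr r (fun l => P l = true) - p = 0
    rw [hp]; ring
  have hsum : ∀ ls : List (List Bool), (ls.map g).sum = (ls.countP P : ℝ) - ls.length * p := by
    intro ls
    induction ls with
    | nil => simp
    | cons a ls ih =>
      rw [List.map_cons, List.sum_cons, ih, List.countP_cons, List.length_cons]
      simp only [hgdef]
      by_cases h : P a = true
      · rw [ind_of h, if_pos h]; push_cast; ring
      · rw [ind_of_not h, if_neg h]; push_cast; ring
  have hvar : avg r (fun l => g l ^ 2) ≤ 1 / 4 := by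
    have e : ∀ l, g l ^ 2 = (1 - 2 * p) * ind (P l = true) + p ^ 2 := by
      intro l
      simp only [hgdef]
      by_cases h : P l = true
      · rw [ind_of h]; ring
      · rw [ind_of_not h]; ring
    simp_rw [e]
    rw [avg_add, avg_const, avg_mul_left]
    change (1 - 2 * p) * pr r (fun l => P l = true) + p ^ 2 ≤ 1 / 4
    rw [hp]
    nlinarith [sq_nonneg (p - 1 / 2)]
  have hkR : (0 : ℝ) < k := by exact_mod_cast hk
  have h1 : pr (k * r) (fun t => η ≤ |(((blocks r k t).countP P : ℕ) : ℝ) / k - p|) ≤
      pr (k * r) (fun t => (k * η) ^ 2 ≤ ((blocks r k t).map g).sum ^ 2) := by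
    refine pr_mono fun t _ h => ?_
    rw [hsum, length_blocks]
    have e : |(((blocks r k t).countP P : ℕ) : ℝ) - k * p| =
        k * |(((blocks r k t).countP P : ℕ) : ℝ) / k - p| := by
      rw [← abs_of_pos hkR, ← abs_mul, abs_of_pos hkR]
      congr 1
      field_simp
    rw [← sq_abs ((((blocks r k t).countP P : ℕ) : ℝ) - k * p), e]
    have : 0 ≤ (k : ℝ) * η := by positivity
    exact pow_le_pow_left₀ this (mul_le_mul_of_nonneg_left h hkR.le) 2
  refine h1.trans ((pr_le_avg_div (by positivity) (fun _ _ => sq_nonneg _)).trans ?_)
  rw [avg_blocks_sq r k g hg0]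
  rw [div_le_div_iff₀ (by positivity) (by positivity)]
  have : (k : ℝ) * avg r (fun l => g l ^ 2) ≤ k * (1 / 4) := mul_le_mul_of_nonneg_left hvar hkR.le
  calc (k : ℝ) * avg r (fun l => g l ^ 2) * (4 * k * η ^ 2)
      ≤ k * (1 / 4) * (4 * k * η ^ 2) := mul_le_mul_of_nonneg_right this (by positivity)
    _ = 1 * (k * η) ^ 2 := by ring

/-- exponential Chebyshev bound for the number of bad blocks -/
theorem pr_half_bad (r m : ℕ) (P : List Bool → Bool) (hp : pr r (fun l => P l = true) ≤ 1 / 4) :
    pr (2 * m * r) (fun t => m ≤ (blocks r (2 * m) t).countP P) ≤ (3 / 4) ^ m := by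
  set g : List Bool → ℝ := fun l => 1 + 2 * ind (P l = true) with hgdef
  have hprod : ∀ ls : List (List Bool), (ls.map g).prod = 3 ^ (ls.countP P) := by
    intro ls
    induction ls with
    | nil => simp
    | cons a ls ih =>
      rw [List.map_cons, List.prod_cons, ih, List.countP_cons]
      simp only [hgdef]
      by_cases h : P a = true
      · rw [ind_of h, if_pos h, pow_succ]; ring
      · rw [ind_of_not h, if_neg h]; ring
  have hg : avg r g ≤ 3 / 2 := by
    rw [hgdef, avg_add, avg_const, avg_mul_left]
    change 1 + 2 * pr r (fun l => P l = true) ≤ 3 / 2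
    linarith
  have hg0 : 0 ≤ avg r g := avg_nonneg fun l _ => by
    have := ind_nonneg (P l = true)
    simp only [hgdef]; linarith
  have h1 : pr (2 * m * r) (fun t => m ≤ (blocks r (2 * m) t).countP P) ≤
      pr (2 * m * r) (fun t => (3 : ℝ) ^ m ≤ ((blocks r (2 * m) t).map g).prod) := by
    refine pr_mono fun t _ h => ?_
    rw [hprod]
    exact pow_le_pow_right₀ (by norm_num) h
  refine h1.trans ((pr_le_avg_div (by positivity) (fun t _ => ?_)).trans ?_)
  · rw [hprod]; positivity
  · rw [avg_blocks_prod, div_le_iff₀ (by positivity), ← mul_pow, pow_mul]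
    refine pow_le_pow_left₀ (by positivity) ?_ m
    nlinarith

/-! ### medians -/

/-- a median of a list of rationals (`0` for the empty list) -/
def med (l : List ℚ) : ℚ :=
  (l.find? (fun z => decide (2 * l.countP (fun x => decide (x < z)) ≤ l.length) &&
    decide (2 * l.countP (fun x => decide (z < x)) ≤ l.length))).getD 0

theorem exists_med (l : List ℚ) (hl : l ≠ []) :
    ∃ z ∈ l, 2 * l.countP (fun x => decide (x < z)) ≤ l.length ∧
      2 * l.countP (fun x => decide (z < x)) ≤ l.length := by
  classical
  set A := l.toFinset.filter (fun z => 2 * l.countP (fun x => decide (x < z)) ≤ l.length) with hA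
  have hne : l.toFinset.Nonempty := by
    obtain ⟨a, ha⟩ := List.exists_mem_of_ne_nil l hl
    exact ⟨a, by simpa using ha⟩
  have hAne : A.Nonempty := by
    refine ⟨l.toFinset.min' hne, ?_⟩
    rw [hA, Finset.mem_filter]
    refine ⟨Finset.min'_mem _ _, ?_⟩
    have : l.countP (fun x => decide (x < l.toFinset.min' hne)) = 0 := by
      rw [List.countP_eq_zero]
      intro a ha
      simp only [decide_eq_true_eq, not_lt]
      exact Finset.min'_le _ _ (by simpa using ha)
    rw [this]; omega
  set z := A.max' hAne with hz
  have hzA : z ∈ A := Finset.max'_mem _ _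
  rw [hA, Finset.mem_filter, List.mem_toFinset] at hzA
  refine ⟨z, hzA.1, hzA.2, ?_⟩
  by_contra hcon
  push Not at hcon
  have hpos : 0 < l.countP (fun x => decide (z < x)) := by omega
  rw [List.countP_pos_iff] at hpos
  obtain ⟨w0, hw0, hw0z⟩ := hpos
  set B := l.toFinset.filter (fun x => z < x) with hB
  have hBne : B.Nonempty := ⟨w0, by rw [hB, Finset.mem_filter, List.mem_toFinset]; exact ⟨hw0, by simpa using hw0z⟩⟩
  set w := B.min' hBne with hw
  have hwB : w ∈ B := Finset.min'_mem _ _
  have hwB' := hwB
  rw [hB, Finset.mem_filter, List.mem_toFinset] at hwB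
  have hwA : w ∉ A := by
    intro h
    have := Finset.le_max' A w h
    rw [← hz] at this
    exact absurd hwB.2 (not_lt.2 this)
  have hcw : l.length < 2 * l.countP (fun x => decide (x < w)) := by
    by_contra h
    exact hwA (by rw [hA, Finset.mem_filter, List.mem_toFinset]; exact ⟨hwB.1, not_lt.1 h⟩)
  have hsum : l.countP (fun x => decide (x < w)) + l.countP (fun x => decide (z < x)) = l.length := by
    rw [List.length_eq_countP_add_countP (fun x => decide (x < w))]
    congr 1
    refine List.countP_congr fun x hx => ?_
    simp only [decide_eq_true_eq, not_lt]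
    constructor
    · intro h
      exact Finset.min'_le B x (by rw [hB, Finset.mem_filter, List.mem_toFinset]; exact ⟨hx, h⟩)
    · intro h
      exact lt_of_lt_of_le hwB.2 h
  omega

theorem med_mem_Icc (l : List ℚ) (a b : ℚ)
    (h : 2 * l.countP (fun x => !(decide (a ≤ x) && decide (x ≤ b))) < l.length) :
    a ≤ med l ∧ med l ≤ b := by
  have hl : l ≠ [] := by rintro rfl; simp at h
  obtain ⟨z0, hz0, hz1, hz2⟩ := exists_med l hl
  have hfind : ∃ z, l.find? (fun z => decide (2 * l.countP (fun x => decide (x < z)) ≤ l.length) &&
    decide (2 * l.countP (fun x => decide (z < x)) ≤ l.length)) = some z := by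
    rw [← Option.isSome_iff_exists, List.find?_isSome]
    exact ⟨z0, hz0, by simp [hz1, hz2]⟩
  obtain ⟨z, hz⟩ := hfind
  have hmed : med l = z := by unfold med; rw [hz]; rfl
  rw [hmed]
  have hpz := List.find?_some hz
  simp only [Bool.and_eq_true, decide_eq_true_eq] at hpz
  have hlen := List.length_eq_countP_add_countP (l := l)
    (fun x => !(decide (a ≤ x) && decide (x ≤ b)))
  have hgood : l.length < 2 * l.countP (fun x => decide (a ≤ x) && decide (x ≤ b)) := by
    have : l.countP (fun x => decide (¬ (!(decide (a ≤ x) && decide (x ≤ b))) = true)) =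
        l.countP (fun x => decide (a ≤ x) && decide (x ≤ b)) := by
      refine List.countP_congr fun x _ => by simp
    omega
  constructor
  · by_contra hc
    push Not at hc
    have : l.countP (fun x => decide (a ≤ x) && decide (x ≤ b)) ≤
        l.countP (fun x => decide (z < x)) := by
      refine List.countP_mono_left fun x _ hx => ?_
      simp only [Bool.and_eq_true, decide_eq_true_eq] at hx ⊢
      exact lt_of_lt_of_le hc hx.1
    omega
  · by_contra hc
    push Not at hc
    have : l.countP (fun x => decide (a ≤ x) && decide (x ≤ b)) ≤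
        l.countP (fun x => decide (x < z)) := by
      refine List.countP_mono_left fun x _ hx => ?_
      simp only [Bool.and_eq_true, decide_eq_true_eq] at hx ⊢
      exact lt_of_le_of_lt hx.2 hc
    omega

/-- Median amplification. -/
theorem pr_med (r m : ℕ) (f : List Bool → ℚ) (a b : ℚ)
    (hp : 3 / 4 ≤ pr r (fun l => a ≤ f l ∧ f l ≤ b)) :
    1 - (3 / 4) ^ m ≤ pr (2 * m * r)
      (fun t => a ≤ med ((blocks r (2 * m) t).map f) ∧ med ((blocks r (2 * m) t).map f) ≤ b) := by
  have h1 : pr r (fun l => (fun l => !(decide (a ≤ f l) && decide (f l ≤ b))) l = true) ≤ 1 / 4 := by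
    have : pr r (fun l => (fun l => !(decide (a ≤ f l) && decide (f l ≤ b))) l = true) =
        1 - pr r (fun l => a ≤ f l ∧ f l ≤ b) := by
      rw [← pr_not]
      refine pr_congr fun l _ => ?_
      simp only [Bool.not_eq_true', Bool.and_eq_false_iff, decide_eq_false_iff_not]
      tauto
    rw [this]; linarith
  have h2 := pr_half_bad r m _ h1
  have h3 : pr (2 * m * r) (fun t => ¬ (m ≤ (blocks r (2 * m) t).countP
      (fun l => !(decide (a ≤ f l) && decide (f l ≤ b))))) ≤
      pr (2 * m * r) (fun t => a ≤ med ((blocks r (2 * m) t).map f) ∧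
        med ((blocks r (2 * m) t).map f) ≤ b) := by
    refine pr_mono fun t _ h => ?_
    refine med_mem_Icc _ a b ?_
    rw [List.countP_map, List.length_map, length_blocks]
    have e : (fun x => !(decide (a ≤ x) && decide (x ≤ b))) ∘ f =
        fun l => !(decide (a ≤ f l) && decide (f l ≤ b)) := rfl
    rw [e]
    omega
  rw [pr_not] at h3
  linarith

end Crest.Agent.R309.Tape
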