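import Crest.Agent.Lib.PT.ListFns2
import Crest.Agent.Lib.PT.ArithMore
import Crest.Agent.Lib.PT.ArithInt
import Crest.Agent.Lib.PT.ArithRat
import Crest.Agent.R309.Tape2

/-!
# R309: extensions of the poly-time library

* element access / take / drop / set with a *binary* index;
* `runSteps`, `blocks` (tape calculus) as poly-time functions;
* `pt_solve`: a recursive tactic for `PTF`, `PTU`, `PTPred`, `PB` goals that knows the
  higher-order list functions.
-/

set_option autoImplicit false
set_option linter.dupNamespace false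

namespace Crest.Agent.R309.PTX

open Crest.Agent.Lib.PT Crest.Agent.R309.Tape

variable {α β γ δ σ : Type} [PTCode α] [PTCode β] [PTCode γ] [PTCode δ] [PTCode σ]

/-! ### binary indices -/

theorem ptf_take' {n : γ → ℕ} {l : γ → List α} (hn : PTF n) (hl : PTF l) :
    PTF (fun c => (l c).take (n c)) := by
  have h := PTF.take (n := fun c => min (n c) (l c).length) (l := l)
    (PTF.natMinUn hn (PTU.length hl)) hl
  refine PTF.of_eq h (fun c => ?_)
  rcases le_total (n c) (l c).length with h | h
  · rw [min_eq_left h]
  · rw [min_eq_right h, List.take_of_length_le h, List.take_of_length_le le_rfl]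

theorem ptf_drop' {n : γ → ℕ} {l : γ → List α} (hn : PTF n) (hl : PTF l) :
    PTF (fun c => (l c).drop (n c)) := by
  have h := PTF.drop (n := fun c => min (n c) (l c).length) (l := l)
    (PTF.natMinUn hn (PTU.length hl)) hl
  refine PTF.of_eq h (fun c => ?_)
  rcases le_total (n c) (l c).length with h | h
  · rw [min_eq_left h]
  · rw [min_eq_right h, List.drop_of_length_le h, List.drop_of_length_le le_rfl]

theorem ptf_getElem?' {n : γ → ℕ} {l : γ → List α} (hn : PTF n) (hl : PTF l) :
    PTF (fun c => (l c)[n c]?) := by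
  refine PTF.of_eq (PTF.head? (ptf_drop' hn hl)) (fun c => ?_)
  rw [List.head?_drop]

theorem ptf_getD' {n : γ → ℕ} {l : γ → List α} {d : γ → α} (hn : PTF n) (hl : PTF l)
    (hd : PTF d) : PTF (fun c => (l c).getD (n c) (d c)) := by
  refine PTF.of_eq (PTF.optionGetD (ptf_getElem?' hn hl) hd) (fun c => ?_)
  rw [List.getD_eq_getElem?_getD]

theorem ptf_set' {l : γ → List α} {n : γ → ℕ} {a : γ → α} (hl : PTF l) (hn : PTF n)
    (ha : PTF a) : PTF (fun c => (l c).set (n c) (a c)) := by
  have h := PTF.set (n := fun c => min (n c) (l c).length) (l := l) (a := a)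
    hl (PTF.natMinUn hn (PTU.length hl)) ha
  refine PTF.of_eq h (fun c => ?_)
  rcases le_total (n c) (l c).length with h | h
  · rw [min_eq_left h]
  · rw [min_eq_right h, List.set_eq_of_length_le h, List.set_eq_of_length_le le_rfl]

/-- update of a list at a binary index by a function -/
theorem ptf_modify' {l : γ → List α} {n : γ → ℕ} {f : γ → α → α} (hl : PTF l) (hn : PTF n)
    (hf : PTF₂ f) : PTF (fun c => (l c).modify (n c) (f c)) := by
  have h1 := ptf_getElem?' hn hl
  have h2 : PTF (fun c => match (l c)[n c]? with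
      | none => l c
      | some a => (l c).set (n c) (f c a)) := by
    refine PTF.optionCasesOn (s := fun c => (l c)[n c]?) (f := l)
      (g := fun c a => (l c).set (n c) (f c a)) h1 hl ?_
    exact ptf_set' (l := fun p : γ × α => l p.1) (n := fun p => n p.1) (a := fun p => f p.1 p.2)
      (PTF.comp hl PTF.fst) (PTF.comp hn PTF.fst) hf
  refine PTF.of_eq h2 (fun c => ?_)
  rcases h : (l c)[n c]? with _ | a
  · rw [List.getElem?_eq_none_iff] at h
    simp only
    rw [List.modify_eq_self h]
  · simp only
    rw [List.set_eq_modify]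
    obtain ⟨h', h''⟩ := List.getElem?_eq_some_iff.1 h
    apply List.ext_getElem?
    intro i
    rw [List.getElem?_modify, List.getElem?_modify]
    by_cases hi : n c = i
    · subst hi
      simp [h]
    · simp [hi]

/-! ### `runSteps` and `blocks` -/

theorem runSteps_eq_iterate {S : Type*} (f : S → List Bool → S) (r k : ℕ) (s : S) (t : List Bool) :
    (fun p : S × List Bool => (f p.1 (p.2.take r), p.2.drop r))^[k] (s, t) =
      (runSteps f r k s t, t.drop (k * r)) := by
  induction k generalizing s t with
  | zero => simp [runSteps]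
  | succ k ih =>
    rw [Function.iterate_succ_apply, ih, runSteps, List.drop_drop]
    congr 2
    ring

theorem runSteps_succ' {S : Type*} (f : S → List Bool → S) (r k : ℕ) (s : S) (t : List Bool) :
    runSteps f r (k + 1) s t = f (runSteps f r k s t) ((t.drop (k * r)).take r) := by
  have h := runSteps_eq_iterate f r (k + 1) s t
  rw [Function.iterate_succ_apply', runSteps_eq_iterate] at h
  exact (Prod.ext_iff.1 h).1.symm

/-- `runSteps` is poly-time if the sizes of all intermediate states are bounded -/
theorem ptf_runSteps {f : γ → σ → List Bool → σ} {r k : γ → ℕ} {s : γ → σ} {t : γ → List Bool}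
    (hf : PTF (fun p : γ × σ × List Bool => f p.1 p.2.1 p.2.2)) (hr : PTF r) (hk : PTU k)
    (hs : PTF s) (ht : PTF t) {B : γ → ℕ} (hB : PB B)
    (hb : ∀ c, ∀ i ≤ k c, sz (runSteps (f c) (r c) i (s c) (t c)) ≤ B c) :
    PTF (fun c => runSteps (f c) (r c) (k c) (s c) (t c)) := by
  have hstep : PTF₂ (fun (c : γ) (p : σ × List Bool) => (f c p.1 (p.2.take (r c)), p.2.drop (r c))) := by
    refine PTF.prodMk ?_ ?_
    · exact PTF.comp (g := fun p : γ × σ × List Bool => f p.1 p.2.1 p.2.2)
        (f := fun q : γ × σ × List Bool => (q.1, q.2.1, q.2.2.take (r q.1))) hf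
        (PTF.prodMk (by fun_prop) (PTF.prodMk (by fun_prop)
          (ptf_take' (PTF.comp hr PTF.fst) (by fun_prop))))
    · exact ptf_drop' (PTF.comp hr PTF.fst) (by fun_prop)
  have h := PTF.iterate' (n := k)
    (f := fun (c : γ) (p : σ × List Bool) => (f c p.1 (p.2.take (r c)), p.2.drop (r c)))
    (a := fun c => (s c, t c)) hk hstep (PTF.prodMk hs ht)
    (B := fun c => 2 * B c + 1 + sz (t c)) (by fun_prop) (fun c i hi => by
      have e := runSteps_eq_iterate (f c) (r c) i (s c) (t c)
      rw [e]
      simp only [sz_prod]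
      have h1 := hb c i hi
      have h2 := sz_drop_le (t c) (i * r c)
      omega)
  refine PTF.of_eq (PTF.comp (g := fun p : σ × List Bool => p.1) (by fun_prop) h) (fun c => ?_)
  have e := runSteps_eq_iterate (f c) (r c) (k c) (s c) (t c)
  rw [e]

/-- version with an invariant that bounds the sizes -/
theorem ptf_runSteps_inv {f : γ → σ → List Bool → σ} {r k : γ → ℕ} {s : γ → σ} {t : γ → List Bool}
    (hf : PTF (fun p : γ × σ × List Bool => f p.1 p.2.1 p.2.2)) (hr : PTF r) (hk : PTU k)
    (hs : PTF s) (ht : PTF t) {B : γ → ℕ} (hB : PB B) (Inv : γ → σ → Prop)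
    (h0 : ∀ c, Inv c (s c)) (h1 : ∀ c x l, Inv c x → Inv c (f c x l))
    (h2 : ∀ c x, Inv c x → sz x ≤ B c) :
    PTF (fun c => runSteps (f c) (r c) (k c) (s c) (t c)) := by
  refine ptf_runSteps hf hr hk hs ht hB (fun c i _ => h2 c _ ?_)
  induction i with
  | zero => exact h0 c
  | succ i ih =>
    rw [runSteps_succ']
    exact h1 c _ _ (ih (by omega))

/-- version with additive growth -/
theorem ptf_runSteps_add {f : γ → σ → List Bool → σ} {r k : γ → ℕ} {s : γ → σ} {t : γ → List Bool}
    (hf : PTF (fun p : γ × σ × List Bool => f p.1 p.2.1 p.2.2)) (hr : PTF r) (hk : PTU k)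
    (hs : PTF s) (ht : PTF t) {G : γ → ℕ} (hG : PB G)
    (h : ∀ c x l, sz (f c x l) ≤ sz x + G c) :
    PTF (fun c => runSteps (f c) (r c) (k c) (s c) (t c)) := by
  refine ptf_runSteps hf hr hk hs ht (B := fun c => sz (s c) + k c * G c) (by
    have := hk.pb
    fun_prop) (fun c i hi => ?_)
  have key : ∀ i, sz (runSteps (f c) (r c) i (s c) (t c)) ≤ sz (s c) + i * G c := by
    intro i
    induction i with
    | zero => simp [runSteps]
    | succ i ih =>
      rw [runSteps_succ']
      have := h c (runSteps (f c) (r c) i (s c) (t c)) (((t c).drop (i * r c)).take (r c))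
      have e : (i + 1) * G c = i * G c + G c := by ring
      omega
  refine (key i).trans ?_
  have := Nat.mul_le_mul_right (G c) hi
  omega

/-- the guarded step: keep the old state if the new one is too large -/
def guard (B : ℕ) (f : σ → List Bool → σ) (s : σ) (l : List Bool) : σ :=
  if sz (f s l) ≤ B then f s l else s

/-- `runSteps` of a guarded step is always poly-time -/
theorem ptf_runSteps_guard {f : γ → σ → List Bool → σ} {r k : γ → ℕ} {s : γ → σ}
    {t : γ → List Bool} {B : γ → ℕ}
    (hf : PTF (fun p : γ × σ × List Bool => f p.1 p.2.1 p.2.2)) (hr : PTF r) (hk : PTU k)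
    (hs : PTF s) (ht : PTF t) (hB : PTU B) :
    PTF (fun c => runSteps (guard (B c) (f c)) (r c) (k c) (s c) (t c)) := by
  refine ptf_runSteps_inv (f := fun c => guard (B c) (f c)) ?_ hr hk hs ht
    (B := fun c => B c + sz (s c)) (by have := hB.pb; fun_prop)
    (fun c x => sz x ≤ B c + sz (s c)) ?_ ?_ ?_
  · unfold guard
    refine PTF.ite ?_ hf (by fun_prop)
    exact PTU.le (PTF.szU hf) (PTU.comp hB (by fun_prop))
  · intro c; simp
  · intro c x l hx
    unfold guard
    split_ifs with h
    · omega
    · exact hx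
  · intro c x hx; exact hx

theorem ptf_blocks {r k : γ → ℕ} {t : γ → List Bool} (hr : PTF r) (hk : PTU k) (ht : PTF t) :
    PTF (fun c => blocks (r c) (k c) (t c)) := by
  have h : PTF (fun c => (List.range (k c)).map (fun i => ((t c).drop (i * r c)).take (r c))) := by
    refine PTF.tabulate hk ?_
    refine ptf_take' (PTF.comp hr PTF.fst) (ptf_drop' ?_ (PTF.comp ht PTF.fst))
    exact PTF.natMul (by fun_prop) (PTF.comp hr PTF.fst)
  refine PTF.of_eq h (fun c => ?_)
  rw [blocks_eq_range]

end Crest.Agent.R309.PTX
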