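import Crest.Agent.R309.Exact9Typed
import Crest.Agent.R309.S0480Of
import Crest.Agent.R309.PTSolve

/-!
# R309, exactness layer (S0481), part 7: enumeration of all tables
-/

set_option autoImplicit false

namespace Crest.Agent.R309.Exact9

open Crest.Agent.R309.Tape Crest.Agent.Lib.PT Crest.Agent.R309.Iface Crest.Agent.R309.PTX

/-- margin test -/
def isT (rs cs : List ℕ) (X : Tab) : Prop :=
  X.map List.sum = rs ∧ (∀ r ∈ X, r.length = cs.length) ∧
    ∀ j ∈ List.range cs.length, colSum X j = cs.getD j 0

instance (rs cs : List ℕ) (X : Tab) : Decidable (isT rs cs X) := by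
  unfold isT; infer_instance

/-- all tables with margins `rs`, `cs` (complete once `pad` is large) -/
def enumT (rs cs : List ℕ) (pad : ℕ) : List Tab :=
  (listsOf (listsOf (List.range (min (rs.sum + 1) pad)) pad cs.length) pad rs.length).filter
    (fun X => decide (isT rs cs X))

theorem ptf_enumT : PTF (fun p : Iface.Inst × Un => enumT p.1.1 p.1.2.1 p.2.val) := by
  have hcand : PTF (fun p : Iface.Inst × Un => List.range (min (p.1.1.sum + 1) p.2.val)) :=
    PTF.range (PTF.natMinUn (PTF.natAdd (PTF.natListSum (by fun_prop)) (PTF.const _))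
      (PTU.val PTF.snd))
  have hrows : PTF (fun p : Iface.Inst × Un =>
      listsOf (List.range (min (p.1.1.sum + 1) p.2.val)) p.2.val p.1.2.1.length) :=
    ptf_listsOf hcand (PTU.val PTF.snd) (PTU.length (by fun_prop))
  have hmats : PTF (fun p : Iface.Inst × Un =>
      listsOf (listsOf (List.range (min (p.1.1.sum + 1) p.2.val)) p.2.val p.1.2.1.length)
        p.2.val p.1.1.length) :=
    ptf_listsOf hrows (PTU.val PTF.snd) (PTU.length (by fun_prop))
  refine PTF.filter (p := fun (p : Iface.Inst × Un) X => decide (isT p.1.1 p.1.2.1 X)) hmats ?_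
  refine PTPred.toPTF ?_
  unfold isT
  refine PTPred.and ?_ (PTPred.and ?_ ?_)
  · refine PTPred.eq (PTF.map (f := fun _ r => List.sum r) (by fun_prop) ?_) (by fun_prop)
    exact PTF.natListSum (by fun_prop)
  · refine PTPred.forall_mem (l := fun q : (Iface.Inst × Un) × Tab => q.2)
      (p := fun q r => r.length = q.1.1.2.1.length) (by fun_prop) ?_
    exact PTU.eq (PTU.length (by fun_prop)) (PTU.length (by fun_prop))
  · refine PTPred.forall_mem (l := fun q : (Iface.Inst × Un) × Tab => List.range q.1.1.2.1.length)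
      (p := fun q j => colSum q.2 j = q.1.1.2.1.getD j 0) (PTF.range (PTU.length (by fun_prop))) ?_
    refine PTPred.natEq ?_ ?_
    · unfold colSum
      refine PTF.natListSum (PTF.map (f := fun (q : ((Iface.Inst × Un) × Tab) × ℕ) (r : List ℕ) =>
        r.getD q.2 0) (by fun_prop) ?_)
      exact ptf_getD' (by fun_prop) (by fun_prop) (by fun_prop)
    · exact ptf_getD' (by fun_prop) (by fun_prop) (by fun_prop)

theorem isTab_inst_iff' (rs cs : List ℕ) (X : Tab) :
    IsTab (S0480Of.inst rs cs) X ↔ isT rs cs X ∧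
      X ∈ listsFull (listsFull (List.range (rs.sum + 1)) cs.length) rs.length := by
  constructor
  · rintro ⟨h1, h2, h3, h4⟩
    refine ⟨⟨h1, h2, fun j hj => h3 j (List.mem_range.1 hj)⟩, ?_⟩
    rw [mem_listsFull]
    refine ⟨?_, fun r hr => ?_⟩
    · have := congrArg List.length h1
      rw [List.length_map] at this
      exact this
    · rw [mem_listsFull]
      refine ⟨h2 r hr, fun a ha => ?_⟩
      rw [List.mem_range, Nat.lt_succ_iff]
      have e1 : a ≤ r.sum := List.le_sum_of_mem ha
      have e2 : r.sum ≤ rs.sum := by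
        refine List.le_sum_of_mem ?_
        have : X.map List.sum = rs := h1
        rw [← this]
        exact List.mem_map_of_mem hr
      exact e1.trans e2
  · rintro ⟨⟨h1, h2, h3⟩, h4⟩
    rw [mem_listsFull] at h4
    refine ⟨h1, h2, fun j hj => h3 j (List.mem_range.2 hj), ?_⟩
    show List.Forall₂ (List.Forall₂ (· ≤ ·)) X
      (List.replicate rs.length (List.replicate cs.length rs.sum))
    rw [← h4.1, List.forall₂_iff_get]
    refine ⟨by simp, fun i hi hi' => ?_⟩
    simp only [List.get_eq_getElem, List.getElem_replicate]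
    have h5 := h4.2 X[i] (List.getElem_mem hi)
    rw [mem_listsFull] at h5
    rw [← h5.1, List.forall₂_iff_get]
    refine ⟨by simp, fun j hj hj' => ?_⟩
    simp only [List.get_eq_getElem, List.getElem_replicate]
    have h6 := h5.2 _ (List.getElem_mem hj)
    exact Nat.lt_succ_iff.1 (List.mem_range.1 h6)

/-- number of bits of the number of tables -/
def lgN (rs cs : List ℕ) : ℕ := (rs.sum + 1).size * cs.length * rs.length

/-- number of doublings needed for the enumeration -/
def lgE (rs cs : List ℕ) : ℕ := (rs.sum + 1).size * (cs.length + 1) * (rs.length + 1)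

theorem pow_pow_eq (s n m : ℕ) : ((2 ^ s) ^ n) ^ m = 2 ^ (s * n * m) := by
  rw [← pow_mul, ← pow_mul, Nat.mul_assoc]

theorem enumT_eq {rs cs : List ℕ} {pad : ℕ} (h : 2 ^ lgE rs cs ≤ pad) :
    enumT rs cs pad = (listsFull (listsFull (List.range (rs.sum + 1)) cs.length) rs.length).filter
      (fun X => decide (isT rs cs X)) := by
  have hS : rs.sum + 1 ≤ 2 ^ (rs.sum + 1).size := (Nat.lt_size_self _).le
  have hs1 : 1 ≤ (rs.sum + 1).size := by
    rw [Nat.one_le_iff_ne_zero]
    intro h0
    have := Nat.size_eq_zero.1 h0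
    omega
  have h0 : rs.sum + 1 ≤ pad := by
    refine hS.trans ((Nat.pow_le_pow_right (by norm_num) ?_).trans h)
    unfold lgE
    nlinarith [Nat.zero_le (cs.length * rs.length), Nat.zero_le cs.length, Nat.zero_le rs.length,
      Nat.mul_le_mul hs1 (Nat.one_le_iff_ne_zero.2 (show (cs.length + 1) * (rs.length + 1) ≠ 0 by positivity))]
  have h1 : (rs.sum + 1) ^ cs.length ≤ pad := by
    refine (Nat.pow_le_pow_left hS _).trans ?_
    rw [← pow_mul]
    refine (Nat.pow_le_pow_right (by norm_num) ?_).trans h
    unfold lgE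
    calc (rs.sum + 1).size * cs.length ≤ (rs.sum + 1).size * (cs.length + 1) :=
          Nat.mul_le_mul_left _ (Nat.le_succ _)
      _ ≤ (rs.sum + 1).size * (cs.length + 1) * (rs.length + 1) :=
          Nat.le_mul_of_pos_right _ (Nat.succ_pos _)
  have h2 : ((rs.sum + 1) ^ cs.length) ^ rs.length ≤ pad := by
    refine (Nat.pow_le_pow_left (Nat.pow_le_pow_left hS _) _).trans ?_
    rw [pow_pow_eq]
    refine (Nat.pow_le_pow_right (by norm_num) ?_).trans h
    unfold lgE
    have e1 : (rs.sum + 1).size * cs.length ≤ (rs.sum + 1).size * (cs.length + 1) :=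
      Nat.mul_le_mul_left _ (Nat.le_succ _)
    exact Nat.mul_le_mul e1 (Nat.le_succ _)
  have e1 : listsOf (List.range (rs.sum + 1)) pad cs.length =
      listsFull (List.range (rs.sum + 1)) cs.length :=
    listsOf_eq (by simp) (by simpa using h1)
  have e2 : listsOf (listsFull (List.range (rs.sum + 1)) cs.length) pad rs.length =
      listsFull (listsFull (List.range (rs.sum + 1)) cs.length) rs.length := by
    refine listsOf_eq ?_ ?_
    · rw [length_listsFull]
      exact Nat.one_le_pow _ _ (by simp)
    · rw [length_listsFull, List.length_range]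
      exact h2
  unfold enumT
  rw [min_eq_left h0, e1, e2]

theorem mem_enumT {rs cs : List ℕ} {pad : ℕ} (h : 2 ^ lgE rs cs ≤ pad) (X : Tab) :
    X ∈ enumT rs cs pad ↔ IsTab (S0480Of.inst rs cs) X := by
  rw [enumT_eq h, isTab_inst_iff', List.mem_filter, decide_eq_true_eq, and_comm]

theorem nodup_enumT {rs cs : List ℕ} {pad : ℕ} (h : 2 ^ lgE rs cs ≤ pad) :
    (enumT rs cs pad).Nodup := by
  rw [enumT_eq h]
  exact (nodup_listsFull (nodup_listsFull List.nodup_range _) _).filter _

theorem length_enumT_le {rs cs : List ℕ} {pad : ℕ} (h : 2 ^ lgE rs cs ≤ pad) :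
    (enumT rs cs pad).length ≤ 2 ^ lgN rs cs := by
  rw [enumT_eq h]
  refine (List.length_filter_le _ _).trans ?_
  rw [length_listsFull, length_listsFull, List.length_range]
  have hS : rs.sum + 1 ≤ 2 ^ (rs.sum + 1).size := (Nat.lt_size_self _).le
  refine (Nat.pow_le_pow_left (Nat.pow_le_pow_left hS cs.length) rs.length).trans ?_
  rw [pow_pow_eq]
  exact le_rfl

theorem toFinset_enumT {rs cs : List ℕ} {pad : ℕ} (h : 2 ^ lgE rs cs ≤ pad) :
    (enumT rs cs pad).toFinset = tabs (S0480Of.inst rs cs) := by
  ext X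
  rw [List.mem_toFinset, mem_enumT h, mem_tabs]

end Crest.Agent.R309.Exact9
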