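import Crest.Agent.R309.Exact9Main

/-!
# R309, exactness layer (S0481), part 11: the final theorem
-/

set_option autoImplicit false

namespace Crest.Agent.R309.Exact9

open Crest.Agent.R309.Tape Crest.Agent.Lib.PT Crest.Agent.R309.Iface Crest.Agent.R309.PTX
open Crest.Agent.R309.NW Crest.Agent.R309.S0480Of Crest.Agent.R309.Feas Crest.Agent.R309.Parse
open Crest.WordRAM Crest.Tables

/-! ### polynomially bounded functions -/

/-- `F x ≤ c x ^ d` for `x ≥ 1` -/
def PolyB (F : ℕ → ℕ) : Prop := ∃ c d : ℕ, ∀ x, 1 ≤ x → F x ≤ c * x ^ d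

theorem PolyB.const (a : ℕ) : PolyB (fun _ => a) := ⟨a, 0, fun x _ => by simp⟩

theorem PolyB.id : PolyB (fun x => x) := ⟨1, 1, fun x _ => by simp⟩

theorem PolyB.add {F G : ℕ → ℕ} (hF : PolyB F) (hG : PolyB G) : PolyB (fun x => F x + G x) := by
  obtain ⟨c, d, h⟩ := hF
  obtain ⟨c', d', h'⟩ := hG
  refine ⟨c + c', d + d', fun x hx => ?_⟩
  rw [Nat.add_mul]
  refine Nat.add_le_add ((h x hx).trans (Nat.mul_le_mul_left _ ?_))
    ((h' x hx).trans (Nat.mul_le_mul_left _ ?_))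
  · exact Nat.pow_le_pow_right hx (by omega)
  · exact Nat.pow_le_pow_right hx (by omega)

theorem PolyB.mul {F G : ℕ → ℕ} (hF : PolyB F) (hG : PolyB G) : PolyB (fun x => F x * G x) := by
  obtain ⟨c, d, h⟩ := hF
  obtain ⟨c', d', h'⟩ := hG
  refine ⟨c * c', d + d', fun x hx => (Nat.mul_le_mul (h x hx) (h' x hx)).trans (le_of_eq ?_)⟩
  rw [pow_add]; ring

theorem PolyB.pow {F : ℕ → ℕ} (hF : PolyB F) (k : ℕ) : PolyB (fun x => F x ^ k) := by
  induction k with
  | zero => simpa using PolyB.const 1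
  | succ k ih => simpa [pow_succ] using PolyB.mul ih hF

theorem PolyB.eval {F : ℕ → ℕ} (hF : PolyB F) (q : Polynomial ℕ) :
    PolyB (fun x => q.eval (F x)) := by
  obtain ⟨c, d, h⟩ := hF
  obtain ⟨c', d', h'⟩ := poly_le_mul_pow q
  refine ⟨c' * (c + 1) ^ d', d * d', fun x hx => ?_⟩
  have h1 : F x ≤ (c + 1) * x ^ d := (h x hx).trans (Nat.mul_le_mul_right _ (Nat.le_succ _))
  have h2 : 1 ≤ (c + 1) * x ^ d := Nat.mul_pos (Nat.succ_pos _) (Nat.pow_pos hx)
  calc q.eval (F x) ≤ q.eval ((c + 1) * x ^ d) := polyEval_mono q h1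
    _ ≤ c' * ((c + 1) * x ^ d) ^ d' := h' _ h2
    _ = c' * (c + 1) ^ d' * x ^ (d * d') := by rw [mul_pow, pow_mul]; ring

/-! ### small facts -/

theorem sz_flatten_le {α : Type} [PTCode α] (l : List (List α)) : sz l.flatten ≤ sz l := by
  induction l with
  | nil => simp
  | cons a l ih => simp [sz_append]; omega

theorem iterate_markov_mem {X : Type} (stp : X → List Bool → X) (R u : ℕ) (φ : X → ℝ)
    (h : ∀ y, 0 ≤ φ y ∧ φ y ≤ 1) (x : X) :
    0 ≤ (markov stp R)^[u] φ x ∧ (markov stp R)^[u] φ x ≤ 1 := by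
  induction u generalizing x with
  | zero => exact h x
  | succ u ih =>
    rw [Function.iterate_succ_apply']
    exact ⟨avg_nonneg fun l _ => (ih _).1, avg_le_const fun l _ => (ih _).2⟩

theorem Hf_mem {I X : Type} [DecidableEq X] {D : Data I X} {e : Env I} {tabs : List X}
    (h : Good D e tabs) {G : List ℕ → ℝ} (hG : ∀ o, 0 ≤ G o ∧ G o ≤ 1) (s : Conf I X) :
    0 ≤ Hf D e tabs G s ∧ Hf D e tabs G s ≤ 1 := by
  have hN : (0 : ℝ) < (tabs.length : ℝ) * 2 ^ (eR e * eT e) := by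
    have := h.length_pos
    positivity
  have hr : 0 ≤ resid D e tabs G ∧ resid D e tabs G ≤ 1 := by
    unfold resid
    constructor
    · refine div_nonneg (List.sum_nonneg ?_) hN.le
      intro x hx
      obtain ⟨y, _, rfl⟩ := List.mem_map.1 hx
      exact mul_nonneg (Nat.cast_nonneg _) (hG _).1
    · rw [div_le_one hN]
      have h1 : (tabs.map (fun y => (wt D e tabs y : ℝ) * G (D.out e.1 y))).sum ≤
          (tabs.map (fun y => (wt D e tabs y : ℝ))).sum := by
        refine List.sum_le_sum fun y _ => ?_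
        exact mul_le_of_le_one_right (Nat.cast_nonneg _) (hG _).2
      refine h1.trans (le_of_eq ?_)
      have h2 := h.sum_wt
      have h3 : (((tabs.map (wt D e tabs)).sum : ℕ) : ℝ) =
          (tabs.map (fun y => (wt D e tabs y : ℝ))).sum := by
        rw [Nat.cast_list_sum, List.map_map]
        rfl
      rw [← h3, h2]
      push_cast
      ring
  unfold Hf
  rcases s.2 with xu | pk
  · have hm := iterate_markov_mem (D.stp e.1) (eR e) xu.2.val (fun y => G (D.out e.1 y))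
      (fun y => hG _) xu.1
    have hθ0 : (0 : ℝ) ≤ (2 : ℝ)⁻¹ ^ eK e := by positivity
    have hθ1 : (2 : ℝ)⁻¹ ^ eK e ≤ 1 := pow_le_one₀ (by norm_num) (by norm_num)
    simp only
    constructor
    · have := mul_nonneg (sub_nonneg.2 hθ1) hm.1
      have := mul_nonneg hθ0 hr.1
      linarith
    · have h1 := mul_le_mul_of_nonneg_left hm.2 (sub_nonneg.2 hθ1)
      have h2 := mul_le_mul_of_nonneg_left hr.2 hθ0
      linarith
  · exact hr

theorem nxt_eq {I X : Type} (V : Conf I X → ℝ) (G : List ℕ → ℝ) (r : Conf I X ⊕ List ℕ) :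
    nxt V G r = match r with
      | Sum.inl s' => V s'
      | Sum.inr o => G o := by
  cases r <;> rfl

section table

variable {m n : ℕ} {rs : Fin m → ℕ} {cs : Fin n → ℕ}

theorem isTable_iff_bt (X : Fin m → Fin n → ℕ) :
    IsTable rs cs X ↔ Feas.IsBTable rs cs (fun _ _ => ∑ i, rs i) X := by
  refine ⟨fun h => ⟨fun i j => ?_, h.1, h.2⟩, fun h => ⟨h.2.1, h.2.2⟩⟩
  calc X i j ≤ ∑ j, X i j := Finset.single_le_sum (f := fun j => X i j) (fun _ _ => Nat.zero_le _)
        (Finset.mem_univ j)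
    _ = rs i := h.1 i
    _ ≤ ∑ i, rs i := Finset.single_le_sum (fun _ _ => Nat.zero_le _) (Finset.mem_univ i)

theorem isTab_iff_table (Z : Tab) :
    IsTab (inst (List.ofFn rs) (List.ofFn cs)) Z ↔ ∃ X : Fin m → Fin n → ℕ,
      Z = ofFn2 X ∧ IsTable rs cs X := by
  rw [inst_eq, isTab_iff]
  constructor
  · rintro ⟨Y, h1, h2⟩; exact ⟨Y, h1, (isTable_iff_bt Y).2 h2⟩
  · rintro ⟨Y, h1, h2⟩; exact ⟨Y, h1, (isTable_iff_bt Y).1 h2⟩

theorem isTab_nw (hsum : ∑ i, rs i = ∑ j, cs j) :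
    IsTab (inst (List.ofFn rs) (List.ofFn cs)) (nw (List.ofFn rs) (List.ofFn cs)) := by
  rw [isTab_iff_table]
  exact ⟨fun i j => ent (List.ofFn rs) (List.ofFn cs) i j, nw_ofFn rs cs, isTable_ent rs cs hsum⟩

theorem sz_tab_le {I : Iface.Inst} {Y : Tab} (hY : IsTab I Y) : sz Y ≤ sz I := by
  have h1 := sz_forall₂₂_le hY.bds
  have h2 : sz I = 2 * sz I.1 + 1 + (2 * sz I.2.1 + 1 + sz I.2.2) := by
    rw [sz_prod, sz_prod]
  omega

theorem flat_inj {X Y : Fin m → Fin n → ℕ} (h : (ofFn2 X).flatten = (ofFn2 Y).flatten) :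
    ofFn2 X = ofFn2 Y := by
  rw [← rowsOf_flatten X, ← rowsOf_flatten Y, h]

end table

end Crest.Agent.R309.Exact9
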