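import Crest.Agent.R309.Exact9Chain
import Crest.Agent.Lib.PT.ListFns2
import Crest.Agent.Lib.PT.ArithMore

/-!
# R309, exactness layer (S0481), part 2: the poly-time functions of phase B

* `listsOf cands pad k`: all lists of length `k` over `cands`, truncated to `pad` items;
* `lawL`: the exact integer law as a list;
* `wtsL`: the integer weights of the residual law;
* `pick` as a poly-time function.
-/

set_option autoImplicit false

namespace Crest.Agent.R309.Exact9

open Crest.Agent.R309.Tape Crest.Agent.Lib.PT Crest.Agent.Lib.PT.Arith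

section lists

variable {α γ : Type}

/-- one step of the enumeration of lists -/
def listsStep (cands : List α) (pad : ℕ) (L : List (List α)) : List (List α) :=
  (cands.flatMap (fun a => L.map (fun l => a :: l))).take pad

/-- all lists of length `k` over `cands`, truncated to `pad` items at every step -/
def listsOf (cands : List α) (pad k : ℕ) : List (List α) := (listsStep cands pad)^[k] [[]]

/-- all lists of length `k` over `cands` -/
def listsFull (cands : List α) : ℕ → List (List α)
  | 0 => [[]]
  | k + 1 => cands.flatMap (fun a => (listsFull cands k).map (fun l => a :: l))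

theorem length_listsFull (cands : List α) (k : ℕ) :
    (listsFull cands k).length = cands.length ^ k := by
  induction k with
  | zero => rfl
  | succ k ih =>
    rw [listsFull, List.length_flatMap]
    simp [ih, pow_succ, Nat.mul_comm]

theorem mem_listsFull {cands : List α} {k : ℕ} {l : List α} :
    l ∈ listsFull cands k ↔ l.length = k ∧ ∀ a ∈ l, a ∈ cands := by
  induction k generalizing l with
  | zero =>
    simp only [listsFull, List.mem_singleton]
    constructor
    · rintro rfl; simp
    · rintro ⟨h, _⟩; exact List.length_eq_zero_iff.1 h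
  | succ k ih =>
    simp only [listsFull, List.mem_flatMap, List.mem_map]
    constructor
    · rintro ⟨a, ha, t, ht, rfl⟩
      have := ih.1 ht
      refine ⟨by simp [this.1], ?_⟩
      intro b hb
      rcases List.mem_cons.1 hb with rfl | hb
      · exact ha
      · exact this.2 b hb
    · rintro ⟨h1, h2⟩
      cases l with
      | nil => simp at h1
      | cons a t =>
        exact ⟨a, h2 a (by simp), t, ih.2 ⟨by simpa using h1, fun b hb => h2 b (by simp [hb])⟩, rfl⟩

theorem nodup_listsFull {cands : List α} (h : cands.Nodup) (k : ℕ) :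
    (listsFull cands k).Nodup := by
  induction k with
  | zero => simp [listsFull]
  | succ k ih =>
    rw [listsFull, List.nodup_flatMap]
    refine ⟨fun a _ => ih.map (fun l l' hl => by simpa using hl), ?_⟩
    refine h.imp ?_
    intro a b hab
    simp only [Function.onFun]
    rw [List.disjoint_left]
    intro l hl hl'
    obtain ⟨t, _, rfl⟩ := List.mem_map.1 hl
    obtain ⟨t', _, h'⟩ := List.mem_map.1 hl'
    simp only [List.cons.injEq] at h'
    exact hab h'.1.symm

theorem listsOf_eq {cands : List α} {pad k : ℕ} (h1 : 1 ≤ cands.length)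
    (h : cands.length ^ k ≤ pad) : listsOf cands pad k = listsFull cands k := by
  have key : ∀ i ≤ k, (listsStep cands pad)^[i] [[]] = listsFull cands i := by
    intro i
    induction i with
    | zero => intro _; rfl
    | succ i ih =>
      intro hi
      rw [Function.iterate_succ_apply', ih (by omega)]
      unfold listsStep
      rw [← listsFull, List.take_of_length_le]
      rw [length_listsFull]
      exact (Nat.pow_le_pow_right h1 hi).trans h
  exact key k le_rfl

theorem listsFull_bool (k : ℕ) : listsFull [false, true] k = allBits k := by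
  induction k with
  | zero => rfl
  | succ k ih => simp [listsFull, allBits, ih]

variable [PTCode α] [PTCode γ]

theorem ptf_listsStep {cands : γ → List α} {pad : γ → ℕ} (hc : PTF cands) (hp : PTU pad) :
    PTF₂ (fun (c : γ) (L : List (List α)) => listsStep (cands c) (pad c) L) := by
  have h1 : PTF (fun q : γ × List (List α) => q.1) := PTF.fst
  have hinner : PTF₂ (fun (q : γ × List (List α)) (a : α) => q.2.map (fun l => a :: l)) :=
    PTF.map (l := fun p : (γ × List (List α)) × α => p.1.2) (f := fun p l => p.2 :: l)
      (by fun_prop) (by pt_prop)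
  exact PTF.take (n := fun q : γ × List (List α) => pad q.1) (PTU.comp hp h1)
    (PTF.flatMap (l := fun q : γ × List (List α) => cands q.1) (PTF.comp hc h1) hinner)

theorem ptf_listsOf {cands : γ → List α} {pad k : γ → ℕ} (hc : PTF cands) (hp : PTU pad)
    (hk : PTU k) : PTF (fun c => listsOf (cands c) (pad c) (k c)) := by
  have hb : ∀ (cs : List α) (p i : ℕ),
      (∀ l ∈ (listsStep cs p)^[i] [[]], sz l ≤ i * (2 * sz cs + 1)) ∧
        ((listsStep cs p)^[i] [[]]).length ≤ p + 1 := by
    intro cs p i
    induction i with
    | zero => simp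
    | succ i ih =>
      rw [Function.iterate_succ_apply']
      constructor
      · intro l hl
        have hl' := List.mem_of_mem_take hl
        obtain ⟨a, ha, hl''⟩ := List.mem_flatMap.1 hl'
        obtain ⟨t, ht, rfl⟩ := List.mem_map.1 hl''
        have h1 := ih.1 t ht
        have h2 : sz a ≤ sz cs := sz_mem_le ha
        rw [sz_cons]
        have e : (i + 1) * (2 * sz cs + 1) = i * (2 * sz cs + 1) + (2 * sz cs + 1) := by ring
        omega
      · unfold listsStep
        rw [List.length_take]
        omega
  refine PTF.iterate' (f := fun (c : γ) (L : List (List α)) => listsStep (cands c) (pad c) L)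
    (a := fun _ => [[]]) hk (ptf_listsStep hc hp) (PTF.const _)
    (B := fun c => (pad c + 1) * (2 * (k c * (2 * sz (cands c) + 1)) + 1)) ?_ ?_
  · have h1 := hp.pb
    have h2 := hk.pb
    have h3 := hc.sz
    fun_prop
  · intro c i hi
    obtain ⟨h1, h2⟩ := hb (cands c) (pad c) i
    refine (sz_list_le (m := k c * (2 * sz (cands c) + 1)) ?_).trans ?_
    · intro l hl
      exact (h1 l hl).trans (Nat.mul_le_mul_right _ hi)
    · exact Nat.mul_le_mul_right _ h2

end lists

section law

variable {X γ : Type} [DecidableEq X]

/-- one step of the exact integer law, on lists -/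
def lawStepL (cap : ℕ) (stp : X → List Bool → X) (seeds : List (List Bool)) (tabs : List X)
    (v : List (X × ℕ)) : List (X × ℕ) :=
  tabs.map (fun y => (y, min cap
    ((v.map (fun q => q.2 * seeds.countP (fun τ => decide (stp q.1 τ = y)))).sum)))

/-- the exact integer law after `T` steps, as a list -/
def lawL (cap : ℕ) (stp : X → List Bool → X) (seeds : List (List Bool)) (tabs : List X)
    (x₀ : X) (T : ℕ) : List (X × ℕ) :=
  (lawStepL cap stp seeds tabs)^[T] (tabs.map (fun y => (y, if y = x₀ then 1 else 0)))

theorem lawL_eq {stp : X → List Bool → X} {R : ℕ} {tabs : List X} (hnd : tabs.Nodup) {x₀ : X}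
    (hx₀ : x₀ ∈ tabs) (hcl : ∀ x ∈ tabs, ∀ l : List Bool, l.length = R → stp x l ∈ tabs)
    (T : ℕ) : lawL (2 ^ (R * T)) stp (allBits R) tabs x₀ T =
      tabs.map (fun y => (y, law stp R tabs x₀ T y)) := by
  have key : ∀ i ≤ T, (lawStepL (2 ^ (R * T)) stp (allBits R) tabs)^[i]
      (tabs.map (fun y => (y, if y = x₀ then 1 else 0))) =
      tabs.map (fun y => (y, law stp R tabs x₀ i y)) := by
    intro i
    induction i with
    | zero => intro _; rfl
    | succ i ih =>
      intro hi
      rw [Function.iterate_succ_apply', ih (by omega)]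
      unfold lawStepL
      refine List.map_congr_left fun y hy => ?_
      simp only [List.map_map, Prod.mk.injEq, true_and, Function.comp_def]
      have h1 : (tabs.map (fun x => law stp R tabs x₀ i x *
          (allBits R).countP (fun τ => decide (stp x τ = y)))).sum = law stp R tabs x₀ (i + 1) y := rfl
      rw [h1]
      refine min_eq_right ?_
      have h2 : law stp R tabs x₀ (i + 1) y ≤ ∑ y ∈ tabs.toFinset, law stp R tabs x₀ (i + 1) y :=
        Finset.single_le_sum (f := fun y => law stp R tabs x₀ (i + 1) y) (fun _ _ => Nat.zero_le _)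
          (by simpa using hy)
      rw [law_sum hnd hx₀ hcl] at h2
      exact h2.trans (Nat.pow_le_pow_right (by norm_num) (Nat.mul_le_mul_left _ hi))
  exact key T le_rfl

variable [PTCode X] [PTCode γ]

theorem ptf_lawStepL {cap : γ → ℕ} {stp : γ → X → List Bool → X} {seeds : γ → List (List Bool)}
    {tabs : γ → List X} (hcap : PTF cap)
    (hstp : PTF (fun p : γ × X × List Bool => stp p.1 p.2.1 p.2.2))
    (hseeds : PTF seeds) (htabs : PTF tabs) :
    PTF₂ (fun (c : γ) (v : List (X × ℕ)) => lawStepL (cap c) (stp c) (seeds c) (tabs c) v) := by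
  -- context: `q : γ × List (X × ℕ)`, then `y : X`, then `r : X × ℕ`, then `τ`
  have hcount : PTU (fun q : ((γ × List (X × ℕ)) × X) × (X × ℕ) =>
      (seeds q.1.1.1).countP (fun τ => decide (stp q.1.1.1 q.2.1 τ = q.1.2))) := by
    refine PTU.countP (l := fun q : ((γ × List (X × ℕ)) × X) × (X × ℕ) => seeds q.1.1.1)
      (p := fun q τ => decide (stp q.1.1.1 q.2.1 τ = q.1.2)) (PTF.comp hseeds (by fun_prop)) ?_
    refine PTF.beq (f := fun q : (((γ × List (X × ℕ)) × X) × (X × ℕ)) × List Bool =>
        stp q.1.1.1.1 q.1.2.1 q.2) ?_ (by fun_prop)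
    exact PTF.comp (g := fun p : γ × X × List Bool => stp p.1 p.2.1 p.2.2)
      (f := fun q : (((γ × List (X × ℕ)) × X) × (X × ℕ)) × List Bool =>
        (q.1.1.1.1, q.1.2.1, q.2)) hstp (by fun_prop)
  have hterm : PTF (fun q : ((γ × List (X × ℕ)) × X) × (X × ℕ) =>
      q.2.2 * (seeds q.1.1.1).countP (fun τ => decide (stp q.1.1.1 q.2.1 τ = q.1.2))) :=
    PTF.natMul (by fun_prop) hcount.toPTF
  have hsum : PTF (fun q : (γ × List (X × ℕ)) × X => (q.1.2.map (fun r => r.2 *
      (seeds q.1.1).countP (fun τ => decide (stp q.1.1 r.1 τ = q.2)))).sum) :=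
    PTF.natListSum (PTF.map (l := fun q : (γ × List (X × ℕ)) × X => q.1.2) (by fun_prop) hterm)
  have hinner : PTF (fun q : (γ × List (X × ℕ)) × X => (q.2, min (cap q.1.1)
      ((q.1.2.map (fun r => r.2 *
        (seeds q.1.1).countP (fun τ => decide (stp q.1.1 r.1 τ = q.2)))).sum))) :=
    PTF.prodMk (by fun_prop) (PTF.natMin (PTF.comp hcap (by fun_prop)) hsum)
  exact PTF.map (l := fun q : γ × List (X × ℕ) => tabs q.1) (PTF.comp htabs (by fun_prop)) hinner

theorem ptf_lawL {cap T : γ → ℕ} {stp : γ → X → List Bool → X} {seeds : γ → List (List Bool)}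
    {tabs : γ → List X} {x₀ : γ → X} (hcap : PTF cap) (hT : PTU T)
    (hstp : PTF (fun p : γ × X × List Bool => stp p.1 p.2.1 p.2.2))
    (hseeds : PTF seeds) (htabs : PTF tabs) (hx₀ : PTF x₀) :
    PTF (fun c => lawL (cap c) (stp c) (seeds c) (tabs c) (x₀ c) (T c)) := by
  have hinit : PTF (fun c => (tabs c).map (fun y => (y, if y = x₀ c then 1 else 0))) := by
    refine PTF.map (f := fun c y => (y, if y = x₀ c then 1 else 0)) htabs ?_
    refine PTF.prodMk (by fun_prop) (PTF.ite (PTPred.eq (by fun_prop) ?_) (PTF.const _) (PTF.const _))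
    exact PTF.comp hx₀ (by fun_prop)
  have hb : ∀ c, ∀ i, sz ((lawStepL (cap c) (stp c) (seeds c) (tabs c))^[i]
      ((tabs c).map (fun y => (y, if y = x₀ c then 1 else 0)))) ≤
      sz (tabs c) * (2 * (2 * sz (tabs c) + 1 + (sz (cap c) + 1)) + 1) := by
    intro c i
    have hlen : ∀ f : X → ℕ, (∀ y, sz (f y) ≤ sz (cap c) + 1) →
        sz ((tabs c).map (fun y => (y, f y))) ≤
          sz (tabs c) * (2 * (2 * sz (tabs c) + 1 + (sz (cap c) + 1)) + 1) := by
      intro f hf
      refine (sz_list_le (m := 2 * sz (tabs c) + 1 + (sz (cap c) + 1)) ?_).trans ?_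
      · intro p hp
        obtain ⟨y, hy, rfl⟩ := List.mem_map.1 hp
        have h1 : sz y ≤ sz (tabs c) := sz_mem_le hy
        have h2 := hf y
        simp only [sz_prod]
        omega
      · rw [List.length_map]
        exact Nat.mul_le_mul_right _ (length_le_sz _)
    cases i with
    | zero =>
      refine hlen (fun y => if y = x₀ c then 1 else 0) (fun y => ?_)
      split_ifs
      · rw [sz_nat]; simp
      · rw [sz_nat]; simp
    | succ i =>
      rw [Function.iterate_succ_apply']
      unfold lawStepL
      refine hlen (fun y => min (cap c) _) (fun y => ?_)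
      simp only [sz_nat]
      refine (Nat.size_le_size (Nat.min_le_left _ _)).trans (Nat.le_succ _)
  refine PTF.iterate' (f := fun (c : γ) v => lawStepL (cap c) (stp c) (seeds c) (tabs c) v) hT
    (ptf_lawStepL hcap hstp hseeds htabs) hinit
    (B := fun c => sz (tabs c) * (2 * (2 * sz (tabs c) + 1 + (sz (cap c) + 1)) + 1)) ?_
    (fun c i _ => hb c i)
  have h1 := htabs.sz
  have h2 := hcap.sz
  fun_prop

end law

section pick

variable {X γ : Type}

/-- step of `pick` as a fold -/
def pickStep (s : ℕ × Option X) (p : X × ℕ) : ℕ × Option X :=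
  match s.2 with
  | some _ => s
  | none => if s.1 < p.2 then (s.1, some p.1) else (s.1 - p.2, none)

theorem foldl_pickStep_some (l : List (X × ℕ)) (v : ℕ) (y : X) :
    l.foldl pickStep (v, some y) = (v, some y) := by
  induction l with
  | nil => rfl
  | cons p l ih => rw [List.foldl_cons]; exact ih

theorem pick_eq_foldl (l : List (X × ℕ)) (v : ℕ) :
    pick l v = (l.foldl pickStep (v, none)).2 := by
  induction l generalizing v with
  | nil => rfl
  | cons p l ih =>
    rw [List.foldl_cons, pick]
    unfold pickStep
    simp only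
    split_ifs with h
    · rw [show (fun (s : ℕ × Option X) (p : X × ℕ) => (match s.2 with
        | some _ => s
        | none => if s.1 < p.2 then (s.1, some p.1) else (s.1 - p.2, none) : ℕ × Option X)) =
        pickStep from rfl]
      rw [foldl_pickStep_some]
    · exact ih _

variable [PTCode X] [PTCode γ]

theorem ptf_pick {l : γ → List (X × ℕ)} {v : γ → ℕ} (hl : PTF l) (hv : PTF v) :
    PTF (fun c => pick (l c) (v c)) := by
  have hstep : PTF (fun p : γ × (ℕ × Option X) × (X × ℕ) => pickStep p.2.1 p.2.2) := by
    refine PTF.of_eq (PTF.optionCasesOn (s := fun p : γ × (ℕ × Option X) × (X × ℕ) => p.2.1.2)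
      (f := fun p => if p.2.1.1 < p.2.2.2 then (p.2.1.1, some p.2.2.1)
        else (p.2.1.1 - p.2.2.2, none)) (g := fun p _ => p.2.1) (by fun_prop) ?_ (by pt_prop)) ?_
    · refine PTF.ite (PTPred.natLt (by fun_prop) (by fun_prop)) (by fun_prop) ?_
      exact PTF.prodMk (PTF.natSub (by fun_prop) (by fun_prop)) (PTF.const _)
    · rintro ⟨c, ⟨s, o⟩, p⟩
      unfold pickStep
      cases o <;> rfl
  have key : ∀ (l' : List (X × ℕ)) (S v : ℕ) (s : ℕ × Option X), (∀ p ∈ l', sz p.1 ≤ S) →
      s.1 ≤ v → sz s.2 ≤ S + 1 →
      (l'.foldl pickStep s).1 ≤ v ∧ sz (l'.foldl pickStep s).2 ≤ S + 1 := by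
    intro l'
    induction l' with
    | nil => intro S v s _ h1 h2; exact ⟨h1, h2⟩
    | cons p l' ih =>
      intro S v s hp h1 h2
      rw [List.foldl_cons]
      refine ih S v _ (fun q hq => hp q (by simp [hq])) ?_ ?_
      · unfold pickStep
        rcases s with ⟨s, _ | y⟩
        · simp only
          split_ifs
          · exact h1
          · exact (Nat.sub_le _ _).trans h1
        · exact h1
      · unfold pickStep
        rcases s with ⟨s, _ | y⟩
        · simp only
          split_ifs
          · simpa using hp p (by simp)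
          · simp
        · exact h2
  have h := PTF.foldl (f := fun (_ : γ) s p => pickStep s p) (b := fun c => (v c, none)) hl
    hstep (PTF.prodMk hv (PTF.const _)) (B := fun c => 2 * sz (v c) + 1 + (sz (l c) + 1)) ?_ ?_
  · exact PTF.of_eq (PTF.comp PTF.snd h) (fun c => (pick_eq_foldl _ _).symm)
  · have h1 := hl.sz
    have h2 := hv.sz
    fun_prop
  · intro c i _
    obtain ⟨h1, h2⟩ := key ((l c).take i) (sz (l c)) (v c) (v c, none)
      (fun p hp => by
        have h3 : sz p ≤ sz (l c) := sz_mem_le (List.mem_of_mem_take hp)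
        rw [sz_prod] at h3
        omega) le_rfl (by simp)
    rw [sz_prod]
    have h3 : sz (((l c).take i).foldl pickStep (v c, none)).1 ≤ sz (v c) := by
      rw [sz_nat, sz_nat]
      exact Nat.size_le_size h1
    exact Nat.add_le_add (Nat.add_le_add_right (Nat.mul_le_mul_left 2 h3) 1) h2

end pick

end Crest.Agent.R309.Exact9
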