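import Crest.Agent.R309.Exact9Start

/-!
# R309, exactness layer (S0481), part 10: the exact sampler on the word RAM
-/

set_option autoImplicit false

namespace Crest.Agent.R309.Exact9

open Crest.Agent.R309.Tape Crest.Agent.Lib.PT Crest.Agent.R309.Iface Crest.Agent.R309.PTX
open Crest.Agent.R309.NW Crest.Agent.R309.S0480Of Crest.Agent.R309.Feas Crest.Agent.R309.Parse
open Crest.WordRAM Crest.Tables

/-- the cost polynomial of a round with cost polynomial `qf` -/
noncomputable def qone (qf : Polynomial ℕ) : Polynomial ℕ :=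
  Polynomial.C 300 + Polynomial.C 70 * Polynomial.X + Polynomial.C 5 * qf

theorem eval_qone (qf : Polynomial ℕ) (x : ℕ) :
    (qone qf).eval x = 300 + 70 * x + 5 * qf.eval x := by
  unfold qone
  simp

theorem rcost_qone (qf : Polynomial ℕ) (x : ℕ) : rcost (x + 4) (qf.eval x) = (qone qf).eval x := by
  rw [eval_qone]
  unfold rcost
  ring

theorem sz_mk {α β : Type} [PTCode α] [PTCode β] (a : α) (b : β) :
    sz (a, b) = 2 * sz a + 1 + sz b := sz_prod (a, b)

theorem sz_env' {J : Type} [PTCode J] (i : J) (a b c d e : ℕ) :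
    sz (i, ((⟨a⟩ : Un), (⟨b⟩ : Un), (⟨c⟩ : Un), (⟨d⟩ : Un), (⟨e⟩ : Un))) =
      2 * sz i + 1 + (2 * a + 1 + (2 * b + 1 + (2 * c + 1 + (2 * d + 1 + e)))) := by
  rw [sz_mk, sz_mk, sz_mk, sz_mk, sz_mk, sz_un, sz_un, sz_un, sz_un, sz_un]

theorem sz_inl' {E X : Type} [PTCode E] [PTCode X] (e : E) (x : X) (u : Un) :
    sz ((e, Sum.inl (x, u)) : E × ((X × Un) ⊕ (Un × Un))) =
      2 * sz e + 1 + (2 * sz x + 1 + u.val + 1) := by
  rw [sz_mk, sz_inl, sz_mk, sz_un]

theorem sz_inr' {E X : Type} [PTCode E] [PTCode X] (e : E) (p k : Un) :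
    sz ((e, Sum.inr (p, k)) : E × ((X × Un) ⊕ (Un × Un))) =
      2 * sz e + 1 + (2 * p.val + 1 + k.val + 1) := by
  rw [sz_mk, sz_inr, sz_mk, sz_un, sz_un]

section sizes

variable {step : Iface.Inst × Tab → List Bool → Tab} {len tau : Iface.Inst → ℕ}

theorem sz_env (a : ℕ) (I : Iface.Inst) : sz (env len tau a I) = (par len tau a I).se := by
  exact sz_env' _ _ _ _ _ _

/-- sizes of the states that satisfy the invariant -/
theorem sz_inv {a : ℕ} {I : Iface.Inst} {tabs : List Tab} (ht : ∀ X ∈ tabs, sz X ≤ sz I)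
    {s : Conf Iface.Inst Tab} (hs : Inv (env len tau a I) tabs s) :
    sz s ≤ (par len tau a I).LL ∧
      ((∃ xu, s.2 = Sum.inl xu) → sz s ≤ (par len tau a I).LA) := by
  obtain ⟨e', m⟩ := s
  obtain ⟨he, hm⟩ := hs
  simp only at he
  subst he
  have hse := sz_env (len := len) (tau := tau) a I
  rcases m with ⟨x, u⟩ | ⟨p, k⟩
  · simp only at hm
    have h1 := ht x hm.1
    have h2 : u.val ≤ (par len tau a I).T := hm.2
    have h3 : sz ((env len tau a I, Sum.inl (x, u)) : Conf Iface.Inst Tab) ≤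
        (par len tau a I).LA := by
      rw [sz_inl', hse]
      unfold Par.LA
      have : (par len tau a I).sI = sz I := rfl
      omega
    refine ⟨h3.trans ?_, fun _ => h3⟩
    unfold Par.LL
    omega
  · simp only at hm
    have h1 : p.val ≤ 2 ^ (par len tau a I).D := by
      have h2 : p.val * 2 ^ k.val = 2 ^ (par len tau a I).D := hm.1
      rw [← h2]
      exact Nat.le_mul_of_pos_right _ (by positivity)
    have h2 : k.val ≤ (par len tau a I).D := hm.2
    refine ⟨?_, fun h => ?_⟩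
    · rw [sz_inr', hse]
      unfold Par.LL Par.LA
      omega
    · obtain ⟨xu, h⟩ := h
      simp at h

end sizes

section input

variable {m n : ℕ}

/-- the size parameter of the statement -/
def SS (m n N : ℕ) : ℕ := m + n + Nat.clog 2 (N + 2) + 1

/-- the input words -/
def inp (rs : Fin m → ℕ) (cs : Fin n → ℕ) : List ℕ := m :: n :: (List.ofFn rs ++ List.ofFn cs)

theorem clog_pos' (N : ℕ) : 1 ≤ Nat.clog 2 (N + 2) := by
  have : 0 < Nat.clog 2 (N + 2) := Nat.clog_pos (by norm_num) (by omega)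
  exact this

theorem lt_two_pow_SS (m n N : ℕ) : N + 2 ≤ 2 ^ SS m n N := by
  have h1 : N + 2 ≤ 2 ^ Nat.clog 2 (N + 2) := Nat.le_pow_clog (by norm_num) _
  refine h1.trans (Nat.pow_le_pow_right (by norm_num) ?_)
  unfold SS
  omega

theorem le_two_pow_SS (m n N : ℕ) : m + n + 2 ≤ SS m n N ∧ SS m n N < 2 ^ SS m n N := by
  have := clog_pos' N
  refine ⟨?_, Nat.lt_two_pow_self⟩
  unfold SS
  omega

theorem length_inp (rs : Fin m → ℕ) (cs : Fin n → ℕ) : (inp rs cs).length = m + n + 2 := by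
  simp [inp]

theorem entry_le {k : ℕ} (f : Fin k → ℕ) {a : ℕ} (ha : a ∈ List.ofFn f) : a ≤ ∑ i, f i := by
  obtain ⟨i, rfl⟩ := (List.mem_ofFn' _ _).1 ha
  exact Finset.single_le_sum (fun _ _ => Nat.zero_le _) (Finset.mem_univ i)

theorem mem_inp {rs : Fin m → ℕ} {cs : Fin n → ℕ} (h : ∑ i, rs i = ∑ j, cs j) {a : ℕ}
    (ha : a ∈ inp rs cs) : a + 1 < 2 ^ SS m n (∑ i, rs i) := by
  obtain ⟨h1, h2⟩ := le_two_pow_SS m n (∑ i, rs i)
  have h3 := lt_two_pow_SS m n (∑ i, rs i)
  unfold inp at ha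
  simp only [List.mem_cons, List.mem_append] at ha
  rcases ha with rfl | rfl | ha | ha
  · omega
  · omega
  · have := entry_le rs ha; omega
  · have := entry_le cs ha; omega

theorem size_le_of_lt {a S : ℕ} (h : a < 2 ^ S) : sz a ≤ S := by
  rw [sz_nat]; exact Nat.size_le.2 h

theorem sz_list_le' {l : List ℕ} {S k : ℕ} (h : ∀ a ∈ l, a < 2 ^ S) (hk : l.length ≤ k) :
    sz l ≤ k * (2 * S + 1) :=
  (sz_list_le (m := S) fun a ha => size_le_of_lt (h a ha)).trans (Nat.mul_le_mul_right _ hk)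

theorem sz_inp_le {rs : Fin m → ℕ} {cs : Fin n → ℕ} (h : ∑ i, rs i = ∑ j, cs j) :
    sz (inp rs cs) ≤ 3 * SS m n (∑ i, rs i) ^ 2 := by
  set S := SS m n (∑ i, rs i) with hS
  obtain ⟨h1, _⟩ := le_two_pow_SS m n (∑ i, rs i)
  have h2 := sz_list_le' (l := inp rs cs) (S := S) (k := S)
    (fun a ha => by have := mem_inp h ha; rw [← hS] at this; omega) (by rw [length_inp]; exact h1)
  refine h2.trans ?_
  have : 1 ≤ S := by omega
  nlinarith

theorem sz_inst_le {rs : Fin m → ℕ} {cs : Fin n → ℕ} (h : ∑ i, rs i = ∑ j, cs j) :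
    sz (inst (List.ofFn rs) (List.ofFn cs)) ≤ 21 * SS m n (∑ i, rs i) ^ 3 := by
  set S := SS m n (∑ i, rs i) with hS
  obtain ⟨h1, _⟩ := le_two_pow_SS m n (∑ i, rs i)
  have h3 := lt_two_pow_SS m n (∑ i, rs i)
  rw [← hS] at h1 h3
  have hr : sz (List.ofFn rs) ≤ S * (2 * S + 1) :=
    sz_list_le' (fun a ha => by have := entry_le rs ha; omega) (by rw [List.length_ofFn]; omega)
  have hc : sz (List.ofFn cs) ≤ S * (2 * S + 1) :=
    sz_list_le' (fun a ha => by have := entry_le cs ha; omega) (by rw [List.length_ofFn]; omega)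
  have hb0 : sz (List.replicate (List.ofFn cs).length (List.ofFn rs).sum) ≤ S * (2 * S + 1) := by
    refine sz_list_le' (fun a ha => ?_) ?_
    · rw [List.eq_of_mem_replicate ha, List.sum_ofFn]
      omega
    · rw [List.length_replicate, List.length_ofFn]; omega
  have hb : sz (List.replicate (List.ofFn rs).length
      (List.replicate (List.ofFn cs).length (List.ofFn rs).sum)) ≤
      S * (2 * (S * (2 * S + 1)) + 1) := by
    refine (sz_list_le (m := S * (2 * S + 1)) fun a ha => ?_).trans (Nat.mul_le_mul_right _ ?_)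
    · rw [List.eq_of_mem_replicate ha]; exact hb0
    · rw [List.length_replicate, List.length_ofFn]; omega
  unfold inst
  rw [sz_mk, sz_mk]
  have hS1 : 1 ≤ S := by omega
  have e1 : S * (2 * S + 1) ≤ 3 * S ^ 2 := by nlinarith
  have e2 : S ^ 2 ≤ S ^ 3 := Nat.pow_le_pow_right hS1 (by norm_num)
  have e3 : 1 ≤ S ^ 3 := Nat.one_le_pow _ _ hS1
  have e5 : S ≤ S ^ 3 := by
    calc S = S ^ 1 := (pow_one _).symm
      _ ≤ S ^ 3 := Nat.pow_le_pow_right hS1 (by norm_num)
  have e4 : S * (2 * (S * (2 * S + 1)) + 1) ≤ 7 * S ^ 3 := by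
    calc S * (2 * (S * (2 * S + 1)) + 1) ≤ S * (2 * (3 * S ^ 2) + 1) :=
          Nat.mul_le_mul_left _ (by omega)
      _ = 6 * S ^ 3 + S := by ring
      _ ≤ 7 * S ^ 3 := by omega
  omega

end input

end Crest.Agent.R309.Exact9
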