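import Mathlib

/-!
# R309, exactness layer (S0481), part 8: numerical lemmas about the parameters
-/

set_option autoImplicit false

namespace Crest.Agent.R309.Exact9

open Polynomial

theorem poly_le_pow (q : Polynomial ℕ) : ∃ k, ∀ x, q.eval x ≤ (x + 2) ^ k := by
  induction q using Polynomial.induction_on' with
  | add p q hp hq =>
    obtain ⟨k, hk⟩ := hp
    obtain ⟨l, hl⟩ := hq
    refine ⟨k + l + 1, fun x => ?_⟩
    rw [eval_add]
    have h1 : (x + 2) ^ k ≤ (x + 2) ^ (k + l) := Nat.pow_le_pow_right (by omega) (by omega)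
    have h2 : (x + 2) ^ l ≤ (x + 2) ^ (k + l) := Nat.pow_le_pow_right (by omega) (by omega)
    have h3 := hk x
    have h4 := hl x
    rw [pow_succ]
    nlinarith [Nat.zero_le ((x + 2) ^ (k + l) * x)]
  | monomial n a =>
    refine ⟨a + n, fun x => ?_⟩
    rw [eval_monomial, pow_add]
    refine Nat.mul_le_mul ?_ (Nat.pow_le_pow_left (by omega) _)
    calc a ≤ 2 ^ a := Nat.lt_two_pow_self.le
      _ ≤ (x + 2) ^ a := Nat.pow_le_pow_left (by omega) _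

theorem poly_le_mul_pow (q : Polynomial ℕ) : ∃ c d, ∀ x, 1 ≤ x → q.eval x ≤ c * x ^ d := by
  induction q using Polynomial.induction_on' with
  | add p q hp hq =>
    obtain ⟨c, d, hk⟩ := hp
    obtain ⟨c', d', hl⟩ := hq
    refine ⟨c + c', d + d', fun x hx => ?_⟩
    rw [eval_add, Nat.add_mul]
    refine Nat.add_le_add ((hk x hx).trans (Nat.mul_le_mul_left _ ?_))
      ((hl x hx).trans (Nat.mul_le_mul_left _ ?_))
    · exact Nat.pow_le_pow_right hx (by omega)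
    · exact Nat.pow_le_pow_right hx (by omega)
  | monomial n a =>
    refine ⟨a, n, fun x _ => ?_⟩
    rw [eval_monomial]

theorem exists_exp (k : ℕ) : ∃ a, 2 + k * (9 + a) ≤ 2 ^ a := by
  refine ⟨3 * (k + 10), ?_⟩
  have h1 : k + 10 + 1 ≤ 2 ^ (k + 10) := Nat.lt_two_pow_self
  have h2 : (k + 10 + 1) ^ 3 ≤ 2 ^ (3 * (k + 10)) := by
    rw [Nat.mul_comm, pow_mul]
    exact Nat.pow_le_pow_left h1 3
  refine le_trans ?_ h2
  nlinarith [sq_nonneg k, Nat.zero_le k, Nat.zero_le (k ^ 3)]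

theorem two_y (y : ℕ) (hy : 1 ≤ y) : 2 * y + 2 ≤ 2 ^ (2 * y) := by
  induction y, hy using Nat.le_induction with
  | base => norm_num
  | succ y hy ih =>
    rw [show 2 * (y + 1) = 2 * y + 2 by ring, pow_add]
    have : 1 ≤ 2 ^ (2 * y) := Nat.one_le_two_pow
    omega

theorem key_exp (k a y : ℕ) (hy : 1 ≤ y) (ha : 2 + k * (9 + a) ≤ 2 ^ a) :
    (2 * y + 2) * (2 ^ (6 + a + 3 * y)) ^ k ≤ 2 ^ (2 ^ a * y) := by
  have h1 := two_y y hy
  calc (2 * y + 2) * (2 ^ (6 + a + 3 * y)) ^ k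
      ≤ 2 ^ (2 * y) * (2 ^ (6 + a + 3 * y)) ^ k := Nat.mul_le_mul_right _ h1
    _ = 2 ^ (2 * y + (6 + a + 3 * y) * k) := by rw [← pow_mul, ← pow_add]
    _ ≤ 2 ^ (2 ^ a * y) := by
        refine Nat.pow_le_pow_right (by norm_num) ?_
        calc 2 * y + (6 + a + 3 * y) * k ≤ (2 + k * (9 + a)) * y := by
              have : (6 + a) * k ≤ (6 + a) * k * y := Nat.le_mul_of_pos_right _ hy
              nlinarith
          _ ≤ 2 ^ a * y := Nat.mul_le_mul_right _ ha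

/-- all numerical parameters of one instance -/
structure Par where
  R : ℕ
  tau : ℕ
  lN : ℕ
  lE : ℕ
  sI : ℕ
  y : ℕ
  a : ℕ
  hy : 1 ≤ y
  hR : R ≤ y
  htau : tau ≤ y
  hlN : lN ≤ y
  hlE : lE ≤ y
  hsI : sI ≤ y

namespace Par

variable (p : Par)

/-- switch exponent -/
def K : ℕ := 2 ^ p.a * p.y
/-- number of steps -/
def T : ℕ := (p.K + p.lN) * p.tau
/-- doublings -/
def D : ℕ := p.lE + p.R
/-- bit reserve -/
def L : ℕ := p.R * p.T + p.lN + p.K + p.R + 1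
/-- size of the environment -/
def se : ℕ := 2 * p.sI + 1 + (2 * p.R + 1 + (2 * p.K + 1 + (2 * p.T + 1 + (2 * p.D + 1 + p.L))))
/-- size of phase A states -/
def LA : ℕ := 2 * p.se + 3 + 2 * p.sI + p.T
/-- size of all states -/
def LL : ℕ := p.LA + 2 * 2 ^ p.D + p.D

theorem y_le_cube : p.y ≤ p.y ^ 3 := by
  calc p.y = p.y ^ 1 := (pow_one _).symm
    _ ≤ p.y ^ 3 := Nat.pow_le_pow_right p.hy (by norm_num)

theorem T_le : p.T ≤ 2 * 2 ^ p.a * p.y ^ 2 := by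
  unfold T K
  have h1 : 1 ≤ 2 ^ p.a := Nat.one_le_two_pow
  have h2 : p.lN ≤ 2 ^ p.a * p.y := p.hlN.trans (Nat.le_mul_of_pos_left _ h1)
  calc (2 ^ p.a * p.y + p.lN) * p.tau ≤ (2 ^ p.a * p.y + 2 ^ p.a * p.y) * p.y :=
        Nat.mul_le_mul (by omega) p.htau
    _ = 2 * 2 ^ p.a * p.y ^ 2 := by ring

theorem LA_le : p.LA ≤ 57 * 2 ^ p.a * p.y ^ 3 := by
  have hT := p.T_le
  have h1 : 1 ≤ 2 ^ p.a := Nat.one_le_two_pow
  have hy := p.hy
  have h3 := p.y_le_cube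
  have h2 : p.y ^ 2 ≤ p.y ^ 3 := Nat.pow_le_pow_right p.hy (by norm_num)
  have h4 : 1 ≤ p.y ^ 3 := Nat.one_le_pow _ _ hy
  set z := 2 ^ p.a * p.y ^ 3 with hz
  have z1 : p.y ≤ z := h3.trans (Nat.le_mul_of_pos_left _ h1)
  have z2 : 2 ^ p.a * p.y ≤ z := Nat.mul_le_mul_left _ h3
  have z3 : 2 ^ p.a * p.y ^ 2 ≤ z := Nat.mul_le_mul_left _ h2
  have z4 : 1 ≤ z := hy.trans z1
  have hK : p.K ≤ z := z2
  have hT2 : p.T ≤ 2 * z := by rw [Nat.mul_assoc] at hT; omega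
  have hRT : p.R * p.T ≤ 2 * z := by
    calc p.R * p.T ≤ p.y * (2 * 2 ^ p.a * p.y ^ 2) := Nat.mul_le_mul p.hR hT
      _ = 2 * z := by rw [hz]; ring
  have hR := p.hR.trans z1
  have hlN := p.hlN.trans z1
  have hlE := p.hlE.trans z1
  have hsI := p.hsI.trans z1
  have e : 57 * 2 ^ p.a * p.y ^ 3 = 57 * z := by rw [hz]; ring
  rw [e]
  unfold LA se L D
  omega

theorem LL_le : p.LL + 2 ≤ 2 ^ (6 + p.a + 3 * p.y) := by
  have h := p.LA_le
  have h1 : 1 ≤ 2 ^ p.a := Nat.one_le_two_pow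
  have hD : p.D ≤ 2 * p.y := by
    unfold D
    have := p.hR
    have := p.hlE
    omega
  have h2 : 2 ^ p.D ≤ 2 ^ (3 * p.y) := Nat.pow_le_pow_right (by norm_num) (by omega)
  have h3 : p.y ^ 3 ≤ 2 ^ (3 * p.y) := by
    rw [Nat.mul_comm 3, pow_mul]
    exact Nat.pow_le_pow_left Nat.lt_two_pow_self.le 3
  have h4 : 2 * p.y + 2 ≤ 2 ^ (3 * p.y) :=
    (two_y _ p.hy).trans (Nat.pow_le_pow_right (by norm_num) (by omega))
  set W := 2 ^ (3 * p.y) with hW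
  have h5 : 57 * 2 ^ p.a * p.y ^ 3 ≤ 57 * (2 ^ p.a * W) := by
    rw [Nat.mul_assoc]
    exact Nat.mul_le_mul_left _ (Nat.mul_le_mul_left _ h3)
  have h6 : W ≤ 2 ^ p.a * W := Nat.le_mul_of_pos_left _ h1
  have e : 2 ^ (6 + p.a + 3 * p.y) = 64 * (2 ^ p.a * W) := by
    rw [pow_add, pow_add, hW]
    norm_num [Nat.mul_assoc]
  rw [e]
  unfold LL
  omega

/-- the switch exponent beats the cost of phase B -/
theorem cost_le (k : ℕ) (q : ℕ) (ha : 2 + k * (9 + p.a) ≤ 2 ^ p.a) (hq : q ≤ (p.LL + 2) ^ k) :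
    (p.D + 2) * q ≤ 2 ^ p.K := by
  have hD : p.D ≤ 2 * p.y := by
    unfold D
    have := p.hR
    have := p.hlE
    omega
  calc (p.D + 2) * q ≤ (2 * p.y + 2) * (2 ^ (6 + p.a + 3 * p.y)) ^ k :=
        Nat.mul_le_mul (by omega) (hq.trans (Nat.pow_le_pow_left p.LL_le k))
    _ ≤ 2 ^ p.K := key_exp k p.a p.y p.hy ha

end Par

end Crest.Agent.R309.Exact9
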