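import Crest.Agent.R309.Exact9Fn

/-!
# R309, exactness layer (S0481), part 3: the bit-tape process, its harmonic functions and potential
-/

set_option autoImplicit false

namespace Crest.Agent.R309.Exact9

open Crest.Agent.R309.Tape Crest.Agent.Lib.PT Crest.Agent.Lib.PT.Arith

/-- environment: instance, then unary numbers `R` (bits per step), `K` (switch exponent),
`T` (number of steps), `D` (number of doublings), `L` (bit reserve) -/
abbrev Env (I : Type) := I × (Un × Un × Un × Un × Un)

/-- phase A: current state and number of remaining steps; phase B: pad and remaining doublings -/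
abbrev Mode (X : Type) := (X × Un) ⊕ (Un × Un)

/-- configurations of the process -/
abbrev Conf (I X : Type) := Env I × Mode X

section defs

variable {I X : Type}

/-- bits per step -/
def eR (e : Env I) : ℕ := e.2.1.val
/-- switch exponent -/
def eK (e : Env I) : ℕ := e.2.2.1.val
/-- number of steps -/
def eT (e : Env I) : ℕ := e.2.2.2.1.val
/-- number of doublings -/
def eD (e : Env I) : ℕ := e.2.2.2.2.1.val
/-- bit reserve -/
def eL (e : Env I) : ℕ := e.2.2.2.2.2.val

/-- the data of the sampler -/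
structure Data (I X : Type) where
  /-- one step of the chain -/
  stp : I → X → List Bool → X
  /-- start state -/
  start : I → X
  /-- enumeration of all states (complete once the pad is large) -/
  enum : I → ℕ → List X
  /-- output words -/
  out : I → X → List ℕ

variable [DecidableEq X] (D : Data I X)

/-- the residual weights -/
def wts (e : Env I) (pad : ℕ) : List (X × ℕ) :=
  (lawL (2 ^ (eR e * eT e)) (D.stp e.1) (listsOf [false, true] pad (eR e)) (D.enum e.1 pad)
    (D.start e.1) (eT e)).map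
    (fun q => (q.1, 2 ^ (eK e) * 2 ^ (eR e * eT e) -
      (D.enum e.1 pad).length * (2 ^ (eK e) - 1) * q.2))

/-- the total residual weight -/
def tot (e : Env I) (pad : ℕ) : ℕ := ((wts D e pad).map Prod.snd).sum

/-- one round of the process -/
def rnd (s : Conf I X) (τ : List Bool) : Conf I X ⊕ List ℕ :=
  match s.2 with
  | Sum.inl xu =>
    if xu.2.val = 0 then
      if (τ.take (eK s.1)).all (fun b => b) = true then Sum.inl (s.1, Sum.inr (⟨1⟩, ⟨eD s.1⟩))
      else Sum.inr (D.out s.1.1 xu.1)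
    else Sum.inl (s.1, Sum.inl (D.stp s.1.1 xu.1 (τ.take (eR s.1)), ⟨xu.2.val - 1⟩))
  | Sum.inr pk =>
    if pk.2.val = 0 then
      match pick (wts D s.1 pk.1.val) (msb (τ.take (tot D s.1 pk.1.val).size)) with
      | none => Sum.inl s
      | some y => Sum.inr (D.out s.1.1 y)
    else Sum.inl (s.1, Sum.inr (⟨2 * pk.1.val⟩, ⟨pk.2.val - 1⟩))

end defs

section ptf

variable {I X : Type} [PTCode I] [PTCode X]

theorem ptu_eR : PTU (eR : Env I → ℕ) := by unfold eR; fun_prop
theorem ptu_eK : PTU (eK : Env I → ℕ) := by unfold eK; fun_prop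
theorem ptu_eT : PTU (eT : Env I → ℕ) := by unfold eT; fun_prop
theorem ptu_eD : PTU (eD : Env I → ℕ) := by unfold eD; fun_prop
theorem ptu_eL : PTU (eL : Env I → ℕ) := by unfold eL; fun_prop

/-- poly-time data -/
structure Data.Poly (D : Data I X) : Prop where
  stp : PTF (fun p : I × X × List Bool => D.stp p.1 p.2.1 p.2.2)
  start : PTF D.start
  enum : PTF (fun p : I × Un => D.enum p.1 p.2.val)
  out : PTF (fun p : I × X => D.out p.1 p.2)

variable [DecidableEq X] {D : Data I X}

theorem ptf_wts (hD : D.Poly) : PTF (fun p : Env I × Un => wts D p.1 p.2.val) := by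
  have hR : PTU (fun p : Env I × Un => eR p.1) := PTU.comp ptu_eR PTF.fst
  have hK : PTU (fun p : Env I × Un => eK p.1) := PTU.comp ptu_eK PTF.fst
  have hT : PTU (fun p : Env I × Un => eT p.1) := PTU.comp ptu_eT PTF.fst
  have hRT : PTU (fun p : Env I × Un => eR p.1 * eT p.1) := PTU.mul hR hT
  have hcap : PTF (fun p : Env I × Un => 2 ^ (eR p.1 * eT p.1)) := PTF.natTwoPow hRT
  have hseeds : PTF (fun p : Env I × Un => listsOf [false, true] p.2.val (eR p.1)) :=
    ptf_listsOf (PTF.const _) (PTU.val PTF.snd) hR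
  have henum : PTF (fun p : Env I × Un => D.enum p.1.1 p.2.val) :=
    PTF.comp (g := fun p : I × Un => D.enum p.1 p.2.val) (f := fun p : Env I × Un => (p.1.1, p.2))
      hD.enum (by fun_prop)
  have hstart : PTF (fun p : Env I × Un => D.start p.1.1) := PTF.comp hD.start (by fun_prop)
  have hstp : PTF (fun q : (Env I × Un) × X × List Bool => D.stp q.1.1.1 q.2.1 q.2.2) :=
    PTF.comp (g := fun p : I × X × List Bool => D.stp p.1 p.2.1 p.2.2)
      (f := fun q : (Env I × Un) × X × List Bool => (q.1.1.1, q.2.1, q.2.2)) hD.stp (by fun_prop)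
  have hlaw := ptf_lawL (stp := fun p : Env I × Un => D.stp p.1.1) hcap hT hstp hseeds henum hstart
  refine PTF.map (f := fun (p : Env I × Un) (q : X × ℕ) => (q.1, 2 ^ (eK p.1) *
    2 ^ (eR p.1 * eT p.1) - (D.enum p.1.1 p.2.val).length * (2 ^ (eK p.1) - 1) * q.2)) hlaw ?_
  have h1 : PTF (fun q : (Env I × Un) × (X × ℕ) => q.1) := PTF.fst
  have hlen : PTF (fun q : (Env I × Un) × (X × ℕ) => (D.enum q.1.1.1 q.1.2.val).length) :=
    (PTU.length (PTF.comp (g := fun p : Env I × Un => D.enum p.1.1 p.2.val) henum h1)).toPTF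
  have hK2 : PTF (fun q : (Env I × Un) × (X × ℕ) => 2 ^ (eK q.1.1)) :=
    PTF.natTwoPow (PTU.comp (n := fun p : Env I × Un => eK p.1) hK h1)
  have hcap2 : PTF (fun q : (Env I × Un) × (X × ℕ) => 2 ^ (eR q.1.1 * eT q.1.1)) :=
    PTF.comp (g := fun p : Env I × Un => 2 ^ (eR p.1 * eT p.1)) hcap h1
  exact PTF.prodMk (PTF.comp (g := fun r : X × ℕ => r.1) PTF.fst PTF.snd)
    (PTF.natSub (PTF.natMul hK2 hcap2)
    (PTF.natMul (PTF.natMul hlen (PTF.natSub hK2 (PTF.const _)))
      (PTF.comp (g := fun r : X × ℕ => r.2) PTF.snd PTF.snd)))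

theorem ptf_tot (hD : D.Poly) : PTF (fun p : Env I × Un => tot D p.1 p.2.val) :=
  PTF.natListSum (PTF.map (f := fun _ q => q.2) (ptf_wts hD) (by pt_prop))

theorem ptf_msb' {γ : Type} [PTCode γ] {f : γ → List Bool} (hf : PTF f) : PTF (fun c => msb (f c)) :=
  PTF.comp (g := msb) ptf_msb hf

attribute [local irreducible] wts tot msb pick

theorem ptf_final {γ : Type} [PTCode γ] (hD : D.Poly) {s : γ → Conf I X} {τ : γ → List Bool}
    {e : γ → Env I} {pad : γ → Un} (hs : PTF s) (hτ : PTF τ) (he : PTF e) (hpad : PTF pad) :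
    PTF (fun c => (match pick (wts D (e c) (pad c).val)
        (msb ((τ c).take (tot D (e c) (pad c).val).size)) with
      | none => (Sum.inl (s c) : Conf I X ⊕ List ℕ)
      | some y => Sum.inr (D.out (e c).1 y))) := by
  have hep : PTF (fun c => (e c, pad c)) := PTF.prodMk he hpad
  have hw : PTF (fun c => wts D (e c) (pad c).val) :=
    PTF.comp (g := fun p : Env I × Un => wts D p.1 p.2.val) (ptf_wts hD) hep
  have ht0 : PTF (fun c => tot D (e c) (pad c).val) :=
    PTF.comp (g := fun p : Env I × Un => tot D p.1 p.2.val) (ptf_tot hD) hep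
  have ht : PTU (fun c => (tot D (e c) (pad c).val).size) := PTF.natSizeUn ht0
  have hm : PTF (fun c => msb ((τ c).take (tot D (e c) (pad c).val).size)) :=
    ptf_msb' (PTF.take ht hτ)
  have hp : PTF (fun c => pick (wts D (e c) (pad c).val)
      (msb ((τ c).take (tot D (e c) (pad c).val).size))) := ptf_pick hw hm
  refine PTF.optionCasesOn (f := fun c => (Sum.inl (s c) : Conf I X ⊕ List ℕ))
    (g := fun c y => Sum.inr (D.out (e c).1 y)) hp (PTF.inl hs) (PTF.inr ?_)
  exact PTF.comp (g := fun p : I × X => D.out p.1 p.2) (f := fun q : γ × X => ((e q.1).1, q.2)) hD.out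
    (PTF.prodMk (PTF.comp (g := fun e : Env I => e.1) PTF.fst (PTF.comp he PTF.fst)) PTF.snd)

theorem ptf_phaseA {γ : Type} [PTCode γ] (hD : D.Poly) {τ : γ → List Bool}
    {e : γ → Env I} {x : γ → X} {u : γ → Un} (hτ : PTF τ) (he : PTF e) (hx : PTF x) (hu : PTF u) :
    PTF (fun c => (if (u c).val = 0 then
        (if ((τ c).take (eK (e c))).all (fun b => b) = true then
          (Sum.inl (e c, Sum.inr (⟨1⟩, ⟨eD (e c)⟩)) : Conf I X ⊕ List ℕ)
          else Sum.inr (D.out (e c).1 (x c)))
        else Sum.inl (e c, Sum.inl (D.stp (e c).1 (x c) ((τ c).take (eR (e c))),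
          ⟨(u c).val - 1⟩)))) := by
  have he1 : PTF (fun c => (e c).1) := PTF.comp (g := fun e : Env I => e.1) PTF.fst he
  have h0 : PTPred (fun c => (u c).val = 0) := PTU.eq (PTU.val hu) (PTU.const 0)
  have h1 : PTF (fun c => (τ c).take (eK (e c))) := PTF.take (PTU.comp (n := eK) ptu_eK he) hτ
  have h2 : PTF (fun c => ((τ c).take (eK (e c))).all (fun b => b)) :=
    PTF.all (p := fun _ b => b) h1 PTF.snd
  have h3 : PTF (fun c => (Sum.inl (e c, Sum.inr (⟨1⟩, ⟨eD (e c)⟩)) : Conf I X ⊕ List ℕ)) :=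
    PTF.inl (PTF.prodMk he (PTF.inr (PTF.prodMk (PTF.const _) (PTU.comp (n := eD) ptu_eD he))))
  have h4 : PTF (fun c => (Sum.inr (D.out (e c).1 (x c)) : Conf I X ⊕ List ℕ)) :=
    PTF.inr (PTF.comp (g := fun p : I × X => D.out p.1 p.2)
      (f := fun c => ((e c).1, x c)) hD.out (PTF.prodMk he1 hx))
  have h5 : PTF (fun c => (τ c).take (eR (e c))) := PTF.take (PTU.comp (n := eR) ptu_eR he) hτ
  have h6 : PTF (fun c => (Sum.inl (e c, Sum.inl (D.stp (e c).1 (x c) ((τ c).take (eR (e c))),
      ⟨(u c).val - 1⟩)) : Conf I X ⊕ List ℕ)) := by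
    refine PTF.inl (PTF.prodMk he (PTF.inl (PTF.prodMk ?_
      (PTU.sub (PTU.val hu) (PTU.const 1)))))
    exact PTF.comp (g := fun p : I × X × List Bool => D.stp p.1 p.2.1 p.2.2)
      (f := fun c => ((e c).1, x c, (τ c).take (eR (e c)))) hD.stp
      (PTF.prodMk he1 (PTF.prodMk hx h5))
  exact PTF.ite h0 (PTF.ite h2.toPTPred h3 h4) h6

theorem ptf_phaseB {γ : Type} [PTCode γ] (hD : D.Poly) {s : γ → Conf I X} {τ : γ → List Bool}
    {e : γ → Env I} {pad k : γ → Un} (hs : PTF s) (hτ : PTF τ) (he : PTF e) (hpad : PTF pad)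
    (hk : PTF k) :
    PTF (fun c => (if (k c).val = 0 then
        (match pick (wts D (e c) (pad c).val)
            (msb ((τ c).take (tot D (e c) (pad c).val).size)) with
          | none => (Sum.inl (s c) : Conf I X ⊕ List ℕ)
          | some y => Sum.inr (D.out (e c).1 y))
        else Sum.inl (e c, Sum.inr (⟨2 * (pad c).val⟩, ⟨(k c).val - 1⟩)))) := by
  have h0 : PTPred (fun c => (k c).val = 0) := PTU.eq (PTU.val hk) (PTU.const 0)
  have h4 : PTF (fun c => (Sum.inl (e c, Sum.inr (⟨2 * (pad c).val⟩, ⟨(k c).val - 1⟩)) :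
      Conf I X ⊕ List ℕ)) :=
    PTF.inl (PTF.prodMk he (PTF.inr (PTF.prodMk
      (PTU.mul (PTU.const 2) (PTU.val hpad))
      (PTU.sub (PTU.val hk) (PTU.const 1)))))
  exact PTF.ite h0 (ptf_final hD hs hτ he hpad) h4

/-- the round function is poly-time -/
theorem ptf_rnd (hD : D.Poly) : PTF (fun p : Conf I X × List Bool => rnd D p.1 p.2) := by
  have hs : PTF (fun p : Conf I X × List Bool => p.1) := PTF.fst
  have hmode : PTF (fun p : Conf I X × List Bool => p.1.2) := by fun_prop
  have hA : PTF₂ (fun (p : Conf I X × List Bool) (xu : X × Un) =>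
      (if xu.2.val = 0 then
        (if (p.2.take (eK p.1.1)).all (fun b => b) = true then
          (Sum.inl (p.1.1, Sum.inr (⟨1⟩, ⟨eD p.1.1⟩)) : Conf I X ⊕ List ℕ)
          else Sum.inr (D.out p.1.1.1 xu.1))
        else Sum.inl (p.1.1, Sum.inl (D.stp p.1.1.1 xu.1 (p.2.take (eR p.1.1)),
          ⟨xu.2.val - 1⟩)))) :=
    ptf_phaseA hD (τ := fun q : (Conf I X × List Bool) × (X × Un) => q.1.2)
      (e := fun q => q.1.1.1) (x := fun q => q.2.1) (u := fun q => q.2.2)
      (by fun_prop) (by fun_prop) (by fun_prop) (by fun_prop)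
  have hB : PTF₂ (fun (p : Conf I X × List Bool) (pk : Un × Un) =>
      (if pk.2.val = 0 then
        (match pick (wts D p.1.1 pk.1.val) (msb (p.2.take (tot D p.1.1 pk.1.val).size)) with
        | none => (Sum.inl p.1 : Conf I X ⊕ List ℕ)
        | some y => Sum.inr (D.out p.1.1.1 y))
        else Sum.inl (p.1.1, Sum.inr (⟨2 * pk.1.val⟩, ⟨pk.2.val - 1⟩)))) :=
    ptf_phaseB hD (s := fun q : (Conf I X × List Bool) × (Un × Un) => q.1.1)
      (τ := fun q => q.1.2) (e := fun q => q.1.1.1) (pad := fun q => q.2.1) (k := fun q => q.2.2)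
      (by fun_prop) (by fun_prop) (by fun_prop) (by fun_prop) (by fun_prop)
  refine PTF.of_eq (PTF.sumCasesOn (s := fun p : Conf I X × List Bool => p.1.2) hmode hA hB)
    (fun p => ?_)
  unfold rnd
  rcases p.1.2 with xu | pk <;> rfl

end ptf

end Crest.Agent.R309.Exact9
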