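import Crest.Agent.R309.Exact9Enum
import Crest.Agent.R309.Exact9Par

/-!
# R309, exactness layer (S0481), part 9: the start function and the environment
-/

set_option autoImplicit false

namespace Crest.Agent.R309.Exact9

open Crest.Agent.R309.Tape Crest.Agent.Lib.PT Crest.Agent.R309.Iface Crest.Agent.R309.PTX
open Crest.Agent.R309.NW Crest.Agent.R309.S0480Of

section

variable (step : Iface.Inst × Tab → List Bool → Tab) (len tau : Iface.Inst → ℕ)

/-- the data of the exact table sampler -/
def tdata : Data Iface.Inst Tab where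
  stp := fun I X τ => step (I, X) τ
  start := fun I => nw I.1 I.2.1
  enum := fun I pad => enumT I.1 I.2.1 pad
  out := fun _ X => X.flatten

variable {step len tau}

theorem tdata_poly (hstep : PTF (fun p : (Iface.Inst × Tab) × List Bool => step p.1 p.2)) :
    (tdata step).Poly where
  stp := PTF.comp (g := fun p : (Iface.Inst × Tab) × List Bool => step p.1 p.2)
    (f := fun p : Iface.Inst × Tab × List Bool => ((p.1, p.2.1), p.2.2)) hstep (by fun_prop)
  start := PTF.comp (g := fun p : List ℕ × List ℕ => nw p.1 p.2)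
    (f := fun I : Iface.Inst => (I.1, I.2.1)) ptf_nw (by fun_prop)
  enum := ptf_enumT
  out := PTF.flatten (l := fun p : Iface.Inst × Tab => p.2) (by fun_prop)

variable (len tau)

/-- the master parameter -/
def yy (I : Iface.Inst) : ℕ := len I + tau I + lgN I.1 I.2.1 + lgE I.1 I.2.1 + sz I + 1

/-- the parameters of an instance -/
def par (a : ℕ) (I : Iface.Inst) : Par where
  R := len I
  tau := tau I
  lN := lgN I.1 I.2.1
  lE := lgE I.1 I.2.1
  sI := sz I
  y := yy len tau I
  a := a
  hy := by unfold yy; omega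
  hR := by unfold yy; omega
  htau := by unfold yy; omega
  hlN := by unfold yy; omega
  hlE := by unfold yy; omega
  hsI := by unfold yy; omega

/-- the environment of an instance -/
def env (a : ℕ) (I : Iface.Inst) : Env Iface.Inst :=
  (I, ⟨(par len tau a I).R⟩, ⟨(par len tau a I).K⟩, ⟨(par len tau a I).T⟩,
    ⟨(par len tau a I).D⟩, ⟨(par len tau a I).L⟩)

variable {len tau}

theorem ptu_lgN : PTU (fun I : Iface.Inst => lgN I.1 I.2.1) := by
  unfold lgN
  have h : PTU (fun I : Iface.Inst => (I.1.sum + 1).size) :=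
    PTF.natSizeUn (PTF.natAdd (PTF.natListSum (by fun_prop)) (PTF.const _))
  have h2 : PTU (fun I : Iface.Inst => I.2.1.length) := PTU.length (by fun_prop)
  have h3 : PTU (fun I : Iface.Inst => I.1.length) := PTU.length (by fun_prop)
  exact PTU.mul (PTU.mul h h2) h3

theorem ptu_lgE : PTU (fun I : Iface.Inst => lgE I.1 I.2.1) := by
  unfold lgE
  have h : PTU (fun I : Iface.Inst => (I.1.sum + 1).size) :=
    PTF.natSizeUn (PTF.natAdd (PTF.natListSum (by fun_prop)) (PTF.const _))
  have h2 : PTU (fun I : Iface.Inst => I.2.1.length + 1) := PTU.add (PTU.length (by fun_prop)) (PTU.const 1)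
  have h3 : PTU (fun I : Iface.Inst => I.1.length + 1) := PTU.add (PTU.length (by fun_prop)) (PTU.const 1)
  exact PTU.mul (PTU.mul h h2) h3

theorem ptu_yy (hlen : PTU len) (htau : PTU tau) : PTU (yy len tau) := by
  unfold yy
  have h1 : PTU (fun I : Iface.Inst => lgN I.1 I.2.1) := ptu_lgN
  have h2 : PTU (fun I : Iface.Inst => lgE I.1 I.2.1) := ptu_lgE
  have h3 : PTU (fun I : Iface.Inst => sz I) := PTU.sz
  exact PTU.add (PTU.add (PTU.add (PTU.add (PTU.add hlen htau) h1) h2) h3) (PTU.const 1)

theorem ptf_env (hlen : PTU len) (htau : PTU tau) (a : ℕ) : PTF (env len tau a) := by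
  have hy := ptu_yy hlen htau
  have hK : PTU (fun I => (par len tau a I).K) := PTU.mul (PTU.const (2 ^ a)) hy
  have hT : PTU (fun I => (par len tau a I).T) := PTU.mul (PTU.add hK ptu_lgN) htau
  have hD : PTU (fun I => (par len tau a I).D) := PTU.add ptu_lgE hlen
  have hL : PTU (fun I => (par len tau a I).L) :=
    PTU.add (PTU.add (PTU.add (PTU.add (PTU.mul hlen hT) ptu_lgN) hK) hlen) (PTU.const 1)
  exact PTF.prodMk PTF.id (PTF.prodMk hlen (PTF.prodMk hK (PTF.prodMk hT (PTF.prodMk hD hL))))

/-- parse the input words -/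
def parseW (l : List ℕ) : List ℕ × List ℕ :=
  ((l.drop 2).take (l.getD 0 0), (l.drop 2).drop (l.getD 0 0))

theorem ptf_parseW : PTF parseW := by
  have h0 : PTF (fun l : List ℕ => l.getD 0 0) :=
    PTF.getD (PTU.const 0) PTF.id (PTF.const 0)
  have h2 : PTF (fun l : List ℕ => l.drop 2) := PTF.drop (PTU.const 2) PTF.id
  exact PTF.prodMk (ptf_take' h0 h2) (ptf_drop' h0 h2)

theorem parseW_eq {m n : ℕ} (rs : Fin m → ℕ) (cs : Fin n → ℕ) :
    parseW (m :: n :: (List.ofFn rs ++ List.ofFn cs)) = (List.ofFn rs, List.ofFn cs) := by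
  unfold parseW
  simp only [List.getD_cons_zero, List.drop_succ_cons, List.drop_zero, Prod.mk.injEq]
  constructor
  · exact List.take_left' (by simp)
  · exact List.drop_left' (by simp)

/-- the start configuration -/
def startC (a : ℕ) (l : List ℕ) : Conf Iface.Inst Tab :=
  (env len tau a (inst (parseW l).1 (parseW l).2),
    Sum.inl (nw (parseW l).1 (parseW l).2,
      ⟨(par len tau a (inst (parseW l).1 (parseW l).2)).T⟩))

theorem ptf_startC (hlen : PTU len) (htau : PTU tau) (a : ℕ) :
    PTF (startC (len := len) (tau := tau) a) := by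
  have h1 : PTF (fun l => (parseW l).1) := PTF.comp (g := fun p : List ℕ × List ℕ => p.1) PTF.fst
    ptf_parseW
  have h2 : PTF (fun l => (parseW l).2) := PTF.comp (g := fun p : List ℕ × List ℕ => p.2) PTF.snd
    ptf_parseW
  have hI : PTF (fun l => inst (parseW l).1 (parseW l).2) := ptf_inst h1 h2
  have hy := ptu_yy hlen htau
  have hK : PTU (fun I => (par len tau a I).K) := PTU.mul (PTU.const (2 ^ a)) hy
  have hT : PTU (fun I => (par len tau a I).T) := PTU.mul (PTU.add hK ptu_lgN) htau
  refine PTF.prodMk (PTF.comp (g := env len tau a) (ptf_env hlen htau a) hI)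
    (PTF.inl (PTF.prodMk (PTF.comp (g := fun p : List ℕ × List ℕ => nw p.1 p.2) ptf_nw ptf_parseW)
      (PTU.comp (n := fun I => (par len tau a I).T) hT hI)))

/-- the environment of a feasible unbounded instance is good -/
theorem good_env {rs cs : List ℕ} (a : ℕ)
    (hnw : IsTab (inst rs cs) (nw rs cs))
    (hcl : ∀ X, IsTab (inst rs cs) X → ∀ t : List Bool, t.length = len (inst rs cs) →
      IsTab (inst rs cs) (step (inst rs cs, X) t))
    (hmix : ∀ (m : ℕ) (φ : Tab → ℝ), (∀ Y, 0 ≤ φ Y ∧ φ Y ≤ 1) →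
      |(markov (fun Y t => step (inst rs cs, Y) t) (len (inst rs cs)))^[m * tau (inst rs cs)] φ
        (nw rs cs) - unif (inst rs cs) φ| ≤ (1 / 2 : ℝ) ^ m) :
    Good (tdata step) (env len tau a (inst rs cs))
      (enumT rs cs (2 ^ (par len tau a (inst rs cs)).D)) := by
  set I := inst rs cs with hI
  set p := par len tau a I with hp
  set tb := enumT rs cs (2 ^ p.D) with htb
  have hD : 2 ^ lgE rs cs ≤ 2 ^ p.D := by
    refine Nat.pow_le_pow_right (by norm_num) ?_
    show lgE rs cs ≤ lgE I.1 I.2.1 + len I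
    exact Nat.le_add_right _ _
  have hmem : ∀ X, X ∈ tb ↔ IsTab I X := fun X => mem_enumT hD X
  have hlen : tb.length ≤ 2 ^ p.lN := length_enumT_le hD
  have hnd : tb.Nodup := nodup_enumT hD
  have hst : nw rs cs ∈ tb := (hmem _).2 hnw
  have hcl' : ∀ x ∈ tb, ∀ l : List Bool, l.length = len I → step (I, x) l ∈ tb := fun x hx l hl =>
    (hmem _).2 (hcl x ((hmem x).1 hx) l hl)
  have hpos : 0 < tb.length := List.length_pos_of_mem hst
  refine ⟨hnd, hst, hcl', rfl, ?_, ?_, ?_, ?_, ?_⟩
  · show len I ≤ lgE I.1 I.2.1 + len I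
    exact Nat.le_add_left _ _
  · intro y hy
    show tb.length * (2 ^ p.K - 1) * law (fun X τ => step (I, X) τ) (len I) tb (nw rs cs) p.T y ≤
      2 ^ p.K * 2 ^ (len I * p.T)
    set lw := law (fun X τ => step (I, X) τ) (len I) tb (nw rs cs) p.T y with hlw
    -- the law as a probability
    have h1 := iterate_markov_eq_law (stp := fun X τ => step (I, X) τ) (R := len I) hnd hst hcl' p.T
      (fun z => ind (z = y))
    have h2 : ∑ z ∈ tb.toFinset, (law (fun X τ => step (I, X) τ) (len I) tb (nw rs cs) p.T z : ℝ) /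
        2 ^ (len I * p.T) * ind (z = y) = (lw : ℝ) / 2 ^ (len I * p.T) := by
      rw [Finset.sum_eq_single y]
      · rw [ind_of rfl, mul_one]
      · intro z _ hz
        rw [ind_of_not hz, mul_zero]
      · intro h
        exact absurd (by simpa using hy) h
    rw [h2] at h1
    have h3 := hmix (p.K + p.lN) (fun z => ind (z = y)) (fun z => ⟨ind_nonneg _, ind_le_one _⟩)
    have h4 : (p.K + p.lN) * tau I = p.T := rfl
    rw [h4, h1] at h3
    have h5 : unif I (fun z => ind (z = y)) = 1 / tb.length := by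
      unfold unif
      have hfs : tabs I = tb.toFinset := (toFinset_enumT hD).symm
      rw [hfs, List.toFinset_card_of_nodup hnd, Finset.sum_eq_single y]
      · rw [ind_of rfl]
      · intro z _ hz
        exact ind_of_not hz
      · intro h
        exact absurd (by simpa using hy) h
    rw [h5] at h3
    have h6 := (abs_le.1 h3).2
    have hN : (0 : ℝ) < tb.length := by exact_mod_cast hpos
    have hNle : (tb.length : ℝ) ≤ 2 ^ p.lN := by exact_mod_cast hlen
    have hM : (0 : ℝ) < 2 ^ (len I * p.T) := by positivity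
    have hKpos : (1 : ℝ) ≤ 2 ^ p.K := one_le_pow₀ (by norm_num)
    have h7 : (tb.length : ℝ) * (lw / 2 ^ (len I * p.T)) ≤ 1 + 1 / 2 ^ p.K := by
      have h8 : (lw : ℝ) / 2 ^ (len I * p.T) ≤ 1 / tb.length + (1 / 2) ^ (p.K + p.lN) := by
        linarith
      calc (tb.length : ℝ) * (lw / 2 ^ (len I * p.T))
          ≤ tb.length * (1 / tb.length + (1 / 2) ^ (p.K + p.lN)) :=
            mul_le_mul_of_nonneg_left h8 hN.le
        _ = 1 + tb.length * (1 / 2) ^ (p.K + p.lN) := by
            field_simp
        _ ≤ 1 + 2 ^ p.lN * (1 / 2) ^ (p.K + p.lN) := by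
            gcongr
        _ = 1 + 1 / 2 ^ p.K := by
            rw [pow_add, one_div_pow, one_div_pow]
            field_simp
    have h9 : ((tb.length : ℝ) * (2 ^ p.K - 1)) * lw ≤ 2 ^ p.K * 2 ^ (len I * p.T) := by
      have h10 : ((tb.length : ℝ) * (2 ^ p.K - 1)) * lw =
          (2 ^ p.K - 1) * (tb.length * (lw / 2 ^ (len I * p.T))) * 2 ^ (len I * p.T) := by
        field_simp
      rw [h10]
      refine mul_le_mul_of_nonneg_right ?_ hM.le
      calc ((2 : ℝ) ^ p.K - 1) * ((tb.length : ℝ) * ((lw : ℝ) / 2 ^ (len I * p.T)))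
          ≤ ((2 : ℝ) ^ p.K - 1) * (1 + 1 / 2 ^ p.K) :=
            mul_le_mul_of_nonneg_left h7 (by linarith)
        _ = (2 : ℝ) ^ p.K - 1 / 2 ^ p.K := by
            field_simp
            ring
        _ ≤ (2 : ℝ) ^ p.K := by
            have : (0 : ℝ) ≤ 1 / 2 ^ p.K := by positivity
            linarith
    have h11 : ((tb.length * (2 ^ p.K - 1) * lw : ℕ) : ℝ) ≤
        ((2 ^ p.K * 2 ^ (len I * p.T) : ℕ) : ℝ) := by
      push_cast
      rw [Nat.cast_sub Nat.one_le_two_pow]
      push_cast
      exact h9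
    exact_mod_cast h11
  · show len I ≤ len I * p.T + p.lN + p.K + len I + 1
    omega
  · show p.K ≤ len I * p.T + p.lN + p.K + len I + 1
    omega
  · show (tb.length * 2 ^ (len I * p.T)).size ≤ len I * p.T + p.lN + p.K + len I + 1
    rw [Nat.size_le]
    calc tb.length * 2 ^ (len I * p.T) ≤ 2 ^ p.lN * 2 ^ (len I * p.T) := Nat.mul_le_mul_right _ hlen
      _ = 2 ^ (len I * p.T + p.lN) := by rw [← pow_add, Nat.add_comm]
      _ < 2 ^ (len I * p.T + p.lN + p.K + len I + 1) := Nat.pow_lt_pow_right (by norm_num) (by omega)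

end

end Crest.Agent.R309.Exact9
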