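import Crest.Agent.R309.FeasMath
import Crest.Agent.Lib.PT.ArithMore
import Crest.Agent.Lib.PT.ListFns2

/-!
# Row 309: feasibility of bounded tables, the algorithm

Matrices are lists of lists; `get`, `tab`. `search`, `augment`, `maxflow`, `feasCore`.
-/

set_option autoImplicit false

namespace Crest.Agent.R309.Feas

open Finset Crest.Agent.Lib.PT

/-- matrices -/
abbrev Mat : Type := List (List ℕ)

/-- entry of a matrix (`0` outside) -/
def get (M : Mat) (i j : ℕ) : ℕ := (M.getD i []).getD j 0

/-- matrix from its entries -/
def tab (m n : ℕ) (f : ℕ → ℕ → ℕ) : Mat :=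
  (List.range m).map fun i => (List.range n).map fun j => f i j

theorem getD_map_range {α : Type} (m : ℕ) (f : ℕ → α) (i : ℕ) (d : α) (hi : i < m) :
    ((List.range m).map f).getD i d = f i := by
  rw [List.getD_eq_getElem?_getD, List.getElem?_map, List.getElem?_range hi]
  rfl

theorem get_tab {m n : ℕ} {f : ℕ → ℕ → ℕ} {i j : ℕ} (hi : i < m) (hj : j < n) :
    get (tab m n f) i j = f i j := by
  unfold get tab
  rw [getD_map_range _ _ _ _ hi, getD_map_range _ _ _ _ hj]

/-- all pairs of indices -/
def pairs (m n : ℕ) : List (ℕ × ℕ) := (List.range m).flatMap fun i => (List.range n).map fun j => (i, j)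

theorem mem_pairs {m n : ℕ} {p : ℕ × ℕ} : p ∈ pairs m n ↔ p.1 < m ∧ p.2 < n := by
  unfold pairs
  simp only [List.mem_flatMap, List.mem_range, List.mem_map]
  constructor
  · rintro ⟨i, hi, j, hj, rfl⟩
    exact ⟨hi, hj⟩
  · rintro ⟨hi, hj⟩
    exact ⟨p.1, hi, p.2, hj, rfl⟩

/-- add one unit in a cell (clipped by `b0`) -/
def inc (m n : ℕ) (b0 M : Mat) (i j : ℕ) : Mat :=
  tab m n fun i' j' => min (get M i' j' + if i' = i ∧ j' = j then 1 else 0) (get b0 i' j')

/-- remove one unit in a cell (clipped by `b0`) -/
def dec (m n : ℕ) (b0 M : Mat) (i j : ℕ) : Mat :=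
  tab m n fun i' j' => min (get M i' j' - if i' = i ∧ j' = j then 1 else 0) (get b0 i' j')

/-- change one entry of a list of options -/
def put {α : Type} (m : ℕ) (l : List (Option α)) (i : ℕ) (v : α) : List (Option α) :=
  (List.range m).map fun k => if k = i then some v else l.getD k none

theorem getD_put {α : Type} {m : ℕ} {l : List (Option α)} {i k : ℕ} {v : α} (hk : k < m) :
    (put m l i v).getD k none = if k = i then some v else l.getD k none := by
  unfold put
  rw [getD_map_range _ _ _ _ hk]

/-- state of the search: for every row and every column the augmented matrix if it is reached -/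
abbrev St : Type := List (Option Mat) × List (Option Mat)

/-- forward condition -/
def condC (b : Mat) (s : St) (p : ℕ × ℕ) : Bool :=
  (s.1.getD p.1 none).isSome && (!(s.2.getD p.2 none).isSome &&
    decide (get ((s.1.getD p.1 none).getD []) p.1 p.2 < get b p.1 p.2))

/-- backward condition -/
def condR (s : St) (p : ℕ × ℕ) : Bool :=
  (s.2.getD p.2 none).isSome && (!(s.1.getD p.1 none).isSome &&
    decide (0 < get ((s.2.getD p.2 none).getD []) p.1 p.2))

/-- one step of the search -/
def sstep (m n : ℕ) (b0 b : Mat) (s : St) : St :=
  match (pairs m n).find? (condC b s) with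
  | some p => (s.1, put n s.2 p.2 (inc m n b0 ((s.1.getD p.1 none).getD []) p.1 p.2))
  | none =>
    match (pairs m n).find? (condR s) with
    | some p => (put m s.1 p.1 (dec m n b0 ((s.2.getD p.2 none).getD []) p.1 p.2), s.2)
    | none => s

/-- row sum -/
def rowS (n : ℕ) (M : Mat) (i : ℕ) : ℕ := ∑ j ∈ range n, get M i j

/-- column sum -/
def colS (m : ℕ) (M : Mat) (j : ℕ) : ℕ := ∑ i ∈ range m, get M i j

/-- initial state -/
def sinit (m n : ℕ) (r : List ℕ) (Y : Mat) : St :=
  ((List.range m).map fun i => if rowS n Y i < r.getD i 0 then some Y else none,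
    (List.range n).map fun _ => none)

/-- final state of the search -/
def search (m n : ℕ) (b0 : Mat) (r : List ℕ) (b Y : Mat) : St :=
  (sstep m n b0 b)^[m + n] (sinit m n r Y)

/-- one augmentation, if possible -/
def augment (m n : ℕ) (b0 : Mat) (r c : List ℕ) (b Y : Mat) : Mat :=
  match (List.range n).find? (fun j => ((search m n b0 r b Y).2.getD j none).isSome &&
      decide (colS m Y j < c.getD j 0)) with
  | some j => ((search m n b0 r b Y).2.getD j none).getD []
  | none => Y

/-- the sub-table predicate for lists -/
abbrev SubL (m n : ℕ) (r c : List ℕ) (b Y : Mat) : Prop :=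
  Sub m n (fun i => r.getD i 0) (fun j => c.getD j 0) (get b) (get Y)

/-- invariant of the search -/
structure Inv (m n : ℕ) (r c : List ℕ) (b Y : Mat) (s : St) : Prop where
  rows : ∀ i < m, ∀ M, s.1.getD i none = some M → ∃ i0 < m, rowS n Y i0 < r.getD i0 0 ∧
    (∀ i' < m, rowS n M i' + (if i' = i then 1 else 0) = rowS n Y i' + if i' = i0 then 1 else 0) ∧
    (∀ j' < n, colS m M j' = colS m Y j') ∧ (∀ i' < m, ∀ j' < n, get M i' j' ≤ get b i' j') ∧
    (∀ i' < m, ∀ j' < n, s.1.getD i' none = none ∨ s.2.getD j' none = none →
      get M i' j' = get Y i' j')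
  cols : ∀ j < n, ∀ M, s.2.getD j none = some M → ∃ i0 < m, rowS n Y i0 < r.getD i0 0 ∧
    (∀ i' < m, rowS n M i' = rowS n Y i' + if i' = i0 then 1 else 0) ∧
    (∀ j' < n, colS m M j' = colS m Y j' + if j' = j then 1 else 0) ∧
    (∀ i' < m, ∀ j' < n, get M i' j' ≤ get b i' j') ∧
    (∀ i' < m, ∀ j' < n, s.1.getD i' none = none ∨ s.2.getD j' none = none →
      get M i' j' = get Y i' j')
  slack : ∀ i < m, s.1.getD i none = none → r.getD i 0 ≤ rowS n Y i

theorem get_inc {m n : ℕ} {b0 M : Mat} {i j i' j' : ℕ} (hi : i' < m) (hj : j' < n)
    (h : get M i' j' + (if i' = i ∧ j' = j then 1 else 0) ≤ get b0 i' j') :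
    get (inc m n b0 M i j) i' j' = get M i' j' + if i' = i ∧ j' = j then 1 else 0 := by
  unfold inc
  rw [get_tab hi hj, min_eq_left h]

theorem get_dec {m n : ℕ} {b0 M : Mat} {i j i' j' : ℕ} (hi : i' < m) (hj : j' < n)
    (h : get M i' j' ≤ get b0 i' j') :
    get (dec m n b0 M i j) i' j' = get M i' j' - if i' = i ∧ j' = j then 1 else 0 := by
  unfold dec
  rw [get_tab hi hj, min_eq_left (by omega)]

theorem rowS_inc {m n : ℕ} {b0 M : Mat} {i j i' : ℕ} (hj : j < n) (hi' : i' < m)
    (h : ∀ a < m, ∀ d < n, get M a d + (if a = i ∧ d = j then 1 else 0) ≤ get b0 a d) :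
    rowS n (inc m n b0 M i j) i' = rowS n M i' + if i' = i then 1 else 0 := by
  unfold rowS
  rw [sum_congr rfl fun d hd => get_inc hi' (mem_range.1 hd) (h i' hi' d (mem_range.1 hd)),
    sum_add_distrib]
  congr 1
  by_cases hii : i' = i
  · subst hii
    simp [hj]
  · simp [hii]

theorem colS_inc {m n : ℕ} {b0 M : Mat} {i j j' : ℕ} (hi : i < m) (hj' : j' < n)
    (h : ∀ a < m, ∀ d < n, get M a d + (if a = i ∧ d = j then 1 else 0) ≤ get b0 a d) :
    colS m (inc m n b0 M i j) j' = colS m M j' + if j' = j then 1 else 0 := by
  unfold colS
  rw [sum_congr rfl fun a ha => get_inc (mem_range.1 ha) hj' (h a (mem_range.1 ha) j' hj'),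
    sum_add_distrib]
  congr 1
  by_cases hjj : j' = j
  · subst hjj
    simp [hi]
  · simp [hjj]

theorem rowS_dec {m n : ℕ} {b0 M : Mat} {i j i' : ℕ} (hj : j < n) (hi' : i' < m)
    (h : ∀ a < m, ∀ d < n, get M a d ≤ get b0 a d) (hpos : 0 < get M i j) :
    rowS n (dec m n b0 M i j) i' + (if i' = i then 1 else 0) = rowS n M i' := by
  unfold rowS
  rw [sum_congr rfl fun d hd => get_dec hi' (mem_range.1 hd) (h i' hi' d (mem_range.1 hd))]
  by_cases hii : i' = i
  · subst hii
    have h1 : ∑ d ∈ range n, (if d = j then 1 else 0) = 1 := by simp [hj]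
    have h2 : ∑ d ∈ range n, (get M i' d - if i' = i' ∧ d = j then 1 else 0) +
        ∑ d ∈ range n, (if d = j then 1 else 0) = ∑ d ∈ range n, get M i' d := by
      rw [← sum_add_distrib]
      refine sum_congr rfl fun d _ => ?_
      by_cases hd : d = j
      · subst hd; simp only [and_self, if_true]; omega
      · simp [hd]
    rw [if_pos rfl, ← h2, h1]
  · simp [hii]

theorem colS_dec {m n : ℕ} {b0 M : Mat} {i j j' : ℕ} (hi : i < m) (hj' : j' < n)
    (h : ∀ a < m, ∀ d < n, get M a d ≤ get b0 a d) (hpos : 0 < get M i j) :
    colS m (dec m n b0 M i j) j' + (if j' = j then 1 else 0) = colS m M j' := by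
  unfold colS
  rw [sum_congr rfl fun a ha => get_dec (mem_range.1 ha) hj' (h a (mem_range.1 ha) j' hj')]
  by_cases hjj : j' = j
  · subst hjj
    have h1 : ∑ a ∈ range m, (if a = i then 1 else 0) = 1 := by simp [hi]
    have h2 : ∑ a ∈ range m, (get M a j' - if a = i ∧ j' = j' then 1 else 0) +
        ∑ a ∈ range m, (if a = i then 1 else 0) = ∑ a ∈ range m, get M a j' := by
      rw [← sum_add_distrib]
      refine sum_congr rfl fun a _ => ?_
      by_cases ha : a = i
      · subst ha; simp only [and_self, if_true]; omega
      · simp [ha]
    rw [if_pos rfl, ← h2, h1]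
  · simp [hjj]

theorem inv_sinit {m n : ℕ} {r c : List ℕ} {b Y : Mat} (h : SubL m n r c b Y) :
    Inv m n r c b Y (sinit m n r Y) where
  rows i hi M hM := by
    unfold sinit at hM
    simp only [getD_map_range _ _ _ _ hi] at hM
    split_ifs at hM with hlt
    obtain rfl := Option.some.inj hM
    exact ⟨i, hi, hlt, fun _ _ => rfl, fun _ _ => rfl, fun i' hi' j' hj' => h.le i' hi' j' hj',
      fun _ _ _ _ _ => rfl⟩
  cols j hj M hM := by
    unfold sinit at hM
    simp only [getD_map_range _ _ _ _ hj] at hM
    exact absurd hM (by simp)
  slack i hi hM := by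
    unfold sinit at hM
    simp only [getD_map_range _ _ _ _ hi] at hM
    split_ifs at hM with hlt
    omega

theorem isSome_getD {α : Type} {o : Option α} (d : α) (h : o.isSome = true) :
    o = some (o.getD d) := by
  cases o with
  | none => simp at h
  | some a => rfl

theorem inv_sstep {m n : ℕ} {r c : List ℕ} {b0 b Y : Mat} {s : St}
    (hb : ∀ i < m, ∀ j < n, get b i j ≤ get b0 i j) (h : Inv m n r c b Y s) :
    Inv m n r c b Y (sstep m n b0 b s) := by
  unfold sstep
  cases hC : (pairs m n).find? (condC b s) with
  | some p =>
    simp only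
    have hp := List.mem_of_find?_eq_some hC
    have hc := List.find?_some hC
    obtain ⟨hi, hj⟩ := mem_pairs.1 hp
    obtain ⟨i, j⟩ := p
    simp only at hi hj
    unfold condC at hc
    simp only [Bool.and_eq_true, Bool.not_eq_true', decide_eq_true_eq] at hc
    obtain ⟨h1, h2, h3⟩ := hc
    have h1' := isSome_getD [] h1
    set M := (s.1.getD i none).getD [] with hMdef
    have h2' : s.2.getD j none = none := by simpa using h2
    obtain ⟨i0, hi0, hsl, hrow, hcol, hle, hag⟩ := h.rows i hi M h1'
    have hclip : ∀ a < m, ∀ d < n, get M a d + (if a = i ∧ d = j then 1 else 0) ≤ get b0 a d := by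
      intro a ha d hd
      split_ifs with hh
      · obtain ⟨rfl, rfl⟩ := hh
        have := hb a ha d hd
        omega
      · have := hle a ha d hd
        have := hb a ha d hd
        omega
    refine ⟨?_, ?_, ?_⟩
    · intro i' hi' M' hM'
      obtain ⟨i0', hi0', hsl', hrow', hcol', hle', hag'⟩ := h.rows i' hi' M' hM'
      refine ⟨i0', hi0', hsl', hrow', hcol', hle', fun a ha d hd hh => hag' a ha d hd ?_⟩
      rcases hh with hh | hh
      · exact Or.inl hh
      · right
        rw [getD_put hd] at hh
        split_ifs at hh
        exact hh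
    · intro j' hj' M' hM'
      rw [getD_put hj'] at hM'
      split_ifs at hM' with hjj
      · subst hjj
        obtain rfl := Option.some.inj hM'
        refine ⟨i0, hi0, hsl, ?_, ?_, ?_, ?_⟩
        · intro a ha
          rw [rowS_inc hj ha hclip]
          exact hrow a ha
        · intro d hd
          rw [colS_inc hi hd hclip, hcol d hd]
        · intro a ha d hd
          rw [get_inc ha hd (hclip a ha d hd)]
          split_ifs with hh
          · obtain ⟨rfl, rfl⟩ := hh
            omega
          · have := hle a ha d hd
            omega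
        · intro a ha d hd hh
          rw [get_inc ha hd (hclip a ha d hd)]
          have hne : ¬ (a = i ∧ d = j') := by
            rintro ⟨rfl, rfl⟩
            rcases hh with hh | hh
            · rw [h1'] at hh; exact absurd hh (by simp)
            · rw [getD_put hd, if_pos rfl] at hh; exact absurd hh (by simp)
          rw [if_neg hne]
          refine hag a ha d hd ?_
          rcases hh with hh | hh
          · exact Or.inl hh
          · right
            rw [getD_put hd] at hh
            split_ifs at hh
            exact hh
      · obtain ⟨i0', hi0', hsl', hrow', hcol', hle', hag'⟩ := h.cols j' hj' M' hM'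
        refine ⟨i0', hi0', hsl', hrow', hcol', hle', fun a ha d hd hh => hag' a ha d hd ?_⟩
        rcases hh with hh | hh
        · exact Or.inl hh
        · right
          rw [getD_put hd] at hh
          split_ifs at hh
          exact hh
    · exact h.slack
  | none =>
    simp only
    cases hR : (pairs m n).find? (condR s) with
    | none => exact h
    | some p =>
      simp only
      have hp := List.mem_of_find?_eq_some hR
      have hc := List.find?_some hR
      obtain ⟨hi, hj⟩ := mem_pairs.1 hp
      obtain ⟨i, j⟩ := p
      simp only at hi hj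
      unfold condR at hc
      simp only [Bool.and_eq_true, Bool.not_eq_true', decide_eq_true_eq] at hc
      obtain ⟨h1, h2, h3⟩ := hc
      have h1' := isSome_getD [] h1
      set M := (s.2.getD j none).getD [] with hMdef
      have h2' : s.1.getD i none = none := by simpa using h2
      obtain ⟨i0, hi0, hsl, hrow, hcol, hle, hag⟩ := h.cols j hj M h1'
      have hclip : ∀ a < m, ∀ d < n, get M a d ≤ get b0 a d := fun a ha d hd =>
        (hle a ha d hd).trans (hb a ha d hd)
      refine ⟨?_, ?_, ?_⟩
      · intro i' hi' M' hM'
        rw [getD_put hi'] at hM'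
        split_ifs at hM' with hii
        · subst hii
          obtain rfl := Option.some.inj hM'
          refine ⟨i0, hi0, hsl, ?_, ?_, ?_, ?_⟩
          · intro a ha
            rw [rowS_dec hj ha hclip h3]
            exact hrow a ha
          · intro d hd
            have e1 := colS_dec (b0 := b0) hi hd hclip h3
            have e2 := hcol d hd
            change colS m (dec m n b0 M i' j) d = _
            omega
          · intro a ha d hd
            rw [get_dec ha hd (hclip a ha d hd)]
            exact (Nat.sub_le _ _).trans (hle a ha d hd)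
          · intro a ha d hd hh
            rw [get_dec ha hd (hclip a ha d hd)]
            have hne : ¬ (a = i' ∧ d = j) := by
              rintro ⟨rfl, rfl⟩
              rcases hh with hh | hh
              · rw [getD_put ha, if_pos rfl] at hh; exact absurd hh (by simp)
              · rw [h1'] at hh; exact absurd hh (by simp)
            rw [if_neg hne, Nat.sub_zero]
            refine hag a ha d hd ?_
            rcases hh with hh | hh
            · left
              rw [getD_put ha] at hh
              split_ifs at hh
              exact hh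
            · exact Or.inr hh
        · obtain ⟨i0', hi0', hsl', hrow', hcol', hle', hag'⟩ := h.rows i' hi' M' hM'
          refine ⟨i0', hi0', hsl', hrow', hcol', hle', fun a ha d hd hh => hag' a ha d hd ?_⟩
          rcases hh with hh | hh
          · left
            rw [getD_put ha] at hh
            split_ifs at hh
            exact hh
          · exact Or.inr hh
      · intro j' hj' M' hM'
        obtain ⟨i0', hi0', hsl', hrow', hcol', hle', hag'⟩ := h.cols j' hj' M' hM'
        refine ⟨i0', hi0', hsl', hrow', hcol', hle', fun a ha d hd hh => hag' a ha d hd ?_⟩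
        rcases hh with hh | hh
        · left
          rw [getD_put ha] at hh
          split_ifs at hh
          exact hh
        · exact Or.inr hh
      · intro i' hi' hh
        rw [getD_put hi'] at hh
        split_ifs at hh with hii
        exact h.slack i' hi' hh

/-- number of reached nodes -/
def reached (m n : ℕ) (s : St) : ℕ :=
  ((range m).filter fun i => (s.1.getD i none).isSome = true).card +
    ((range n).filter fun j => (s.2.getD j none).isSome = true).card

theorem reached_le (m n : ℕ) (s : St) : reached m n s ≤ m + n := by
  unfold reached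
  have h1 := card_filter_le (range m) fun i => (s.1.getD i none).isSome = true
  have h2 := card_filter_le (range n) fun j => (s.2.getD j none).isSome = true
  simp only [card_range] at h1 h2
  omega

theorem card_put {α : Type} {m : ℕ} {l : List (Option α)} {i : ℕ} {v : α} (hi : i < m)
    (h : l.getD i none = none) :
    ((range m).filter fun k => (l.getD k none).isSome = true).card <
      ((range m).filter fun k => ((put m l i v).getD k none).isSome = true).card := by
  refine card_lt_card ⟨?_, ?_⟩
  · intro k hk
    simp only [mem_filter, mem_range] at hk ⊢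
    refine ⟨hk.1, ?_⟩
    rw [getD_put hk.1]
    split_ifs
    · rfl
    · exact hk.2
  · intro hsub
    have : i ∈ (range m).filter fun k => ((put m l i v).getD k none).isSome = true := by
      simp only [mem_filter, mem_range]
      refine ⟨hi, ?_⟩
      rw [getD_put hi, if_pos rfl]
      rfl
    have := hsub this
    simp only [mem_filter, mem_range, h] at this
    exact absurd this.2 (by simp)

theorem sstep_progress (m n : ℕ) (b0 b : Mat) (s : St) :
    sstep m n b0 b s = s ∨ reached m n s < reached m n (sstep m n b0 b s) := by
  unfold sstep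
  cases hC : (pairs m n).find? (condC b s) with
  | some p =>
    simp only
    have hp := List.mem_of_find?_eq_some hC
    have hc := List.find?_some hC
    obtain ⟨hi, hj⟩ := mem_pairs.1 hp
    unfold condC at hc
    simp only [Bool.and_eq_true, Bool.not_eq_true', decide_eq_true_eq] at hc
    right
    unfold reached
    have := card_put (l := s.2) (v := inc m n b0 ((s.1.getD p.1 none).getD []) p.1 p.2) hj
      (by simpa using hc.2.1)
    simp only
    omega
  | none =>
    simp only
    cases hR : (pairs m n).find? (condR s) with
    | none => left; rfl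
    | some p =>
      simp only
      have hp := List.mem_of_find?_eq_some hR
      have hc := List.find?_some hR
      obtain ⟨hi, hj⟩ := mem_pairs.1 hp
      unfold condR at hc
      simp only [Bool.and_eq_true, Bool.not_eq_true', decide_eq_true_eq] at hc
      right
      unfold reached
      have := card_put (l := s.1) (v := dec m n b0 ((s.2.getD p.2 none).getD []) p.1 p.2) hi
        (by simpa using hc.2.1)
      simp only
      omega

theorem put_ne {α : Type} {m : ℕ} {l : List (Option α)} {i : ℕ} {v : α} (hi : i < m)
    (h : l.getD i none = none) : put m l i v ≠ l := by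
  intro e
  have : (put m l i v).getD i none = l.getD i none := by rw [e]
  rw [getD_put hi, if_pos rfl, h] at this
  exact absurd this (by simp)

/-- a fixed state is closed -/
theorem closed_of_fixed {m n : ℕ} {b0 b : Mat} {s : St} (h : sstep m n b0 b s = s) :
    (∀ i < m, ∀ j < n, condC b s (i, j) = false) ∧ (∀ i < m, ∀ j < n, condR s (i, j) = false) := by
  unfold sstep at h
  cases hC : (pairs m n).find? (condC b s) with
  | some p =>
    exfalso
    rw [hC] at h
    simp only at h
    have hp := List.mem_of_find?_eq_some hC
    have hc := List.find?_some hC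
    obtain ⟨hi, hj⟩ := mem_pairs.1 hp
    unfold condC at hc
    simp only [Bool.and_eq_true, Bool.not_eq_true', decide_eq_true_eq] at hc
    have := congrArg Prod.snd h
    exact put_ne hj (by simpa using hc.2.1) this
  | none =>
    rw [hC] at h
    simp only at h
    cases hR : (pairs m n).find? (condR s) with
    | some p =>
      exfalso
      rw [hR] at h
      simp only at h
      have hp := List.mem_of_find?_eq_some hR
      have hc := List.find?_some hR
      obtain ⟨hi, hj⟩ := mem_pairs.1 hp
      unfold condR at hc
      simp only [Bool.and_eq_true, Bool.not_eq_true', decide_eq_true_eq] at hc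
      have := congrArg Prod.fst h
      exact put_ne hi (by simpa using hc.2.1) this
    | none =>
      rw [List.find?_eq_none] at hC hR
      refine ⟨fun i hi j hj => ?_, fun i hi j hj => ?_⟩
      · simpa using hC (i, j) (mem_pairs.2 ⟨hi, hj⟩)
      · simpa using hR (i, j) (mem_pairs.2 ⟨hi, hj⟩)

theorem search_inv {m n : ℕ} {r c : List ℕ} {b0 b Y : Mat}
    (hb : ∀ i < m, ∀ j < n, get b i j ≤ get b0 i j) (h : SubL m n r c b Y) :
    Inv m n r c b Y (search m n b0 r b Y) := by
  unfold search
  have : ∀ k, Inv m n r c b Y ((sstep m n b0 b)^[k] (sinit m n r Y)) := by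
    intro k
    induction k with
    | zero => exact inv_sinit h
    | succ k ih => rw [Function.iterate_succ_apply']; exact inv_sstep hb ih
  exact this _

theorem search_fixed (m n : ℕ) (r : List ℕ) (b0 b Y : Mat) :
    sstep m n b0 b (search m n b0 r b Y) = search m n b0 r b Y :=
  iterate_fixed_of_measure (sstep m n b0 b) (fun _ => True) (reached m n) (m + n)
    (fun _ _ => trivial) (fun s _ => sstep_progress m n b0 b s) (fun s _ => reached_le m n s)
    (sinit m n r Y) trivial

/-- `Y` meets a cut -/
def HasCut (m n : ℕ) (r c : List ℕ) (b Y : Mat) : Prop :=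
  ∃ S T : ℕ → Bool, cut m n (fun i => r.getD i 0) (fun j => c.getD j 0) (get b) S T ≤
    tot m n (get Y)

theorem HasCut.max {m n : ℕ} {r c : List ℕ} {b Y : Mat} (h : HasCut m n r c b Y)
    {Y' : ℕ → ℕ → ℕ} (h' : Sub m n (fun i => r.getD i 0) (fun j => c.getD j 0) (get b) Y') :
    tot m n Y' ≤ tot m n (get Y) := by
  obtain ⟨S, T, hc⟩ := h
  exact (tot_le_cut h' S T).trans hc

theorem augment_spec {m n : ℕ} {r c : List ℕ} {b0 b Y : Mat}
    (hb : ∀ i < m, ∀ j < n, get b i j ≤ get b0 i j) (h : SubL m n r c b Y) :
    (SubL m n r c b (augment m n b0 r c b Y) ∧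
      tot m n (get (augment m n b0 r c b Y)) = tot m n (get Y) + 1) ∨
    (augment m n b0 r c b Y = Y ∧ HasCut m n r c b Y) := by
  have hinv := search_inv (b0 := b0) hb h
  have hfix := search_fixed m n r b0 b Y
  set s := search m n b0 r b Y with hs
  unfold augment
  rw [← hs]
  cases hf : (List.range n).find? (fun j => (s.2.getD j none).isSome &&
      decide (colS m Y j < c.getD j 0)) with
  | some j =>
    left
    simp only
    have hj := List.mem_range.1 (List.mem_of_find?_eq_some hf)
    have hc := List.find?_some hf
    simp only [Bool.and_eq_true, decide_eq_true_eq] at hc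
    obtain ⟨h1, h2⟩ := hc
    have h1' := isSome_getD [] h1
    set M := (s.2.getD j none).getD [] with hM
    obtain ⟨i0, hi0, hsl, hrow, hcol, hle, _⟩ := hinv.cols j hj M h1'
    refine ⟨⟨hle, ?_, ?_⟩, ?_⟩
    · intro i hi
      have e := hrow i hi
      have e2 : ∑ j ∈ range n, get Y i j ≤ r.getD i 0 := h.row i hi
      change ∑ j ∈ range n, get M i j ≤ r.getD i 0
      unfold rowS at e hsl
      split_ifs at e with hh
      · subst hh; omega
      · omega
    · intro j' hj'
      have e := hcol j' hj'
      have e2 : ∑ i ∈ range m, get Y i j' ≤ c.getD j' 0 := h.col j' hj'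
      change ∑ i ∈ range m, get M i j' ≤ c.getD j' 0
      unfold colS at e h2
      split_ifs at e with hh
      · subst hh; omega
      · omega
    · unfold tot
      have : ∀ i ∈ range m, ∑ j ∈ range n, get M i j = (∑ j ∈ range n, get Y i j) +
          if i = i0 then 1 else 0 := fun i hi => hrow i (mem_range.1 hi)
      rw [sum_congr rfl this, sum_add_distrib]
      simp [hi0]
  | none =>
    right
    refine ⟨rfl, fun i => (s.1.getD i none).isSome, fun j => (s.2.getD j none).isSome, ?_⟩
    obtain ⟨hcC, hcR⟩ := closed_of_fixed hfix
    rw [List.find?_eq_none] at hf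
    refine (cut_eq_tot ?_ ?_ ?_ ?_).le
    · intro i hi hS
      have h1 := hinv.slack i hi (by simpa using hS)
      exact le_antisymm (h.row i hi) h1
    · intro j hj hT
      have := hf j (List.mem_range.2 hj)
      simp only [hT, Bool.true_and, decide_eq_true_eq, not_lt] at this
      exact le_antisymm (h.col j hj) this
    · intro i hi j hj hS hT
      have h1 := hcC i hi j hj
      unfold condC at h1
      change (s.1.getD i none).isSome = true at hS
      change (s.2.getD j none).isSome = false at hT
      simp only [hS, hT, Bool.true_and, Bool.not_false, decide_eq_false_iff_not, not_lt] at h1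
      have h1' := isSome_getD [] hS
      obtain ⟨i0, _, _, _, _, _, hag⟩ := hinv.rows i hi _ h1'
      have := hag i hi j hj (Or.inr (by simpa using hT))
      rw [this] at h1
      exact le_antisymm (h.le i hi j hj) h1
    · intro i hi j hj hS hT
      have h1 := hcR i hi j hj
      unfold condR at h1
      change (s.1.getD i none).isSome = false at hS
      change (s.2.getD j none).isSome = true at hT
      simp only [hS, hT, Bool.true_and, Bool.not_false, decide_eq_false_iff_not, not_lt,
        Nat.le_zero] at h1
      have h1' := isSome_getD [] hT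
      obtain ⟨i0, _, _, _, _, _, hag⟩ := hinv.cols j hj _ h1'
      have := hag i hi j hj (Or.inl (by simpa using hS))
      rw [this] at h1
      exact h1

end Crest.Agent.R309.Feas
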