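import Crest.Agent.R309.FeasAlg

/-!
# Row 309: feasibility of bounded tables: maximum flow by capacity scaling

`maxflow`, `flow`, `feasCore`, `feasCore_spec`.
-/

set_option autoImplicit false

namespace Crest.Agent.R309.Feas

open Finset Crest.Agent.Lib.PT

/-- number of augmentations per scale -/
def steps (m n : ℕ) : ℕ := m * (n + 1) + n

/-- repeated augmentation -/
def maxflow (m n : ℕ) (b0 : Mat) (r c : List ℕ) (b Y : Mat) : Mat :=
  (augment m n b0 r c b)^[steps m n] Y

theorem augment_iter {m n : ℕ} {r c : List ℕ} {b0 b Y : Mat}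
    (hb : ∀ i < m, ∀ j < n, get b i j ≤ get b0 i j) (h : SubL m n r c b Y) (k : ℕ) :
    SubL m n r c b ((augment m n b0 r c b)^[k] Y) ∧
      (tot m n (get Y) + k ≤ tot m n (get ((augment m n b0 r c b)^[k] Y)) ∨
        HasCut m n r c b ((augment m n b0 r c b)^[k] Y)) := by
  induction k with
  | zero => exact ⟨h, Or.inl (by simp)⟩
  | succ k ih =>
    rw [Function.iterate_succ_apply']
    obtain ⟨h1, h2⟩ := ih
    rcases augment_spec (b0 := b0) hb h1 with ⟨h3, h4⟩ | ⟨h3, h4⟩
    · refine ⟨h3, ?_⟩
      rcases h2 with h2 | h2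
      · left; omega
      · exfalso
        have := h2.max h3
        omega
    · rw [h3]
      exact ⟨h1, Or.inr h4⟩

theorem maxflow_spec {m n : ℕ} {r c : List ℕ} {b0 b Y : Mat}
    (hb : ∀ i < m, ∀ j < n, get b i j ≤ get b0 i j) (h : SubL m n r c b Y) {S T : ℕ → Bool}
    (hcut : cut m n (fun i => r.getD i 0) (fun j => c.getD j 0) (get b) S T ≤
      tot m n (get Y) + steps m n) :
    SubL m n r c b (maxflow m n b0 r c b Y) ∧ HasCut m n r c b (maxflow m n b0 r c b Y) := by
  obtain ⟨h1, h2⟩ := augment_iter (b0 := b0) hb h (steps m n)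
  refine ⟨h1, ?_⟩
  rcases h2 with h2 | h2
  · exact ⟨S, T, by unfold maxflow; omega⟩
  · exact h2

/-- scaled list -/
def scL (k : ℕ) (l : List ℕ) : List ℕ := l.map fun x => x / 2 ^ k

/-- scaled matrix -/
def scM (k : ℕ) (M : Mat) : Mat := M.map fun l => l.map fun x => x / 2 ^ k

theorem getD_map' {α β : Type} (f : α → β) (l : List α) (i : ℕ) (d : α) :
    (l.map f).getD i (f d) = f (l.getD i d) := by
  simp [List.getD_eq_getElem?_getD]

theorem getD_scL (k : ℕ) (l : List ℕ) (i : ℕ) : (scL k l).getD i 0 = l.getD i 0 / 2 ^ k := by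
  have := getD_map' (fun x => x / 2 ^ k) l i 0
  simpa [scL] using this

theorem get_scM (k : ℕ) (M : Mat) (i j : ℕ) : get (scM k M) i j = get M i j / 2 ^ k := by
  unfold get scM
  have h1 := getD_map' (fun l : List ℕ => l.map fun x => x / 2 ^ k) M i []
  simp only [List.map_nil] at h1
  rw [h1]
  have h2 := getD_map' (fun x => x / 2 ^ k) (M.getD i []) j 0
  simpa using h2

/-- doubled matrix, clipped -/
def dbl (m n : ℕ) (b0 Y : Mat) : Mat := tab m n fun i j => min (2 * get Y i j) (get b0 i j)

/-- one scale: the first component is the current scale -/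
def fstep (m n : ℕ) (b0 : Mat) (r c : List ℕ) (b : Mat) (s : Un × Mat) : Un × Mat :=
  (⟨s.1.val - 1⟩, maxflow m n b0 (scL (s.1.val - 1) r) (scL (s.1.val - 1) c)
    (scM (s.1.val - 1) b) (dbl m n b0 s.2))

/-- zero matrix -/
def zeroM (m n : ℕ) : Mat := tab m n fun _ _ => 0

/-- number of scales -/
def scales (r : List ℕ) : ℕ := sz r

/-- the maximum flow -/
def flow (m n : ℕ) (r c : List ℕ) (b : Mat) : Mat :=
  ((fstep m n b r c b)^[scales r] (⟨scales r⟩, zeroM m n)).2

theorem getD_lt_two_pow (r : List ℕ) (i : ℕ) : r.getD i 0 < 2 ^ scales r := by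
  unfold scales
  by_cases h : i < r.length
  · have hm : r.getD i 0 ∈ r := by
      rw [List.getD_eq_getElem?_getD, List.getElem?_eq_getElem h]
      simp
    have h1 := sz_mem_le hm
    rw [sz_nat] at h1
    calc r.getD i 0 < 2 ^ (r.getD i 0).size := Nat.lt_size_self _
      _ ≤ _ := Nat.pow_le_pow_right (by norm_num) h1
  · rw [List.getD_eq_getElem?_getD, List.getElem?_eq_none (by omega)]
    simp

theorem div_succ_le (x k : ℕ) : 2 * (x / 2 ^ (k + 1)) ≤ x / 2 ^ k ∧
    x / 2 ^ k ≤ 2 * (x / 2 ^ (k + 1)) + 1 := by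
  rw [pow_succ, ← Nat.div_div_eq_div_mul]
  omega

theorem flow_iter {m n : ℕ} {r c : List ℕ} {b : Mat} (k : ℕ) (hk : k ≤ scales r) :
    ((fstep m n b r c b)^[k] (⟨scales r⟩, zeroM m n)).1.val = scales r - k ∧
    SubL m n (scL (scales r - k) r) (scL (scales r - k) c) (scM (scales r - k) b)
      ((fstep m n b r c b)^[k] (⟨scales r⟩, zeroM m n)).2 ∧
    HasCut m n (scL (scales r - k) r) (scL (scales r - k) c) (scM (scales r - k) b)
      ((fstep m n b r c b)^[k] (⟨scales r⟩, zeroM m n)).2 := by
  induction k with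
  | zero =>
    have hz : ∀ i < m, ∀ j < n, get (zeroM m n) i j = 0 := fun i hi j hj => by
      unfold zeroM
      rw [get_tab hi hj]
    refine ⟨rfl, ⟨?_, ?_, ?_⟩, fun _ => false, fun _ => false, ?_⟩
    · intro i hi j hj
      simp only [Function.iterate_zero, id_eq]
      rw [hz i hi j hj]
      exact Nat.zero_le _
    · intro i hi
      simp only [Function.iterate_zero, id_eq]
      rw [sum_eq_zero fun j hj => hz i hi j (mem_range.1 hj)]
      exact Nat.zero_le _
    · intro j hj
      simp only [Function.iterate_zero, id_eq]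
      rw [sum_eq_zero fun i hi => hz i (mem_range.1 hi) j hj]
      exact Nat.zero_le _
    · unfold cut
      simp only [Bool.false_eq_true, if_false, sum_const_zero, add_zero, getD_scL, Nat.sub_zero]
      rw [sum_eq_zero]
      · exact Nat.zero_le _
      · intro i _
        exact Nat.div_eq_of_lt (getD_lt_two_pow r i)
  | succ k ih =>
    obtain ⟨h1, h2, S, T, h3⟩ := ih (by omega)
    rw [Function.iterate_succ_apply']
    set s := (fstep m n b r c b)^[k] (⟨scales r⟩, zeroM m n) with hs
    have hk' : scales r - k = (scales r - (k + 1)) + 1 := by omega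
    set t := scales r - (k + 1) with ht
    have hs1 : s.1.val - 1 = t := by omega
    have hbt : ∀ i < m, ∀ j < n, get (scM t b) i j ≤ get b i j := fun i _ j _ => by
      rw [get_scM]
      exact Nat.div_le_self _ _
    have hdb : ∀ i < m, ∀ j < n, get (dbl m n b s.2) i j = 2 * get s.2 i j := by
      intro i hi j hj
      unfold dbl
      rw [get_tab hi hj]
      refine min_eq_left ?_
      have e1 := h2.le i hi j hj
      rw [get_scM, hk'] at e1
      have e2 := (div_succ_le (get b i j) t).1
      have e3 := Nat.div_le_self (get b i j) (2 ^ t)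
      omega
    have hsub : SubL m n (scL t r) (scL t c) (scM t b) (dbl m n b s.2) := by
      refine ⟨?_, ?_, ?_⟩
      · intro i hi j hj
        rw [hdb i hi j hj, get_scM]
        have e1 := h2.le i hi j hj
        rw [get_scM, hk'] at e1
        have e2 := (div_succ_le (get b i j) t).1
        omega
      · intro i hi
        rw [sum_congr rfl fun j hj => hdb i hi j (mem_range.1 hj), ← mul_sum, getD_scL]
        have e1 : ∑ j ∈ range n, get s.2 i j ≤ (scL (scales r - k) r).getD i 0 := h2.row i hi
        rw [getD_scL, hk'] at e1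
        have e2 := (div_succ_le (r.getD i 0) t).1
        omega
      · intro j hj
        rw [sum_congr rfl fun i hi => hdb i (mem_range.1 hi) j hj, ← mul_sum, getD_scL]
        have e1 : ∑ i ∈ range m, get s.2 i j ≤ (scL (scales r - k) c).getD j 0 := h2.col j hj
        rw [getD_scL, hk'] at e1
        have e2 := (div_succ_le (c.getD j 0) t).1
        omega
    have htot : tot m n (get (dbl m n b s.2)) = 2 * tot m n (get s.2) := by
      rw [← tot_double]
      exact tot_congr hdb
    have hcut : cut m n (fun i => (scL t r).getD i 0) (fun j => (scL t c).getD j 0)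
        (get (scM t b)) S T ≤ tot m n (get (dbl m n b s.2)) + steps m n := by
      rw [htot]
      have e := cut_scale (m := m) (n := n) (r := fun i => (scL (scales r - k) r).getD i 0)
        (c := fun j => (scL (scales r - k) c).getD j 0) (b := get (scM (scales r - k) b))
        (r' := fun i => (scL t r).getD i 0) (c' := fun j => (scL t c).getD j 0)
        (b' := get (scM t b)) S T
        (fun i _ => by
          simp only [getD_scL]
          rw [hk']
          exact (div_succ_le _ t).2)
        (fun j _ => by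
          simp only [getD_scL]
          rw [hk']
          exact (div_succ_le _ t).2)
        (fun i _ j _ => by
          rw [get_scM, get_scM, hk']
          exact (div_succ_le _ t).2)
      unfold steps
      omega
    have hm := maxflow_spec (b0 := b) hbt hsub hcut
    unfold fstep
    rw [hs1]
    exact ⟨rfl, hm⟩

theorem flow_spec {m n : ℕ} {r c : List ℕ} {b : Mat} :
    SubL m n r c b (flow m n r c b) ∧ HasCut m n r c b (flow m n r c b) := by
  obtain ⟨_, h1, h2⟩ := flow_iter (m := m) (n := n) (r := r) (c := c) (b := b) (scales r) le_rfl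
  have e1 : ∀ l : List ℕ, scL 0 l = l := fun l => by unfold scL; simp
  have e2 : scM 0 b = b := by unfold scM; simp
  rw [Nat.sub_self, e1, e1, e2] at h1 h2
  exact ⟨h1, h2⟩

/-- total of the first `m` entries -/
def sumTo (m : ℕ) (r : List ℕ) : ℕ := ∑ i ∈ range m, r.getD i 0

/-- total of a matrix given by a list -/
def totL (m n : ℕ) (Y : Mat) : ℕ := ∑ i ∈ range m, ∑ j ∈ range n, get Y i j

/-- the feasibility procedure -/
def feasCore (m n : ℕ) (r c : List ℕ) (b : Mat) : Option Mat :=
  if sumTo m r = sumTo n c ∧ totL m n (flow m n r c b) = sumTo m r then some (flow m n r c b)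
  else none

/-- exact tables -/
structure Tab (m n : ℕ) (r c : ℕ → ℕ) (b Y : ℕ → ℕ → ℕ) : Prop where
  le : ∀ i < m, ∀ j < n, Y i j ≤ b i j
  row : ∀ i < m, ∑ j ∈ range n, Y i j = r i
  col : ∀ j < n, ∑ i ∈ range m, Y i j = c j

theorem Tab.sub {m n : ℕ} {r c : ℕ → ℕ} {b Y : ℕ → ℕ → ℕ} (h : Tab m n r c b Y) :
    Sub m n r c b Y := ⟨h.le, fun i hi => (h.row i hi).le, fun j hj => (h.col j hj).le⟩

theorem Tab.tot {m n : ℕ} {r c : ℕ → ℕ} {b Y : ℕ → ℕ → ℕ} (h : Tab m n r c b Y) :
    Feas.tot m n Y = ∑ i ∈ range m, r i ∧ ∑ i ∈ range m, r i = ∑ j ∈ range n, c j := by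
  unfold Feas.tot
  have h1 : ∑ i ∈ range m, ∑ j ∈ range n, Y i j = ∑ i ∈ range m, r i :=
    sum_congr rfl fun i hi => h.row i (mem_range.1 hi)
  refine ⟨h1, ?_⟩
  rw [← h1, sum_comm]
  exact sum_congr rfl fun j hj => h.col j (mem_range.1 hj)

theorem feasCore_some {m n : ℕ} {r c : List ℕ} {b X : Mat} (h : feasCore m n r c b = some X) :
    Tab m n (fun i => r.getD i 0) (fun j => c.getD j 0) (get b) (get X) := by
  unfold feasCore at h
  split_ifs at h with hc
  obtain rfl := Option.some.inj h
  obtain ⟨h1, h2⟩ := hc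
  obtain ⟨hs, _⟩ := flow_spec (m := m) (n := n) (r := r) (c := c) (b := b)
  set Y := flow m n r c b with hY
  refine ⟨hs.le, ?_, ?_⟩
  · have e : ∑ i ∈ range m, ∑ j ∈ range n, get Y i j = ∑ i ∈ range m, r.getD i 0 := h2
    have := (sum_eq_sum_iff_of_le (fun i hi => hs.row i (mem_range.1 hi))).1 e
    intro i hi
    exact this i (mem_range.2 hi)
  · have e : ∑ j ∈ range n, ∑ i ∈ range m, get Y i j = ∑ j ∈ range n, c.getD j 0 := by
      rw [sum_comm]
      exact h2.trans h1
    have := (sum_eq_sum_iff_of_le (fun j hj => hs.col j (mem_range.1 hj))).1 e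
    intro j hj
    exact this j (mem_range.2 hj)

theorem feasCore_none {m n : ℕ} {r c : List ℕ} {b : Mat} (h : feasCore m n r c b = none)
    (Y : ℕ → ℕ → ℕ) : ¬ Tab m n (fun i => r.getD i 0) (fun j => c.getD j 0) (get b) Y := by
  intro hY
  unfold feasCore at h
  split_ifs at h with hc
  obtain ⟨e1, e2⟩ := hY.tot
  obtain ⟨hs, hcut⟩ := flow_spec (m := m) (n := n) (r := r) (c := c) (b := b)
  refine hc ⟨e2, ?_⟩
  have h1 := hcut.max hY.sub
  have h2 : tot m n (get (flow m n r c b)) ≤ ∑ i ∈ range m, r.getD i 0 :=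
    sum_le_sum fun i hi => hs.row i (mem_range.1 hi)
  unfold totL sumTo
  unfold Feas.tot at h1 h2 e1
  omega

end Crest.Agent.R309.Feas
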