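import Mathlib

/-!
# Row 309: feasibility of bounded tables, the combinatorics

Sub-tables (`Sub`), cuts (`cut`), weak duality, exactness at a closed cut, scaling of cuts.
-/

set_option autoImplicit false

namespace Crest.Agent.R309.Feas

open Finset

/-- `Y` is a sub-table: cell bounds `b`, row sums at most `r`, column sums at most `c`. -/
structure Sub (m n : ℕ) (r c : ℕ → ℕ) (b Y : ℕ → ℕ → ℕ) : Prop where
  le : ∀ i < m, ∀ j < n, Y i j ≤ b i j
  row : ∀ i < m, ∑ j ∈ range n, Y i j ≤ r i
  col : ∀ j < n, ∑ i ∈ range m, Y i j ≤ c j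

/-- total of a matrix -/
def tot (m n : ℕ) (Y : ℕ → ℕ → ℕ) : ℕ := ∑ i ∈ range m, ∑ j ∈ range n, Y i j

/-- capacity of the cut given by rows `S` and columns `T` -/
def cut (m n : ℕ) (r c : ℕ → ℕ) (b : ℕ → ℕ → ℕ) (S T : ℕ → Bool) : ℕ :=
  ∑ i ∈ range m, (if S i = true then ∑ j ∈ range n, (if T j = true then 0 else b i j) else r i) +
    ∑ j ∈ range n, (if T j = true then c j else 0)

theorem tot_le_cut {m n : ℕ} {r c : ℕ → ℕ} {b Y : ℕ → ℕ → ℕ} (h : Sub m n r c b Y)
    (S T : ℕ → Bool) : tot m n Y ≤ cut m n r c b S T := by
  unfold tot cut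
  have h1 : ∀ i ∈ range m, ∑ j ∈ range n, Y i j ≤
      (if S i = true then ∑ j ∈ range n, (if T j = true then 0 else b i j) else r i) +
        ∑ j ∈ range n, (if T j = true then Y i j else 0) := by
    intro i hi
    have hi' := mem_range.1 hi
    split_ifs with hS
    · rw [← sum_add_distrib]
      refine sum_le_sum fun j hj => ?_
      have := h.le i hi' j (mem_range.1 hj)
      split_ifs <;> omega
    · have := h.row i hi'
      omega
  have h2 : ∑ i ∈ range m, ∑ j ∈ range n, (if T j = true then Y i j else 0) ≤
      ∑ j ∈ range n, (if T j = true then c j else 0) := by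
    rw [sum_comm]
    refine sum_le_sum fun j hj => ?_
    split_ifs with hT
    · exact h.col j (mem_range.1 hj)
    · simp
  calc ∑ i ∈ range m, ∑ j ∈ range n, Y i j
      ≤ ∑ i ∈ range m, ((if S i = true then ∑ j ∈ range n, (if T j = true then 0 else b i j)
          else r i) + ∑ j ∈ range n, (if T j = true then Y i j else 0)) := sum_le_sum h1
    _ = _ + ∑ i ∈ range m, ∑ j ∈ range n, (if T j = true then Y i j else 0) := by
        rw [sum_add_distrib]
    _ ≤ _ := Nat.add_le_add_left h2 _

theorem cut_eq_tot {m n : ℕ} {r c : ℕ → ℕ} {b Y : ℕ → ℕ → ℕ} {S T : ℕ → Bool}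
    (hr : ∀ i < m, S i = false → ∑ j ∈ range n, Y i j = r i)
    (hc : ∀ j < n, T j = true → ∑ i ∈ range m, Y i j = c j)
    (hb : ∀ i < m, ∀ j < n, S i = true → T j = false → Y i j = b i j)
    (hz : ∀ i < m, ∀ j < n, S i = false → T j = true → Y i j = 0) :
    cut m n r c b S T = tot m n Y := by
  unfold tot cut
  have h2 : ∑ j ∈ range n, (if T j = true then c j else 0) =
      ∑ i ∈ range m, ∑ j ∈ range n, (if T j = true then Y i j else 0) := by
    rw [sum_comm (s := range m)]
    refine sum_congr rfl fun j hj => ?_
    by_cases hT : T j = true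
    · simp only [hT, if_true]
      exact (hc j (mem_range.1 hj) hT).symm
    · simp [hT]
  rw [h2, ← sum_add_distrib]
  refine sum_congr rfl fun i hi => ?_
  have hi' := mem_range.1 hi
  by_cases hS : S i = true
  · simp only [hS, if_true]
    rw [← sum_add_distrib]
    refine sum_congr rfl fun j hj => ?_
    by_cases hT : T j = true
    · simp [hT]
    · have := hb i hi' j (mem_range.1 hj) hS (by simpa using hT)
      simp [hT, this]
  · have hS' : S i = false := by simpa using hS
    simp only [hS', Bool.false_eq_true, if_false]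
    rw [← hr i hi' hS']
    have : ∑ j ∈ range n, (if T j = true then Y i j else 0) = 0 := by
      refine sum_eq_zero fun j hj => ?_
      by_cases hT : T j = true
      · simp [hT, hz i hi' j (mem_range.1 hj) hS' hT]
      · simp [hT]
    omega

/-- scaling a cut -/
theorem cut_scale {m n : ℕ} {r c r' c' : ℕ → ℕ} {b b' : ℕ → ℕ → ℕ} (S T : ℕ → Bool)
    (hr : ∀ i < m, r' i ≤ 2 * r i + 1) (hc : ∀ j < n, c' j ≤ 2 * c j + 1)
    (hb : ∀ i < m, ∀ j < n, b' i j ≤ 2 * b i j + 1) :
    cut m n r' c' b' S T ≤ 2 * cut m n r c b S T + (m * (n + 1) + n) := by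
  unfold cut
  have h1 : ∑ i ∈ range m, (if S i = true then ∑ j ∈ range n, (if T j = true then 0 else b' i j)
        else r' i) ≤
      2 * (∑ i ∈ range m, (if S i = true then ∑ j ∈ range n, (if T j = true then 0 else b i j)
        else r i)) + m * (n + 1) := by
    calc _ ≤ ∑ i ∈ range m, (2 * (if S i = true then
              ∑ j ∈ range n, (if T j = true then 0 else b i j) else r i) + (n + 1)) := by
          refine sum_le_sum fun i hi => ?_
          have hi' := mem_range.1 hi
          split_ifs with hS
          · have : ∑ j ∈ range n, (if T j = true then 0 else b' i j) ≤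
                ∑ j ∈ range n, (2 * (if T j = true then 0 else b i j) + 1) := by
              refine sum_le_sum fun j hj => ?_
              have := hb i hi' j (mem_range.1 hj)
              split_ifs <;> omega
            rw [sum_add_distrib, ← mul_sum] at this
            simp only [sum_const, card_range, smul_eq_mul, mul_one] at this
            omega
          · have := hr i hi'
            omega
      _ = _ := by
          rw [sum_add_distrib, ← mul_sum]
          simp
  have h2 : ∑ j ∈ range n, (if T j = true then c' j else 0) ≤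
      2 * (∑ j ∈ range n, (if T j = true then c j else 0)) + n := by
    calc _ ≤ ∑ j ∈ range n, (2 * (if T j = true then c j else 0) + 1) := by
          refine sum_le_sum fun j hj => ?_
          have := hc j (mem_range.1 hj)
          split_ifs <;> omega
      _ = _ := by
          rw [sum_add_distrib, ← mul_sum]
          simp
  omega

theorem tot_double (m n : ℕ) (Y : ℕ → ℕ → ℕ) : tot m n (fun i j => 2 * Y i j) = 2 * tot m n Y := by
  unfold tot
  simp_rw [← mul_sum]

theorem tot_congr {m n : ℕ} {Y Y' : ℕ → ℕ → ℕ} (h : ∀ i < m, ∀ j < n, Y i j = Y' i j) :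
    tot m n Y = tot m n Y' := by
  unfold tot
  exact sum_congr rfl fun i hi => sum_congr rfl fun j hj =>
    h i (mem_range.1 hi) j (mem_range.1 hj)

theorem Sub.congr {m n : ℕ} {r c : ℕ → ℕ} {b Y Y' : ℕ → ℕ → ℕ} (h : Sub m n r c b Y)
    (h' : ∀ i < m, ∀ j < n, Y i j = Y' i j) : Sub m n r c b Y' where
  le i hi j hj := by rw [← h' i hi j hj]; exact h.le i hi j hj
  row i hi := by
    rw [← sum_congr rfl fun j hj => h' i hi j (mem_range.1 hj)]
    exact h.row i hi
  col j hj := by
    rw [← sum_congr rfl fun i hi => h' i (mem_range.1 hi) j hj]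
    exact h.col j hj

/-- if each step strictly increases a bounded measure or fixes the point, iterates reach a fixed
point -/
theorem iterate_fixed_of_measure {α : Type*} (f : α → α) (P : α → Prop) (μ : α → ℕ) (N : ℕ)
    (hP : ∀ a, P a → P (f a)) (hμ : ∀ a, P a → f a = a ∨ μ a < μ (f a)) (hN : ∀ a, P a → μ a ≤ N)
    (a : α) (ha : P a) : f (f^[N] a) = f^[N] a := by
  have hPk : ∀ k, P (f^[k] a) := by
    intro k
    induction k with
    | zero => exact ha
    | succ k ih => rw [Function.iterate_succ_apply']; exact hP _ ih
  have key : ∀ k, f (f^[k] a) = f^[k] a ∨ k ≤ μ (f^[k] a) := by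
    intro k
    induction k with
    | zero => right; exact Nat.zero_le _
    | succ k ih =>
      rw [Function.iterate_succ_apply']
      rcases ih with ih | ih
      · left; rw [ih, ih]
      · rcases hμ _ (hPk k) with h | h
        · left; rw [h, h]
        · right; omega
  rcases key N with h | h
  · exact h
  · rcases hμ _ (hPk N) with h' | h'
    · exact h'
    · have := hN _ (hP _ (hPk N))
      omega

end Crest.Agent.R309.Feas
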