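import Crest.Agent.R309.FeasFlow
import Crest.Agent.R287.Codec

/-!
# Row 309: feasibility of bounded tables is in polynomial time
-/

set_option autoImplicit false

namespace Crest.Agent.R309.Feas

open Finset Crest.Agent.Lib.PT

section pt

variable {γ α : Type} [PTCode γ] [PTCode α]

theorem ptf_getDB {n : γ → ℕ} {l : γ → List α} {d : γ → α} (hn : PTF n) (hl : PTF l)
    (hd : PTF d) : PTF (fun c => (l c).getD (n c) (d c)) := by
  have h := PTF.optionGetD (s := fun c => ((l c).drop (n c)).head?)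
    (PTF.head? (R287.ptf_dropB hn hl)) hd
  refine PTF.of_eq h (fun c => ?_)
  rw [List.getD_eq_getElem?_getD, List.head?_drop]

@[fun_prop]
theorem ptf_get {M : γ → Mat} {i j : γ → ℕ} (hM : PTF M) (hi : PTF i) (hj : PTF j) :
    PTF (fun c => get (M c) (i c) (j c)) := by
  unfold get
  exact ptf_getDB hj (ptf_getDB hi hM (PTF.const _)) (PTF.const _)

theorem ptf_tab {m n : γ → ℕ} {f : γ → ℕ → ℕ → ℕ} (hm : PTU m) (hn : PTU n)
    (hf : PTF (fun q : (γ × ℕ) × ℕ => f q.1.1 q.1.2 q.2)) :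
    PTF (fun c => tab (m c) (n c) (f c)) := by
  unfold tab
  refine PTF.tabulate hm (f := fun c i => (List.range (n c)).map fun j => f c i j) ?_
  refine PTF.tabulate (γ := γ × ℕ) (n := fun p => n p.1) (PTU.comp hn PTF.fst)
    (f := fun p j => f p.1 p.2 j) ?_
  exact hf

theorem ptf_rowS {n : γ → ℕ} {M : γ → Mat} {i : γ → ℕ} (hn : PTU n) (hM : PTF M) (hi : PTF i) :
    PTF (fun c => rowS (n c) (M c) (i c)) := by
  unfold rowS
  refine PTF.natSumRange hn (f := fun c j => get (M c) (i c) j) ?_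
  exact ptf_get (hM.comp PTF.fst) (hi.comp PTF.fst) PTF.snd

theorem ptf_colS {m : γ → ℕ} {M : γ → Mat} {j : γ → ℕ} (hm : PTU m) (hM : PTF M) (hj : PTF j) :
    PTF (fun c => colS (m c) (M c) (j c)) := by
  unfold colS
  refine PTF.natSumRange hm (f := fun c i => get (M c) i (j c)) ?_
  exact ptf_get (hM.comp PTF.fst) PTF.snd (hj.comp PTF.fst)

theorem ptf_pairs {m n : γ → ℕ} (hm : PTU m) (hn : PTU n) : PTF (fun c => pairs (m c) (n c)) := by
  unfold pairs
  refine PTF.flatMap (PTF.range hm) (f := fun c i => (List.range (n c)).map fun j => (i, j)) ?_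
  refine PTF.tabulate (γ := γ × ℕ) (n := fun p => n p.1) (PTU.comp hn PTF.fst)
    (f := fun p j => (p.2, j)) ?_
  pt_prop

theorem ptf_inc {m n : γ → ℕ} {b0 M : γ → Mat} {i j : γ → ℕ} (hm : PTU m) (hn : PTU n)
    (hb : PTF b0) (hM : PTF M) (hi : PTF i) (hj : PTF j) :
    PTF (fun c => inc (m c) (n c) (b0 c) (M c) (i c) (j c)) := by
  unfold inc
  refine ptf_tab hm hn (f := fun c i' j' => min (get (M c) i' j' +
    if i' = i c ∧ j' = j c then 1 else 0) (get (b0 c) i' j')) ?_
  have h1 : PTF (fun q : (γ × ℕ) × ℕ => q.1.1) := by fun_prop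
  have h2 : PTF (fun q : (γ × ℕ) × ℕ => q.1.2) := by fun_prop
  have h3 : PTF (fun q : (γ × ℕ) × ℕ => q.2) := by fun_prop
  refine PTF.natMin (PTF.natAdd (ptf_get (hM.comp h1) h2 h3) (PTF.ite
    (PTPred.and (PTPred.natEq h2 (hi.comp h1)) (PTPred.natEq h3 (hj.comp h1))) (PTF.const _)
    (PTF.const _))) (ptf_get (hb.comp h1) h2 h3)

theorem ptf_dec {m n : γ → ℕ} {b0 M : γ → Mat} {i j : γ → ℕ} (hm : PTU m) (hn : PTU n)
    (hb : PTF b0) (hM : PTF M) (hi : PTF i) (hj : PTF j) :
    PTF (fun c => dec (m c) (n c) (b0 c) (M c) (i c) (j c)) := by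
  unfold dec
  refine ptf_tab hm hn (f := fun c i' j' => min (get (M c) i' j' -
    if i' = i c ∧ j' = j c then 1 else 0) (get (b0 c) i' j')) ?_
  have h1 : PTF (fun q : (γ × ℕ) × ℕ => q.1.1) := by fun_prop
  have h2 : PTF (fun q : (γ × ℕ) × ℕ => q.1.2) := by fun_prop
  have h3 : PTF (fun q : (γ × ℕ) × ℕ => q.2) := by fun_prop
  refine PTF.natMin (PTF.natSub (ptf_get (hM.comp h1) h2 h3) (PTF.ite
    (PTPred.and (PTPred.natEq h2 (hi.comp h1)) (PTPred.natEq h3 (hj.comp h1))) (PTF.const _)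
    (PTF.const _))) (ptf_get (hb.comp h1) h2 h3)

theorem ptf_put {m : γ → ℕ} {l : γ → List (Option α)} {i : γ → ℕ} {v : γ → α} (hm : PTU m)
    (hl : PTF l) (hi : PTF i) (hv : PTF v) : PTF (fun c => put (m c) (l c) (i c) (v c)) := by
  unfold put
  refine PTF.tabulate hm (f := fun c k => if k = i c then some (v c) else (l c).getD k none) ?_
  refine PTF.ite (PTPred.natEq PTF.snd (hi.comp PTF.fst)) (PTF.optSome (hv.comp PTF.fst))
    (ptf_getDB PTF.snd (hl.comp PTF.fst) (PTF.const _))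

theorem ptf_dbl {m n : γ → ℕ} {b0 M : γ → Mat} (hm : PTU m) (hn : PTU n)
    (hb : PTF b0) (hM : PTF M) : PTF (fun c => dbl (m c) (n c) (b0 c) (M c)) := by
  unfold dbl
  refine ptf_tab hm hn (f := fun c i' j' => min (2 * get (M c) i' j') (get (b0 c) i' j')) ?_
  have h1 : PTF (fun q : (γ × ℕ) × ℕ => q.1.1) := by fun_prop
  have h2 : PTF (fun q : (γ × ℕ) × ℕ => q.1.2) := by fun_prop
  have h3 : PTF (fun q : (γ × ℕ) × ℕ => q.2) := by fun_prop
  exact PTF.natMin (PTF.natMul (PTF.const _) (ptf_get (hM.comp h1) h2 h3))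
    (ptf_get (hb.comp h1) h2 h3)

/-- iteration with an invariant -/
theorem ptf_iterate_inv {n : γ → ℕ} {f : γ → α → α} {a : γ → α} (hn : PTU n) (hf : PTF₂ f)
    (ha : PTF a) (P : γ → α → Prop) {B : γ → ℕ} (hB : PB B) (h0 : ∀ c, P c (a c))
    (h1 : ∀ c x, P c x → P c (f c x)) (h2 : ∀ c x, P c x → sz x ≤ B c) :
    PTF (fun c => (f c)^[n c] (a c)) := by
  have key : ∀ c i, P c ((f c)^[i] (a c)) := by
    intro c i
    induction i with
    | zero => exact h0 c
    | succ i ih => rw [Function.iterate_succ_apply']; exact h1 c _ ih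
  exact PTF.iterate' hn hf ha hB (fun c i _ => h2 c _ (key c i))

/-- size bound for tabulated matrices -/
theorem sz_tab_le {m n K : ℕ} {f : ℕ → ℕ → ℕ} (h : ∀ i < m, ∀ j < n, sz (f i j) ≤ K) :
    sz (tab m n f) ≤ m * (2 * (n * (2 * K + 1)) + 1) := by
  have h1 : ∀ l ∈ tab m n f, sz l ≤ n * (2 * K + 1) := by
    intro l hl
    unfold tab at hl
    obtain ⟨i, hi, rfl⟩ := List.mem_map.1 hl
    have := sz_list_le (l := (List.range n).map fun j => f i j) (m := K) (by
      intro a ha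
      obtain ⟨j, hj, rfl⟩ := List.mem_map.1 ha
      exact h i (List.mem_range.1 hi) j (List.mem_range.1 hj))
    simpa using this
  have := sz_list_le h1
  simpa [tab] using this

theorem sz_nat_mono {a b : ℕ} (h : a ≤ b) : sz a ≤ sz b := by
  rw [sz_nat, sz_nat]
  exact Nat.size_le_size h

theorem sz_get_le (M : Mat) (i j : ℕ) : sz (get M i j) ≤ sz M := by
  have key : ∀ {β : Type} [PTCode β] (l : List β) (i : ℕ) (d : β), sz d = 0 →
      sz (l.getD i d) ≤ sz l := by
    intro β _ l i d hd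
    by_cases h : i < l.length
    · rw [List.getD_eq_getElem?_getD, List.getElem?_eq_getElem h]
      exact sz_mem_le (List.getElem_mem h)
    · rw [List.getD_eq_getElem?_getD, List.getElem?_eq_none (by omega)]
      simp [hd]
  unfold get
  exact (key _ j 0 (by simp [sz_nat])).trans (key M i [] rfl)

/-- size bound for clipped matrices -/
def BM (m n K : ℕ) : ℕ := m * (2 * (n * (2 * K + 1)) + 1)

theorem sz_inc_le (m n : ℕ) (b0 M : Mat) (i j : ℕ) : sz (inc m n b0 M i j) ≤ BM m n (sz b0) := by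
  unfold inc BM
  exact sz_tab_le fun i' _ j' _ => (sz_nat_mono (min_le_right _ _)).trans (sz_get_le b0 i' j')

theorem sz_dec_le (m n : ℕ) (b0 M : Mat) (i j : ℕ) : sz (dec m n b0 M i j) ≤ BM m n (sz b0) := by
  unfold dec BM
  exact sz_tab_le fun i' _ j' _ => (sz_nat_mono (min_le_right _ _)).trans (sz_get_le b0 i' j')

theorem sz_dbl_le (m n : ℕ) (b0 M : Mat) : sz (dbl m n b0 M) ≤ BM m n (sz b0) := by
  unfold dbl BM
  exact sz_tab_le fun i' _ j' _ => (sz_nat_mono (min_le_right _ _)).trans (sz_get_le b0 i' j')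

theorem sz_zeroM_le (m n K : ℕ) : sz (zeroM m n) ≤ BM m n K := by
  unfold zeroM BM
  exact sz_tab_le fun i' _ j' _ => by simp [sz_nat]

/-- size predicate for the search state -/
def SGood (m n K : ℕ) (s : St) : Prop :=
  s.1.length ≤ m ∧ s.2.length ≤ n ∧ (∀ x ∈ s.1, sz x ≤ K + 1) ∧ (∀ x ∈ s.2, sz x ≤ K + 1)

theorem SGood.put {m K : ℕ} {l : List (Option Mat)} {i : ℕ} {v : Mat} (hl : ∀ x ∈ l, sz x ≤ K + 1)
    (hv : sz v ≤ K) : (put m l i v).length ≤ m ∧ ∀ x ∈ Feas.put m l i v, sz x ≤ K + 1 := by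
  unfold Feas.put
  refine ⟨by simp, fun x hx => ?_⟩
  obtain ⟨k, _, rfl⟩ := List.mem_map.1 hx
  split_ifs
  · simp only [sz_some]; omega
  · by_cases h : k < l.length
    · rw [List.getD_eq_getElem?_getD, List.getElem?_eq_getElem h]
      exact hl _ (List.getElem_mem h)
    · rw [List.getD_eq_getElem?_getD, List.getElem?_eq_none (by omega)]
      simp

theorem sgood_sstep {m n K : ℕ} {b0 b : Mat} {s : St} (hK : BM m n (sz b0) ≤ K)
    (h : SGood m n K s) : SGood m n K (sstep m n b0 b s) := by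
  unfold sstep
  obtain ⟨h1, h2, h3, h4⟩ := h
  cases (pairs m n).find? (condC b s) with
  | some p =>
    have := SGood.put (m := n) (i := p.2) h4 ((sz_inc_le m n b0 ((s.1.getD p.1 none).getD []) p.1
      p.2).trans hK)
    exact ⟨h1, this.1, h3, this.2⟩
  | none =>
    simp only
    cases (pairs m n).find? (condR s) with
    | some p =>
      have := SGood.put (m := m) (i := p.1) h3 ((sz_dec_le m n b0 ((s.2.getD p.2 none).getD []) p.1
        p.2).trans hK)
      exact ⟨this.1, h2, this.2, h4⟩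
    | none => exact ⟨h1, h2, h3, h4⟩

theorem sgood_sinit {m n K : ℕ} {r : List ℕ} {Y : Mat} (hY : sz Y ≤ K) :
    SGood m n K (sinit m n r Y) := by
  unfold sinit
  refine ⟨by simp, by simp, fun x hx => ?_, fun x hx => ?_⟩
  · obtain ⟨k, _, rfl⟩ := List.mem_map.1 hx
    split_ifs
    · simp only [sz_some]; omega
    · simp
  · obtain ⟨k, _, rfl⟩ := List.mem_map.1 hx
    simp

theorem SGood.sz {m n K : ℕ} {s : St} (h : SGood m n K s) :
    Lib.PT.sz s ≤ 2 * (m * (2 * (K + 1) + 1)) + 1 + n * (2 * (K + 1) + 1) := by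
  obtain ⟨h1, h2, h3, h4⟩ := h
  rw [sz_prod]
  have e1 := sz_list_le h3
  have e2 := sz_list_le h4
  have e3 := Nat.mul_le_mul_right (2 * (K + 1) + 1) h1
  have e4 := Nat.mul_le_mul_right (2 * (K + 1) + 1) h2
  omega

theorem ptf_condC {b : γ → Mat} {s : γ → St} {p : γ → ℕ × ℕ} (hb : PTF b) (hs : PTF s)
    (hp : PTF p) : PTF (fun c => condC (b c) (s c) (p c)) := by
  unfold condC
  have h1 : PTF (fun c => (p c).1) := PTF.comp (g := fun q : ℕ × ℕ => q.1) (by fun_prop) hp
  have h2 : PTF (fun c => (p c).2) := PTF.comp (g := fun q : ℕ × ℕ => q.2) (by fun_prop) hp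
  have h3 : PTF (fun c => (s c).1) := PTF.comp (g := fun q : St => q.1) (by fun_prop) hs
  have h4 : PTF (fun c => (s c).2) := PTF.comp (g := fun q : St => q.2) (by fun_prop) hs
  have h5 := ptf_getDB h1 h3 (PTF.const none)
  have h6 := ptf_getDB h2 h4 (PTF.const none)
  exact PTF.and (PTF.isSome h5) (PTF.and (PTF.not (PTF.isSome h6)) (PTPred.toPTF
    (PTPred.natLt (ptf_get (PTF.optionGetD h5 (PTF.const [])) h1 h2) (ptf_get hb h1 h2))))

theorem ptf_condR {s : γ → St} {p : γ → ℕ × ℕ} (hs : PTF s)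
    (hp : PTF p) : PTF (fun c => condR (s c) (p c)) := by
  unfold condR
  have h1 : PTF (fun c => (p c).1) := PTF.comp (g := fun q : ℕ × ℕ => q.1) (by fun_prop) hp
  have h2 : PTF (fun c => (p c).2) := PTF.comp (g := fun q : ℕ × ℕ => q.2) (by fun_prop) hp
  have h3 : PTF (fun c => (s c).1) := PTF.comp (g := fun q : St => q.1) (by fun_prop) hs
  have h4 : PTF (fun c => (s c).2) := PTF.comp (g := fun q : St => q.2) (by fun_prop) hs
  have h5 := ptf_getDB h1 h3 (PTF.const none)
  have h6 := ptf_getDB h2 h4 (PTF.const none)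
  exact PTF.and (PTF.isSome h6) (PTF.and (PTF.not (PTF.isSome h5)) (PTPred.toPTF
    (PTPred.natLt (PTF.const 0) (ptf_get (PTF.optionGetD h6 (PTF.const [])) h1 h2))))

theorem ptf_sstep {m n : γ → ℕ} {b0 b : γ → Mat} {s : γ → St} (hm : PTU m) (hn : PTU n)
    (hb0 : PTF b0) (hb : PTF b) (hs : PTF s) :
    PTF (fun c => sstep (m c) (n c) (b0 c) (b c) (s c)) := by
  have h3 : PTF (fun c => (s c).1) := PTF.comp (g := fun q : St => q.1) (by fun_prop) hs
  have h4 : PTF (fun c => (s c).2) := PTF.comp (g := fun q : St => q.2) (by fun_prop) hs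
  have e1 : PTF (fun q : γ × (ℕ × ℕ) => q.2.1) := by fun_prop
  have e2 : PTF (fun q : γ × (ℕ × ℕ) => q.2.2) := by fun_prop
  have e0 : PTF (fun q : γ × (ℕ × ℕ) => q.1) := by fun_prop
  have hfC : PTF (fun c => (pairs (m c) (n c)).find? (condC (b c) (s c))) :=
    PTF.find? (ptf_pairs hm hn) (ptf_condC (hb.comp PTF.fst) (hs.comp PTF.fst) PTF.snd)
  have hfR : PTF (fun c => (pairs (m c) (n c)).find? (condR (s c))) :=
    PTF.find? (ptf_pairs hm hn) (ptf_condR (hs.comp PTF.fst) PTF.snd)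
  have hR : PTF (fun c => (((pairs (m c) (n c)).find? (condR (s c))).map (fun p =>
      ((put (m c) (s c).1 p.1 (dec (m c) (n c) (b0 c) (((s c).2.getD p.2 none).getD []) p.1 p.2),
        (s c).2) : St))).getD (s c)) := by
    refine PTF.optionGetD (PTF.optionMap (g := fun c p => ((put (m c) (s c).1 p.1 (dec (m c) (n c)
      (b0 c) (((s c).2.getD p.2 none).getD []) p.1 p.2), (s c).2) : St)) hfR ?_) hs
    refine PTF.prodMk ?_ (h4.comp e0)
    exact ptf_put (PTU.comp hm e0) (h3.comp e0) e1 (ptf_dec (PTU.comp hm e0) (PTU.comp hn e0)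
      (hb0.comp e0) (PTF.optionGetD (ptf_getDB e2 (h4.comp e0) (PTF.const none)) (PTF.const []))
      e1 e2)
  have hC : PTF (fun c => (((pairs (m c) (n c)).find? (condC (b c) (s c))).map (fun p =>
      (((s c).1, put (n c) (s c).2 p.2 (inc (m c) (n c) (b0 c)
        (((s c).1.getD p.1 none).getD []) p.1 p.2)) : St))).getD
      ((((pairs (m c) (n c)).find? (condR (s c))).map (fun p =>
      ((put (m c) (s c).1 p.1 (dec (m c) (n c) (b0 c) (((s c).2.getD p.2 none).getD []) p.1 p.2),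
        (s c).2) : St))).getD (s c))) := by
    refine PTF.optionGetD (PTF.optionMap (g := fun c p => (((s c).1, put (n c) (s c).2 p.2
      (inc (m c) (n c) (b0 c) (((s c).1.getD p.1 none).getD []) p.1 p.2)) : St)) hfC ?_) hR
    refine PTF.prodMk (h3.comp e0) ?_
    exact ptf_put (PTU.comp hn e0) (h4.comp e0) e2 (ptf_inc (PTU.comp hm e0) (PTU.comp hn e0)
      (hb0.comp e0) (PTF.optionGetD (ptf_getDB e1 (h3.comp e0) (PTF.const none)) (PTF.const []))
      e1 e2)
  refine PTF.of_eq hC (fun c => ?_)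
  unfold sstep
  cases (pairs (m c) (n c)).find? (condC (b c) (s c)) with
  | some p => rfl
  | none =>
    simp only [Option.map_none, Option.getD_none]
    cases (pairs (m c) (n c)).find? (condR (s c)) with
    | some p => rfl
    | none => rfl

theorem ptf_sinit {m n : γ → ℕ} {r : γ → List ℕ} {Y : γ → Mat} (hm : PTU m) (hn : PTU n)
    (hr : PTF r) (hY : PTF Y) : PTF (fun c => sinit (m c) (n c) (r c) (Y c)) := by
  unfold sinit
  refine PTF.prodMk (PTF.tabulate hm (f := fun c i => if rowS (n c) (Y c) i < (r c).getD i 0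
    then some (Y c) else none) ?_) (PTF.tabulate hn (f := fun _ _ => (none : Option Mat))
      (PTF.const _))
  exact PTF.ite (PTPred.natLt (ptf_rowS (PTU.comp hn PTF.fst) (hY.comp PTF.fst) PTF.snd)
    (ptf_getDB PTF.snd (hr.comp PTF.fst) (PTF.const 0))) (PTF.optSome (hY.comp PTF.fst))
    (PTF.const _)

theorem pb_BM {m n K : γ → ℕ} (hm : PB m) (hn : PB n) (hK : PB K) :
    PB (fun c => BM (m c) (n c) (K c)) := by
  unfold BM
  fun_prop

theorem ptf_search {m n : γ → ℕ} {b0 : γ → Mat} {r : γ → List ℕ} {b Y : γ → Mat} (hm : PTU m)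
    (hn : PTU n) (hb0 : PTF b0) (hr : PTF r) (hb : PTF b) (hY : PTF Y) :
    PTF (fun c => search (m c) (n c) (b0 c) (r c) (b c) (Y c)) := by
  unfold search
  have hm' := hm.pb
  have hn' := hn.pb
  have hb0' := hb0.sz
  have hY' := hY.sz
  have hBM := pb_BM hm' hn' hb0'
  refine ptf_iterate_inv (PTU.add hm hn) (f := fun c s => sstep (m c) (n c) (b0 c) (b c) s)
    (ptf_sstep (PTU.comp hm PTF.fst) (PTU.comp hn PTF.fst) (hb0.comp PTF.fst) (hb.comp PTF.fst)
      PTF.snd) (ptf_sinit hm hn hr hY)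
    (fun c s => SGood (m c) (n c) (BM (m c) (n c) (sz (b0 c)) + sz (Y c)) s)
    (B := fun c => 2 * ((m c) * (2 * ((BM (m c) (n c) (sz (b0 c)) + sz (Y c)) + 1) + 1)) + 1 +
      (n c) * (2 * ((BM (m c) (n c) (sz (b0 c)) + sz (Y c)) + 1) + 1)) (by fun_prop)
    (fun c => sgood_sinit (by omega)) (fun c s hs => sgood_sstep (by omega) hs)
    (fun c s hs => hs.sz)

theorem ptf_augment {m n : γ → ℕ} {b0 : γ → Mat} {r c : γ → List ℕ} {b Y : γ → Mat} (hm : PTU m)
    (hn : PTU n) (hb0 : PTF b0) (hr : PTF r) (hc : PTF c) (hb : PTF b) (hY : PTF Y) :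
    PTF (fun x => augment (m x) (n x) (b0 x) (r x) (c x) (b x) (Y x)) := by
  have hs := ptf_search hm hn hb0 hr hb hY
  have hs2 : PTF (fun x => (search (m x) (n x) (b0 x) (r x) (b x) (Y x)).2) :=
    PTF.comp (g := fun q : St => q.2) (by fun_prop) hs
  have e0 : PTF (fun q : γ × ℕ => q.1) := by fun_prop
  have e1 : PTF (fun q : γ × ℕ => q.2) := by fun_prop
  have hf : PTF (fun x => (List.range (n x)).find? (fun j =>
      ((search (m x) (n x) (b0 x) (r x) (b x) (Y x)).2.getD j none).isSome &&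
      decide (colS (m x) (Y x) j < (c x).getD j 0))) := by
    refine PTF.find? (PTF.range hn) (p := fun x j =>
      ((search (m x) (n x) (b0 x) (r x) (b x) (Y x)).2.getD j none).isSome &&
      decide (colS (m x) (Y x) j < (c x).getD j 0)) ?_
    refine PTF.and (PTF.isSome (ptf_getDB e1 (hs2.comp e0) (PTF.const none))) (PTPred.toPTF
      (PTPred.natLt (ptf_colS (PTU.comp hm e0) (hY.comp e0) e1)
        (ptf_getDB e1 (hc.comp e0) (PTF.const 0))))
  have h := PTF.optionGetD (PTF.optionMap (g := fun x j =>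
    ((search (m x) (n x) (b0 x) (r x) (b x) (Y x)).2.getD j none).getD []) hf
    (PTF.optionGetD (ptf_getDB e1 (hs2.comp e0) (PTF.const none)) (PTF.const []))) hY
  refine PTF.of_eq h (fun x => ?_)
  unfold augment
  cases (List.range (n x)).find? (fun j =>
      ((search (m x) (n x) (b0 x) (r x) (b x) (Y x)).2.getD j none).isSome &&
      decide (colS (m x) (Y x) j < (c x).getD j 0)) <;> rfl

theorem sz_search_mem {m n K : ℕ} {b0 : Mat} {r : List ℕ} {b Y : Mat} (hK : BM m n (sz b0) ≤ K)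
    (hY : sz Y ≤ K) : SGood m n K (search m n b0 r b Y) := by
  unfold search
  have : ∀ k, SGood m n K ((sstep m n b0 b)^[k] (sinit m n r Y)) := by
    intro k
    induction k with
    | zero => exact sgood_sinit hY
    | succ k ih => rw [Function.iterate_succ_apply']; exact sgood_sstep hK ih
  exact this _

theorem sz_augment {m n K : ℕ} {b0 : Mat} {r c : List ℕ} {b Y : Mat} (hK : BM m n (sz b0) ≤ K)
    (hY : sz Y ≤ K) : sz (augment m n b0 r c b Y) ≤ K := by
  have h := sz_search_mem (r := r) (b := b) hK hY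
  unfold augment
  cases (List.range n).find? (fun j =>
      ((search m n b0 r b Y).2.getD j none).isSome && decide (colS m Y j < c.getD j 0)) with
  | none => exact hY
  | some j =>
    simp only
    by_cases hj : j < (search m n b0 r b Y).2.length
    · rw [List.getD_eq_getElem?_getD, List.getElem?_eq_getElem hj]
      simp only [Option.getD_some]
      have := h.2.2.2 _ (List.getElem_mem hj)
      cases hx : (search m n b0 r b Y).2[j] with
      | none => simp
      | some M =>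
        rw [hx, sz_some] at this
        simp only [Option.getD_some]
        omega
    · rw [List.getD_eq_getElem?_getD, List.getElem?_eq_none (by omega)]
      simp

theorem ptu_steps {m n : γ → ℕ} (hm : PTU m) (hn : PTU n) : PTU (fun x => steps (m x) (n x)) := by
  unfold steps
  exact PTU.add (PTU.mul hm (PTU.add hn (PTU.const 1))) hn

theorem ptf_maxflow {m n : γ → ℕ} {b0 : γ → Mat} {r c : γ → List ℕ} {b Y : γ → Mat} (hm : PTU m)
    (hn : PTU n) (hb0 : PTF b0) (hr : PTF r) (hc : PTF c) (hb : PTF b) (hY : PTF Y) :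
    PTF (fun x => maxflow (m x) (n x) (b0 x) (r x) (c x) (b x) (Y x)) := by
  unfold maxflow
  have hm' := hm.pb
  have hn' := hn.pb
  have hb0' := hb0.sz
  have hY' := hY.sz
  have hBM := pb_BM hm' hn' hb0'
  exact ptf_iterate_inv (ptu_steps hm hn) (f := fun x Z => augment (m x) (n x) (b0 x) (r x) (c x)
      (b x) Z)
    (ptf_augment (PTU.comp hm PTF.fst) (PTU.comp hn PTF.fst) (hb0.comp PTF.fst) (hr.comp PTF.fst)
      (hc.comp PTF.fst) (hb.comp PTF.fst) PTF.snd) hY
    (fun x Z => sz Z ≤ BM (m x) (n x) (sz (b0 x)) + sz (Y x))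
    (B := fun x => BM (m x) (n x) (sz (b0 x)) + sz (Y x)) (by fun_prop)
    (fun x => by omega) (fun x Z hZ => sz_augment (by omega) hZ) (fun x Z hZ => hZ)

theorem sz_maxflow {m n K : ℕ} {b0 : Mat} {r c : List ℕ} {b Y : Mat} (hK : BM m n (sz b0) ≤ K)
    (hY : sz Y ≤ K) : sz (maxflow m n b0 r c b Y) ≤ K := by
  unfold maxflow
  have : ∀ k, sz ((augment m n b0 r c b)^[k] Y) ≤ K := by
    intro k
    induction k with
    | zero => exact hY
    | succ k ih => rw [Function.iterate_succ_apply']; exact sz_augment hK ih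
  exact this _

theorem ptf_scL {k : γ → ℕ} {l : γ → List ℕ} (hk : PTU k) (hl : PTF l) :
    PTF (fun x => scL (k x) (l x)) := by
  unfold scL
  refine PTF.map hl (f := fun x a => a / 2 ^ (k x)) ?_
  exact PTF.natDiv PTF.snd (PTF.natTwoPow (PTU.comp hk PTF.fst))

theorem ptf_scM {k : γ → ℕ} {M : γ → Mat} (hk : PTU k) (hM : PTF M) :
    PTF (fun x => scM (k x) (M x)) := by
  unfold scM
  refine PTF.map hM (f := fun x l => l.map fun a => a / 2 ^ (k x)) ?_
  exact ptf_scL (PTU.comp hk PTF.fst) PTF.snd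

theorem ptf_fstep {m n : γ → ℕ} {b0 : γ → Mat} {r c : γ → List ℕ} {b : γ → Mat}
    {s : γ → Un × Mat} (hm : PTU m) (hn : PTU n) (hb0 : PTF b0) (hr : PTF r) (hc : PTF c)
    (hb : PTF b) (hs : PTF s) :
    PTF (fun x => fstep (m x) (n x) (b0 x) (r x) (c x) (b x) (s x)) := by
  unfold fstep
  have h1 : PTU (fun x => (s x).1.val) :=
    PTU.val (PTF.comp (g := fun q : Un × Mat => q.1) (by fun_prop) hs)
  have h2 : PTU (fun x => (s x).1.val - 1) := PTU.sub h1 (PTU.const 1)
  have h3 : PTF (fun x => (s x).2) := PTF.comp (g := fun q : Un × Mat => q.2) (by fun_prop) hs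
  exact PTF.prodMk h2 (ptf_maxflow hm hn hb0 (ptf_scL h2 hr) (ptf_scL h2 hc) (ptf_scM h2 hb)
    (ptf_dbl hm hn hb0 h3))

theorem ptf_flow {m n : γ → ℕ} {r c : γ → List ℕ} {b : γ → Mat} (hm : PTU m) (hn : PTU n)
    (hr : PTF r) (hc : PTF c) (hb : PTF b) :
    PTF (fun x => flow (m x) (n x) (r x) (c x) (b x)) := by
  unfold flow
  have hm' := hm.pb
  have hn' := hn.pb
  have hb' := hb.sz
  have hr' := hr.sz
  have hBM := pb_BM hm' hn' hb'
  have hsc : PTU (fun x => scales (r x)) := by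
    unfold scales
    exact PTF.szU hr
  have hscb := hsc.pb
  have hz : PTF (fun x => zeroM (m x) (n x)) := by
    unfold zeroM
    exact ptf_tab hm hn (f := fun _ _ _ => 0) (PTF.const _)
  have h := ptf_iterate_inv hsc (f := fun x s => fstep (m x) (n x) (b x) (r x) (c x) (b x) s)
    (a := fun x => ((⟨scales (r x)⟩, zeroM (m x) (n x)) : Un × Mat))
    (ptf_fstep (PTU.comp hm PTF.fst) (PTU.comp hn PTF.fst) (hb.comp PTF.fst) (hr.comp PTF.fst)
      (hc.comp PTF.fst) (hb.comp PTF.fst) PTF.snd) (PTF.prodMk hsc hz)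
    (fun x s => s.1.val ≤ scales (r x) ∧ sz s.2 ≤ BM (m x) (n x) (sz (b x)))
    (B := fun x => 2 * scales (r x) + 1 + BM (m x) (n x) (sz (b x))) (by fun_prop)
    (fun x => ⟨le_rfl, sz_zeroM_le _ _ _⟩)
    (fun x s hs => by
      unfold fstep
      refine ⟨?_, ?_⟩
      · have := hs.1
        simp only
        omega
      · exact sz_maxflow le_rfl (sz_dbl_le _ _ _ _))
    (fun x s hs => by
      rw [sz_prod, sz_un]
      have := hs.1
      have := hs.2
      omega)
  exact PTF.comp (g := fun q : Un × Mat => q.2) (by fun_prop) h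

theorem ptf_sumTo {m : γ → ℕ} {r : γ → List ℕ} (hm : PTU m) (hr : PTF r) :
    PTF (fun x => sumTo (m x) (r x)) := by
  unfold sumTo
  exact PTF.natSumRange hm (f := fun x i => (r x).getD i 0)
    (ptf_getDB PTF.snd (hr.comp PTF.fst) (PTF.const 0))

theorem ptf_totL {m n : γ → ℕ} {Y : γ → Mat} (hm : PTU m) (hn : PTU n) (hY : PTF Y) :
    PTF (fun x => totL (m x) (n x) (Y x)) := by
  unfold totL
  have e1 : PTF (fun q : (γ × ℕ) × ℕ => q.1.1) := by fun_prop
  have e2 : PTF (fun q : (γ × ℕ) × ℕ => q.1.2) := by fun_prop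
  have e3 : PTF (fun q : (γ × ℕ) × ℕ => q.2) := by fun_prop
  have h1 : PTF (fun q : (γ × ℕ) × ℕ => get (Y q.1.1) q.1.2 q.2) := ptf_get (hY.comp e1) e2 e3
  have h2 : PTF (fun q : γ × ℕ => ∑ j ∈ range (n q.1), get (Y q.1) q.2 j) :=
    PTF.natSumRange (PTU.comp hn PTF.fst) (f := fun (q : γ × ℕ) j => get (Y q.1) q.2 j) h1
  exact PTF.natSumRange hm (f := fun x i => ∑ j ∈ range (n x), get (Y x) i j) h2

theorem ptf_feasCore {m n : γ → ℕ} {r c : γ → List ℕ} {b : γ → Mat} (hm : PTU m) (hn : PTU n)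
    (hr : PTF r) (hc : PTF c) (hb : PTF b) :
    PTF (fun x => feasCore (m x) (n x) (r x) (c x) (b x)) := by
  unfold feasCore
  have h := ptf_flow hm hn hr hc hb
  exact PTF.ite (PTPred.and (PTPred.natEq (ptf_sumTo hm hr) (ptf_sumTo hn hc))
    (PTPred.natEq (ptf_totL hm hn h) (ptf_sumTo hm hr))) (PTF.optSome h) (PTF.const none)

end pt

end Crest.Agent.R309.Feas
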