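import Crest.Agent.R309.Feas
import Crest.Agent.R309.Conv2
import Crest.Agent.R309.PTSolve

/-!
# R309: `feasSpec : FeasSpec`
-/

set_option autoImplicit false

namespace Crest.Agent.R309.FeasS

open Crest.Agent.Lib.PT Crest.Agent.R309.PTX Crest.Agent.R309.Iface Crest.Agent.R309

theorem ptpred_shaped : PTPred (fun I : Inst => I.2.2.length = I.1.length ∧
    ∀ row ∈ I.2.2, row.length = I.2.1.length) := by
  pt_solve

/-- total feasibility oracle -/
def feas (I : Inst) : Option Tab :=
  if I.2.2.length = I.1.length ∧ ∀ row ∈ I.2.2, row.length = I.2.1.length then Feas.feas I else none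

theorem ptf_feas : PTF feas := by
  have h1 := ptpred_shaped
  have h2 : PTF (fun I : Inst => Feas.feas I) := Feas.ptf_feas
  exact PTF.ite h1 h2 (PTF.const _)

theorem feasSpec : FeasSpec := by
  refine ⟨feas, ptf_feas, ?_, ?_⟩
  · intro I X h
    unfold feas at h
    split_ifs at h with hs
    have hS : Conv.Shaped I := hs
    obtain ⟨r, c, b, hI⟩ : ∃ (r : Fin I.1.length → ℕ) (c : Fin I.2.1.length → ℕ) (b : Fin I.1.length → Fin I.2.1.length → ℕ),
        Conv.inst r c b = I := ⟨_, _, _, Conv.inst_of_shaped hS⟩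
    rw [← hI] at h ⊢
    obtain ⟨Y, rfl, hY⟩ := Feas.feas_some (rs := r) (cs := c) (b := b) h
    exact Conv.isTab_inst_toL.2 hY
  · intro I h X hX
    have hS : Conv.Shaped I := Conv.IsTab.shaped hX
    unfold feas at h
    have hS' : I.2.2.length = I.1.length ∧ ∀ row ∈ I.2.2, row.length = I.2.1.length := hS
    rw [if_pos hS'] at h
    obtain ⟨r, c, b, hI⟩ : ∃ (r : Fin I.1.length → ℕ) (c : Fin I.2.1.length → ℕ) (b : Fin I.1.length → Fin I.2.1.length → ℕ),
        Conv.inst r c b = I := ⟨_, _, _, Conv.inst_of_shaped hS⟩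
    rw [← hI] at h hX
    obtain ⟨Y, hY, -⟩ := Conv.isTab_inst_iff.1 hX
    exact Feas.feas_none (rs := r) (cs := c) (b := b) h Y hY

end Crest.Agent.R309.FeasS
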