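import Mathlib

/-!
# R309: exchange inequality with constant one, and the explicit gauge

Box systems on a directed multigraph `s t : E → V`:
`N lo hi p` is the number of integer points `x` of the box `[lo, hi]` with divergence `bd x = p`.

* `exch`: `N p * N q ≤ ∑_{c : p c < q c} N (p - e_a + e_c) * N (q + e_a - e_c)` whenever `q a < p a`
  (support statement by a token walk, constant one by the self-improvement trick
  `C → √C` over the slices `x + y = z`).
-/

set_option autoImplicit false

namespace Crest.Agent.R309.Gauge943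

open Finset

variable {V E : Type*} [Fintype V] [DecidableEq V] [Fintype E] [DecidableEq E]

/-- divergence of an integer vector on the edges -/
def bd (s t : E → V) (x : E → ℤ) : V → ℤ :=
  fun v => ∑ e, x e * ((if s e = v then 1 else 0) - (if t e = v then 1 else 0))

/-- unit vector -/
abbrev ev (a : V) : V → ℤ := Pi.single a 1

omit [Fintype V] [DecidableEq E] in
theorem bd_add (s t : E → V) (x y : E → ℤ) : bd s t (x + y) = bd s t x + bd s t y := by
  funext v; simp [bd, add_mul, Finset.sum_add_distrib]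

omit [Fintype V] [DecidableEq E] in
theorem bd_sub (s t : E → V) (x y : E → ℤ) : bd s t (x - y) = bd s t x - bd s t y := by
  funext v; simp [bd, sub_mul, Finset.sum_sub_distrib]

omit [Fintype V] in
theorem bd_single (s t : E → V) (e : E) :
    bd s t (Pi.single e 1) = ev (s e) - ev (t e) := by
  funext v
  unfold bd
  rw [Finset.sum_eq_single e]
  · simp [Pi.single_apply, eq_comm]
  · intro b _ hb; simp [hb]
  · simp

omit [DecidableEq E] in
theorem sum_bd (s t : E → V) (x : E → ℤ) : ∑ v, bd s t x v = 0 := by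
  unfold bd
  rw [Finset.sum_comm]
  apply Finset.sum_eq_zero
  intro e _
  rw [← Finset.mul_sum, Finset.sum_sub_distrib]
  simp

/-- `z` is coordinatewise between `x` and `y` -/
def Btw (x y z : E → ℤ) : Prop := ∀ e, (x e ≤ z e ∧ z e ≤ y e) ∨ (y e ≤ z e ∧ z e ≤ x e)

omit [Fintype V] [DecidableEq V] [Fintype E] [DecidableEq E] in
theorem Btw.trans {x y z w : E → ℤ} (h1 : Btw x y z) (h2 : Btw z y w) : Btw x y w := by
  intro e
  have a := h1 e
  have b := h2 e
  omega

omit [Fintype V] in
/-- token walk: a unit can be pushed from the token `p` towards `y` until it reaches a vertex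
where `y` has more than `q0 + e_a`. -/
theorem walk (s t : E → V) (y : E → ℤ) (q0 : V → ℤ) (a : V) (ha : bd s t y a < q0 a + 1) :
    ∀ (n : ℕ) (x : E → ℤ) (p : V), (∑ e, (x e - y e).natAbs) ≤ n → bd s t x = q0 + ev p →
      bd s t y p < bd s t x p →
      ∃ (c : V) (z : E → ℤ), Btw x y z ∧ bd s t z = q0 + ev c ∧ (q0 + ev a) c < bd s t y c := by
  intro n
  induction n with
  | zero =>
    intro x p hn hx hp
    have hxy : x = y := by
      funext e
      have : (x e - y e).natAbs = 0 := by
        have h := Finset.sum_eq_zero_iff.mp (Nat.le_zero.mp hn) e (Finset.mem_univ e)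
        exact h
      omega
    subst hxy
    exact absurd hp (lt_irrefl _)
  | succ n ih =>
    intro x p hn hx hp
    -- an edge at the token
    have hex : ∃ e, 0 < (x e - y e) * ((if s e = p then 1 else 0) - (if t e = p then 1 else 0)) := by
      by_contra hcon
      push Not at hcon
      have : bd s t x p - bd s t y p ≤ 0 := by
        have h : bd s t x p - bd s t y p
            = ∑ e, (x e - y e) * ((if s e = p then 1 else 0) - (if t e = p then 1 else 0)) := by
          simp only [bd, ← Finset.sum_sub_distrib, sub_mul]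
        rw [h]
        exact Finset.sum_nonpos (fun e _ => hcon e)
      omega
    obtain ⟨e, he⟩ := hex
    -- the step
    have step : ∀ (r : V) (x' : E → ℤ), Btw x y x' → bd s t x' = q0 + ev r →
        (∑ e, (x' e - y e).natAbs) ≤ n →
        ∃ (c : V) (z : E → ℤ), Btw x y z ∧ bd s t z = q0 + ev c ∧ (q0 + ev a) c < bd s t y c := by
      intro r x' hb hr hs
      by_cases hstop : (q0 + ev a) r < bd s t y r
      · exact ⟨r, x', hb, hr, hstop⟩
      · push Not at hstop
        have hlt : bd s t y r < bd s t x' r := by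
          rw [hr]
          simp only [Pi.add_apply, Pi.single_eq_same]
          by_cases hra : r = a
          · subst hra; exact ha
          · simp only [Pi.add_apply, Pi.single_apply, hra, if_false, add_zero] at hstop
            omega
        obtain ⟨c, z, h1, h2, h3⟩ := ih x' r hs hr hlt
        exact ⟨c, z, hb.trans h1, h2, h3⟩
    have hsum : ∀ (δ : ℤ), (x e + δ - y e).natAbs + 1 ≤ (x e - y e).natAbs →
        (∑ e', ((x + (Pi.single e δ : E → ℤ)) e' - y e').natAbs) ≤ n := by
      intro δ hδ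
      have h1 : ∑ e', ((x + (Pi.single e δ : E → ℤ)) e' - y e').natAbs
          = ((x + (Pi.single e δ : E → ℤ)) e - y e).natAbs
            + ∑ e' ∈ Finset.univ.erase e, ((x + (Pi.single e δ : E → ℤ)) e' - y e').natAbs :=
        (Finset.add_sum_erase _ _ (Finset.mem_univ e)).symm
      have h2 : ∑ e', (x e' - y e').natAbs
          = (x e - y e).natAbs + ∑ e' ∈ Finset.univ.erase e, (x e' - y e').natAbs :=
        (Finset.add_sum_erase _ _ (Finset.mem_univ e)).symm
      have h3 : ∑ e' ∈ Finset.univ.erase e, ((x + (Pi.single e δ : E → ℤ)) e' - y e').natAbs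
          = ∑ e' ∈ Finset.univ.erase e, (x e' - y e').natAbs := by
        apply Finset.sum_congr rfl
        intro e' he'
        have : e' ≠ e := Finset.ne_of_mem_erase he'
        simp [this]
      have h4 : ((x + (Pi.single e δ : E → ℤ)) e - y e).natAbs = (x e + δ - y e).natAbs := by
        simp
      rw [h1, h3, h4]
      rw [h2] at hn
      omega
    have hbt : ∀ (δ : ℤ), ((x e ≤ x e + δ ∧ x e + δ ≤ y e) ∨ (y e ≤ x e + δ ∧ x e + δ ≤ x e)) →
        Btw x y (x + Pi.single e δ) := by
      intro δ hδ e'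
      by_cases h : e' = e
      · subst h; simpa using hδ
      · simp [h]; omega
    by_cases hs : s e = p
    · by_cases ht : t e = p
      · simp [hs, ht] at he
      · -- decrease x e by one
        simp only [hs, ht, if_true, if_false, sub_zero, mul_one] at he
        refine step (t e) (x + Pi.single e (-1)) (hbt (-1) (by omega)) ?_ (hsum (-1) (by omega))
        have : (Pi.single e (-1) : E → ℤ) = 0 - Pi.single e 1 := by
          rw [zero_sub, ← Pi.single_neg]
        rw [bd_add, this, bd_sub, bd_single, hx, hs]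
        have h0 : bd s t (0 : E → ℤ) = 0 := by funext v; simp [bd]
        rw [h0]; abel
    · by_cases ht : t e = p
      · simp only [hs, ht, if_true, if_false, zero_sub, mul_neg, mul_one] at he
        refine step (s e) (x + Pi.single e 1) (hbt 1 (by omega)) ?_ (hsum 1 (by omega))
        rw [bd_add, bd_single, hx, ht]
        abel
      · simp [hs, ht] at he

/-- solutions in the box -/
noncomputable def sol (s t : E → V) (lo hi : E → ℤ) (p : V → ℤ) : Finset (E → ℤ) :=
  (Finset.Icc lo hi).filter (fun x => bd s t x = p)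

/-- number of solutions in the box -/
noncomputable def N (s t : E → V) (lo hi : E → ℤ) (p : V → ℤ) : ℕ := (sol s t lo hi p).card

theorem mem_sol {s t : E → V} {lo hi : E → ℤ} {p : V → ℤ} {x : E → ℤ} :
    x ∈ sol s t lo hi p ↔ (lo ≤ x ∧ x ≤ hi) ∧ bd s t x = p := by
  simp [sol]

/-- support form of the exchange property -/
theorem support_exch (s t : E → V) (lo hi : E → ℤ) (p q : V → ℤ) (a : V) (ha : q a < p a)
    (hp : 0 < N s t lo hi p) (hq : 0 < N s t lo hi q) :
    ∃ c, p c < q c ∧ 0 < N s t lo hi (p - ev a + ev c) ∧ 0 < N s t lo hi (q + ev a - ev c) := by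
  obtain ⟨x, hx⟩ := Finset.card_pos.mp hp
  obtain ⟨y, hy⟩ := Finset.card_pos.mp hq
  rw [mem_sol] at hx hy
  obtain ⟨⟨hx1, hx2⟩, hx3⟩ := hx
  obtain ⟨⟨hy1, hy2⟩, hy3⟩ := hy
  have hbase := walk s t y (p - ev a) a (by rw [hy3]; simp; exact ha)
    (∑ e, (x e - y e).natAbs) x a le_rfl (by rw [hx3]; abel) (by rw [hx3, hy3]; exact ha)
  obtain ⟨c, z, hz1, hz2, hz3⟩ := hbase
  refine ⟨c, ?_, ?_, ?_⟩
  · rw [hy3] at hz3; simpa using hz3
  · apply Finset.card_pos.mpr
    refine ⟨z, mem_sol.mpr ⟨⟨?_, ?_⟩, hz2⟩⟩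
    · intro e
      have h1 := hz1 e
      have h2 : lo e ≤ x e := hx1 e
      have h3 : lo e ≤ y e := hy1 e
      show lo e ≤ z e
      omega
    · intro e
      have h1 := hz1 e
      have h2 : x e ≤ hi e := hx2 e
      have h3 : y e ≤ hi e := hy2 e
      show z e ≤ hi e
      omega
  · apply Finset.card_pos.mpr
    refine ⟨x + y - z, mem_sol.mpr ⟨⟨?_, ?_⟩, ?_⟩⟩
    · intro e
      have h1 := hz1 e
      have h2 : lo e ≤ x e := hx1 e
      have h3 : lo e ≤ y e := hy1 e
      show lo e ≤ x e + y e - z e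
      omega
    · intro e
      have h1 := hz1 e
      have h2 : x e ≤ hi e := hx2 e
      have h3 : y e ≤ hi e := hy2 e
      show x e + y e - z e ≤ hi e
      omega
    · rw [bd_sub, bd_add, hx3, hy3, hz2]; abel

/-- the slice `x + y = z` of the pairs of points of the box, as a box for `x` -/
def slo (lo hi z : E → ℤ) : E → ℤ := lo ⊔ (z - hi)

/-- upper end of the slice box -/
def shi (lo hi z : E → ℤ) : E → ℤ := hi ⊓ (z - lo)

theorem mem_slice {s t : E → V} {lo hi z : E → ℤ} {p : V → ℤ} {x : E → ℤ} :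
    x ∈ sol s t (slo lo hi z) (shi lo hi z) p ↔
      (lo ≤ x ∧ x ≤ hi) ∧ (lo ≤ z - x ∧ z - x ≤ hi) ∧ bd s t x = p := by
  rw [mem_sol]
  simp only [slo, shi, sup_le_iff, le_inf_iff]
  constructor
  · rintro ⟨⟨⟨h1, h2⟩, h3, h4⟩, h5⟩
    refine ⟨⟨h1, h3⟩, ⟨?_, ?_⟩, h5⟩
    · intro e; have a1 := h4 e; simp only [Pi.sub_apply] at *; omega
    · intro e; have a1 := h2 e; simp only [Pi.sub_apply] at *; omega
  · rintro ⟨⟨h1, h3⟩, ⟨h4, h2⟩, h5⟩
    refine ⟨⟨⟨h1, ?_⟩, h3, ?_⟩, h5⟩
    · intro e; have a1 := h2 e; simp only [Pi.sub_apply] at *; omega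
    · intro e; have a1 := h4 e; simp only [Pi.sub_apply] at *; omega

/-- pairs of solutions, sliced by their sum -/
theorem mul_eq_sum_slices (s t : E → V) (lo hi : E → ℤ) (p q : V → ℤ) :
    N s t lo hi p * N s t lo hi q
      = ∑ z ∈ (Finset.Icc (lo + lo) (hi + hi)).filter (fun z => bd s t z = p + q),
          N s t (slo lo hi z) (shi lo hi z) p := by
  unfold N
  rw [← Finset.card_product]
  have hmaps : ∀ a ∈ sol s t lo hi p ×ˢ sol s t lo hi q, a.1 + a.2 ∈
      (Finset.Icc (lo + lo) (hi + hi)).filter (fun z => bd s t z = p + q) := by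
    rintro ⟨x, y⟩ h
    rw [Finset.mem_product, mem_sol, mem_sol] at h
    obtain ⟨⟨⟨h1, h2⟩, h3⟩, ⟨h4, h5⟩, h6⟩ := h
    simp only [Finset.mem_filter, Finset.mem_Icc]
    exact ⟨⟨add_le_add h1 h4, add_le_add h2 h5⟩, by rw [bd_add, h3, h6]⟩
  rw [Finset.card_eq_sum_card_fiberwise hmaps]
  apply Finset.sum_congr rfl
  intro z hz
  simp only [Finset.mem_filter, Finset.mem_Icc] at hz
  apply Finset.card_nbij' (fun a => a.1) (fun x => (x, z - x))
  · rintro ⟨x, y⟩ h
    simp only [Finset.coe_filter, Set.mem_ofPred_eq, Finset.mem_product, mem_sol] at h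
    obtain ⟨⟨⟨⟨h1, h2⟩, h3⟩, ⟨h4, h5⟩, h6⟩, h7⟩ := h
    have hy : z - x = y := by rw [← h7]; abel
    rw [Finset.mem_coe, mem_slice]
    exact ⟨⟨h1, h2⟩, by rw [hy]; exact ⟨h4, h5⟩, h3⟩
  · intro x h
    rw [Finset.mem_coe, mem_slice] at h
    obtain ⟨⟨h1, h2⟩, ⟨h3, h4⟩, h5⟩ := h
    simp only [Finset.coe_filter, Set.mem_ofPred_eq, Finset.mem_product, mem_sol]
    refine ⟨⟨⟨⟨h1, h2⟩, h5⟩, ⟨h3, h4⟩, ?_⟩, by abel⟩
    rw [bd_sub, hz.2, h5]; abel
  · rintro ⟨x, y⟩ h
    simp only [Finset.coe_filter, Set.mem_ofPred_eq] at h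
    have hy : z - x = y := by rw [← h.2]; abel
    simp [hy]
  · intro x _; rfl

/-- reflection of a slice -/
theorem slice_refl (s t : E → V) (lo hi z : E → ℤ) (p q : V → ℤ) (hz : bd s t z = p + q) :
    N s t (slo lo hi z) (shi lo hi z) p = N s t (slo lo hi z) (shi lo hi z) q := by
  unfold N
  have key : ∀ p q : V → ℤ, bd s t z = p + q → ∀ x ∈ sol s t (slo lo hi z) (shi lo hi z) p,
      z - x ∈ sol s t (slo lo hi z) (shi lo hi z) q := by
    intro p q hz x h
    rw [mem_slice] at h ⊢
    obtain ⟨h1, h2, h3⟩ := h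
    refine ⟨h2, by rw [sub_sub_cancel]; exact h1, ?_⟩
    rw [bd_sub, hz, h3]; abel
  apply Finset.card_nbij' (fun x => z - x) (fun x => z - x)
  · intro x h; exact key p q hz x h
  · intro x h; exact key q p (by rw [hz]; abel) x h
  · intro x _; simp
  · intro x _; simp

/-- the exchange inequality with constant `C` -/
def ExC (s t : E → V) (B : ℕ) (C : ℝ) : Prop :=
  ∀ (lo hi : E → ℤ), (∀ e, hi e - lo e ≤ B) → ∀ (p q : V → ℤ) (a : V), q a < p a →
    (N s t lo hi p : ℝ) * N s t lo hi q ≤
      C * ∑ c ∈ univ.filter (fun c => p c < q c),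
        (N s t lo hi (p - ev a + ev c) : ℝ) * N s t lo hi (q + ev a - ev c)

theorem N_le (s t : E → V) (B : ℕ) (lo hi : E → ℤ) (h : ∀ e, hi e - lo e ≤ B) (p : V → ℤ) :
    N s t lo hi p ≤ (B + 1) ^ Fintype.card E := by
  unfold N sol
  calc _ ≤ (Finset.Icc lo hi).card := Finset.card_filter_le _ _
    _ = ∏ e, (Finset.Icc (lo e) (hi e)).card := Pi.card_Icc lo hi
    _ ≤ ∏ _e : E, (B + 1) := by
        apply Finset.prod_le_prod' 
        intro e _
        rw [Int.card_Icc]
        have := h e
        omega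
    _ = (B + 1) ^ Fintype.card E := by simp

theorem exC_base (s t : E → V) (B : ℕ) :
    ExC s t B (((B + 1 : ℕ) : ℝ) ^ (2 * Fintype.card E)) := by
  intro lo hi h p q a ha
  by_cases h0 : 0 < N s t lo hi p ∧ 0 < N s t lo hi q
  · obtain ⟨c, hc, h1, h2⟩ := support_exch s t lo hi p q a ha h0.1 h0.2
    have hL : (N s t lo hi p : ℝ) * N s t lo hi q ≤ ((B + 1 : ℕ) : ℝ) ^ (2 * Fintype.card E) := by
      rw [two_mul, pow_add]
      apply mul_le_mul
      · exact_mod_cast N_le s t B lo hi h p
      · exact_mod_cast N_le s t B lo hi h q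
      · positivity
      · positivity
    have hR : (1 : ℝ) ≤ ∑ c ∈ univ.filter (fun c => p c < q c),
        (N s t lo hi (p - ev a + ev c) : ℝ) * N s t lo hi (q + ev a - ev c) := by
      have hmem : c ∈ univ.filter (fun c => p c < q c) := by simp [hc]
      refine le_trans ?_ (Finset.single_le_sum (f := fun c => (N s t lo hi (p - ev a + ev c) : ℝ)
        * N s t lo hi (q + ev a - ev c)) (fun i _ => by positivity) hmem)
      have : 1 ≤ N s t lo hi (p - ev a + ev c) * N s t lo hi (q + ev a - ev c) :=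
        Nat.one_le_iff_ne_zero.mpr (Nat.mul_ne_zero (by omega) (by omega))
      exact_mod_cast this
    calc _ ≤ ((B + 1 : ℕ) : ℝ) ^ (2 * Fintype.card E) * 1 := by rw [mul_one]; exact hL
      _ ≤ _ := by apply mul_le_mul_of_nonneg_left hR; positivity
  · have : (N s t lo hi p : ℝ) * N s t lo hi q = 0 := by
      rcases not_and_or.mp h0 with h1 | h1
      · have : N s t lo hi p = 0 := by omega
        simp [this]
      · have : N s t lo hi q = 0 := by omega
        simp [this]
    rw [this]
    apply mul_nonneg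
    · positivity
    · apply Finset.sum_nonneg
      intro c _
      exact mul_nonneg (Nat.cast_nonneg _) (Nat.cast_nonneg _)

theorem sqrt_step (C x S : ℝ) (hC : 0 ≤ C) (hS : 0 ≤ S) (h : x * x ≤ C * S ^ 2) :
    x ≤ Real.sqrt C * S := by
  have h6 : x ^ 2 ≤ (Real.sqrt C * S) ^ 2 := by
    rw [mul_pow, Real.sq_sqrt hC, sq x]; exact h
  exact (abs_le_of_sq_le_sq' h6 (by positivity)).2

/-- the self-improvement step -/
theorem exC_sqrt (s t : E → V) (B : ℕ) (C : ℝ) (hC : 0 ≤ C) (h : ExC s t B C) :
    ExC s t B (Real.sqrt C) := by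
  intro lo hi hB p q a ha
  set Zs := (Finset.Icc (lo + lo) (hi + hi)).filter (fun z => bd s t z = p + q) with hZs
  have hL : (N s t lo hi p : ℝ) * N s t lo hi q
      = ∑ z ∈ Zs, (N s t (slo lo hi z) (shi lo hi z) p : ℝ) := by
    have := mul_eq_sum_slices s t lo hi p q
    exact_mod_cast this
  have hR : ∀ c, (N s t lo hi (p - ev a + ev c) : ℝ) * N s t lo hi (q + ev a - ev c)
      = ∑ z ∈ Zs, (N s t (slo lo hi z) (shi lo hi z) (p - ev a + ev c) : ℝ) := by
    intro c
    have := mul_eq_sum_slices s t lo hi (p - ev a + ev c) (q + ev a - ev c)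
    have h2 : p - ev a + ev c + (q + ev a - ev c) = p + q := by abel
    rw [h2] at this
    exact_mod_cast this
  rw [hL]
  simp_rw [hR]
  rw [Finset.sum_comm, Finset.mul_sum]
  apply Finset.sum_le_sum
  intro z hz
  have hbz : bd s t z = p + q := (Finset.mem_filter.mp hz).2
  have hside : ∀ e, shi lo hi z e - slo lo hi z e ≤ B := by
    intro e
    have := hB e
    simp only [shi, slo, Pi.inf_apply, Pi.sup_apply, Pi.sub_apply]
    have h1 : min (hi e) (z e - lo e) ≤ hi e := min_le_left _ _
    have h2 : lo e ≤ max (lo e) (z e - hi e) := le_max_left _ _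
    have h3 : hi e ⊓ (z e - lo e) ≤ hi e := inf_le_left
    have h4 : lo e ≤ lo e ⊔ (z e - hi e) := le_sup_left
    linarith
  have hmain := h (slo lo hi z) (shi lo hi z) hside p q a ha
  rw [← slice_refl s t lo hi z p q hbz] at hmain
  have hrefl : ∀ c, (N s t (slo lo hi z) (shi lo hi z) (q + ev a - ev c) : ℝ)
      = N s t (slo lo hi z) (shi lo hi z) (p - ev a + ev c) := by
    intro c
    have := slice_refl s t lo hi z (p - ev a + ev c) (q + ev a - ev c) (by rw [hbz]; abel)
    exact_mod_cast this.symm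
  simp_rw [hrefl] at hmain
  set x : ℝ := (N s t (slo lo hi z) (shi lo hi z) p : ℝ)
  set y : V → ℝ := fun c => (N s t (slo lo hi z) (shi lo hi z) (p - ev a + ev c) : ℝ)
  have hy : ∀ c, 0 ≤ y c := fun c => by positivity
  have hsq : ∑ c ∈ univ.filter (fun c => p c < q c), y c * y c
      ≤ (∑ c ∈ univ.filter (fun c => p c < q c), y c) ^ 2 := by
    rw [sq, Finset.sum_mul]
    apply Finset.sum_le_sum
    intro c hc
    apply mul_le_mul_of_nonneg_left _ (hy c)
    exact Finset.single_le_sum (fun i _ => hy i) hc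
  have hS : 0 ≤ ∑ c ∈ univ.filter (fun c => p c < q c), y c := Finset.sum_nonneg (fun c _ => hy c)
  exact sqrt_step C x _ hC hS (hmain.trans (mul_le_mul_of_nonneg_left hsq hC))

/-- **Exchange inequality with constant one.** -/
theorem exch (s t : E → V) (lo hi : E → ℤ) (p q : V → ℤ) (a : V) (ha : q a < p a) :
    (N s t lo hi p : ℝ) * N s t lo hi q ≤
      ∑ c ∈ univ.filter (fun c => p c < q c),
        (N s t lo hi (p - ev a + ev c) : ℝ) * N s t lo hi (q + ev a - ev c) := by
  -- a common bound for the sides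
  obtain ⟨B, hB⟩ : ∃ B : ℕ, ∀ e, hi e - lo e ≤ B := by
    refine ⟨∑ e, (hi e - lo e).toNat, fun e => ?_⟩
    have h1 : (hi e - lo e).toNat ≤ ∑ e, (hi e - lo e).toNat :=
      Finset.single_le_sum (f := fun e => (hi e - lo e).toNat) (fun _ _ => Nat.zero_le _)
        (Finset.mem_univ e)
    omega
  set C0 : ℝ := ((B + 1 : ℕ) : ℝ) ^ (2 * Fintype.card E) with hC0
  have hC0' : 1 ≤ C0 := by
    apply one_le_pow₀
    have : (1 : ℕ) ≤ B + 1 := by omega
    exact_mod_cast this
  have hiter : ∀ k : ℕ, ExC s t B ((fun C => Real.sqrt C)^[k] C0) := by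
    intro k
    induction k with
    | zero => exact exC_base s t B
    | succ k ih =>
      rw [Function.iterate_succ_apply']
      refine exC_sqrt s t B _ ?_ ih
      have : ∀ k : ℕ, 0 ≤ (fun C => Real.sqrt C)^[k] C0 := by
        intro k
        cases k with
        | zero => simp only [Function.iterate_zero, id]; linarith
        | succ k => rw [Function.iterate_succ_apply']; exact Real.sqrt_nonneg _
      exact this k
  -- the constants tend to one
  have hval : ∀ k : ℕ, (fun C => Real.sqrt C)^[k] C0 = C0 ^ ((1 / 2 : ℝ) ^ k) := by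
    intro k
    induction k with
    | zero => simp
    | succ k ih =>
      rw [Function.iterate_succ_apply', ih, Real.sqrt_eq_rpow, ← Real.rpow_mul (by linarith)]
      congr 1
  have hlim : Filter.Tendsto (fun k : ℕ => C0 ^ ((1 / 2 : ℝ) ^ k)) Filter.atTop (nhds 1) := by
    have h1 : Filter.Tendsto (fun k : ℕ => ((1 / 2 : ℝ) ^ k)) Filter.atTop (nhds 0) :=
      tendsto_pow_atTop_nhds_zero_of_lt_one (by norm_num) (by norm_num)
    have h2 : Filter.Tendsto (fun k : ℕ => C0 ^ ((1 / 2 : ℝ) ^ k)) Filter.atTop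
        (nhds (C0 ^ (0 : ℝ))) := by
      apply Filter.Tendsto.rpow tendsto_const_nhds h1
      left; linarith
    simpa using h2
  set S : ℝ := ∑ c ∈ univ.filter (fun c => p c < q c),
        (N s t lo hi (p - ev a + ev c) : ℝ) * N s t lo hi (q + ev a - ev c) with hS
  have hle : ∀ k : ℕ, (N s t lo hi p : ℝ) * N s t lo hi q ≤ C0 ^ ((1 / 2 : ℝ) ^ k) * S := by
    intro k
    have := hiter k lo hi hB p q a ha
    rw [hval k] at this
    exact this
  have hlim2 : Filter.Tendsto (fun k : ℕ => C0 ^ ((1 / 2 : ℝ) ^ k) * S) Filter.atTop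
      (nhds (1 * S)) := hlim.mul_const S
  rw [one_mul] at hlim2
  exact ge_of_tendsto' hlim2 hle

end Crest.Agent.R309.Gauge943
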