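import Crest.Agent.R309.Gauge943

/-!
# R309: existence of a good gauge

For a box system with `0 < N β` there is a field `l : V → ℝ`, `|l v| ≤ log |box|`, such that the soft
partition function with defect weight `θ`, `θ² |V|² ≤ 1/2`, and field `l` is at most `2 N β`.
-/

set_option autoImplicit false

namespace Crest.Agent.R309.GaugeEx943

open Finset Crest.Agent.R309.Gauge943

variable {V E : Type*} [Fintype V] [DecidableEq V] [Fintype E] [DecidableEq E]

/-- triangle inequality with constant one -/
theorem tri (s t : E → V) (lo hi : E → ℤ) (β : V → ℤ) (a c d : V) :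
    (N s t lo hi (β + ev a - ev c) : ℝ) * N s t lo hi (β + ev c - ev d) ≤
      N s t lo hi β * N s t lo hi (β + ev a - ev d) := by
  by_cases hac : a = c
  · subst hac
    have : β + ev a - ev a = β := by abel
    rw [this]
  · have hca : ¬ c = a := fun h => hac h.symm
    have hlt : (β + ev c - ev d) a < (β + ev a - ev c) a := by
      simp only [Pi.sub_apply, Pi.add_apply, Pi.single_apply, hac, if_false, if_true]
      by_cases had : a = d
      · simp [had]
      · simp [had]
    refine (exch s t lo hi (β + ev a - ev c) (β + ev c - ev d) a hlt).trans ?_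
    have hsub : univ.filter (fun c' => (β + ev a - ev c) c' < (β + ev c - ev d) c') ⊆ {c} := by
      intro c' hc'
      simp only [Finset.mem_filter, Finset.mem_univ, true_and, Pi.sub_apply, Pi.add_apply,
        Pi.single_apply] at hc'
      simp only [Finset.mem_singleton]
      by_contra hne
      simp only [hne, if_false] at hc'
      split_ifs at hc' <;> omega
    refine (Finset.sum_le_sum_of_subset_of_nonneg hsub (fun _ _ _ => by positivity)).trans ?_
    rw [Finset.sum_singleton]
    have e1 : β + ev a - ev c - ev a + ev c = β := by abel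
    have e2 : β + ev c - ev d + ev a - ev c = β + ev a - ev d := by abel
    rw [e1, e2]

/-- existence of the gauge: pointwise form -/
theorem gauge_exists (s t : E → V) (lo hi : E → ℤ) (β : V → ℤ) (hβ : 0 < N s t lo hi β) :
    ∃ l : V → ℝ, (∀ v, |l v| ≤ Real.log (Icc lo hi).card) ∧
      ∀ a c, Real.exp (l a - l c) * N s t lo hi (β + ev a - ev c) ≤ N s t lo hi β := by
  classical
  have hle : ∀ p, N s t lo hi p ≤ (Icc lo hi).card := by
    intro p
    unfold N sol
    exact Finset.card_le_card (Finset.filter_subset _ _)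
  have hex : ∀ a : V, ∃ c : V, ∀ c', N s t lo hi (β + ev a - ev c') ≤ N s t lo hi (β + ev a - ev c) := by
    intro a
    obtain ⟨c, -, hc⟩ := Finset.exists_max_image univ
      (fun c => N s t lo hi (β + ev a - ev c)) ⟨a, Finset.mem_univ a⟩
    exact ⟨c, fun c' => hc c' (Finset.mem_univ c')⟩
  choose f hf using hex
  have haa : ∀ a, β + ev a - ev a = β := fun a => by abel
  have hM : ∀ a, N s t lo hi β ≤ N s t lo hi (β + ev a - ev (f a)) := by
    intro a
    have := hf a a
    rwa [haa] at this
  have hN0 : (0 : ℝ) < N s t lo hi β := by exact_mod_cast hβ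
  have hM0 : ∀ a, (0 : ℝ) < N s t lo hi (β + ev a - ev (f a)) := by
    intro a
    have h := hM a
    have : 0 < N s t lo hi (β + ev a - ev (f a)) := lt_of_lt_of_le hβ h
    exact_mod_cast this
  refine ⟨fun a => Real.log (N s t lo hi β) - Real.log (N s t lo hi (β + ev a - ev (f a))), ?_, ?_⟩
  · intro v
    have h1 : Real.log (N s t lo hi β) ≤ Real.log (N s t lo hi (β + ev v - ev (f v))) :=
      Real.log_le_log hN0 (by exact_mod_cast hM v)
    have h2 : Real.log (N s t lo hi (β + ev v - ev (f v))) ≤ Real.log (Icc lo hi).card :=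
      Real.log_le_log (hM0 v) (by exact_mod_cast hle _)
    have h3 : 0 ≤ Real.log (N s t lo hi β) := by
      apply Real.log_nonneg
      exact_mod_cast hβ
    rw [abs_le]
    constructor <;> linarith
  · intro a c
    have h1 := tri s t lo hi β a c (f c)
    have h2 : (N s t lo hi (β + ev a - ev (f c)) : ℝ) ≤ N s t lo hi (β + ev a - ev (f a)) := by
      exact_mod_cast hf a (f c)
    have h3 : Real.exp ((Real.log (N s t lo hi β) - Real.log (N s t lo hi (β + ev a - ev (f a)))) -
        (Real.log (N s t lo hi β) - Real.log (N s t lo hi (β + ev c - ev (f c)))))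
        = N s t lo hi (β + ev c - ev (f c)) / N s t lo hi (β + ev a - ev (f a)) := by
      rw [show (Real.log (N s t lo hi β) - Real.log (N s t lo hi (β + ev a - ev (f a)))) -
        (Real.log (N s t lo hi β) - Real.log (N s t lo hi (β + ev c - ev (f c))))
        = Real.log (N s t lo hi (β + ev c - ev (f c))) - Real.log (N s t lo hi (β + ev a - ev (f a))) by ring,
        Real.exp_sub, Real.exp_log (hM0 c), Real.exp_log (hM0 a)]
    simp only
    rw [h3, div_mul_eq_mul_div, div_le_iff₀ (hM0 a)]
    calc (N s t lo hi (β + ev c - ev (f c)) : ℝ) * N s t lo hi (β + ev a - ev c)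
        = N s t lo hi (β + ev a - ev c) * N s t lo hi (β + ev c - ev (f c)) := by ring
      _ ≤ N s t lo hi β * N s t lo hi (β + ev a - ev (f c)) := h1
      _ ≤ N s t lo hi β * N s t lo hi (β + ev a - ev (f a)) :=
        mul_le_mul_of_nonneg_left h2 hN0.le

/-- zero-sum vectors of `ℓ¹`-norm `2m` -/
noncomputable def T (m : ℕ) : Finset (V → ℤ) :=
  (Fintype.piFinset (fun _ : V => Icc (-(2 * m : ℤ)) (2 * m))).filter
    (fun τ => ∑ v, |τ v| = 2 * m ∧ ∑ v, τ v = 0)

theorem mem_T {m : ℕ} {τ : V → ℤ} : τ ∈ T m ↔ ∑ v, |τ v| = 2 * m ∧ ∑ v, τ v = 0 := by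
  unfold T
  simp only [Finset.mem_filter, Fintype.mem_piFinset, Finset.mem_Icc, and_iff_right_iff_imp]
  rintro ⟨h, -⟩ v
  have := Finset.single_le_sum (f := fun v => |τ v|) (fun i _ => abs_nonneg (τ i)) (Finset.mem_univ v)
  simp only [h] at this
  exact abs_le.mp this

/-- gauge factor -/
noncomputable def gf (l : V → ℝ) (τ : V → ℤ) : ℝ := Real.exp (∑ v, l v * (τ v : ℝ))

omit [DecidableEq V] in
theorem gf_pos (l : V → ℝ) (τ : V → ℤ) : 0 < gf l τ := Real.exp_pos _

theorem gf_shift (l : V → ℝ) (τ : V → ℤ) (a c : V) :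
    gf l τ = Real.exp (l a - l c) * gf l (τ - ev a + ev c) := by
  unfold gf
  rw [← Real.exp_add]
  congr 1
  have : ∀ v, l v * (((τ - ev a + ev c) v : ℤ) : ℝ) = l v * (τ v : ℝ) - (if v = a then l v else 0)
      + (if v = c then l v else 0) := by
    intro v
    simp only [Pi.add_apply, Pi.sub_apply, Pi.single_apply]
    push_cast
    split_ifs <;> ring
  simp_rw [this, Finset.sum_add_distrib, Finset.sum_sub_distrib, Finset.sum_ite_eq',
    Finset.mem_univ, if_true]
  ring

/-- weighted mass at level `m` -/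
noncomputable def G (s t : E → V) (lo hi : E → ℤ) (β : V → ℤ) (l : V → ℝ) (m : ℕ) : ℝ :=
  ∑ τ ∈ (T m : Finset (V → ℤ)), gf l τ * N s t lo hi (β + τ)

theorem G_nonneg (s t : E → V) (lo hi : E → ℤ) (β : V → ℤ) (l : V → ℝ) (m : ℕ) :
    0 ≤ G s t lo hi β l m :=
  Finset.sum_nonneg (fun τ _ => mul_nonneg (gf_pos l τ).le (Nat.cast_nonneg _))

theorem G_zero (s t : E → V) (lo hi : E → ℤ) (β : V → ℤ) (l : V → ℝ) :
    G s t lo hi β l 0 = N s t lo hi β := by
  have hT : (T 0 : Finset (V → ℤ)) = {0} := by
    ext τ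
    rw [mem_T, Finset.mem_singleton]
    constructor
    · rintro ⟨h, -⟩
      funext v
      have := (Finset.sum_eq_zero_iff_of_nonneg (fun i _ => abs_nonneg (τ i))).mp
        (by simpa using h) v (Finset.mem_univ v)
      simpa using this
    · rintro rfl
      simp
  unfold G
  rw [hT, Finset.sum_singleton]
  simp [gf]

theorem shift_mem_T {m : ℕ} {τ : V → ℤ} (hτ : τ ∈ T (m + 1)) {a c : V} (ha : 0 < τ a) (hc : τ c < 0) :
    τ - ev a + ev c ∈ T m := by
  rw [mem_T] at hτ ⊢
  have hac : a ≠ c := by rintro rfl; omega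
  have h1 : ∀ v, |(τ - ev a + ev c) v| = |τ v| - (if v = a then 1 else 0) - (if v = c then 1 else 0) := by
    intro v
    simp only [Pi.add_apply, Pi.sub_apply, Pi.single_apply]
    by_cases hva : v = a
    · subst hva
      simp only [if_true, hac, if_false]
      rw [abs_of_pos ha, abs_of_nonneg (by omega)]
      omega
    · by_cases hvc : v = c
      · subst hvc
        simp only [hva, if_true, if_false]
        rw [abs_of_neg hc, abs_of_nonpos (by omega)]
        omega
      · simp [hva, hvc]
  have h2 : ∀ v, (τ - ev a + ev c) v = τ v - (if v = a then 1 else 0) + (if v = c then 1 else 0) := by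
    intro v
    simp only [Pi.add_apply, Pi.sub_apply, Pi.single_apply]
  constructor
  · simp_rw [h1, Finset.sum_sub_distrib, Finset.sum_ite_eq', Finset.mem_univ, if_true]
    rw [hτ.1]
    push_cast
    ring
  · simp_rw [h2, Finset.sum_add_distrib, Finset.sum_sub_distrib, Finset.sum_ite_eq',
      Finset.mem_univ, if_true]
    rw [hτ.2]
    ring

/-- one step of the multi-hole recursion -/
theorem G_succ_le (s t : E → V) (lo hi : E → ℤ) (β : V → ℤ) (hβ : 0 < N s t lo hi β) (l : V → ℝ)
    (hl : ∀ a c, Real.exp (l a - l c) * N s t lo hi (β + ev a - ev c) ≤ N s t lo hi β) (m : ℕ) :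
    G s t lo hi β l (m + 1) ≤ (Fintype.card V : ℝ) ^ 2 * G s t lo hi β l m := by
  classical
  have hN0 : (0 : ℝ) < N s t lo hi β := by exact_mod_cast hβ
  set F : (V → ℤ) → ℝ := fun τ => gf l τ * N s t lo hi (β + τ) with hF
  have hF0 : ∀ τ, 0 ≤ F τ := fun τ => mul_nonneg (gf_pos l τ).le (Nat.cast_nonneg _)
  -- pointwise
  have hpt : ∀ τ ∈ (T (m + 1) : Finset (V → ℤ)), F τ ≤
      ∑ a, ∑ c, if 0 < τ a ∧ τ c < 0 then F (τ - ev a + ev c) else 0 := by
    intro τ hτ
    have hτ' := mem_T.mp hτ
    -- a positive coordinate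
    obtain ⟨a, ha⟩ : ∃ a, 0 < τ a := by
      by_contra hcon
      push Not at hcon
      have h0 : ∀ v, τ v = 0 := by
        intro v
        have := (Finset.sum_eq_zero_iff_of_nonpos (fun i _ => hcon i)).mp hτ'.2 v (Finset.mem_univ v)
        exact this
      have : ∑ v, |τ v| = 0 := by simp [h0]
      rw [hτ'.1] at this
      push_cast at this
      omega
    have hex := exch s t lo hi (β + τ) β a (by simp only [Pi.add_apply]; omega)
    have hfil : univ.filter (fun c => (β + τ) c < β c) = univ.filter (fun c => τ c < 0) := by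
      ext c
      simp only [Finset.mem_filter, Finset.mem_univ, true_and, Pi.add_apply]
      omega
    rw [hfil] at hex
    have hkey : F τ * N s t lo hi β ≤
        (∑ c ∈ univ.filter (fun c => τ c < 0), F (τ - ev a + ev c)) * N s t lo hi β := by
      rw [Finset.sum_mul]
      calc F τ * N s t lo hi β = gf l τ * (N s t lo hi (β + τ) * N s t lo hi β) := by
            simp only [hF]; ring
        _ ≤ gf l τ * ∑ c ∈ univ.filter (fun c => τ c < 0),
            (N s t lo hi (β + τ - ev a + ev c) : ℝ) * N s t lo hi (β + ev a - ev c) :=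
            mul_le_mul_of_nonneg_left hex (gf_pos l τ).le
        _ = ∑ c ∈ univ.filter (fun c => τ c < 0), gf l τ *
            ((N s t lo hi (β + τ - ev a + ev c) : ℝ) * N s t lo hi (β + ev a - ev c)) := by
            rw [Finset.mul_sum]
        _ ≤ _ := by
            apply Finset.sum_le_sum
            intro c _
            have h1 : β + τ - ev a + ev c = β + (τ - ev a + ev c) := by abel
            rw [h1, gf_shift l τ a c]
            simp only [hF]
            have h2 := hl a c
            have h3 : 0 ≤ gf l (τ - ev a + ev c) * N s t lo hi (β + (τ - ev a + ev c)) :=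
              mul_nonneg (gf_pos l _).le (Nat.cast_nonneg _)
            calc Real.exp (l a - l c) * gf l (τ - ev a + ev c) *
                (↑(N s t lo hi (β + (τ - ev a + ev c))) * ↑(N s t lo hi (β + ev a - ev c)))
                = (gf l (τ - ev a + ev c) * N s t lo hi (β + (τ - ev a + ev c))) *
                  (Real.exp (l a - l c) * N s t lo hi (β + ev a - ev c)) := by ring
              _ ≤ (gf l (τ - ev a + ev c) * N s t lo hi (β + (τ - ev a + ev c))) *
                  N s t lo hi β := mul_le_mul_of_nonneg_left h2 h3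
    have hkey2 := le_of_mul_le_mul_right hkey hN0
    refine hkey2.trans ?_
    have hone : ∑ c ∈ univ.filter (fun c => τ c < 0), F (τ - ev a + ev c)
        = ∑ c, if 0 < τ a ∧ τ c < 0 then F (τ - ev a + ev c) else 0 := by
      rw [Finset.sum_filter]
      apply Finset.sum_congr rfl
      intro c _
      simp [ha]
    rw [hone]
    exact Finset.single_le_sum
      (f := fun a => ∑ c, if 0 < τ a ∧ τ c < 0 then F (τ - ev a + ev c) else 0)
      (fun a _ => Finset.sum_nonneg (fun c _ => by split_ifs; exacts [hF0 _, le_rfl]))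
      (Finset.mem_univ a)
  calc G s t lo hi β l (m + 1) = ∑ τ ∈ (T (m + 1) : Finset (V → ℤ)), F τ := rfl
    _ ≤ ∑ τ ∈ (T (m + 1) : Finset (V → ℤ)),
        ∑ a, ∑ c, if 0 < τ a ∧ τ c < 0 then F (τ - ev a + ev c) else 0 := Finset.sum_le_sum hpt
    _ = ∑ a, ∑ c, ∑ τ ∈ (T (m + 1) : Finset (V → ℤ)),
        if 0 < τ a ∧ τ c < 0 then F (τ - ev a + ev c) else 0 := by
        rw [Finset.sum_comm]
        apply Finset.sum_congr rfl
        intro a _
        rw [Finset.sum_comm]
    _ ≤ ∑ a : V, ∑ c : V, G s t lo hi β l m := by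
        apply Finset.sum_le_sum
        intro a _
        apply Finset.sum_le_sum
        intro c _
        rw [← Finset.sum_filter]
        have hinj : Set.InjOn (fun τ : V → ℤ => τ - ev a + ev c)
            ((T (m + 1) : Finset (V → ℤ)).filter (fun τ => 0 < τ a ∧ τ c < 0)) := by
          intro x _ y _ hxy
          simp only at hxy
          have := congrArg (fun z => z - ev c + ev a) hxy
          simpa using this
        have := Finset.sum_image (f := F) (s := (T (m + 1) : Finset (V → ℤ)).filter
          (fun τ => 0 < τ a ∧ τ c < 0)) (g := fun τ : V → ℤ => τ - ev a + ev c) hinj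
        rw [← this]
        apply Finset.sum_le_sum_of_subset_of_nonneg
        · intro τ' hτ'
          rw [Finset.mem_image] at hτ'
          obtain ⟨τ, hτ, rfl⟩ := hτ'
          rw [Finset.mem_filter] at hτ
          exact shift_mem_T hτ.1 hτ.2.1 hτ.2.2
        · intro i _ _
          exact hF0 i
    _ = (Fintype.card V : ℝ) ^ 2 * G s t lo hi β l m := by
        simp only [Finset.sum_const, Finset.card_univ, nsmul_eq_mul]
        ring

theorem G_le (s t : E → V) (lo hi : E → ℤ) (β : V → ℤ) (hβ : 0 < N s t lo hi β) (l : V → ℝ)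
    (hl : ∀ a c, Real.exp (l a - l c) * N s t lo hi (β + ev a - ev c) ≤ N s t lo hi β) (m : ℕ) :
    G s t lo hi β l m ≤ ((Fintype.card V : ℝ) ^ 2) ^ m * N s t lo hi β := by
  induction m with
  | zero => rw [G_zero]; simp
  | succ m ih =>
    refine (G_succ_le s t lo hi β hβ l hl m).trans ?_
    rw [pow_succ' ((Fintype.card V : ℝ) ^ 2) m, mul_assoc]
    exact mul_le_mul_of_nonneg_left ih (by positivity)

/-- defect size -/
def nrm (τ : V → ℤ) : ℕ := ∑ v, (τ v).natAbs

omit [DecidableEq V] in
theorem nrm_cast (τ : V → ℤ) : (nrm τ : ℤ) = ∑ v, |τ v| := by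
  unfold nrm
  push_cast
  rfl

omit [DecidableEq V] in
theorem nrm_even (τ : V → ℤ) (h : ∑ v, τ v = 0) : Even (nrm τ) := by
  have h1 : ((nrm τ : ℕ) : ℤ) = ∑ v, |τ v| := nrm_cast τ
  have h2 : (2 : ℤ) ∣ ∑ v, |τ v| - ∑ v, τ v := by
    rw [← Finset.sum_sub_distrib]
    apply Finset.dvd_sum
    intro v _
    rcases abs_cases (τ v) with ⟨h, _⟩ | ⟨h, _⟩ <;> rw [h] <;> omega
  rw [h, sub_zero, ← h1] at h2
  have : 2 ∣ nrm τ := by exact_mod_cast h2
  exact even_iff_two_dvd.mpr this

/-- **Soft mass against perfect mass for the good gauge.** -/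
theorem soft_mass_le (s t : E → V) (lo hi : E → ℤ) (β : V → ℤ) (hβ : 0 < N s t lo hi β) (l : V → ℝ)
    (hl : ∀ a c, Real.exp (l a - l c) * N s t lo hi (β + ev a - ev c) ≤ N s t lo hi β)
    (θ : ℝ) (hθ : 0 ≤ θ) (hθ2 : θ ^ 2 * (Fintype.card V : ℝ) ^ 2 ≤ 1 / 2) :
    ∑ x ∈ Icc lo hi, θ ^ nrm (bd s t x - β) * gf l (bd s t x - β) ≤ 2 * N s t lo hi β := by
  classical
  have hsumβ : ∑ v, β v = 0 := by
    have : (sol s t lo hi β).Nonempty := Finset.card_pos.mp hβ
    obtain ⟨x, hx⟩ := this
    rw [mem_sol] at hx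
    rw [← hx.2]
    exact sum_bd s t x
  have hsum0 : ∀ x, ∑ v, (bd s t x - β) v = 0 := by
    intro x
    simp only [Pi.sub_apply, Finset.sum_sub_distrib, sum_bd, hsumβ, sub_zero]
  set M : ℕ := (∑ x ∈ Icc lo hi, nrm (bd s t x - β)) + 1 with hM
  have hmaps : ∀ x ∈ Icc lo hi, nrm (bd s t x - β) / 2 ∈ range M := by
    intro x hx
    rw [Finset.mem_range]
    have h1 : nrm (bd s t x - β) ≤ ∑ x ∈ Icc lo hi, nrm (bd s t x - β) :=
      Finset.single_le_sum (f := fun x => nrm (bd s t x - β)) (fun _ _ => Nat.zero_le _) hx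
    omega
  rw [← Finset.sum_fiberwise_of_maps_to hmaps]
  have hlev : ∀ m ∈ range M, ∑ x ∈ (Icc lo hi).filter (fun x => nrm (bd s t x - β) / 2 = m),
      θ ^ nrm (bd s t x - β) * gf l (bd s t x - β) = θ ^ (2 * m) * G s t lo hi β l m := by
    intro m _
    unfold G
    rw [Finset.mul_sum]
    have hmaps2 : ∀ x ∈ (Icc lo hi).filter (fun x => nrm (bd s t x - β) / 2 = m),
        bd s t x - β ∈ (T m : Finset (V → ℤ)) := by
      intro x hx
      rw [Finset.mem_filter] at hx
      rw [mem_T]
      refine ⟨?_, hsum0 x⟩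
      have h1 := nrm_even _ (hsum0 x)
      obtain ⟨r, hr⟩ := h1
      have h2 := hx.2
      rw [← nrm_cast]
      have : nrm (bd s t x - β) = 2 * m := by omega
      rw [this]; push_cast; ring
    rw [← Finset.sum_fiberwise_of_maps_to hmaps2]
    apply Finset.sum_congr rfl
    intro τ hτ
    have hτn : nrm τ = 2 * m := by
      have := (mem_T.mp hτ).1
      rw [← nrm_cast] at this
      exact_mod_cast this
    have hset : ((Icc lo hi).filter (fun x => nrm (bd s t x - β) / 2 = m)).filter
        (fun x => bd s t x - β = τ) = sol s t lo hi (β + τ) := by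
      ext x
      rw [mem_sol, Finset.mem_filter, Finset.mem_filter, Finset.mem_Icc, and_assoc]
      constructor
      · rintro ⟨h1, _, h3⟩
        refine ⟨⟨fun e => h1.1 e, fun e => h1.2 e⟩, ?_⟩
        rw [← h3]; abel
      · rintro ⟨h1, h2⟩
        have h3 : bd s t x - β = τ := by rw [h2]; abel
        refine ⟨⟨fun e => h1.1 e, fun e => h1.2 e⟩, ?_, h3⟩
        rw [h3, hτn]; omega
    have hconst : ∀ x ∈ ((Icc lo hi).filter (fun x => nrm (bd s t x - β) / 2 = m)).filter
        (fun x => bd s t x - β = τ), θ ^ nrm (bd s t x - β) * gf l (bd s t x - β)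
          = θ ^ (2 * m) * gf l τ := by
      intro x hx
      rw [(Finset.mem_filter.mp hx).2, hτn]
    rw [Finset.sum_congr rfl hconst, Finset.sum_const, hset, nsmul_eq_mul]
    unfold N
    ring
  rw [Finset.sum_congr rfl hlev]
  have hb : ∀ m ∈ range M, θ ^ (2 * m) * G s t lo hi β l m ≤ (1 / 2 : ℝ) ^ m * N s t lo hi β := by
    intro m _
    have h1 := G_le s t lo hi β hβ l hl m
    calc θ ^ (2 * m) * G s t lo hi β l m
        ≤ θ ^ (2 * m) * (((Fintype.card V : ℝ) ^ 2) ^ m * N s t lo hi β) :=
          mul_le_mul_of_nonneg_left h1 (pow_nonneg hθ _)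
      _ = (θ ^ 2 * (Fintype.card V : ℝ) ^ 2) ^ m * N s t lo hi β := by
          rw [pow_mul, mul_pow, mul_assoc]
      _ ≤ (1 / 2 : ℝ) ^ m * N s t lo hi β := by
          apply mul_le_mul_of_nonneg_right _ (Nat.cast_nonneg _)
          exact pow_le_pow_left₀ (by positivity) hθ2 m
  refine (Finset.sum_le_sum hb).trans ?_
  rw [← Finset.sum_mul]
  apply mul_le_mul_of_nonneg_right _ (Nat.cast_nonneg _)
  have := geom_sum_eq (by norm_num : (1 / 2 : ℝ) ≠ 1) M
  rw [this]
  have h2 : (0 : ℝ) ≤ (1 / 2) ^ M := by positivity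
  rw [div_le_iff_of_neg (by norm_num)]
  linarith

end Crest.Agent.R309.GaugeEx943
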