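import Crest.Agent.R309.Iface

/-!
# R309: interface between the inner (unary) step and the outer chain

`InnerSpec`: a tape-driven step on the tables of a UNARY instance (all dimensions and cell bounds at most the
unary parameter `K`; tape length a function of `K` alone) whose kernel is EXACTLY symmetric and is at least
`1 / (8 N)` between any two distinct tables.
-/

set_option autoImplicit false

namespace Crest.Agent.R309.Iface

open Crest.Agent.Lib.PT Crest.Agent.R309.Tape

/-- the instance is unary of size `K` -/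
structure Small (I : Inst) (K : ℕ) : Prop where
  rows : I.1.length ≤ K
  cols : I.2.1.length ≤ K
  bds : ∀ r ∈ I.2.2, ∀ b ∈ r, b ≤ K

/-- the inner step -/
def InnerSpec : Prop :=
  ∃ (E : (Inst × Un) × Tab → List Bool → Tab) (len : ℕ → ℕ),
    PTF (fun p : ((Inst × Un) × Tab) × List Bool => E p.1 p.2) ∧ PTU (fun u : Un => len u.val) ∧
    ∀ (I : Inst) (K : ℕ), Small I K →
      (∀ X, IsTab I X → ∀ t : List Bool, t.length = len K → IsTab I (E ((I, ⟨K⟩), X) t)) ∧
      (∀ X Y, IsTab I X → IsTab I Y →
        pr (len K) (fun t => E ((I, ⟨K⟩), X) t = Y) = pr (len K) (fun t => E ((I, ⟨K⟩), Y) t = X)) ∧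
      (∀ X Y, IsTab I X → IsTab I Y → X ≠ Y →
        1 / (8 * ((tabs I).card : ℝ)) ≤ pr (len K) (fun t => E ((I, ⟨K⟩), X) t = Y))

end Crest.Agent.R309.Iface
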