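import Crest.Agent.R309.UGDefs

/-!
R309: the Lorentzian property of edge systems (helper358).

* `lorentz : GOK G → LorentzFor G`;
* `gok_prod`, `gok_theta`: product vertex weights with log-concave factors are `GOK`;
* `three_point`, `logconcave_line`, `marginal_logconcave`.
-/

set_option autoImplicit false

namespace Crest.Agent.R309.UGL

open Finset Crest.Agent.R309.UG

set_option linter.unusedSectionVars false

variable {V : Type*} [DecidableEq V]

/-! ### positivity of the partition function -/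

theorem Z_pos {G : (V → ℤ) → ℝ} (hG : ∀ β, 0 < G β) :
    ∀ (R : List (Cell V)), (∀ e ∈ R, e.OK) → ∀ β, 0 < Z G R β := by
  intro R
  induction R with
  | nil => intro _ β; simpa using hG β
  | cons e R ih =>
    intro hR β
    rw [Z_cons]
    refine Finset.sum_pos ?_ ⟨0, by simp⟩
    intro y hy
    have he : e.OK := hR e (by simp)
    exact mul_pos (he.pos y (by simpa [Nat.lt_succ_iff] using hy))
      (ih (fun e' he' => hR e' (by simp [he'])) _)

theorem sh_sub (e : Cell V) (y : ℕ) (β γ : V → ℤ) : e.sh y (β - γ) = e.sh y β - γ := by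
  unfold Cell.sh; module

theorem frm_symm (G : (V → ℤ) → ℝ) (R : List (Cell V)) (β : V → ℤ) (a b : V) :
    frm G R β a b = frm G R β b a := by
  unfold frm; congr 1; abel

theorem frm_cons (G : (V → ℤ) → ℝ) (e : Cell V) (R : List (Cell V)) (β : V → ℤ) (a b : V) :
    frm G (e :: R) β a b
      = ∑ y ∈ range (e.b + 1), e.wt y * frm G R (e.sh y β) a b := by
  unfold frm
  rw [Z_cons]
  refine Finset.sum_congr rfl fun y _ => ?_
  rw [sh_sub, sh_sub]

theorem frm_uw (G : (V → ℤ) → ℝ) (e : Cell V) (R : List (Cell V)) (β : V → ℤ) (y : ℕ) (b : V) :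
    frm G R (e.sh y β) e.u b = frm G R (e.sh (y + 1) β) e.w b := by
  unfold frm; rw [sh_succ]; congr 1; abel

section Fin

variable [Fintype V]

/-- row functional -/
def rowf (A : V → V → ℝ) (μ : V → ℝ) (a : V) : ℝ := ∑ b, μ b * A a b

theorem Q_eq_rowf (A : V → V → ℝ) (ν μ : V → ℝ) : Q A ν μ = ∑ a, ν a * rowf A μ a := by
  unfold Q rowf
  refine Finset.sum_congr rfl fun a _ => ?_
  rw [Finset.mul_sum]
  refine Finset.sum_congr rfl fun b _ => ?_
  ring

theorem Q_sum {ι : Type*} (s : Finset ι) (c : ι → ℝ) (A : ι → V → V → ℝ) (ν μ : V → ℝ) :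
    Q (fun a b => ∑ i ∈ s, c i * A i a b) ν μ = ∑ i ∈ s, c i * Q (A i) ν μ := by
  unfold Q
  simp_rw [Finset.mul_sum]
  rw [Finset.sum_comm]
  refine Eq.trans (Finset.sum_congr rfl fun b _ => Finset.sum_congr rfl fun a _ => rfl) ?_
  rw [Finset.sum_comm (s := (univ : Finset V)) (t := (univ : Finset V))]
  symm
  rw [Finset.sum_comm]
  refine Finset.sum_congr rfl fun a _ => ?_
  rw [Finset.sum_comm]
  refine Finset.sum_congr rfl fun b _ => ?_
  refine Finset.sum_congr rfl fun i _ => ?_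
  ring

theorem Q_symm {A : V → V → ℝ} (hA : ∀ a b, A a b = A b a) (ν μ : V → ℝ) :
    Q A ν μ = Q A μ ν := by
  unfold Q
  rw [Finset.sum_comm]
  refine Finset.sum_congr rfl fun a _ => Finset.sum_congr rfl fun b _ => ?_
  rw [hA]; ring

/-- the vector `ν - s e_u + t e_w` -/
def pert (ν : V → ℝ) (u w : V) (s t : ℝ) : V → ℝ :=
  fun a => ν a - s * (if a = u then 1 else 0) + t * (if a = w then 1 else 0)

theorem rowf_pert (A : V → V → ℝ) (ν : V → ℝ) (u w : V) (s t : ℝ) (a : V) :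
    rowf A (pert ν u w s t) a = rowf A ν a - s * A a u + t * A a w := by
  unfold rowf pert
  simp_rw [add_mul, sub_mul, Finset.sum_add_distrib, Finset.sum_sub_distrib]
  congr 1
  · congr 1
    simp
  · simp

theorem Q_pert_left (A : V → V → ℝ) (ν μ : V → ℝ) (u w : V) (s t : ℝ) :
    Q A (pert ν u w s t) μ = Q A ν μ - s * rowf A μ u + t * rowf A μ w := by
  rw [Q_eq_rowf, Q_eq_rowf]
  unfold pert
  simp_rw [add_mul, sub_mul, Finset.sum_add_distrib, Finset.sum_sub_distrib]
  congr 1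
  · congr 1
    simp
  · simp

theorem Q_pert {A : V → V → ℝ} (hA : ∀ a b, A a b = A b a) (ν : V → ℝ) (u w : V) (s t : ℝ) :
    Q A (pert ν u w s t) (pert ν u w s t)
      = Q A ν ν - 2 * s * rowf A ν u + 2 * t * rowf A ν w
        + s ^ 2 * A u u + t ^ 2 * A w w - 2 * s * t * A u w := by
  rw [Q_pert_left, Q_symm hA ν, Q_pert_left, rowf_pert, rowf_pert, hA w u]
  ring

theorem rowf_frm_uw (G : (V → ℤ) → ℝ) (e : Cell V) (R : List (Cell V)) (β : V → ℤ) (y : ℕ)
    (μ : V → ℝ) :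
    rowf (frm G R (e.sh y β)) μ e.u = rowf (frm G R (e.sh (y + 1) β)) μ e.w := by
  unfold rowf
  exact Finset.sum_congr rfl fun b _ => by rw [frm_uw]

theorem rowf_pos {A : V → V → ℝ} (hA : ∀ a b, 0 < A a b) {D : V → ℝ} (hD : ∀ a, 0 ≤ D a)
    (hD' : ∃ a, 0 < D a) (a : V) : 0 < rowf A D a := by
  obtain ⟨b, hb⟩ := hD'
  unfold rowf
  exact Finset.sum_pos' (fun c _ => mul_nonneg (hD c) (hA a c).le)
    ⟨b, mem_univ b, mul_pos hb (hA a b)⟩

/-- The quadratic (conservation) estimate: for a sequence `F` with `F 0 = F (b+1) = 0`, the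
sum of the quadratic gains is nonnegative by log-concavity of the weights. -/
theorem gain_nonneg {b : ℕ} {wt F H : ℕ → ℝ} (pos : ∀ y ≤ b, 0 < wt y)
    (lc : ∀ y, y + 2 ≤ b → wt y * wt (y + 2) ≤ wt (y + 1) ^ 2)
    (hF0 : F 0 = 0) (hFb : F (b + 1) = 0) (hH : ∀ y, 0 ≤ H y) :
    0 ≤ ∑ y ∈ range (b + 1), (F (y + 1) ^ 2 / wt y * H (y + 2) + F y ^ 2 / wt y * H y
      - 2 * (F (y + 1) * F y / wt y) * H (y + 1)) := by
  have h1 : ∑ y ∈ range (b + 1), (F (y + 1) ^ 2 / wt y * H (y + 2))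
      = ∑ y ∈ range (b + 1), (F y ^ 2 / wt (y - 1) * H (y + 1)) := by
    have := Finset.sum_range_sub (fun y => F y ^ 2 / wt (y - 1) * H (y + 1)) (b + 1)
    simp only [Nat.add_sub_cancel, hF0, hFb, Finset.sum_sub_distrib] at this
    have h2 : (0 : ℝ) ^ 2 = 0 := by norm_num
    rw [h2, zero_div, zero_mul, zero_div, zero_mul, sub_zero] at this
    linarith
  have h2 : ∑ y ∈ range (b + 1), (F y ^ 2 / wt y * H y)
      = ∑ y ∈ range (b + 1), (F (y + 1) ^ 2 / wt (y + 1) * H (y + 1)) := by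
    have := Finset.sum_range_sub (fun y => F y ^ 2 / wt y * H y) (b + 1)
    simp only [hF0, hFb, Finset.sum_sub_distrib] at this
    have h2 : (0 : ℝ) ^ 2 = 0 := by norm_num
    rw [h2, zero_div, zero_mul, zero_div, zero_mul, sub_zero] at this
    linarith
  have h3 : ∑ y ∈ range (b + 1), (F (y + 1) ^ 2 / wt y * H (y + 2) + F y ^ 2 / wt y * H y
      - 2 * (F (y + 1) * F y / wt y) * H (y + 1))
      = ∑ y ∈ range (b + 1), (F y ^ 2 / wt (y - 1) + F (y + 1) ^ 2 / wt (y + 1)
        - 2 * (F (y + 1) * F y / wt y)) * H (y + 1) := by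
    rw [Finset.sum_sub_distrib, Finset.sum_add_distrib, h1, h2, ← Finset.sum_add_distrib,
      ← Finset.sum_sub_distrib]
    exact Finset.sum_congr rfl fun y _ => by ring
  rw [h3]
  refine Finset.sum_nonneg fun y hy => mul_nonneg ?_ (hH _)
  have hyb : y ≤ b := by simpa [Nat.lt_succ_iff] using hy
  rcases Nat.eq_zero_or_pos y with rfl | hy0
  · rw [hF0]
    rcases Nat.eq_zero_or_pos b with rfl | hb0
    · rw [hFb]; simp
    · have := pos 1 hb0
      have h4 : 0 ≤ F (0 + 1) ^ 2 / wt (0 + 1) := by positivity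
      simpa using h4
  · rcases Nat.lt_or_ge y b with hlt | hge
    · obtain ⟨z, rfl⟩ : ∃ z, y = z + 1 := ⟨y - 1, by omega⟩
      have p0 := pos z (by omega)
      have p1 := pos (z + 1) (by omega)
      have p2 := pos (z + 2) (by omega)
      have l := lc z (by omega)
      rw [Nat.add_sub_cancel]
      set x := F (z + 1)
      set x' := F (z + 1 + 1)
      have e1 : wt (z + 1 + 1) = wt (z + 2) := rfl
      rw [e1]
      have key : 0 ≤ x ^ 2 * (wt (z + 1) * wt (z + 2)) + x' ^ 2 * (wt z * wt (z + 1))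
          - 2 * (x' * x) * (wt z * wt (z + 2)) := by
        have a1 : 0 ≤ wt (z + 1) * (x ^ 2 * (wt (z + 1) * wt (z + 2)) + x' ^ 2 * (wt z * wt (z + 1))
          - 2 * (x' * x) * (wt z * wt (z + 2))) := by
          have a2 := mul_nonneg p2.le (sq_nonneg (wt (z + 1) * x - wt z * x'))
          have a3 := mul_nonneg (mul_nonneg p0.le (sq_nonneg x')) (sub_nonneg.2 l)
          nlinarith [a2, a3]
        exact nonneg_of_mul_nonneg_right a1 p1
      have : x ^ 2 / wt z + x' ^ 2 / wt (z + 2) - 2 * (x' * x / wt (z + 1))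
          = (x ^ 2 * (wt (z + 1) * wt (z + 2)) + x' ^ 2 * (wt z * wt (z + 1))
          - 2 * (x' * x) * (wt z * wt (z + 2))) / (wt z * wt (z + 1) * wt (z + 2)) := by
        field_simp
      rw [this]
      exact div_nonneg key (by positivity)
    · have : y = b := le_antisymm hyb hge
      subst this
      rw [hFb]
      have := pos (y - 1) (by omega)
      have h4 : 0 ≤ F y ^ 2 / wt (y - 1) := by positivity
      simpa using h4

theorem lor_step {G : (V → ℤ) → ℝ} (hG : ∀ β, 0 < G β) (e : Cell V) (he : e.OK)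
    (R : List (Cell V)) (hR : ∀ e ∈ R, e.OK) (ih : ∀ β, Lor (frm G R β)) (β : V → ℤ) :
    Lor (frm G (e :: R) β) := by
  intro ν D hD hD' h0
  have hfr : frm G (e :: R) β = fun a b => ∑ y ∈ range (e.b + 1), e.wt y * frm G R (e.sh y β) a b := by
    funext a b; exact frm_cons G e R β a b
  rw [hfr, Q_sum] at h0 ⊢
  have hZ : ∀ y : ℕ, ∀ a b, 0 < frm G R (e.sh y β) a b := fun y a b => Z_pos hG R hR _
  set φ : ℕ → ℝ := fun y => Q (frm G R (e.sh y β)) ν D with hφ
  set S : ℕ → ℝ := fun y => ∑ i ∈ range y, e.wt i * φ i with hS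
  set N : ℕ → ℝ := fun y => rowf (frm G R (e.sh y β)) D e.w with hN
  set L : ℕ → ℝ := fun y => rowf (frm G R (e.sh y β)) ν e.w with hL
  set F : ℕ → ℝ := fun y => S y / N y with hF
  set H : ℕ → ℝ := fun y => frm G R (e.sh y β) e.w e.w with hH
  have hNpos : ∀ y, 0 < N y := fun y => rowf_pos (hZ y) hD hD' e.w
  have hS0 : S 0 = 0 := by simp [hS]
  have hSb : S (e.b + 1) = 0 := by rw [hS]; exact h0
  have hF0 : F 0 = 0 := by simp [hF, hS0]
  have hFb : F (e.b + 1) = 0 := by simp only [hF, hSb, zero_div]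
  have hu : ∀ y μ, rowf (frm G R (e.sh y β)) μ e.u = rowf (frm G R (e.sh (y + 1) β)) μ e.w :=
    fun y μ => rowf_frm_uw G e R β y μ
  have huw : ∀ y, frm G R (e.sh y β) e.u e.w = H (y + 1) := fun y => frm_uw G e R β y e.w
  have huu : ∀ y, frm G R (e.sh y β) e.u e.u = H (y + 2) := by
    intro y
    rw [frm_uw, frm_symm, frm_uw]
  have key : ∀ y ∈ range (e.b + 1), e.wt y * Q (frm G R (e.sh y β)) ν ν
      + (2 * (F y * L y) - 2 * (F (y + 1) * L (y + 1)))
      + (F (y + 1) ^ 2 / e.wt y * H (y + 2) + F y ^ 2 / e.wt y * H y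
      - 2 * (F (y + 1) * F y / e.wt y) * H (y + 1)) ≤ 0 := by
    intro y hy
    have hw : 0 < e.wt y := he.pos y (by simpa [Nat.lt_succ_iff] using hy)
    have hsym : ∀ a b, frm G R (e.sh y β) a b = frm G R (e.sh y β) b a := frm_symm G R _
    have h1 := ih (e.sh y β) (pert ν e.u e.w (F (y + 1) / e.wt y) (F y / e.wt y)) D hD hD' (by
      rw [Q_pert_left, hu]
      have e1 : F (y + 1) * N (y + 1) = S (y + 1) := div_mul_cancel₀ _ (hNpos _).ne'
      have e2 : F y * N y = S y := div_mul_cancel₀ _ (hNpos _).ne'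
      have e3 : S (y + 1) = S y + e.wt y * φ y := by rw [hS]; simp [Finset.sum_range_succ]
      have e4 : e.wt y * (Q (frm G R (e.sh y β)) ν D
          - F (y + 1) / e.wt y * rowf (frm G R (e.sh (y + 1) β)) D e.w
          + F y / e.wt y * rowf (frm G R (e.sh y β)) D e.w) = 0 := by
        have : e.wt y * (Q (frm G R (e.sh y β)) ν D
          - F (y + 1) / e.wt y * rowf (frm G R (e.sh (y + 1) β)) D e.w
          + F y / e.wt y * rowf (frm G R (e.sh y β)) D e.w)
          = e.wt y * φ y - F (y + 1) * N (y + 1) + F y * N y := by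
          simp only [hφ, hN]
          field_simp
        rw [this, e1, e2, e3]; ring
      exact (mul_eq_zero.mp e4).resolve_left hw.ne')
    rw [Q_pert hsym, hu, huw, huu] at h1
    have h2 := mul_nonpos_of_nonneg_of_nonpos hw.le h1
    refine le_trans (le_of_eq ?_) h2
    have e5 : frm G R (e.sh y β) e.w e.w = H y := rfl
    have e6 : rowf (frm G R (e.sh (y + 1) β)) ν e.w = L (y + 1) := rfl
    have e7 : rowf (frm G R (e.sh y β)) ν e.w = L y := rfl
    rw [e5, e6, e7]
    field_simp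
    ring
  have hsum := Finset.sum_nonpos key
  rw [Finset.sum_add_distrib, Finset.sum_add_distrib] at hsum
  have htel : ∑ y ∈ range (e.b + 1), (2 * (F y * L y) - 2 * (F (y + 1) * L (y + 1))) = 0 := by
    have := Finset.sum_range_sub' (fun y => 2 * (F y * L y)) (e.b + 1)
    rw [this, hF0, hFb]; ring
  have hgain := gain_nonneg (H := H) he.pos he.lc hF0 hFb (fun y => (hZ y _ _).le)
  linarith

/-- **Lorentz theorem** for edge systems. -/
theorem lorentz {G : (V → ℤ) → ℝ} (hG : GOK G) : LorentzFor G := by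
  intro R
  induction R with
  | nil => intro _ β; exact hG.lor β
  | cons e R ih =>
    intro hR β
    exact lor_step hG.pos e (hR e (by simp)) R (fun e' he' => hR e' (by simp [he']))
      (ih fun e' he' => hR e' (by simp [he'])) β

/-! ### consequences of the Lorentzian property -/

/-- 3-point inequality: `A_aa A_uc ≤ 2 A_au A_ac`. -/
theorem _root_.Crest.Agent.R309.UG.Lor.three_point {A : V → V → ℝ} (hL : Lor A) (hA : ∀ a b, A a b = A b a)
    (hpos : ∀ a b, 0 < A a b) (a u c : V) : A a a * A u c ≤ 2 * (A a u * A a c) := by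
  have hD : ∀ x, 0 ≤ (pert (fun _ => (0 : ℝ)) a a 0 1) x := by
    intro x; unfold pert; split_ifs <;> norm_num
  have hD' : ∃ x, 0 < (pert (fun _ => (0 : ℝ)) a a 0 1) x := ⟨a, by simp [pert]⟩
  have hrow : ∀ x, rowf A (pert (fun _ => (0 : ℝ)) a a 0 1) x = A x a := by
    intro x; rw [rowf_pert]; simp [rowf]
  -- `ν = A_ac e_u + A_au e_c - (2 A_au A_ac / A_aa) e_a`
  set z : ℝ := 2 * (A a u * A a c) / A a a with hz
  set ν0 : V → ℝ := pert (fun _ => (0 : ℝ)) a u z (A a c) with hν0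
  set ν : V → ℝ := pert ν0 a c 0 (A a u) with hν
  have hz' : z * A a a = 2 * (A a u * A a c) := div_mul_cancel₀ _ (hpos a a).ne'
  have h0 : Q A ν (pert (fun _ => (0 : ℝ)) a a 0 1) = 0 := by
    rw [hν, Q_pert_left, hν0, Q_pert_left, hrow, hrow, hrow]
    have : Q A (fun _ => (0 : ℝ)) (pert (fun _ => (0 : ℝ)) a a 0 1) = 0 := by
      rw [Q_eq_rowf]; simp
    rw [this, hA u a, hA c a]; linarith
  have h1 := hL ν _ hD hD' h0
  have hr0 : ∀ x, rowf A ν0 x = - z * A x a + A a c * A x u := by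
    intro x; rw [hν0, rowf_pert]; simp [rowf]
  have hQ0 : Q A ν0 ν0 = z ^ 2 * A a a + (A a c) ^ 2 * A u u - 2 * z * A a c * A a u := by
    rw [hν0, Q_pert hA]
    have : Q A (fun _ => (0 : ℝ)) (fun _ => (0 : ℝ)) = 0 := by rw [Q_eq_rowf]; simp
    rw [this]; simp [rowf]
  rw [hν, Q_pert hA, hQ0, hr0, hr0, hA c a, hA c u] at h1
  have haa := hpos a a
  have hau := hpos a u
  have hac := hpos a c
  have huu := hpos u u
  have hcc := hpos c c
  have h2 : 2 * (A a c * A a u * A u c) ≤ z * (2 * (A a u * A a c)) := by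
    have e1 : z ^ 2 * A a a = z * (2 * (A a u * A a c)) := by rw [← hz']; ring
    have p1 : 0 ≤ A a c ^ 2 * A u u := by positivity
    have p2 : 0 ≤ A a u ^ 2 * A c c := by positivity
    nlinarith [h1, e1, p1, p2]
  have h3 : A u c ≤ z := by
    have : (2 * (A a u * A a c)) * A u c ≤ (2 * (A a u * A a c)) * z := by nlinarith [h2]
    exact le_of_mul_le_mul_left this (by positivity)
  calc A a a * A u c ≤ A a a * z := mul_le_mul_of_nonneg_left h3 haa.le
    _ = 2 * (A a u * A a c) := by rw [← hz']; ring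

/-- log-concavity: `A_aa A_cc ≤ A_ac²`. -/
theorem _root_.Crest.Agent.R309.UG.Lor.two_point {A : V → V → ℝ} (hL : Lor A) (hA : ∀ a b, A a b = A b a)
    (hpos : ∀ a b, 0 < A a b) (a c : V) : A a a * A c c ≤ A a c ^ 2 := by
  have hD : ∀ x, 0 ≤ (pert (fun _ => (0 : ℝ)) a a 0 1) x := by
    intro x; unfold pert; split_ifs <;> norm_num
  have hD' : ∃ x, 0 < (pert (fun _ => (0 : ℝ)) a a 0 1) x := ⟨a, by simp [pert]⟩
  have hrow : ∀ x, rowf A (pert (fun _ => (0 : ℝ)) a a 0 1) x = A x a := by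
    intro x; rw [rowf_pert]; simp [rowf]
  set ν : V → ℝ := pert (fun _ => (0 : ℝ)) c a (A a a) (A a c) with hν
  have h0 : Q A ν (pert (fun _ => (0 : ℝ)) a a 0 1) = 0 := by
    rw [hν, Q_pert_left, hrow, hrow]
    have : Q A (fun _ => (0 : ℝ)) (pert (fun _ => (0 : ℝ)) a a 0 1) = 0 := by
      rw [Q_eq_rowf]; simp
    rw [this, hA c a]; ring
  have h1 := hL ν _ hD hD' h0
  rw [hν, Q_pert hA] at h1
  have : Q A (fun _ => (0 : ℝ)) (fun _ => (0 : ℝ)) = 0 := by rw [Q_eq_rowf]; simp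
  rw [this] at h1
  simp only [rowf, zero_mul, Finset.sum_const_zero, mul_zero, sub_zero, add_zero, zero_add] at h1
  rw [hA c a] at h1
  have haa := hpos a a
  have h2 : A a a * (A a a * A c c - A a c ^ 2) ≤ 0 := by nlinarith [h1]
  have h3 : A a a * A c c - A a c ^ 2 ≤ 0 := by
    by_contra hcon
    rw [not_le] at hcon
    exact absurd h2 (not_le.2 (mul_pos haa hcon))
  linarith

section System

variable {G : (V → ℤ) → ℝ} (hG : GOK G) {R : List (Cell V)} (hR : ∀ e ∈ R, e.OK)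

include hG hR

/-- 3-point inequality for partition functions. -/
theorem Z_three_point (β : V → ℤ) (a u c : V) :
    Z G R (β - ev a - ev a) * Z G R (β - ev u - ev c)
      ≤ 2 * (Z G R (β - ev a - ev u) * Z G R (β - ev a - ev c)) :=
  (lorentz hG R hR β).three_point (frm_symm G R β) (fun _ _ => Z_pos hG.pos R hR _) a u c

/-- log-concavity along `e_a - e_c`. -/
theorem Z_logconcave (β : V → ℤ) (a c : V) :
    Z G R (β - ev a + ev c) * Z G R (β + ev a - ev c) ≤ Z G R β ^ 2 := by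
  have h := (lorentz hG R hR (β + ev a + ev c)).two_point (frm_symm G R _)
    (fun _ _ => Z_pos hG.pos R hR _) a c
  unfold frm at h
  have e1 : β + ev a + ev c - ev a - ev a = β - ev a + ev c := by abel
  have e2 : β + ev a + ev c - ev c - ev c = β + ev a - ev c := by abel
  have e3 : β + ev a + ev c - ev a - ev c = β := by abel
  rw [e1, e2, e3] at h
  exact h

/-- log-concavity of `t ↦ Z (β - t e_a + t e_c)`. -/
theorem Z_line_logconcave (β : V → ℤ) (a c : V) (t : ℤ) :
    Z G R (β - (t - 1) • ev a + (t - 1) • ev c) * Z G R (β - (t + 1) • ev a + (t + 1) • ev c)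
      ≤ Z G R (β - t • ev a + t • ev c) ^ 2 := by
  have h := Z_logconcave hG hR (β - t • ev a + t • ev c) a c
  have e1 : β - t • ev a + t • ev c - ev a + ev c = β - (t + 1) • ev a + (t + 1) • ev c := by
    module
  have e2 : β - t • ev a + t • ev c + ev a - ev c = β - (t - 1) • ev a + (t - 1) • ev c := by
    module
  rw [e1, e2] at h
  linarith [mul_comm (Z G R (β - (t + 1) • ev a + (t + 1) • ev c))
    (Z G R (β - (t - 1) • ev a + (t - 1) • ev c))]

/-- the marginal `y ↦ w_y Z_R(sh y β)` of a cell is log-concave. -/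
theorem Z_marginal_logconcave (e : Cell V) (he : e.OK) (β : V → ℤ) (y : ℕ) (hy : y + 2 ≤ e.b) :
    (e.wt y * Z G R (e.sh y β)) * (e.wt (y + 2) * Z G R (e.sh (y + 2) β))
      ≤ (e.wt (y + 1) * Z G R (e.sh (y + 1) β)) ^ 2 := by
  have h := Z_logconcave hG hR (e.sh (y + 1) β) e.u e.w
  have e1 : e.sh (y + 1) β - ev e.u + ev e.w = e.sh (y + 2) β := (sh_succ e (y + 1) β).symm
  have e2 : e.sh (y + 1) β + ev e.u - ev e.w = e.sh y β := by
    rw [sh_succ]; abel
  rw [e1, e2] at h
  have p0 := he.pos y (by omega)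
  have p2 := he.pos (y + 2) hy
  have z0 := Z_pos hG.pos R hR (e.sh y β)
  have z2 := Z_pos hG.pos R hR (e.sh (y + 2) β)
  calc (e.wt y * Z G R (e.sh y β)) * (e.wt (y + 2) * Z G R (e.sh (y + 2) β))
      = (e.wt y * e.wt (y + 2)) * (Z G R (e.sh (y + 2) β) * Z G R (e.sh y β)) := by ring
    _ ≤ e.wt (y + 1) ^ 2 * Z G R (e.sh (y + 1) β) ^ 2 :=
        mul_le_mul (he.lc y hy) h (mul_pos z2 z0).le (sq_nonneg _)
    _ = _ := by ring

end System

/-! ### product vertex weights -/

/-- positive log-concave functions on `ℤ` -/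
structure LC (g : ℤ → ℝ) : Prop where
  pos : ∀ t, 0 < g t
  lc : ∀ t, g (t - 1) * g (t + 1) ≤ g t ^ 2

/-- matrices of the form `C ρ ρᵀ - diag δ`, `δ ≥ 0`, with nonnegative diagonal, are `Lor`. -/
theorem lor_rank_one (C : ℝ) (hC : 0 < C) (ρ δ : V → ℝ) (hρ : ∀ a, 0 < ρ a) (hδ : ∀ a, 0 ≤ δ a)
    (hdiag : ∀ a, δ a ≤ C * ρ a ^ 2) :
    Lor (fun a b => C * (ρ a * ρ b) - if a = b then δ a else 0) := by
  intro ν D hD hD' h0
  have hQ : ∀ ν μ : V → ℝ, Q (fun a b => C * (ρ a * ρ b) - if a = b then δ a else 0) ν μ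
      = C * ((∑ a, ν a * ρ a) * (∑ a, μ a * ρ a)) - ∑ a, δ a * (ν a * μ a) := by
    intro ν μ
    unfold Q
    simp_rw [mul_sub, Finset.sum_sub_distrib]
    congr 1
    · rw [Finset.sum_mul_sum, Finset.mul_sum]
      refine Finset.sum_congr rfl fun a _ => ?_
      rw [Finset.mul_sum]
      exact Finset.sum_congr rfl fun b _ => by ring
    · refine Finset.sum_congr rfl fun a _ => ?_
      simp; ring
  rw [hQ] at h0 ⊢
  set x := ∑ a, ν a * ρ a
  set y := ∑ a, D a * ρ a with hy
  have hypos : 0 < y := by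
    obtain ⟨b, hb⟩ := hD'
    exact Finset.sum_pos' (fun c _ => mul_nonneg (hD c) (hρ c).le)
      ⟨b, mem_univ b, mul_pos hb (hρ b)⟩
  -- Cauchy-Schwarz
  have hCS : (∑ a, δ a * (ν a * D a)) ^ 2 ≤ (∑ a, δ a * (ν a * ν a)) * (∑ a, δ a * (D a * D a)) := by
    have := Finset.sum_mul_sq_le_sq_mul_sq univ (fun a => Real.sqrt (δ a) * ν a)
      (fun a => Real.sqrt (δ a) * D a)
    have e1 : ∀ a, Real.sqrt (δ a) * ν a * (Real.sqrt (δ a) * D a) = δ a * (ν a * D a) := by
      intro a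
      calc _ = (Real.sqrt (δ a) * Real.sqrt (δ a)) * (ν a * D a) := by ring
        _ = _ := by rw [Real.mul_self_sqrt (hδ a)]
    have e2 : ∀ a, (Real.sqrt (δ a) * ν a) ^ 2 = δ a * (ν a * ν a) := by
      intro a
      calc _ = (Real.sqrt (δ a) * Real.sqrt (δ a)) * (ν a * ν a) := by ring
        _ = _ := by rw [Real.mul_self_sqrt (hδ a)]
    have e3 : ∀ a, (Real.sqrt (δ a) * D a) ^ 2 = δ a * (D a * D a) := by
      intro a
      calc _ = (Real.sqrt (δ a) * Real.sqrt (δ a)) * (D a * D a) := by ring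
        _ = _ := by rw [Real.mul_self_sqrt (hδ a)]
    simpa only [e1, e2, e3] using this
  have hDD : ∑ a, δ a * (D a * D a) ≤ C * y ^ 2 := by
    calc ∑ a, δ a * (D a * D a) ≤ ∑ a, C * (D a * ρ a) ^ 2 := by
          refine Finset.sum_le_sum fun a _ => ?_
          have := mul_le_mul_of_nonneg_right (hdiag a) (mul_self_nonneg (D a))
          nlinarith [this]
      _ = C * ∑ a, (D a * ρ a) ^ 2 := by rw [Finset.mul_sum]
      _ ≤ C * y ^ 2 := by
          refine mul_le_mul_of_nonneg_left ?_ hC.le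
          exact Finset.sum_sq_le_sq_sum_of_nonneg (fun a _ => mul_nonneg (hD a) (hρ a).le)
  have hνν : 0 ≤ ∑ a, δ a * (ν a * ν a) :=
    Finset.sum_nonneg fun a _ => mul_nonneg (hδ a) (mul_self_nonneg _)
  have h1 : (C * (x * y)) ^ 2 ≤ (∑ a, δ a * (ν a * ν a)) * (C * y ^ 2) := by
    have e : C * (x * y) = ∑ a, δ a * (ν a * D a) := by linarith
    rw [e]
    exact hCS.trans (mul_le_mul_of_nonneg_left hDD hνν)
  have h2 : (C * y ^ 2) * (C * (x * x)) ≤ (C * y ^ 2) * (∑ a, δ a * (ν a * ν a)) := by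
    nlinarith [h1]
  have h3 := le_of_mul_le_mul_left h2 (by positivity)
  linarith

theorem prod_sub_ev (g : V → ℤ → ℝ) (hg : ∀ v, LC (g v)) (β : V → ℤ) (a : V) :
    ∏ v, g v ((β - ev a) v) = (∏ v, g v (β v)) * (g a (β a - 1) / g a (β a)) := by
  have h1 : ∏ v, g v ((β - ev a) v)
      = ∏ v, (g v (β v) * if v = a then g a (β a - 1) / g a (β a) else 1) := by
    refine Finset.prod_congr rfl fun v _ => ?_
    by_cases h : v = a
    · subst h
      simp only [ev, Pi.sub_apply, Pi.single_eq_same, if_true]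
      have := ((hg v).pos (β v)).ne'
      field_simp
    · simp [ev, h]
  rw [h1, Finset.prod_mul_distrib]
  simp

/-- one-step ratio -/
noncomputable def rho (g : V → ℤ → ℝ) (β : V → ℤ) (a : V) : ℝ := g a (β a - 1) / g a (β a)

/-- defect on the diagonal -/
noncomputable def dlt (g : V → ℤ → ℝ) (β : V → ℤ) (a : V) : ℝ :=
  (∏ v, g v (β v)) * (rho g β a ^ 2 - g a (β a - 2) / g a (β a))

theorem prod_mat (g : V → ℤ → ℝ) (hg : ∀ v, LC (g v)) (β : V → ℤ) (a b : V) :
    ∏ v, g v ((β - ev a - ev b) v)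
      = (∏ v, g v (β v)) * (rho g β a * rho g β b) - if a = b then dlt g β a else 0 := by
  rw [prod_sub_ev g hg, prod_sub_ev g hg]
  by_cases h : a = b
  · subst h
    rw [if_pos rfl]
    unfold dlt rho
    have h1 : (β - ev a) a = β a - 1 := by simp [ev]
    have h3 : β a - 1 - 1 = β a - 2 := by ring
    rw [h1, h3]
    have n1 := ((hg a).pos (β a)).ne'
    have n2 := ((hg a).pos (β a - 1)).ne'
    generalize (∏ v, g v (β v)) = C
    generalize g a (β a) = x at *
    generalize g a (β a - 1) = y at *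
    generalize g a (β a - 2) = z at *
    field_simp
    ring
  · rw [if_neg h]
    have h1 : (β - ev a) b = β b := by simp [ev, Ne.symm h]
    unfold rho
    rw [h1]
    ring

theorem gok_prod (g : V → ℤ → ℝ) (hg : ∀ v, LC (g v)) : GOK (fun t => ∏ v, g v (t v)) := by
  refine ⟨fun β => Finset.prod_pos fun v _ => (hg v).pos _, fun β => ?_⟩
  have hCpos : 0 < ∏ v, g v (β v) := Finset.prod_pos fun v _ => (hg v).pos _
  have hρpos : ∀ a, 0 < rho g β a := fun a => div_pos ((hg a).pos _) ((hg a).pos _)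
  have h2 : ∀ a, g a (β a - 2) / g a (β a) ≤ rho g β a ^ 2 := by
    intro a
    have h := (hg a).lc (β a - 1)
    have e1 : β a - 1 - 1 = β a - 2 := by ring
    have e2 : β a - 1 + 1 = β a := by ring
    rw [e1, e2] at h
    have h0 := (hg a).pos (β a)
    unfold rho
    rw [div_pow, div_le_div_iff₀ h0 (by positivity)]
    nlinarith [mul_le_mul_of_nonneg_right h h0.le]
  have h3 : ∀ a, 0 < g a (β a - 2) / g a (β a) := fun a => div_pos ((hg a).pos _) ((hg a).pos _)
  have hmat : (fun a b => ∏ v, g v ((β - ev a - ev b) v))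
      = fun a b => (∏ v, g v (β v)) * (rho g β a * rho g β b) - if a = b then dlt g β a else 0 := by
    funext a b
    exact prod_mat g hg β a b
  have hL := lor_rank_one (∏ v, g v (β v)) hCpos (rho g β) (dlt g β) hρpos
    (fun a => mul_nonneg hCpos.le (sub_nonneg.2 (h2 a)))
    (fun a => by
      have := mul_pos hCpos (h3 a)
      unfold dlt
      nlinarith)
  rw [← hmat] at hL
  exact hL

theorem lc_theta {θ : ℝ} (h0 : 0 < θ) (h1 : θ ≤ 1) : LC (fun t : ℤ => θ ^ t.natAbs) := by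
  refine ⟨fun t => by positivity, fun t => ?_⟩
  rw [← pow_add, ← pow_mul]
  refine pow_le_pow_of_le_one h0.le h1 ?_
  omega

/-- geometric vertex fields are allowed as well -/
theorem LC.mul {g h : ℤ → ℝ} (hg : LC g) (hh : LC h) : LC (fun t => g t * h t) := by
  refine ⟨fun t => mul_pos (hg.pos t) (hh.pos t), fun t => ?_⟩
  have a1 := hg.lc t
  have a2 := hh.lc t
  have b1 := mul_pos (hh.pos (t - 1)) (hh.pos (t + 1))
  calc g (t - 1) * h (t - 1) * (g (t + 1) * h (t + 1))
      = (g (t - 1) * g (t + 1)) * (h (t - 1) * h (t + 1)) := by ring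
    _ ≤ g t ^ 2 * h t ^ 2 := mul_le_mul a1 a2 b1.le (sq_nonneg _)
    _ = _ := by ring

theorem lc_zpow {lam : ℝ} (h : 0 < lam) : LC (fun t : ℤ => lam ^ t) := by
  refine ⟨fun t => zpow_pos h t, fun t => le_of_eq ?_⟩
  rw [← zpow_add₀ h.ne', sq, ← zpow_add₀ h.ne']
  congr 1; ring

theorem gok_theta {θ : ℝ} (h0 : 0 < θ) (h1 : θ ≤ 1) :
    GOK (fun t : V → ℤ => ∏ v, θ ^ (t v).natAbs) :=
  gok_prod (fun _ t => θ ^ t.natAbs) fun _ => lc_theta h0 h1

theorem gok_theta_field {θ : ℝ} (h0 : 0 < θ) (h1 : θ ≤ 1) (lam : V → ℝ) (hl : ∀ v, 0 < lam v) :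
    GOK (fun t : V → ℤ => ∏ v, (θ ^ (t v).natAbs * lam v ^ (t v))) :=
  gok_prod (fun v t => θ ^ t.natAbs * lam v ^ t) fun v => (lc_theta h0 h1).mul (lc_zpow (hl v))

end Fin

end Crest.Agent.R309.UGL
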