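import Mathlib
import Crest.Agent.R309.MCBox

/-!
Row 309 (helper585): the exactly dyadic Metropolis chain for the weight `2^(-t D) * B^s`,
`B = 2^p / (2^p - 1)`, on a box; it is a tape program whose law converges to the weight as soon as
the weight satisfies a Poincaré inequality.
-/

set_option autoImplicit false
open Finset

namespace Crest.Agent.R309.MC

open Crest.Agent.R309.Tape Crest.Agent.Lib.PT.Arith

section

variable {α : Type*} [Fintype α] [DecidableEq α]

omit [Fintype α] [DecidableEq α] in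
theorem zpow_neg_mul_toNat {c : ℝ} (hc0 : 0 < c) (u v : ℤ) :
    c ^ (-u) * c ^ ((u - v).toNat) = c ^ (-(min u v)) := by
  rw [← zpow_natCast c, ← zpow_add₀ hc0.ne']
  congr 1
  rcases le_total u v with h | h
  · rw [Int.toNat_of_nonpos (by omega), min_eq_left h]; simp
  · rw [Int.toNat_of_nonneg (by omega), min_eq_right h]; ring

omit [Fintype α] [DecidableEq α] in
theorem isAcc_zpow {c : ℝ} (hc0 : 0 < c) (hc1 : c ≤ 1) (u : α → ℤ) (S : α → α → ℝ) :
    IsAcc (fun x => c ^ (-(u x))) S (fun x y => c ^ ((u x - u y).toNat)) := by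
  refine ⟨fun x y => by positivity, fun x y => pow_le_one₀ hc0.le hc1, fun x y _ => ?_⟩
  rw [zpow_neg_mul_toNat hc0, zpow_neg_mul_toNat hc0, min_comm]

/-- the weight `c₁ ^ D * c₂ ^ (-s)` -/
noncomputable def sw (c₁ c₂ : ℝ) (D s : α → ℤ) (x : α) : ℝ := c₁ ^ (-(-(D x))) * c₂ ^ (-(s x))

/-- the product acceptance -/
noncomputable def sa (c₁ c₂ : ℝ) (D s : α → ℤ) (x y : α) : ℝ :=
  c₁ ^ ((-(D x) - -(D y)).toNat) * c₂ ^ ((s x - s y).toNat)

omit [Fintype α] [DecidableEq α] in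
theorem sw_pos {c₁ c₂ : ℝ} (h1 : 0 < c₁) (h2 : 0 < c₂) (D s : α → ℤ) (x : α) :
    0 < sw c₁ c₂ D s x := by unfold sw; positivity

omit [Fintype α] [DecidableEq α] in
theorem isAcc_sa {c₁ c₂ : ℝ} (h1 : 0 < c₁) (h1' : c₁ ≤ 1) (h2 : 0 < c₂) (h2' : c₂ ≤ 1)
    (D s : α → ℤ) (S : α → α → ℝ) : IsAcc (sw c₁ c₂ D s) S (sa c₁ c₂ D s) :=
  (isAcc_zpow h1 h1' (fun x => -(D x)) S).mul (isAcc_zpow h2 h2' s S)

omit [Fintype α] [DecidableEq α] in
theorem sa_ge {c₁ c₂ : ℝ} (h1 : 0 < c₁) (h1' : c₁ ≤ 1) (h2 : 0 < c₂)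
    (D s : α → ℤ) {x y : α} {d : ℕ} (hd : |D x - D y| ≤ d) :
    c₁ ^ d * min (sw c₁ c₂ D s x) (sw c₁ c₂ D s y) ≤ sw c₁ c₂ D s x * sa c₁ c₂ D s x y := by
  have e : sw c₁ c₂ D s x * sa c₁ c₂ D s x y =
      c₁ ^ (-(min (-(D x)) (-(D y)))) * c₂ ^ (-(min (s x) (s y))) := by
    rw [← zpow_neg_mul_toNat h1, ← zpow_neg_mul_toNat h2]
    unfold sw sa
    ring
  rw [e]
  rw [abs_le] at hd
  have key : ∀ z : α, min (s x) (s y) = s z → D x ≤ D z + d → D y ≤ D z + d →
      c₁ ^ d * sw c₁ c₂ D s z ≤ c₁ ^ (-(min (-(D x)) (-(D y)))) * c₂ ^ (-(min (s x) (s y))) := by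
    intro z hz hx hy
    rw [hz]
    unfold sw
    rw [← mul_assoc]
    refine mul_le_mul_of_nonneg_right ?_ (by positivity)
    rw [← zpow_natCast c₁, ← zpow_add₀ h1.ne']
    refine zpow_le_zpow_right_of_le_one₀ h1 h1' ?_
    omega
  rcases le_total (s x) (s y) with h | h
  · exact (mul_le_mul_of_nonneg_left (min_le_left _ _) (by positivity)).trans
      (key x (min_eq_left h) (by omega) (by omega))
  · exact (mul_le_mul_of_nonneg_left (min_le_right _ _) (by positivity)).trans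
      (key y (min_eq_right h) (by omega) (by omega))

end

/-- the acceptance numerator for `c₁ = 2^-t`, `c₂ = (2^p - 1) / 2^p` -/
def snum {S : Type*} (t p m : ℕ) (D s : S → ℤ) (x y : S) : ℕ :=
  2 ^ (m - t * (D y - D x).toNat - p * (s x - s y).toNat) * (2 ^ p - 1) ^ (s x - s y).toNat

theorem snum_eq {S : Type*} {t p m d e : ℕ} (D s : S → ℤ) {x y : S}
    (hd : D y - D x ≤ d) (he : s x - s y ≤ e) (hm : t * d + p * e ≤ m) :
    (snum t p m D s x y : ℝ) =
      2 ^ m * (((1 / 2 : ℝ) ^ t) ^ ((-(D x) - -(D y)).toNat) *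
        ((2 ^ p - 1) / 2 ^ p : ℝ) ^ ((s x - s y).toNat)) := by
  unfold snum
  have e1 : (-(D x) - -(D y)) = D y - D x := by ring
  rw [e1]
  set A := (D y - D x).toNat with hA
  set E := (s x - s y).toNat with hE
  have hA' : A ≤ d := by omega
  have hE' : E ≤ e := by omega
  have h1 : t * A + p * E ≤ m := by
    have := Nat.mul_le_mul_left t hA'
    have := Nat.mul_le_mul_left p hE'
    omega
  obtain ⟨r, rfl⟩ := Nat.exists_eq_add_of_le h1
  rw [show t * A + p * E + r - t * A - p * E = r by omega]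
  push_cast [Nat.cast_sub (Nat.one_le_two_pow (n := p))]
  have e2 : (((1 : ℝ) / 2) ^ t) ^ A = 1 / 2 ^ (t * A) := by
    rw [← pow_mul, one_div_pow]
  have e3 : ((2 ^ p - 1) / 2 ^ p : ℝ) ^ E = (2 ^ p - 1) ^ E / 2 ^ (p * E) := by
    rw [div_pow, ← pow_mul]
  rw [e2, e3, pow_add, pow_add]
  field_simp

theorem snum_le {S : Type*} {t p m d e : ℕ} (D s : S → ℤ) {x y : S}
    (hd : D y - D x ≤ d) (he : s x - s y ≤ e) (hm : t * d + p * e ≤ m) :
    snum t p m D s x y ≤ 2 ^ m := by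
  have h := snum_eq (t := t) (p := p) (m := m) D s hd he hm
  have h1 : ((1 / 2 : ℝ) ^ t) ^ ((-(D x) - -(D y)).toNat) ≤ 1 :=
    pow_le_one₀ (by positivity) (pow_le_one₀ (by norm_num) (by norm_num))
  have hp : (1 : ℝ) ≤ 2 ^ p := one_le_pow₀ (by norm_num)
  have h2 : ((2 ^ p - 1) / 2 ^ p : ℝ) ^ ((s x - s y).toNat) ≤ 1 := by
    refine pow_le_one₀ (div_nonneg (by linarith) (by positivity)) ?_
    rw [div_le_one (by positivity)]; linarith
  have h3 : 0 ≤ ((2 ^ p - 1) / 2 ^ p : ℝ) ^ ((s x - s y).toNat) :=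
    pow_nonneg (div_nonneg (by linarith) (by positivity)) _
  have h4 : (snum t p m D s x y : ℝ) ≤ ((2 ^ m : ℕ) : ℝ) := by
    rw [h]
    push_cast
    calc (2 : ℝ) ^ m * (((1 / 2 : ℝ) ^ t) ^ ((-(D x) - -(D y)).toNat) *
        ((2 ^ p - 1) / 2 ^ p : ℝ) ^ ((s x - s y).toNat)) ≤ 2 ^ m * (1 * 1) := by gcongr
      _ = 2 ^ m := by ring
  exact_mod_cast h4

/-! ### the chain on the box -/

variable {M : ℕ} {b : Fin M → ℕ}

/-- a neighbour is an increment or the other way round -/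
theorem boxM_nbr {x y : Box b} {i : ℕ} (h : boxM x i = some y) :
    (∃ e, y = inc x e) ∨ (∃ e, x = inc y e) := by
  unfold boxM at h
  split_ifs at h with h1 h2 h3 h4
  · rw [Option.some.injEq] at h
    exact Or.inl ⟨_, h.symm⟩
  · rw [Option.some.injEq] at h
    subst h
    exact Or.inr ⟨_, (inc_dec h4).symm⟩

theorem nbr_of_prop_ne {q : ℕ} {x y : Box b} (h : prop q (boxM (b := b)) x y ≠ 0) :
    ∃ i < 2 ^ q, boxM x i = some y := by
  unfold prop at h
  by_contra hcon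
  push Not at hcon
  apply h
  have : (range (2 ^ q)).filter (fun i => boxM x i = some y) = ∅ := by
    rw [filter_eq_empty_iff]
    intro i hi
    exact hcon i (mem_range.mp hi)
  rw [this]; simp

/-- data of a soft chain: `D`, `s` are functions on lists of naturals; `D` changes by at most `d`
and `s` by at most `e` in a single move. -/
structure SoftData (b : Fin M → ℕ) (D s : List ℕ → ℤ) (d e : ℕ) : Prop where
  hD : ∀ (x : Box b) (i : Fin M), |D (enc (inc x i)) - D (enc x)| ≤ d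
  hs : ∀ (x : Box b) (i : Fin M), |s (enc (inc x i)) - s (enc x)| ≤ e

theorem SoftData.nbrD {D s : List ℕ → ℤ} {d e : ℕ} (h : SoftData b D s d e) {x y : Box b} {i : ℕ}
    (hxy : boxM x i = some y) : |D (enc x) - D (enc y)| ≤ d := by
  rcases boxM_nbr hxy with ⟨j, rfl⟩ | ⟨j, rfl⟩
  · rw [abs_sub_comm]; exact h.hD x j
  · exact h.hD y j

theorem SoftData.nbrs {D s : List ℕ → ℤ} {d e : ℕ} (h : SoftData b D s d e) {x y : Box b} {i : ℕ}
    (hxy : boxM x i = some y) : |s (enc x) - s (enc y)| ≤ e := by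
  rcases boxM_nbr hxy with ⟨j, rfl⟩ | ⟨j, rfl⟩
  · rw [abs_sub_comm]; exact h.hs x j
  · exact h.hs y j

/-- the weight of the soft chain on the box: `2^(-t D) * (2^p / (2^p - 1))^s` -/
noncomputable def bw (b : Fin M → ℕ) (t p : ℕ) (D s : List ℕ → ℤ) (x : Box b) : ℝ :=
  sw ((1 / 2 : ℝ) ^ t) ((2 ^ p - 1) / 2 ^ p) (fun x : Box b => D (enc x)) (fun x => s (enc x)) x

theorem bw_eq (b : Fin M → ℕ) (t p : ℕ) (D s : List ℕ → ℤ) (x : Box b) :
    bw b t p D s x = ((1 / 2 : ℝ) ^ t) ^ (D (enc x)) * ((2 ^ p / (2 ^ p - 1) : ℝ)) ^ (s (enc x)) := by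
  unfold bw sw
  rw [neg_neg, zpow_neg, ← inv_zpow, inv_div]

/-- **The soft chain**: `T` steps of the tape program from `x` are `ε`-close (on every event) to the
normalised weight, if the weight satisfies a Poincaré inequality with constant `C`. -/
theorem soft_chain {t p m q d e : ℕ} (hp : 1 ≤ p) {D s : List ℕ → ℤ} (hDs : SoftData b D s d e)
    (hm : t * d + p * e ≤ m) (hq : 4 * M ≤ 2 ^ q) (hq1 : 1 ≤ q)
    {C : ℝ} (hC : 1 ≤ C)
    (hP : ∀ f : Box b → ℝ, varU (bw b t p D s) f ≤ C * boxDir (bw b t p D s) f)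
    (x : Box b) {L ε : ℝ} (hε : 0 < ε) (hL : mass (bw b t p D s) / bw b t p D s x ≤ Real.exp (2 * L))
    (T : ℕ) (hT : C * 2 ^ q * 2 ^ (t * d) * (L + Real.log (1 / ε)) ≤ T) (P : List ℕ → Prop)
    [DecidablePred P] :
    |pr (T * (q + m)) (fun l => P (runSteps (mstep q (boxmv (List.ofFn b)) (snum t p m D s))
        (q + m) T (enc x) l)) -
      (∑ y ∈ univ.filter (fun y : Box b => P (enc y)), bw b t p D s y) / mass (bw b t p D s)| ≤ ε := by
  classical
  set c₁ : ℝ := (1 / 2 : ℝ) ^ t with hc1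
  set c₂ : ℝ := (2 ^ p - 1) / 2 ^ p with hc2
  have h2p : (2 : ℝ) ≤ 2 ^ p := by
    calc (2 : ℝ) = 2 ^ 1 := by norm_num
      _ ≤ 2 ^ p := pow_le_pow_right₀ (by norm_num) hp
  have h1 : 0 < c₁ := by positivity
  have h1' : c₁ ≤ 1 := pow_le_one₀ (by norm_num) (by norm_num)
  have h2 : 0 < c₂ := div_pos (by linarith) (by positivity)
  have h2' : c₂ ≤ 1 := by rw [hc2, div_le_one (by positivity)]; linarith
  have hS : IsProp (prop q (boxM (b := b))) := isProp_box hq hq1
  have hacc : IsAcc (bw b t p D s) (prop q (boxM (b := b)))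
      (sa c₁ c₂ (fun x : Box b => D (enc x)) (fun x => s (enc x))) :=
    isAcc_sa h1 h1' h2 h2' _ _ _
  have hw : ∀ x, 0 < bw b t p D s x := fun x => sw_pos h1 h2 _ _ x
  have hmass : 0 < mass (bw b t p D s) := sum_pos (fun y _ => hw y) ⟨x, mem_univ x⟩
  have himpl : Impl (mstep q (boxmv (List.ofFn b)) (snum t p m D s)) (q + m) (enc (b := b))
      (metro (prop q (boxM (b := b))) (sa c₁ c₂ (fun x : Box b => D (enc x)) (fun x => s (enc x)))) := by
    refine impl_mstep (fun x i _ => boxmv_enc x i) ?_ ?_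
    · intro x y i _ hxy
      have hd := (abs_le.mp (hDs.nbrD hxy)).1
      have he := (abs_le.mp (hDs.nbrs hxy)).2
      exact snum_le D s (by omega) he hm
    · intro x y i _ hxy
      have hd := (abs_le.mp (hDs.nbrD hxy)).1
      have he := (abs_le.mp (hDs.nbrs hxy)).2
      exact snum_eq D s (by omega) he hm
  have hC' : (1 : ℝ) ≤ C * 2 ^ q := by
    have : (1 : ℝ) ≤ 2 ^ q := one_le_pow₀ (by norm_num)
    nlinarith
  have htv := tv_metro_exact hw hS hacc (c₀ := c₁ ^ d) (by positivity) (pow_le_one₀ h1.le h1')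
    (fun x y hxy => by
      obtain ⟨i, _, hi⟩ := nbr_of_prop_ne hxy
      exact sa_ge h1 h1' h2 _ _ (hDs.nbrD hi))
    hC' (fun f => by
      rw [dir_box (by omega)]
      refine (hP f).trans (le_of_eq ?_)
      field_simp) x T hε hL (by
      refine le_trans (le_of_eq ?_) hT
      rw [hc1, ← pow_mul, one_div, inv_pow, div_inv_eq_mul])
  rw [himpl.pr_runSteps x T P]
  exact abs_law_sub_le_of_tv hmass.ne' (metro_isKer hS hacc.nonneg hacc.le_one) x T htv _

/-- crude starting bound: if all weights are within a factor `R` then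
`mass w / w x ≤ R * #configurations`. -/
theorem mass_div_le {α : Type*} [Fintype α] {w : α → ℝ} {x : α} (hx : 0 < w x) {R : ℝ}
    (h : ∀ y, w y ≤ R * w x) : mass w / w x ≤ R * Fintype.card α := by
  rw [div_le_iff₀ hx]
  calc mass w ≤ ∑ _y : α, R * w x := sum_le_sum fun y _ => h y
    _ = R * Fintype.card α * w x := by rw [sum_const, nsmul_eq_mul, card_univ]; ring

theorem card_box (b : Fin M → ℕ) : Fintype.card (Box b) = ∏ e, (b e + 1) := by
  simp [Box, Fintype.card_pi]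

end Crest.Agent.R309.MC
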