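import Mathlib

/-!
# Row 309, outer sampler, part A (helper926): one coarse-to-fine refinement step, abstractly

`S` is the fine level, `T ⊆ S` a subset (a parity class), `κ i` the window key of the shift `i`.
Resampling a uniform point of `T` inside its window gives an almost uniform point of `S`
as soon as the laws of the window keys under `T` and `S` are close on average over the shifts.
-/

set_option autoImplicit false

namespace Crest.Agent.R309.Outer926

open Finset

/-- average over a finite set (zero on the empty set) -/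
noncomputable def favg {α : Type*} (s : Finset α) (g : α → ℝ) : ℝ := (∑ x ∈ s, g x) / s.card

variable {α β ι : Type*}

theorem favg_mono {s : Finset α} {g h : α → ℝ} (H : ∀ x ∈ s, g x ≤ h x) : favg s g ≤ favg s h := by
  unfold favg
  exact div_le_div_of_nonneg_right (Finset.sum_le_sum H) (by positivity)

theorem favg_congr {s : Finset α} {g h : α → ℝ} (H : ∀ x ∈ s, g x = h x) : favg s g = favg s h := by
  unfold favg
  rw [Finset.sum_congr rfl H]

theorem favg_const {s : Finset α} (hs : s.Nonempty) (c : ℝ) : favg s (fun _ => c) = c := by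
  unfold favg
  have : (s.card : ℝ) ≠ 0 := by exact_mod_cast hs.card_pos.ne'
  simp [this]

theorem favg_nonneg {s : Finset α} {g : α → ℝ} (H : ∀ x ∈ s, 0 ≤ g x) : 0 ≤ favg s g := by
  unfold favg
  exact div_nonneg (Finset.sum_nonneg H) (by positivity)

theorem favg_le_one {s : Finset α} {g : α → ℝ} (H : ∀ x ∈ s, g x ≤ 1) : favg s g ≤ 1 := by
  rcases s.eq_empty_or_nonempty with h | h
  · subst h; simp [favg]
  · calc favg s g ≤ favg s (fun _ => 1) := favg_mono H
      _ = 1 := favg_const h 1

theorem favg_le {s : Finset α} (hs : s.Nonempty) {g : α → ℝ} {c : ℝ} (H : ∀ x ∈ s, g x ≤ c) :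
    favg s g ≤ c := (favg_mono H).trans_eq (favg_const hs c)

theorem favg_add (s : Finset α) (g h : α → ℝ) :
    favg s (fun x => g x + h x) = favg s g + favg s h := by
  unfold favg
  rw [Finset.sum_add_distrib, add_div]

theorem favg_sub (s : Finset α) (g h : α → ℝ) :
    favg s (fun x => g x - h x) = favg s g - favg s h := by
  unfold favg
  rw [Finset.sum_sub_distrib, sub_div]

theorem favg_mul_left (s : Finset α) (c : ℝ) (g : α → ℝ) :
    favg s (fun x => c * g x) = c * favg s g := by
  unfold favg
  rw [← Finset.mul_sum, mul_div_assoc]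

theorem abs_favg_le (s : Finset α) (g : α → ℝ) : |favg s g| ≤ favg s (fun x => |g x|) := by
  unfold favg
  rw [abs_div, Nat.abs_cast]
  exact div_le_div_of_nonneg_right (Finset.abs_sum_le_sum_abs _ _) (by positivity)

theorem favg_comm (s : Finset α) (t : Finset β) (g : α → β → ℝ) :
    favg s (fun x => favg t (fun y => g x y)) = favg t (fun y => favg s (fun x => g x y)) := by
  unfold favg
  rw [← Finset.sum_div, ← Finset.sum_div, Finset.sum_comm, div_div, div_div, mul_comm (t.card : ℝ)]

/-- image of an average under an injective map -/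
theorem favg_map (s : Finset α) (f : α ↪ β) (g : β → ℝ) :
    favg (s.map f) g = favg s (fun x => g (f x)) := by
  unfold favg
  rw [Finset.sum_map, Finset.card_map]

theorem favg_image [DecidableEq β] (s : Finset α) (f : α → β) (hf : Set.InjOn f s) (g : β → ℝ) :
    favg (s.image f) g = favg s (fun x => g (f x)) := by
  unfold favg
  rw [Finset.sum_image hf, Finset.card_image_of_injOn hf]

/-- averaging a function over the fibres of a key does not change the average -/
theorem favg_fibre [DecidableEq β] (S : Finset α) (κ : α → β) (φ : α → ℝ) :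
    favg S (fun y => favg (S.filter fun x => κ x = κ y) φ) = favg S φ := by
  classical
  unfold favg
  congr 1
  rw [← Finset.sum_fiberwise_of_maps_to (s := S) (t := S.image κ) (g := κ)
    (fun x hx => Finset.mem_image_of_mem κ hx) (fun x => φ x)]
  rw [← Finset.sum_fiberwise_of_maps_to (s := S) (t := S.image κ) (g := κ)
    (fun x hx => Finset.mem_image_of_mem κ hx)]
  apply Finset.sum_congr rfl
  intro b hb
  obtain ⟨z, hz, rfl⟩ := Finset.mem_image.mp hb
  have h1 : ∀ y ∈ S.filter (fun x => κ x = κ z),
      (∑ x ∈ S.filter (fun x => κ x = κ y), φ x) / ((S.filter fun x => κ x = κ y).card : ℝ) =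
      (∑ x ∈ S.filter (fun x => κ x = κ z), φ x) / ((S.filter fun x => κ x = κ z).card : ℝ) := by
    intro y hy
    rw [(Finset.mem_filter.mp hy).2]
  rw [Finset.sum_congr rfl h1, Finset.sum_const, nsmul_eq_mul]
  have hne : ((S.filter fun x => κ x = κ z).card : ℝ) ≠ 0 := by
    have : z ∈ S.filter fun x => κ x = κ z := by simp [hz]
    exact_mod_cast (Finset.card_pos.mpr ⟨z, this⟩).ne'
  field_simp

/-- empirical law of the key -/
noncomputable def klaw [DecidableEq β] (S : Finset α) (κ : α → β) (b : β) : ℝ :=
  ((S.filter fun x => κ x = b).card : ℝ) / S.card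

theorem favg_key [DecidableEq β] (S : Finset α) (κ : α → β) (B : Finset β)
    (hB : ∀ x ∈ S, κ x ∈ B) (g : β → ℝ) :
    favg S (fun y => g (κ y)) = ∑ b ∈ B, klaw S κ b * g b := by
  unfold favg klaw
  rw [← Finset.sum_fiberwise_of_maps_to (s := S) (t := B) (g := κ) hB]
  rw [Finset.sum_div]
  apply Finset.sum_congr rfl
  intro b _
  have h1 : ∀ y ∈ S.filter (fun x => κ x = b), g (κ y) = g b := by
    intro y hy
    rw [(Finset.mem_filter.mp hy).2]
  rw [Finset.sum_congr rfl h1, Finset.sum_const, nsmul_eq_mul]
  ring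

theorem sum_klaw [DecidableEq β] {S : Finset α} (hS : S.Nonempty) (κ : α → β) (B : Finset β)
    (hB : ∀ x ∈ S, κ x ∈ B) : ∑ b ∈ B, klaw S κ b = 1 := by
  have h := favg_key S κ B hB (fun _ => 1)
  rw [favg_const hS] at h
  simpa using h.symm

/-- `|∑ (p - q) g| ≤ (1/2) ∑ |p - q|` for `g` with values in `[0,1]` and equal total masses -/
theorem abs_sum_le_half (B : Finset β) (p q g : β → ℝ) (hpq : ∑ b ∈ B, p b = ∑ b ∈ B, q b)
    (hg : ∀ b ∈ B, 0 ≤ g b ∧ g b ≤ 1) :
    |∑ b ∈ B, p b * g b - ∑ b ∈ B, q b * g b| ≤ (∑ b ∈ B, |p b - q b|) / 2 := by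
  have h1 : ∑ b ∈ B, p b * g b - ∑ b ∈ B, q b * g b =
      ∑ b ∈ B, (p b - q b) * (g b - 1 / 2) := by
    have h2 : ∑ b ∈ B, (p b - q b) * (g b - 1 / 2) =
        (∑ b ∈ B, p b * g b - ∑ b ∈ B, q b * g b) - (∑ b ∈ B, p b - ∑ b ∈ B, q b) / 2 := by
      rw [← Finset.sum_sub_distrib, ← Finset.sum_sub_distrib, Finset.sum_div,
        ← Finset.sum_sub_distrib]
      apply Finset.sum_congr rfl
      intro b _
      ring
    rw [h2, hpq]; ring
  rw [h1, Finset.sum_div]
  refine (Finset.abs_sum_le_sum_abs _ _).trans (Finset.sum_le_sum fun b hb => ?_)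
  rw [abs_mul]
  have h3 : |g b - 1 / 2| ≤ 1 / 2 := by
    have := hg b hb
    rw [abs_le]; constructor <;> linarith
  calc |p b - q b| * |g b - 1 / 2| ≤ |p b - q b| * (1 / 2) :=
        mul_le_mul_of_nonneg_left h3 (abs_nonneg _)
    _ = |p b - q b| / 2 := by ring

/-- **The refinement step.** -/
theorem refine_step [DecidableEq β] {S T : Finset α} (hT : T.Nonempty) (hTS : T ⊆ S)
    (I : Finset ι) (κ : ι → α → β) {δ : ℝ}
    (H : favg I (fun i => ∑ b ∈ S.image (κ i), |klaw T (κ i) b - klaw S (κ i) b|) ≤ 2 * δ)
    (φ : α → ℝ) (hφ : ∀ x ∈ S, 0 ≤ φ x ∧ φ x ≤ 1) (hI : I.Nonempty) :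
    |favg T (fun y => favg I (fun i => favg (S.filter fun x => κ i x = κ i y) φ)) - favg S φ|
      ≤ δ := by
  classical
  have hS : S.Nonempty := hT.mono hTS
  have h1 : favg S φ = favg I (fun i => favg S (fun y => favg (S.filter fun x => κ i x = κ i y) φ)) := by
    rw [favg_congr (s := I) (h := fun _ => favg S φ) (fun i _ => favg_fibre S (κ i) φ),
      favg_const hI]
  rw [h1, favg_comm T I, ← favg_sub]
  refine (abs_favg_le _ _).trans ?_
  have h2 : ∀ i ∈ I,
      |favg T (fun y => favg (S.filter fun x => κ i x = κ i y) φ)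
        - favg S (fun y => favg (S.filter fun x => κ i x = κ i y) φ)|
      ≤ (1 / 2) * ∑ b ∈ S.image (κ i), |klaw T (κ i) b - klaw S (κ i) b| := by
    intro i _
    have hBS : ∀ x ∈ S, κ i x ∈ S.image (κ i) := fun x hx => Finset.mem_image_of_mem _ hx
    have hBT : ∀ x ∈ T, κ i x ∈ S.image (κ i) := fun x hx => hBS x (hTS hx)
    rw [favg_key T (κ i) (S.image (κ i)) hBT (fun b => favg (S.filter fun x => κ i x = b) φ),
      favg_key S (κ i) (S.image (κ i)) hBS (fun b => favg (S.filter fun x => κ i x = b) φ)]
    refine (abs_sum_le_half _ _ _ _ ?_ ?_).trans_eq (by ring)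
    · rw [sum_klaw hT _ _ hBT, sum_klaw hS _ _ hBS]
    · intro b _
      refine ⟨favg_nonneg fun x hx => (hφ x (Finset.mem_filter.mp hx).1).1,
        favg_le_one fun x hx => (hφ x (Finset.mem_filter.mp hx).1).2⟩
  refine (favg_mono h2).trans ?_
  rw [favg_mul_left]
  linarith

/-- mixture form of the hypothesis of `refine_step`: it suffices to compare classes pairwise.
`cl` is the class map (parity pattern), `T` one class. -/
theorem klaw_mixture [DecidableEq β] {γ : Type*} [DecidableEq γ] {S : Finset α}
    (cl : α → γ) (κ : α → β) (b : β) :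
    klaw S κ b = favg S (fun y => klaw (S.filter fun x => cl x = cl y) κ b) := by
  classical
  have h := favg_fibre S cl (fun x => if κ x = b then (1 : ℝ) else 0)
  have h1 : favg S (fun x => if κ x = b then (1 : ℝ) else 0) = klaw S κ b := by
    unfold favg klaw
    rw [Finset.sum_ite, Finset.sum_const, Finset.sum_const_zero, add_zero, nsmul_eq_mul, mul_one]
  have h2 : ∀ y ∈ S, favg (S.filter fun x => cl x = cl y) (fun x => if κ x = b then (1 : ℝ) else 0)
      = klaw (S.filter fun x => cl x = cl y) κ b := by
    intro y _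
    unfold favg klaw
    rw [Finset.sum_ite, Finset.sum_const, Finset.sum_const_zero, add_zero, nsmul_eq_mul, mul_one]
  rw [← h1, ← h]
  exact favg_congr h2

/-- Pairwise closeness of the classes gives closeness of one class to the mixture. -/
theorem mixture_bound [DecidableEq β] {γ : Type*} [DecidableEq γ] {S : Finset α} (hS : S.Nonempty)
    (cl : α → γ) (I : Finset ι) (κ : ι → α → β) {δ : ℝ} (τ : γ)
    (H : ∀ y ∈ S, favg I (fun i => ∑ b ∈ S.image (κ i),
      |klaw (S.filter fun x => cl x = τ) (κ i) b - klaw (S.filter fun x => cl x = cl y) (κ i) b|)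
        ≤ 2 * δ) :
    favg I (fun i => ∑ b ∈ S.image (κ i),
      |klaw (S.filter fun x => cl x = τ) (κ i) b - klaw S (κ i) b|) ≤ 2 * δ := by
  classical
  calc favg I (fun i => ∑ b ∈ S.image (κ i),
        |klaw (S.filter fun x => cl x = τ) (κ i) b - klaw S (κ i) b|)
      ≤ favg I (fun i => favg S (fun y => ∑ b ∈ S.image (κ i),
        |klaw (S.filter fun x => cl x = τ) (κ i) b
          - klaw (S.filter fun x => cl x = cl y) (κ i) b|)) := by
        apply favg_mono
        intro i _
        have h1 : ∀ b ∈ S.image (κ i),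
            |klaw (S.filter fun x => cl x = τ) (κ i) b - klaw S (κ i) b| ≤
            favg S (fun y => |klaw (S.filter fun x => cl x = τ) (κ i) b
              - klaw (S.filter fun x => cl x = cl y) (κ i) b|) := by
          intro b _
          have h2 : klaw (S.filter fun x => cl x = τ) (κ i) b - klaw S (κ i) b =
              favg S (fun y => klaw (S.filter fun x => cl x = τ) (κ i) b
                - klaw (S.filter fun x => cl x = cl y) (κ i) b) := by
            rw [favg_sub, favg_const hS, ← klaw_mixture cl (κ i) b]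
          rw [h2]
          exact abs_favg_le _ _
        refine (Finset.sum_le_sum h1).trans_eq ?_
        unfold favg
        rw [← Finset.sum_div, Finset.sum_comm]
    _ = favg S (fun y => favg I (fun i => ∑ b ∈ S.image (κ i),
        |klaw (S.filter fun x => cl x = τ) (κ i) b
          - klaw (S.filter fun x => cl x = cl y) (κ i) b|)) := favg_comm _ _ _
    _ ≤ 2 * δ := favg_le hS H

end Crest.Agent.R309.Outer926
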