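import Mathlib
import Crest.Agent.R309.Stab1

/-!
# Row 309, stability chain, part 2 (helper550)

Couplings of uniform laws (`Near`), quantile coupling, the one-unit stability theorem `near_one`.
-/

set_option autoImplicit false
set_option linter.unusedSectionVars false

namespace Crest.Agent.R309.Stab

open Finset

variable {E V : Type} [Fintype E] [DecidableEq E] [Fintype V] [DecidableEq V]

/-- the uniform laws on `A` and `B` have a coupling with all coordinates at distance `≤ K` -/
def Near (K : ℤ) (A B : Finset (E → ℤ)) : Prop :=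
  ∃ π : (E → ℤ) → (E → ℤ) → ℝ, (∀ x y, 0 ≤ π x y) ∧
    (∀ x ∈ A, ∑ y ∈ B, π x y = 1 / (A.card : ℝ)) ∧
    (∀ y ∈ B, ∑ x ∈ A, π x y = 1 / (B.card : ℝ)) ∧
    (∀ x ∈ A, ∀ y ∈ B, π x y ≠ 0 → ∀ e, |x e - y e| ≤ K)

theorem Near.mono {K K' : ℤ} {A B : Finset (E → ℤ)} (h : Near K A B) (hK : K ≤ K') : Near K' A B := by
  obtain ⟨π, h0, h1, h2, h3⟩ := h
  exact ⟨π, h0, h1, h2, fun x hx y hy hne e => (h3 x hx y hy hne e).trans hK⟩

theorem Near.refl (A : Finset (E → ℤ)) {K : ℤ} (hK : 0 ≤ K) : Near K A A := by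
  refine ⟨fun x y => if x = y then 1 / (A.card : ℝ) else 0, ?_, ?_, ?_, ?_⟩
  · intro x y
    dsimp only
    split_ifs <;> positivity
  · intro x hx
    rw [Finset.sum_ite_eq]; simp [hx]
  · intro y hy
    simp only [Finset.sum_ite_eq', hy, if_true]
  · intro x _ y _ hne e
    by_cases h : x = y
    · subst h; simpa using hK
    · simp [h] at hne

theorem Near.symm {K : ℤ} {A B : Finset (E → ℤ)} (h : Near K A B) : Near K B A := by
  obtain ⟨π, h0, h1, h2, h3⟩ := h
  refine ⟨fun x y => π y x, fun x y => h0 y x, h2, h1, fun x hx y hy hne e => ?_⟩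
  rw [abs_sub_comm]
  exact h3 y hy x hx hne e

theorem Near.trans {K K' : ℤ} {A B C : Finset (E → ℤ)} (h : Near K A B) (h' : Near K' B C) :
    Near (K + K') A C := by
  obtain ⟨π, h0, h1, h2, h3⟩ := h
  obtain ⟨ρ, g0, g1, g2, g3⟩ := h'
  by_cases hB : B = ∅
  · subst hB
    refine ⟨fun _ _ => 0, fun _ _ => le_rfl, ?_, ?_, ?_⟩
    · intro x hx
      exfalso
      have := h1 x hx
      have hpos : (0 : ℝ) < A.card := by exact_mod_cast Finset.card_pos.mpr ⟨x, hx⟩
      rw [Finset.sum_empty] at this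
      have h2 : 0 < 1 / (A.card : ℝ) := by positivity
      linarith
    · intro x hx
      exfalso
      have := g2 x hx
      have hpos : (0 : ℝ) < C.card := by exact_mod_cast Finset.card_pos.mpr ⟨x, hx⟩
      rw [Finset.sum_empty] at this
      have h2 : 0 < 1 / (C.card : ℝ) := by positivity
      linarith
    · intro x _ y _ hne
      exact absurd rfl hne
  have hBpos : (0 : ℝ) < B.card := by
    exact_mod_cast Finset.card_pos.mpr (Finset.nonempty_iff_ne_empty.mpr hB)
  refine ⟨fun x z => ∑ y ∈ B, π x y * ρ y z * B.card, ?_, ?_, ?_, ?_⟩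
  · intro x z
    exact Finset.sum_nonneg fun y _ => mul_nonneg (mul_nonneg (h0 x y) (g0 y z)) hBpos.le
  · intro x hx
    rw [Finset.sum_comm, ← h1 x hx]
    apply Finset.sum_congr rfl
    intro y hy
    rw [← Finset.sum_mul, ← Finset.mul_sum, g1 y hy]
    field_simp
  · intro z hz
    rw [Finset.sum_comm, ← g2 z hz]
    apply Finset.sum_congr rfl
    intro y hy
    have : ∑ x ∈ A, π x y * ρ y z * (B.card : ℝ) = (∑ x ∈ A, π x y) * ρ y z * B.card := by
      rw [Finset.sum_mul, Finset.sum_mul]
    rw [this, h2 y hy]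
    field_simp
  · intro x hx z hz hne e
    obtain ⟨y, hy, hyne⟩ := Finset.exists_ne_zero_of_sum_ne_zero hne
    have hπ : π x y ≠ 0 := by
      intro h; simp [h] at hyne
    have hρ : ρ y z ≠ 0 := by
      intro h; simp [h] at hyne
    have e1 := h3 x hx y hy hπ e
    have e2 := g3 y hy z hz hρ e
    have : x e - z e = (x e - y e) + (y e - z e) := by ring
    rw [this]
    exact (abs_add_le _ _).trans (add_le_add e1 e2)

theorem Near.of_bij {K K' : ℤ} {A B A' B' : Finset (E → ℤ)} (φ ψ : (E → ℤ) → (E → ℤ))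
    (hφ : Set.BijOn φ A A') (hψ : Set.BijOn ψ B B')
    (hK : ∀ x ∈ A, ∀ y ∈ B, (∀ e, |φ x e - ψ y e| ≤ K') → ∀ e, |x e - y e| ≤ K)
    (h : Near K' A' B') : Near K A B := by
  obtain ⟨π, h0, h1, h2, h3⟩ := h
  have cA : A.card = A'.card :=
    Finset.card_nbij φ (fun x hx => hφ.mapsTo hx) hφ.injOn hφ.surjOn
  have cB : B.card = B'.card :=
    Finset.card_nbij ψ (fun x hx => hψ.mapsTo hx) hψ.injOn hψ.surjOn
  refine ⟨fun x y => π (φ x) (ψ y), fun _ _ => h0 _ _, ?_, ?_, ?_⟩
  · intro x hx
    rw [cA, ← h1 (φ x) (hφ.mapsTo hx)]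
    exact Finset.sum_nbij ψ (fun x hx => hψ.mapsTo hx) hψ.injOn hψ.surjOn (fun _ _ => rfl)
  · intro y hy
    rw [cB, ← h2 (ψ y) (hψ.mapsTo hy)]
    exact Finset.sum_nbij φ (fun x hx => hφ.mapsTo hx) hφ.injOn hφ.surjOn (fun _ _ => rfl)
  · intro x hx y hy hne
    exact hK x hx y hy (h3 _ (hφ.mapsTo hx) _ (hψ.mapsTo hy) hne)

/-- gluing of couplings along the values of a statistic `f` -/
theorem glue (K : ℤ) (A B : Finset (E → ℤ)) (f : (E → ℤ) → ℤ) (I : Finset ℤ)
    (hAI : ∀ x ∈ A, f x ∈ I) (hBI : ∀ y ∈ B, f y ∈ I) (q : ℤ → ℤ → ℝ) (hq0 : ∀ k k', 0 ≤ q k k')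
    (hq1 : ∀ k ∈ I, ∑ k' ∈ I, q k k' = ((A.filter fun x => f x = k).card : ℝ) / A.card)
    (hq2 : ∀ k' ∈ I, ∑ k ∈ I, q k k' = ((B.filter fun x => f x = k').card : ℝ) / B.card)
    (hN : ∀ k ∈ I, ∀ k' ∈ I, q k k' ≠ 0 →
      Near K (A.filter fun x => f x = k) (B.filter fun x => f x = k')) : Near K A B := by
  classical
  have hex : ∀ k k' : ℤ, ∃ P : (E → ℤ) → (E → ℤ) → ℝ, (∀ x y, 0 ≤ P x y) ∧
      (k ∈ I → k' ∈ I → q k k' ≠ 0 →
        (∀ x ∈ (A.filter fun x => f x = k), ∑ y ∈ (B.filter fun x => f x = k'), P x y =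
          1 / ((A.filter fun x => f x = k).card : ℝ)) ∧
        (∀ y ∈ (B.filter fun x => f x = k'), ∑ x ∈ (A.filter fun x => f x = k), P x y =
          1 / ((B.filter fun x => f x = k').card : ℝ)) ∧
        (∀ x ∈ (A.filter fun x => f x = k), ∀ y ∈ (B.filter fun x => f x = k'), P x y ≠ 0 →
          ∀ e, |x e - y e| ≤ K)) := by
    intro k k'
    by_cases h : k ∈ I ∧ k' ∈ I ∧ q k k' ≠ 0
    · obtain ⟨P, a, b, c, d⟩ := hN k h.1 k' h.2.1 h.2.2
      exact ⟨P, a, fun _ _ _ => ⟨b, c, d⟩⟩
    · refine ⟨fun _ _ => 0, fun _ _ => le_rfl, fun h1 h2 h3 => absurd ⟨h1, h2, h3⟩ h⟩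
  choose P hP0 hP using hex
  refine ⟨fun x y => q (f x) (f y) * P (f x) (f y) x y,
    fun x y => mul_nonneg (hq0 _ _) (hP0 _ _ _ _), ?_, ?_, ?_⟩
  · intro x hx
    have hxk : x ∈ A.filter fun x' => f x' = f x := by simp [hx]
    have hpos : (0 : ℝ) < (A.filter fun x' => f x' = f x).card := by
      exact_mod_cast Finset.card_pos.mpr ⟨x, hxk⟩
    rw [← Finset.sum_fiberwise_of_maps_to (g := f) (t := I) hBI]
    have : ∀ k' ∈ I, ∑ y ∈ B.filter (fun y => f y = k'), q (f x) (f y) * P (f x) (f y) x y =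
        q (f x) k' * (1 / ((A.filter fun x' => f x' = f x).card : ℝ)) := by
      intro k' hk'
      have e1 : ∑ y ∈ B.filter (fun y => f y = k'), q (f x) (f y) * P (f x) (f y) x y =
          ∑ y ∈ B.filter (fun y => f y = k'), q (f x) k' * P (f x) k' x y := by
        apply Finset.sum_congr rfl
        intro y hy
        rw [(Finset.mem_filter.mp hy).2]
      rw [e1, ← Finset.mul_sum]
      by_cases h0 : q (f x) k' = 0
      · rw [h0]; simp
      · rw [((hP (f x) k') (hAI x hx) hk' h0).1 x hxk]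
    rw [Finset.sum_congr rfl this, ← Finset.sum_mul, hq1 (f x) (hAI x hx)]
    field_simp
  · intro y hy
    have hyk : y ∈ B.filter fun x' => f x' = f y := by simp [hy]
    have hpos : (0 : ℝ) < (B.filter fun x' => f x' = f y).card := by
      exact_mod_cast Finset.card_pos.mpr ⟨y, hyk⟩
    rw [← Finset.sum_fiberwise_of_maps_to (g := f) (t := I) hAI]
    have : ∀ k ∈ I, ∑ x ∈ A.filter (fun x => f x = k), q (f x) (f y) * P (f x) (f y) x y =
        q k (f y) * (1 / ((B.filter fun x' => f x' = f y).card : ℝ)) := by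
      intro k hk
      have e1 : ∑ x ∈ A.filter (fun x => f x = k), q (f x) (f y) * P (f x) (f y) x y =
          ∑ x ∈ A.filter (fun x => f x = k), q k (f y) * P k (f y) x y := by
        apply Finset.sum_congr rfl
        intro x hx
        rw [(Finset.mem_filter.mp hx).2]
      rw [e1, ← Finset.mul_sum]
      by_cases h0 : q k (f y) = 0
      · rw [h0]; simp
      · rw [((hP k (f y)) hk (hBI y hy) h0).2.1 y hyk]
    rw [Finset.sum_congr rfl this, ← Finset.sum_mul, hq2 (f y) (hBI y hy)]
    field_simp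
  · intro x hx y hy hne
    have h0 : q (f x) (f y) ≠ 0 := by
      intro h; simp [h] at hne
    have h1 : P (f x) (f y) x y ≠ 0 := by
      intro h; simp [h] at hne
    exact ((hP (f x) (f y)) (hAI x hx) (hBI y hy) h0).2.2 x (by simp [hx]) y (by simp [hy]) h1

/-! ### quantile coupling on `ℤ` -/

/-- partial sums -/
noncomputable def cdf (m : ℤ) (p : ℤ → ℝ) (k : ℤ) : ℝ := ∑ j ∈ Finset.Icc m k, p j

theorem cdf_succ (m : ℤ) (p : ℤ → ℝ) (k : ℤ) (hk : m ≤ k) : cdf m p k = cdf m p (k - 1) + p k := by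
  unfold cdf
  have : Finset.Icc m k = insert k (Finset.Icc m (k - 1)) := by
    ext j; simp only [Finset.mem_Icc, Finset.mem_insert]; omega
  rw [this, Finset.sum_insert (by simp), add_comm]

theorem cdf_lt (m : ℤ) (p : ℤ → ℝ) (k : ℤ) (hk : k < m) : cdf m p k = 0 := by
  unfold cdf
  rw [Finset.Icc_eq_empty (by omega), Finset.sum_empty]

theorem quantile (m M : ℤ) (p q : ℤ → ℝ)
    (hp1 : cdf m p M = 1) (hq1 : cdf m q M = 1)
    (h1 : ∀ k, cdf m p k ≤ cdf m q k) (h2 : ∀ k, cdf m q (k - 1) ≤ cdf m p k) :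
    ∃ r : ℤ → ℤ → ℝ, (∀ k k', 0 ≤ r k k') ∧
      (∀ k ∈ Finset.Icc m M, ∑ k' ∈ Finset.Icc m M, r k k' = p k) ∧
      (∀ k' ∈ Finset.Icc m M, ∑ k ∈ Finset.Icc m M, r k k' = q k') ∧
      (∀ k k', r k k' ≠ 0 → k = k' ∨ k = k' + 1) := by
  refine ⟨fun k k' => (if k = k' then cdf m p k - cdf m q (k - 1) else 0) +
    (if k = k' + 1 then cdf m q k' - cdf m p k' else 0), ?_, ?_, ?_, ?_⟩
  · intro k k'
    have e1 := h2 k
    have e2 := h1 k'
    apply add_nonneg
    · split_ifs
      · linarith
      · exact le_rfl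
    · split_ifs
      · linarith
      · exact le_rfl
  · intro k hk
    have hk' := Finset.mem_Icc.mp hk
    rw [Finset.sum_add_distrib, Finset.sum_ite_eq]
    simp only [hk, if_true]
    have e1 : ∑ k' ∈ Finset.Icc m M, (if k = k' + 1 then cdf m q k' - cdf m p k' else 0) =
        cdf m q (k - 1) - cdf m p (k - 1) := by
      by_cases hm : k = m
      · rw [Finset.sum_eq_zero, cdf_lt m q _ (by omega), cdf_lt m p _ (by omega), sub_zero]
        intro j hj
        have := Finset.mem_Icc.mp hj
        rw [if_neg (by omega)]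
      · rw [Finset.sum_eq_single (k - 1)]
        · rw [if_pos (by ring)]
        · intro j _ hj
          rw [if_neg (by omega)]
        · intro h
          exact absurd (Finset.mem_Icc.mpr ⟨by omega, by omega⟩) h
    rw [e1]
    have := cdf_succ m p k hk'.1
    linarith
  · intro k hk
    have hk' := Finset.mem_Icc.mp hk
    rw [Finset.sum_add_distrib, Finset.sum_ite_eq']
    simp only [hk, if_true]
    have e1 : ∑ j ∈ Finset.Icc m M, (if j = k + 1 then cdf m q k - cdf m p k else 0) =
        cdf m q k - cdf m p k := by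
      by_cases hm : k = M
      · rw [Finset.sum_eq_zero, hm, hp1, hq1, sub_self]
        intro j hj
        have := Finset.mem_Icc.mp hj
        rw [if_neg (by omega)]
      · rw [Finset.sum_eq_single (k + 1)]
        · rw [if_pos rfl]
        · intro j _ hj
          rw [if_neg hj]
        · intro h
          exact absurd (Finset.mem_Icc.mpr ⟨by omega, by omega⟩) h
    rw [e1]
    have := cdf_succ m q k hk'.1
    linarith
  · intro k k' hne
    by_contra hcon
    push Not at hcon
    simp [hcon.1, hcon.2] at hne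

theorem cdf_le_of_mlr (m M : ℤ) (p q : ℤ → ℝ) (k : ℤ) (hk : k ≤ M)
    (h : ∀ x y, x < y → p x * q y ≤ p y * q x) :
    cdf m p k * cdf m q M ≤ cdf m q k * cdf m p M := by
  by_cases hmk : m ≤ k
  · have split : ∀ p : ℤ → ℝ, cdf m p M = cdf m p k + ∑ j ∈ Finset.Icc (k + 1) M, p j := by
      intro p
      unfold cdf
      have : Finset.Icc m M = Finset.Icc m k ∪ Finset.Icc (k + 1) M := by
        ext j; simp only [Finset.mem_Icc, Finset.mem_union]; omega
      rw [this, Finset.sum_union]
      rw [Finset.disjoint_left]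
      intro j h1 h2
      simp only [Finset.mem_Icc] at h1 h2
      omega
    rw [split p, split q]
    have key : cdf m p k * ∑ j ∈ Finset.Icc (k + 1) M, q j ≤
        cdf m q k * ∑ j ∈ Finset.Icc (k + 1) M, p j := by
      unfold cdf
      rw [Finset.sum_mul_sum, Finset.sum_mul_sum]
      apply Finset.sum_le_sum
      intro x hx
      apply Finset.sum_le_sum
      intro y hy
      simp only [Finset.mem_Icc] at hx hy
      have := h x y (by omega)
      linarith [mul_comm (p y) (q x)]
    nlinarith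
  · rw [cdf_lt m p k (by omega), cdf_lt m q k (by omega)]; simp

/-- Coupling of the uniform laws on `A` and `B` from monotone likelihood ratios of a statistic `f`. -/
theorem cell_step (K : ℤ) (A B : Finset (E → ℤ)) (f : (E → ℤ) → ℤ)
    (hA : A.Nonempty) (hB : B.Nonempty)
    (h1 : ∀ x y : ℤ, x < y →
      (A.filter fun z => f z = x).card * (B.filter fun z => f z = y).card ≤
        (A.filter fun z => f z = y).card * (B.filter fun z => f z = x).card)
    (h2 : ∀ x y : ℤ, x < y →
      (A.filter fun z => f z = y + 1).card * (B.filter fun z => f z = x).card ≤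
        (A.filter fun z => f z = x + 1).card * (B.filter fun z => f z = y).card)
    (h3 : ∀ j : ℤ, (A.filter fun z => f z = j).Nonempty → (B.filter fun z => f z = j).Nonempty →
      Near K (A.filter fun z => f z = j) (B.filter fun z => f z = j))
    (h4 : ∀ j : ℤ, (A.filter fun z => f z = j + 1).Nonempty → (B.filter fun z => f z = j).Nonempty →
      Near K (A.filter fun z => f z = j + 1) (B.filter fun z => f z = j)) :
    Near K A B := by
  -- an interval containing all values
  obtain ⟨m, M, hmM⟩ : ∃ m M : ℤ, ∀ x ∈ A ∪ B, m ≤ f x ∧ f x ≤ M := by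
    have hne : ((A ∪ B).image f).Nonempty := (hA.mono Finset.subset_union_left).image f
    refine ⟨((A ∪ B).image f).min' hne, ((A ∪ B).image f).max' hne, fun x hx => ?_⟩
    exact ⟨Finset.min'_le _ _ (Finset.mem_image_of_mem f hx),
      Finset.le_max' _ _ (Finset.mem_image_of_mem f hx)⟩
  have hAr : ∀ x ∈ A, m ≤ f x ∧ f x ≤ M := fun x hx => hmM x (Finset.mem_union_left _ hx)
  have hBr : ∀ x ∈ B, m ≤ f x ∧ f x ≤ M := fun x hx => hmM x (Finset.mem_union_right _ hx)
  have hAc : (0 : ℝ) < A.card := by exact_mod_cast hA.card_pos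
  have hBc : (0 : ℝ) < B.card := by exact_mod_cast hB.card_pos
  set p : ℤ → ℝ := fun k => ((A.filter fun x => f x = k).card : ℝ) / A.card with hp
  set q : ℤ → ℝ := fun k => ((B.filter fun x => f x = k).card : ℝ) / B.card with hq
  have zero_of : ∀ (C : Finset (E → ℤ)) (k : ℤ), (∀ x ∈ C, m ≤ f x ∧ f x ≤ M) → (k < m ∨ M < k) →
      (C.filter fun x => f x = k) = ∅ := by
    intro C k hC hk
    rw [Finset.filter_eq_empty_iff]
    intro x hx h
    have := hC x hx
    omega
  have total : ∀ (C : Finset (E → ℤ)), (∀ x ∈ C, m ≤ f x ∧ f x ≤ M) → C.Nonempty →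
      cdf m (fun k => ((C.filter fun x => f x = k).card : ℝ) / C.card) M = 1 := by
    intro C hC hCne
    unfold cdf
    rw [← Finset.sum_div]
    have h := Finset.card_eq_sum_card_fiberwise (f := f) (s := C) (t := Finset.Icc m M)
      (fun x hx => Finset.mem_coe.mpr (Finset.mem_Icc.mpr (hC x hx)))
    have h' : (C.card : ℝ) = ∑ k ∈ Finset.Icc m M, ((C.filter fun x => f x = k).card : ℝ) := by
      exact_mod_cast h
    rw [← h']
    exact div_self (by exact_mod_cast hCne.card_pos.ne')
  have hp1 : cdf m p M = 1 := total A hAr hA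
  have hq1 : cdf m q M = 1 := total B hBr hB
  have mlr1 : ∀ x y, x < y → p x * q y ≤ p y * q x := by
    intro x y hxy
    have h := h1 x y hxy
    have h' : ((A.filter fun z => f z = x).card : ℝ) * (B.filter fun z => f z = y).card ≤
        (A.filter fun z => f z = y).card * (B.filter fun z => f z = x).card := by exact_mod_cast h
    simp only [hp, hq]
    rw [div_mul_div_comm, div_mul_div_comm]
    exact div_le_div_of_nonneg_right h' (by positivity)
  have mlr2 : ∀ x y, x < y → q x * p (y + 1) ≤ q y * p (x + 1) := by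
    intro x y hxy
    have h := h2 x y hxy
    have h' : ((A.filter fun z => f z = y + 1).card : ℝ) * (B.filter fun z => f z = x).card ≤
        (A.filter fun z => f z = x + 1).card * (B.filter fun z => f z = y).card := by exact_mod_cast h
    simp only [hp, hq]
    rw [div_mul_div_comm, div_mul_div_comm, mul_comm, mul_comm (B.card : ℝ),
      mul_comm ((B.filter fun z => f z = y).card : ℝ)]
    exact div_le_div_of_nonneg_right h' (by positivity)
  have const_of : ∀ (p : ℤ → ℝ), (∀ k, M < k → p k = 0) → ∀ k, M ≤ k → cdf m p k = cdf m p M := by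
    intro p hp0 k hk
    unfold cdf
    symm
    apply Finset.sum_subset (Finset.Icc_subset_Icc_right hk)
    intro j h1 h2
    simp only [Finset.mem_Icc] at h1 h2
    exact hp0 j (by omega)
  have hpz : ∀ k, M < k → p k = 0 := by
    intro k hk; simp only [hp]; rw [zero_of A k hAr (Or.inr hk)]; simp
  have hqz : ∀ k, M < k → q k = 0 := by
    intro k hk; simp only [hq]; rw [zero_of B k hBr (Or.inr hk)]; simp
  have hqz' : ∀ k, k < m → q k = 0 := by
    intro k hk; simp only [hq]; rw [zero_of B k hBr (Or.inl hk)]; simp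
  have d1 : ∀ k, cdf m p k ≤ cdf m q k := by
    intro k
    rcases le_or_gt k M with hk | hk
    · have := cdf_le_of_mlr m M p q k hk mlr1
      rwa [hp1, hq1, mul_one, mul_one] at this
    · rw [const_of p hpz k hk.le, const_of q hqz k hk.le, hp1, hq1]
  have d2 : ∀ k, cdf m q (k - 1) ≤ cdf m p k := by
    intro k
    set p' : ℤ → ℝ := fun j => p (j + 1) with hp'
    have shift : ∀ k, cdf (m - 1) p' (k - 1) = cdf m p k := by
      intro k
      unfold cdf
      apply Finset.sum_nbij (fun j => j + 1)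
      · intro j hj
        simp only [Finset.mem_Icc] at hj ⊢
        omega
      · intro a _ b _ h
        simpa using h
      · intro j hj
        simp only [Finset.coe_Icc, Set.mem_Icc] at hj
        exact ⟨j - 1, by simp only [Finset.coe_Icc, Set.mem_Icc]; omega, by simp⟩
      · intro j _; rfl
    have low : ∀ k, cdf (m - 1) q k = cdf m q k := by
      intro k
      unfold cdf
      symm
      apply Finset.sum_subset (Finset.Icc_subset_Icc_left (by omega))
      intro j h1 h2
      simp only [Finset.mem_Icc] at h1 h2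
      exact hqz' j (by omega)
    rcases le_or_gt (k - 1) M with hk | hk
    · have h := cdf_le_of_mlr (m - 1) M q p' (k - 1) hk mlr2
      have e1 : cdf (m - 1) p' M = 1 := by
        have := shift (M + 1)
        rw [add_sub_cancel_right] at this
        rw [this, const_of p hpz (M + 1) (by omega), hp1]
      rw [e1, low, low, hq1, mul_one, mul_one, shift] at h
      exact h
    · rw [const_of q hqz _ hk.le, const_of p hpz _ (by omega), hp1, hq1]
  obtain ⟨r, r0, r1, r2, r3⟩ := quantile m M p q hp1 hq1 d1 d2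
  refine glue K A B f (Finset.Icc m M) (fun x hx => Finset.mem_Icc.mpr (hAr x hx))
    (fun x hx => Finset.mem_Icc.mpr (hBr x hx)) r r0 r1 r2 ?_
  intro k hk k' hk' hne
  have hrpos : 0 < r k k' := lt_of_le_of_ne (r0 k k') (Ne.symm hne)
  have hAk : (A.filter fun z => f z = k).Nonempty := by
    rw [Finset.nonempty_iff_ne_empty]
    intro h0
    have : p k = 0 := by simp only [hp]; rw [h0]; simp
    have h5 := r1 k hk
    rw [this] at h5
    have := (Finset.sum_eq_zero_iff_of_nonneg (fun j _ => r0 k j)).mp h5 k' hk'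
    exact hne this
  have hBk : (B.filter fun z => f z = k').Nonempty := by
    rw [Finset.nonempty_iff_ne_empty]
    intro h0
    have : q k' = 0 := by simp only [hq]; rw [h0]; simp
    have h5 := r2 k' hk'
    rw [this] at h5
    have := (Finset.sum_eq_zero_iff_of_nonneg (fun j _ => r0 j k')).mp h5 k hk
    exact hne this
  rcases r3 k k' hne with h | h
  · subst h; exact h3 k hAk hBk
  · subst h; exact h4 k' hAk hBk

end Crest.Agent.R309.Stab
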