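import Mathlib
import Crest.Agent.R309.Stab2
import Crest.Agent.R309.Blocks959

/-!
# Row 309, outer sampler, part B (helper926): the block Poincaré inequality for box systems

* residue keys `rkey j X = X mod 2^j`, window keys `wkey L j u X = (X / 2^j + u) / L` (scalar shift);
* quotient systems: the points of `sys s t lo hi β` congruent to `x` mod `2^j` are the points
  `2^j Y + (x mod 2^j)` with `Y` in the quotient system;
* parity stability (`ParityNear`, from the stability chain) implies `Coupled`;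
* `sys_block_poincare`.
-/

set_option autoImplicit false
set_option linter.unusedSectionVars false

namespace Crest.Agent.R309.Outer926

open Finset Crest.Agent.R309.Stab Crest.Agent.R309.Blocks

variable {E V : Type} [Fintype E] [DecidableEq E] [Fintype V] [DecidableEq V]

/-- residue key of level `j` -/
def rkey (j : ℕ) (X : E → ℤ) : E → ℤ := fun e => X e % 2 ^ j

/-- window key of level `j`, window length `L`, scalar shift `u` -/
def wkey (L j : ℕ) (u : ℕ) (X : E → ℤ) : E → ℤ := fun e => (X e / 2 ^ j + u) / L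

/-! ### quotient systems -/

/-- lower bound of the quotient system -/
def qlo (lo ρ : E → ℤ) (j : ℕ) : E → ℤ := fun e => (lo e - ρ e + (2 ^ j - 1)) / 2 ^ j

/-- upper bound of the quotient system -/
def qhi (hi ρ : E → ℤ) (j : ℕ) : E → ℤ := fun e => (hi e - ρ e) / 2 ^ j

/-- quotient of a point -/
def quo (j : ℕ) (X : E → ℤ) : E → ℤ := fun e => X e / 2 ^ j

/-- the point `2^j Y + ρ` -/
def lift (j : ℕ) (ρ Y : E → ℤ) : E → ℤ := (2 ^ j : ℤ) • Y + ρ

theorem two_pow_pos' (j : ℕ) : (0 : ℤ) < 2 ^ j := by positivity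

theorem lift_apply (j : ℕ) (ρ Y : E → ℤ) (e : E) : lift j ρ Y e = 2 ^ j * Y e + ρ e := by
  simp [lift]

theorem lift_quo (j : ℕ) (X : E → ℤ) : lift j (rkey j X) (quo j X) = X := by
  funext e
  rw [lift_apply]
  exact Int.mul_ediv_add_emod (X e) (2 ^ j)

theorem lift_quo' {j : ℕ} {X ρ : E → ℤ} (h : rkey j X = ρ) : lift j ρ (quo j X) = X := by
  rw [← h, lift_quo]

theorem quo_lift (j : ℕ) (x Y : E → ℤ) : quo j (lift j (rkey j x) Y) = Y := by
  funext e
  have hp := two_pow_pos' j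
  have h1 : 0 ≤ x e % 2 ^ j := Int.emod_nonneg _ hp.ne'
  have h2 : x e % 2 ^ j < 2 ^ j := Int.emod_lt_of_pos _ hp
  show lift j (rkey j x) Y e / 2 ^ j = Y e
  rw [lift_apply, rkey, Int.add_comm, Int.add_mul_ediv_left _ _ hp.ne', Int.ediv_eq_zero_of_lt h1 h2,
    zero_add]

theorem rkey_lift (j : ℕ) (x Y : E → ℤ) : rkey j (lift j (rkey j x) Y) = rkey j x := by
  funext e
  show lift j (rkey j x) Y e % 2 ^ j = x e % 2 ^ j
  rw [lift_apply, rkey, Int.add_comm, Int.add_mul_emod_self_left, Int.emod_emod_of_dvd _ (dvd_refl _)]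

theorem lift_injective (j : ℕ) (ρ : E → ℤ) : Function.Injective (lift j ρ) := by
  intro Y Y' h
  funext e
  have := congrFun h e
  rw [lift_apply, lift_apply] at this
  have hp := two_pow_pos' j
  have h2 : (2 : ℤ) ^ j * Y e = 2 ^ j * Y' e := by linarith
  exact mul_left_cancel₀ hp.ne' h2

theorem bd_lift (s t : E → V) (j : ℕ) (ρ Y : E → ℤ) :
    bd s t (lift j ρ Y) = (2 ^ j : ℤ) • bd s t Y + bd s t ρ := by
  rw [lift, bd_add, bd_smul]

theorem le_lift_iff (lo ρ Y : E → ℤ) (j : ℕ) (e : E) :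
    lo e ≤ lift j ρ Y e ↔ qlo lo ρ j e ≤ Y e := by
  have hp := two_pow_pos' j
  rw [lift_apply, qlo]
  constructor
  · intro h
    have : (lo e - ρ e + (2 ^ j - 1)) < (Y e + 1) * 2 ^ j := by nlinarith
    have := Int.ediv_lt_of_lt_mul hp this
    omega
  · intro h
    by_contra hcon
    push Not at hcon
    have h1 : Y e + 1 ≤ (lo e - ρ e + (2 ^ j - 1)) / 2 ^ j := by
      rw [Int.le_ediv_iff_mul_le hp]
      nlinarith
    omega

theorem lift_le_iff (hi ρ Y : E → ℤ) (j : ℕ) (e : E) :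
    lift j ρ Y e ≤ hi e ↔ Y e ≤ qhi hi ρ j e := by
  have hp := two_pow_pos' j
  rw [lift_apply, qhi, Int.le_ediv_iff_mul_le hp]
  constructor
  · intro h; linarith
  · intro h; linarith

/-- membership in the system for a lifted point, relative to a base point `x` -/
theorem lift_mem_sys {s t : E → V} {lo hi : E → ℤ} {β : V → ℤ} {x : E → ℤ}
    (hx : x ∈ sys s t lo hi β) (j : ℕ) (Y : E → ℤ) :
    lift j (rkey j x) Y ∈ sys s t lo hi β ↔
      Y ∈ sys s t (qlo lo (rkey j x) j) (qhi hi (rkey j x) j) (bd s t (quo j x)) := by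
  rw [mem_sys, mem_sys]
  have hxb := (mem_sys.mp hx).2
  have hp := two_pow_pos' j
  have hb : bd s t (lift j (rkey j x) Y) = β ↔ bd s t Y = bd s t (quo j x) := by
    rw [← hxb]
    conv_lhs => rw [← lift_quo j x]
    rw [rkey_lift, bd_lift, lift_quo, ← lift_quo j x, rkey_lift, lift_quo]
    have hx2 : bd s t x = (2 ^ j : ℤ) • bd s t (quo j x) + bd s t (rkey j x) := by
      conv_lhs => rw [← lift_quo j x]
      rw [bd_lift]
    rw [hx2]
    constructor
    · intro h
      have h1 := add_right_cancel h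
      funext v
      have h2 := congrFun h1 v
      simp only [Pi.smul_apply, smul_eq_mul] at h2
      exact mul_left_cancel₀ hp.ne' h2
    · intro h; rw [h]
  rw [hb]
  constructor
  · rintro ⟨h1, h2⟩
    exact ⟨fun e => ⟨(le_lift_iff lo _ Y j e).mp (h1 e).1, (lift_le_iff hi _ Y j e).mp (h1 e).2⟩, h2⟩
  · rintro ⟨h1, h2⟩
    exact ⟨fun e => ⟨(le_lift_iff lo _ Y j e).mpr (h1 e).1, (lift_le_iff hi _ Y j e).mpr (h1 e).2⟩, h2⟩

theorem quo_mem {s t : E → V} {lo hi : E → ℤ} {β : V → ℤ} {x X : E → ℤ}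
    (hx : x ∈ sys s t lo hi β) (j : ℕ) (hX : X ∈ sys s t lo hi β) (h : rkey j X = rkey j x) :
    quo j X ∈ sys s t (qlo lo (rkey j x) j) (qhi hi (rkey j x) j) (bd s t (quo j x)) := by
  rw [← lift_mem_sys hx, lift_quo' h]
  exact hX

theorem rkey_zero (X : E → ℤ) : rkey 0 X = 0 := by
  funext e
  simp [rkey]

theorem rkey_mono {j : ℕ} {X Y : E → ℤ} (h : rkey (j + 1) X = rkey (j + 1) Y) :
    rkey j X = rkey j Y := by
  funext e
  have := congrFun h e
  simp only [rkey] at this ⊢
  have hd : (2 : ℤ) ^ j ∣ 2 ^ (j + 1) := pow_dvd_pow _ (by omega)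
  rw [← Int.emod_emod_of_dvd (X e) hd, this, Int.emod_emod_of_dvd _ hd]

theorem rkey_succ_iff {j : ℕ} {X Y : E → ℤ} :
    rkey (j + 1) X = rkey (j + 1) Y ↔ rkey j X = rkey j Y ∧ rkey 1 (quo j X) = rkey 1 (quo j Y) := by
  have key : ∀ a : ℤ, a % 2 ^ (j + 1) = a % 2 ^ j + 2 ^ j * ((a / 2 ^ j) % 2) := by
    intro a
    have hp := two_pow_pos' j
    have hp1 := two_pow_pos' (j + 1)
    have e1 : a = a % 2 ^ j + 2 ^ j * (a / 2 ^ j) := by
      have := Int.emod_add_mul_ediv a (2 ^ j); linarith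
    have e2 : a / 2 ^ j = (a / 2 ^ j) % 2 + 2 * ((a / 2 ^ j) / 2) := by
      have := Int.emod_add_mul_ediv (a / 2 ^ j) 2; linarith
    have h1 : 0 ≤ a % 2 ^ j := Int.emod_nonneg _ hp.ne'
    have h2 : a % 2 ^ j < 2 ^ j := Int.emod_lt_of_pos _ hp
    have h3 : 0 ≤ (a / 2 ^ j) % 2 := Int.emod_nonneg _ (by norm_num)
    have h4 : (a / 2 ^ j) % 2 < 2 := Int.emod_lt_of_pos _ (by norm_num)
    have e3 : a = (a % 2 ^ j + 2 ^ j * ((a / 2 ^ j) % 2)) + 2 ^ (j + 1) * ((a / 2 ^ j) / 2) := by
      rw [pow_succ]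
      calc a = a % 2 ^ j + 2 ^ j * (a / 2 ^ j) := e1
        _ = a % 2 ^ j + 2 ^ j * ((a / 2 ^ j) % 2 + 2 * ((a / 2 ^ j) / 2)) := by rw [← e2]
        _ = _ := by ring
    have h5 : 0 ≤ a % 2 ^ j + 2 ^ j * ((a / 2 ^ j) % 2) := by positivity
    have h6 : a % 2 ^ j + 2 ^ j * ((a / 2 ^ j) % 2) < 2 ^ (j + 1) := by
      rw [pow_succ]; nlinarith
    conv_lhs => rw [e3]
    rw [Int.add_mul_emod_self_left, Int.emod_eq_of_lt h5 h6]
  constructor
  · intro h
    have h0 := rkey_mono h
    refine ⟨h0, ?_⟩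
    funext e
    have h1 := congrFun h e
    have h2 := congrFun h0 e
    simp only [rkey] at h1 h2
    rw [key, key, h2] at h1
    have hp := two_pow_pos' j
    have h3 : (2 : ℤ) ^ j * ((X e / 2 ^ j) % 2) = 2 ^ j * ((Y e / 2 ^ j) % 2) := by linarith
    have h4 := mul_left_cancel₀ hp.ne' h3
    simpa [rkey, quo] using h4
  · rintro ⟨h1, h2⟩
    funext e
    have h3 := congrFun h1 e
    have h4 := congrFun h2 e
    simp only [rkey, quo, pow_one] at h3 h4 ⊢
    rw [key, key, h3, h4]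

theorem rkey_inj {J : ℕ} {X Y : E → ℤ} (h : rkey J X = rkey J Y)
    (hd : ∀ e, |X e - Y e| < 2 ^ J) : X = Y := by
  funext e
  have h1 := congrFun h e
  simp only [rkey] at h1
  have h2 : (2 : ℤ) ^ J ∣ X e - Y e := Int.ModEq.dvd (Int.ModEq.symm h1)
  have h3 := Int.eq_zero_of_abs_lt_dvd h2 (hd e)
  linarith

/-! ### counting the separating shifts -/

theorem shift_count (L : ℕ) (hL : 0 < L) (a b : ℤ) (K : ℕ) (hK : |a - b| ≤ K) :
    ((Finset.range L).filter fun u : ℕ => (a + u) / (L : ℤ) ≠ (b + u) / (L : ℤ)).card ≤ K := by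
  wlog hab : a ≤ b generalizing a b
  · have := this b a (by rw [abs_sub_comm]; exact hK) (by omega)
    refine le_trans (Finset.card_le_card ?_) this
    intro u hu
    simp only [Finset.mem_filter] at hu ⊢
    exact ⟨hu.1, fun h => hu.2 h.symm⟩
  have hLp : (0 : ℤ) < L := by exact_mod_cast hL
  have hd : b - a ≤ K := by
    rw [abs_sub_comm] at hK
    exact (le_abs_self _).trans hK
  have hsub : ∀ u : ℕ, (a + u) / (L : ℤ) ≠ (b + u) / (L : ℤ) → (b + u) % (L : ℤ) < b - a := by
    intro u hu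
    by_contra hcon
    push Not at hcon
    apply hu
    have h1 := Int.emod_add_mul_ediv (b + u) L
    have h2 : (b + u) % (L : ℤ) < L := Int.emod_lt_of_pos _ hLp
    have e1 : a + u = ((b + u) % (L : ℤ) - (b - a)) + L * ((b + u) / (L : ℤ)) := by linarith
    rw [e1, Int.add_mul_ediv_left _ _ hLp.ne', Int.ediv_eq_zero_of_lt (by omega) (by omega), zero_add]
  calc ((Finset.range L).filter fun u : ℕ => (a + u) / (L : ℤ) ≠ (b + u) / (L : ℤ)).card
      ≤ (Finset.range K).card := by
        refine Finset.card_le_card_of_injOn (fun u => ((b + u) % (L : ℤ)).toNat) ?_ ?_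
        · intro u hu
          have hu' := Finset.mem_filter.mp (Finset.mem_coe.mp hu)
          have h1 := hsub u hu'.2
          have h0 : 0 ≤ (b + u) % (L : ℤ) := Int.emod_nonneg _ hLp.ne'
          simp only [Finset.coe_range, Set.mem_Iio]
          omega
        · intro u hu v hv huv
          have hu' := Finset.mem_range.mp (Finset.mem_filter.mp (Finset.mem_coe.mp hu)).1
          have hv' := Finset.mem_range.mp (Finset.mem_filter.mp (Finset.mem_coe.mp hv)).1
          have h0 : 0 ≤ (b + u) % (L : ℤ) := Int.emod_nonneg _ hLp.ne'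
          have h1 : 0 ≤ (b + v) % (L : ℤ) := Int.emod_nonneg _ hLp.ne'
          have h2 : (b + u) % (L : ℤ) = (b + v) % (L : ℤ) := by
            have := congrArg (fun n : ℕ => (n : ℤ)) huv
            simp only [Int.toNat_of_nonneg h0, Int.toNat_of_nonneg h1] at this
            exact this
          have h3 : (L : ℤ) ∣ (b + u) - (b + v) := Int.ModEq.dvd (Int.ModEq.symm h2)
          have h4 : |(b + u) - (b + v)| < (L : ℤ) := by
            rw [abs_lt]; constructor <;> omega
          have h5 := Int.eq_zero_of_abs_lt_dvd h3 h4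
          omega
    _ = K := Finset.card_range K

theorem wkey_count (L : ℕ) (hL : 0 < L) (j K : ℕ) (z z' : E → ℤ)
    (hK : ∀ e, |quo j z e - quo j z' e| ≤ (K : ℤ)) :
    ((Finset.range L).filter fun u => wkey L j u z ≠ wkey L j u z').card ≤ Fintype.card E * K := by
  classical
  calc ((Finset.range L).filter fun u => wkey L j u z ≠ wkey L j u z').card
      ≤ (Finset.univ.biUnion fun e : E => (Finset.range L).filter fun u : ℕ =>
          (quo j z e + u) / (L : ℤ) ≠ (quo j z' e + u) / (L : ℤ)).card := by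
        apply Finset.card_le_card
        intro u hu
        simp only [Finset.mem_filter, Finset.mem_biUnion, Finset.mem_univ, true_and] at hu ⊢
        obtain ⟨hu1, hu2⟩ := hu
        by_contra hcon
        push Not at hcon
        apply hu2
        funext e
        exact hcon e hu1
    _ ≤ ∑ e : E, ((Finset.range L).filter fun u : ℕ =>
          (quo j z e + u) / (L : ℤ) ≠ (quo j z' e + u) / (L : ℤ)).card := Finset.card_biUnion_le
    _ ≤ ∑ _e : E, K := Finset.sum_le_sum fun e _ => shift_count L hL _ _ K (hK e)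
    _ = Fintype.card E * K := by simp

/-! ### stability and the block Poincaré inequality -/

/-- Stability of parity classes: the uniform laws on any two parity classes of any system over the
graph `(s,t)` can be coupled at `ℓ_∞` distance `≤ K`. -/
def ParityNear (s t : E → V) (K : ℕ) : Prop :=
  ∀ (lo hi : E → ℤ) (β : V → ℤ), ∀ a ∈ sys s t lo hi β, ∀ b ∈ sys s t lo hi β,
    Near (K : ℤ) ((sys s t lo hi β).filter fun Y => rkey 1 Y = rkey 1 a)
      ((sys s t lo hi β).filter fun Y => rkey 1 Y = rkey 1 b)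

theorem coupled_of_near {s t : E → V} {K : ℕ} (hN : ParityNear s t K) (lo hi : E → ℤ) (β : V → ℤ)
    (L : ℕ) (hL : 0 < L) (j : ℕ) {x : E → ℤ} (hx : x ∈ sys s t lo hi β) {δ : ℝ}
    (hδ : (Fintype.card E * K : ℕ) ≤ δ * L) :
    Coupled (fib (sys s t lo hi β) (rkey j) x) (rkey (j + 1)) (Finset.range L) (wkey L j) δ := by
  classical
  set S := sys s t lo hi β with hS
  set Q := sys s t (qlo lo (rkey j x) j) (qhi hi (rkey j x) j) (bd s t (quo j x)) with hQ
  intro a ha b hb
  have ha' := mem_fib.mp ha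
  have hb' := mem_fib.mp hb
  have haQ : quo j a ∈ Q := quo_mem hx j ha'.1 ha'.2
  have hbQ : quo j b ∈ Q := quo_mem hx j hb'.1 hb'.2
  obtain ⟨π, h0, h1, h2, h3⟩ := hN _ _ _ (quo j a) haQ (quo j b) hbQ
  -- the fibres are in bijection with the parity classes of the quotient system
  have hbij : ∀ c ∈ fib S (rkey j) x,
      Set.BijOn (quo j) (↑(fib (fib S (rkey j) x) (rkey (j + 1)) c) : Set (E → ℤ))
        (↑(Q.filter fun Y => rkey 1 Y = rkey 1 (quo j c)) : Set (E → ℤ)) := by
    intro c hc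
    have hc' := mem_fib.mp hc
    refine ⟨?_, ?_, ?_⟩
    · intro z hz
      have hz' := mem_fib.mp (Finset.mem_coe.mp hz)
      have hz1 := mem_fib.mp hz'.1
      rw [Finset.mem_coe, Finset.mem_filter]
      exact ⟨quo_mem hx j hz1.1 hz1.2, (rkey_succ_iff.mp hz'.2).2⟩
    · intro z hz z' hz' h
      have hz1 := mem_fib.mp (mem_fib.mp (Finset.mem_coe.mp hz)).1
      have hz2 := mem_fib.mp (mem_fib.mp (Finset.mem_coe.mp hz')).1
      rw [← lift_quo' hz1.2, ← lift_quo' hz2.2, h]
    · intro Y hY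
      have hY' := Finset.mem_filter.mp (Finset.mem_coe.mp hY)
      refine ⟨lift j (rkey j x) Y, ?_, quo_lift j x Y⟩
      rw [Finset.mem_coe, mem_fib, mem_fib]
      refine ⟨⟨(lift_mem_sys hx j Y).mpr hY'.1, rkey_lift j x Y⟩, ?_⟩
      rw [rkey_succ_iff, quo_lift, rkey_lift]
      exact ⟨hc'.2.symm, hY'.2⟩
  have hca := hbij a ha
  have hcb := hbij b hb
  have carda : (fib (fib S (rkey j) x) (rkey (j + 1)) a).card =
      (Q.filter fun Y => rkey 1 Y = rkey 1 (quo j a)).card :=
    Finset.card_nbij (quo j) (fun z hz => hca.mapsTo hz) hca.injOn hca.surjOn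
  have cardb : (fib (fib S (rkey j) x) (rkey (j + 1)) b).card =
      (Q.filter fun Y => rkey 1 Y = rkey 1 (quo j b)).card :=
    Finset.card_nbij (quo j) (fun z hz => hcb.mapsTo hz) hcb.injOn hcb.surjOn
  refine ⟨fun z z' => π (quo j z) (quo j z'), fun z z' => h0 _ _, ?_, ?_, ?_⟩
  · intro z hz
    rw [carda, ← h1 (quo j z) (hca.mapsTo hz)]
    exact Finset.sum_nbij (quo j) (fun z hz => hcb.mapsTo hz) hcb.injOn hcb.surjOn (fun _ _ => rfl)
  · intro z hz
    rw [cardb, ← h2 (quo j z) (hcb.mapsTo hz)]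
    exact Finset.sum_nbij (quo j) (fun z hz => hca.mapsTo hz) hca.injOn hca.surjOn (fun _ _ => rfl)
  · intro z hz z' hz' hne
    have hK := h3 _ (hca.mapsTo hz) _ (hcb.mapsTo hz') hne
    have hcnt := wkey_count L hL j K z z' hK
    rw [Finset.card_range]
    refine le_trans ?_ hδ
    exact_mod_cast hcnt

/-- **Block Poincaré inequality for box systems.** -/
theorem sys_block_poincare {s t : E → V} {K : ℕ} (hN : ParityNear s t K) (lo hi : E → ℤ)
    (β : V → ℤ) (J : ℕ) (hJ : 2 ≤ J) (hrange : ∀ e, hi e - lo e < 2 ^ J) (L : ℕ) (hL : 0 < L)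
    (hLJ : 2 * (Fintype.card E * K) * J ^ 2 ≤ L) (f : (E → ℤ) → ℝ) :
    sv (sys s t lo hi β) f * ((Finset.range J ×ˢ Finset.range L).card : ℝ) ≤
      (4 * (J : ℝ)) * ∑ p ∈ Finset.range J ×ˢ Finset.range L,
        csv (sys s t lo hi β) (fun z => (rkey p.1 z, wkey L p.1 p.2 z)) f := by
  classical
  have hLr : (0 : ℝ) < L := by exact_mod_cast hL
  have hJr : (0 : ℝ) < J := by exact_mod_cast (by omega : 0 < J)
  set δ : ℝ := (Fintype.card E * K : ℕ) / L with hδ
  have hδ0 : 0 ≤ δ := by positivity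
  have hδL : ((Fintype.card E * K : ℕ) : ℝ) ≤ δ * L := by
    rw [hδ, div_mul_cancel₀ _ hLr.ne']
  refine block_poincare J hJ rkey (wkey L) hδ0 ?_ ?_ ?_ ?_ ?_ f
  · have h1 : 2 * δ ≤ (1 / (J : ℝ)) ^ 2 := by
      rw [hδ, div_pow, one_pow, mul_div_assoc', div_le_div_iff₀ hLr (by positivity), one_mul]
      have : ((2 * (Fintype.card E * K) * J ^ 2 : ℕ) : ℝ) ≤ L := by exact_mod_cast hLJ
      push_cast at this ⊢
      linarith
    calc √(2 * δ) ≤ √((1 / (J : ℝ)) ^ 2) := Real.sqrt_le_sqrt h1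
      _ = 1 / J := Real.sqrt_sq (by positivity)
  · intro x _ y _; rw [rkey_zero, rkey_zero]
  · intro x hx y hy h
    refine rkey_inj h fun e => ?_
    have h1 := (mem_sys.mp hx).1 e
    have h2 := (mem_sys.mp hy).1 e
    have h3 := hrange e
    rw [abs_lt]
    constructor <;> linarith
  · intro j _ x _ y _ h; exact rkey_mono h
  · intro j _ x hx
    exact coupled_of_near hN lo hi β L hL j hx hδL

end Crest.Agent.R309.Outer926
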