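import Mathlib
import Crest.Agent.R309.Outer926B
import Crest.Agent.R309.Conv2

/-!
# Row 309, outer sampler, part C (helper926): the block Poincaré inequality for list tables

Transport of `sys_block_poincare` along the bijections `flows ↔ function tables ↔ list tables`.
-/

set_option autoImplicit false
set_option linter.unusedSectionVars false

namespace Crest.Agent.R309.Outer926

open Finset Crest.Agent.R309.Stab Crest.Agent.R309.Blocks Crest.Agent.R309.Iface
  Crest.Agent.R309.Conv

section Transport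

variable {X Y K K' : Type*} [DecidableEq X] [DecidableEq Y] [DecidableEq K] [DecidableEq K']

theorem avg_image (s : Finset X) (e : X → Y) (he : Set.InjOn e s) (g : Y → ℝ) :
    avg (s.image e) g = avg s (fun x => g (e x)) := by
  unfold avg
  rw [Finset.sum_image he, Finset.card_image_of_injOn he]

theorem sv_image (s : Finset X) (e : X → Y) (he : Set.InjOn e s) (g : Y → ℝ) :
    sv (s.image e) g = sv s (fun x => g (e x)) := by
  unfold sv
  rw [Finset.sum_image he, avg_image s e he]

theorem csv_image (s : Finset X) (e : X → Y) (he : Set.InjOn e s) (κ : Y → K) (κ' : X → K')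
    (hκ : ∀ x ∈ s, ∀ y ∈ s, κ (e x) = κ (e y) ↔ κ' x = κ' y) (g : Y → ℝ) :
    csv (s.image e) κ g = csv s κ' (fun x => g (e x)) := by
  unfold csv
  rw [Finset.sum_image he]
  refine Finset.sum_congr rfl fun x hx => ?_
  have h1 : fib (s.image e) κ (e x) = (fib s κ' x).image e := by
    ext z
    rw [mem_fib, Finset.mem_image, Finset.mem_image]
    constructor
    · rintro ⟨⟨y, hy, rfl⟩, hz⟩
      exact ⟨y, mem_fib.mpr ⟨hy, (hκ y hy x hx).mp hz⟩, rfl⟩
    · rintro ⟨y, hy, rfl⟩
      have hy' := mem_fib.mp hy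
      exact ⟨⟨y, hy'.1, rfl⟩, (hκ y hy'.1 x hx).mpr hy'.2⟩
  unfold cavg
  rw [h1, avg_image _ e (he.mono fun y hy => (mem_fib.mp hy).1)]

end Transport

/-- key of a list table: residues mod `2^j` and windows of length `L` of the quotients, shift `u` -/
def tkey (L j u : ℕ) (X : Tab) : Tab × Tab :=
  (X.map (List.map (· % 2 ^ j)), X.map (List.map fun x => (x / 2 ^ j + u) / L))

/-- the flow key and the list key agree -/
theorem tkey_iff {m n : ℕ} (L j u : ℕ) (A B : Fin m → Fin n → ℕ) :
    tkey L j u (toL A) = tkey L j u (toL B) ↔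
      (rkey j (toFlow A), wkey L j u (toFlow A)) = (rkey j (toFlow B), wkey L j u (toFlow B)) := by
  have h1 : ∀ (g : ℕ → ℕ) (X : Fin m → Fin n → ℕ), (toL X).map (List.map g) =
      toL (fun i k => g (X i k)) := by
    intro g X
    simp [toL, List.map_ofFn, Function.comp_def]
  unfold tkey
  rw [h1, h1, h1, h1, Prod.mk.injEq, Prod.mk.injEq]
  have h2 : ∀ (g : ℕ → ℕ) (g' : ℤ → ℤ), (∀ x : ℕ, ((g x : ℕ) : ℤ) = g' x) →
      (toL (fun i k => g (A i k)) = toL (fun i k => g (B i k)) ↔
        (fun e => g' (toFlow A e)) = (fun e => g' (toFlow B e))) := by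
    intro g g' hg
    constructor
    · intro h
      have := toL_injective h
      funext e
      have h3 := congrFun (congrFun this e.1) e.2
      show g' (A e.1 e.2 : ℤ) = g' (B e.1 e.2 : ℤ)
      rw [← hg, ← hg]
      exact_mod_cast h3
    · intro h
      congr 1
      funext i k
      have h3 := congrFun h (i, k)
      have h4 : g' (A i k : ℤ) = g' (B i k : ℤ) := h3
      rw [← hg, ← hg] at h4
      exact_mod_cast h4
  rw [h2 (· % 2 ^ j) (· % 2 ^ j) (by intro x; push_cast; rfl),
    h2 (fun x => (x / 2 ^ j + u) / L) (fun x => (x / 2 ^ j + u) / L) (by intro x; push_cast; rfl)]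
  rfl

/-- **Block Poincaré inequality for function tables.** -/
theorem inst_block_poincare {m n K : ℕ}
    (hN : ParityNear (cs : Fin m × Fin n → Fin m ⊕ Fin n) ct K)
    (r : Fin m → ℕ) (c : Fin n → ℕ) (b : Fin m → Fin n → ℕ) (J : ℕ) (hJ : 2 ≤ J)
    (hb : ∀ i k, b i k < 2 ^ J) (L : ℕ) (hL : 0 < L)
    (hLJ : 2 * (m * n * K) * J ^ 2 ≤ L) (f : Tab → ℝ) :
    sv (tabs (inst r c b)) f * ((Finset.range J ×ˢ Finset.range L).card : ℝ) ≤
      (4 * (J : ℝ)) * ∑ p ∈ Finset.range J ×ˢ Finset.range L,
        csv (tabs (inst r c b)) (tkey L p.1 p.2) f := by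
  classical
  set g : (Fin m × Fin n → ℤ) → ℝ := fun x => f (toL (ofFlow x)) with hg
  have hinj1 : Set.InjOn (toL : (Fin m → Fin n → ℕ) → Tab) (ftabs r c b) := toL_injective.injOn
  have hinj2 : Set.InjOn (toFlow : (Fin m → Fin n → ℕ) → _) (ftabs r c b) := toFlow_injective.injOn
  have hmain := sys_block_poincare hN (fun _ => 0) (toFlow b) (marg r c) J hJ
    (by intro e; have := hb e.1 e.2; show (b e.1 e.2 : ℤ) - 0 < 2 ^ J; rw [sub_zero]; exact_mod_cast this)
    L hL (by simpa [Fintype.card_prod] using hLJ) g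
  rw [sys_eq_image, sv_image _ _ hinj2] at hmain
  rw [tabs_inst, sv_image _ _ hinj1]
  have e1 : (fun x => g (toFlow x)) = fun x : Fin m → Fin n → ℕ => f (toL x) := by
    funext x; simp [hg]
  rw [e1] at hmain
  refine hmain.trans_eq ?_
  congr 1
  refine Finset.sum_congr rfl fun p _ => ?_
  rw [csv_image (ftabs r c b) toFlow hinj2 (fun z => (rkey p.1 z, wkey L p.1 p.2 z))
    (fun A => tkey L p.1 p.2 (toL A)) (fun A _ B _ => (tkey_iff L p.1 p.2 A B).symm), e1,
    csv_image (ftabs r c b) toL hinj1 (tkey L p.1 p.2)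
    (fun A => tkey L p.1 p.2 (toL A)) (fun A _ B _ => Iff.rfl)]

/-- **Block Poincaré inequality for list instances.** -/
theorem tabs_block_poincare (I : Inst) {K : ℕ}
    (hN : ParityNear (cs : Fin I.1.length × Fin I.2.1.length → Fin I.1.length ⊕ Fin I.2.1.length)
      ct K) (J : ℕ) (hJ : 2 ≤ J)
    (hb : ∀ row ∈ I.2.2, ∀ b ∈ row, b < 2 ^ J) (L : ℕ) (hL : 0 < L)
    (hLJ : 2 * (I.1.length * I.2.1.length * K) * J ^ 2 ≤ L) (f : Tab → ℝ) :
    sv (tabs I) f * ((Finset.range J ×ˢ Finset.range L).card : ℝ) ≤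
      (4 * (J : ℝ)) * ∑ p ∈ Finset.range J ×ˢ Finset.range L,
        csv (tabs I) (tkey L p.1 p.2) f := by
  classical
  by_cases hS : Shaped I
  · have hI := inst_of_shaped hS
    have hbb : ∀ i k, bdsF I i k < 2 ^ J := by
      intro i k
      have hi : i.val < I.2.2.length := by rw [hS.1]; exact i.2
      have h1 : I.2.2[i.val] ∈ I.2.2 := List.getElem_mem hi
      have h2 := hS.2 _ h1
      have hk : k.val < (I.2.2[i.val]).length := by rw [h2]; exact k.2
      have e1 : bdsF I i k = (I.2.2[i.val])[k.val] := by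
        unfold bdsF ofL
        rw [List.getD_eq_getElem _ _ hi, List.getD_eq_getElem _ _ hk]
      rw [e1]
      exact hb _ h1 _ (List.getElem_mem hk)
    have h := inst_block_poincare hN (rowsF I) (colsF I) (bdsF I) J hJ hbb L hL hLJ f
    rw [hI] at h
    exact h
  · have hemp : tabs I = ∅ := by
      rw [Finset.eq_empty_iff_forall_notMem]
      intro X hX
      exact hS (IsTab.shaped (mem_tabs.mp hX))
    rw [hemp]
    simp [sv, csv]

end Crest.Agent.R309.Outer926
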