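import Mathlib
import Crest.Agent.R309.Stab1
import Crest.Agent.R309.Stab2

/-!
# Row 309, stability chain, part 3 (helper550)

One-unit stability `near_one`, demand path `near_demand`, bound changes `near_bounds`.
-/

set_option autoImplicit false
set_option linter.unusedSectionVars false

namespace Crest.Agent.R309.Stab

open Finset

variable {E V : Type} [Fintype E] [DecidableEq E] [Fintype V] [DecidableEq V]

/-! ### slices -/

theorem bd_update (s t : E → V) (x : E → ℤ) (e : E) (k : ℤ) :
    bd s t (Function.update x e k) = bd s t x + (k - x e) • chi s t e := by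
  have : Function.update x e k = x + Pi.single e (k - x e) := by
    funext e'
    by_cases h : e' = e
    · subst h; simp
    · simp [h]
  rw [this, bd_add, bd_single]

theorem slice_bij (s t : E → V) (lo hi : E → ℤ) (β : V → ℤ) (e : E) (σ : ℤ) (hσ : σ * σ = 1) (j : ℤ)
    (hj : lo e ≤ σ * j ∧ σ * j ≤ hi e) :
    Set.BijOn (fun x : E → ℤ => Function.update x e 0)
      ((sys s t lo hi β).filter fun x => σ * x e = j : Finset (E → ℤ))
      (sys s t (Function.update lo e 0) (Function.update hi e 0) (β - j • (σ • chi s t e)) :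
        Finset (E → ℤ)) := by
  have hval : ∀ x : E → ℤ, σ * x e = j → x e = σ * j := by
    intro x hx; rw [← hx, ← mul_assoc, hσ, one_mul]
  refine ⟨?_, ?_, ?_⟩
  · intro x hx
    rw [Finset.mem_coe, Finset.mem_filter, mem_sys] at hx
    obtain ⟨⟨h1, h2⟩, h3⟩ := hx
    rw [Finset.mem_coe, mem_sys]
    refine ⟨fun e' => ?_, ?_⟩
    · by_cases h : e' = e
      · subst h; simp
      · simp only [Function.update_of_ne h]; exact h1 e'
    · rw [bd_update, h2, hval x h3, zero_sub, neg_smul, smul_smul, mul_comm σ j]
      abel
  · intro x hx y hy h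
    rw [Finset.mem_coe, Finset.mem_filter] at hx hy
    funext e'
    by_cases h' : e' = e
    · subst h'
      rw [hval x hx.2, hval y hy.2]
    · have := congrFun h e'
      simpa [Function.update_of_ne h'] using this
  · intro y hy
    rw [Finset.mem_coe, mem_sys] at hy
    obtain ⟨h1, h2⟩ := hy
    have hye : y e = 0 := by
      have := h1 e
      simp only [Function.update_self] at this
      omega
    refine ⟨Function.update y e (σ * j), ?_, ?_⟩
    · rw [Finset.mem_coe, Finset.mem_filter, mem_sys]
      refine ⟨⟨fun e' => ?_, ?_⟩, ?_⟩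
      · by_cases h : e' = e
        · subst h; simpa using hj
        · have := h1 e'
          simpa only [Function.update_of_ne h] using this
      · rw [bd_update, h2, hye, sub_zero, smul_smul, mul_comm σ j]
        abel
      · rw [Function.update_self, ← mul_assoc, hσ, one_mul]
    · dsimp only
      rw [Function.update_idem]
      funext e'
      by_cases h : e' = e
      · subst h; simp [hye]
      · simp [Function.update_of_ne h]

theorem slice_range (s t : E → V) (lo hi : E → ℤ) (β : V → ℤ) (e : E) (σ : ℤ) (hσ : σ * σ = 1) (j : ℤ)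
    (h : ((sys s t lo hi β).filter fun x => σ * x e = j).Nonempty) :
    (lo e ≤ σ * j ∧ σ * j ≤ hi e) ∧
      (sys s t (Function.update lo e 0) (Function.update hi e 0) (β - j • (σ • chi s t e))).Nonempty := by
  obtain ⟨x, hx⟩ := h
  have hx' := hx
  rw [Finset.mem_filter, mem_sys] at hx
  obtain ⟨⟨h1, h2⟩, h3⟩ := hx
  have hval : x e = σ * j := by rw [← h3, ← mul_assoc, hσ, one_mul]
  have hr : lo e ≤ σ * j ∧ σ * j ≤ hi e := by rw [← hval]; exact h1 e
  exact ⟨hr, _, (slice_bij s t lo hi β e σ hσ j hr).mapsTo hx'⟩

theorem slice_card (s t : E → V) (lo hi : E → ℤ) (β : V → ℤ) (e : E) (σ : ℤ) (hσ : σ * σ = 1) (j : ℤ) :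
    ((sys s t lo hi β).filter fun x => σ * x e = j).card =
      if lo e ≤ σ * j ∧ σ * j ≤ hi e then
        (sys s t (Function.update lo e 0) (Function.update hi e 0) (β - j • (σ • chi s t e))).card
      else 0 := by
  split_ifs with h
  · have hb := slice_bij s t lo hi β e σ hσ j h
    exact Finset.card_nbij _ (fun x hx => hb.mapsTo hx) hb.injOn hb.surjOn
  · rw [Finset.card_eq_zero]
    by_contra hne
    exact h (slice_range s t lo hi β e σ hσ j (Finset.nonempty_iff_ne_empty.mpr hne)).1

theorem near_slice {K : ℤ} (hK : 1 ≤ K) (s t : E → V) (lo hi lo' hi' : E → ℤ) (β β' : V → ℤ) (e : E)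
    (σ : ℤ) (hσ : σ * σ = 1) (j j' : ℤ) (hj : lo e ≤ σ * j ∧ σ * j ≤ hi e)
    (hj' : lo' e ≤ σ * j' ∧ σ * j' ≤ hi' e) (hjj : |j - j'| ≤ 1)
    (h : Near K (sys s t (Function.update lo e 0) (Function.update hi e 0) (β - j • (σ • chi s t e)))
      (sys s t (Function.update lo' e 0) (Function.update hi' e 0) (β' - j' • (σ • chi s t e)))) :
    Near K ((sys s t lo hi β).filter fun x => σ * x e = j)
      ((sys s t lo' hi' β').filter fun x => σ * x e = j') := by
  refine Near.of_bij _ _ (slice_bij s t lo hi β e σ hσ j hj) (slice_bij s t lo' hi' β' e σ hσ j' hj')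
    ?_ h
  intro x hx y hy hxy e'
  by_cases h' : e' = e
  · subst h'
    rw [Finset.mem_filter] at hx hy
    have hσ' : σ = 1 ∨ σ = -1 := by
      rcases Int.isUnit_iff.mp (IsUnit.of_mul_eq_one _ hσ) with h | h
      · exact Or.inl h
      · exact Or.inr h
    have e1 := hx.2; have e2 := hy.2
    rw [abs_le] at hjj ⊢
    rcases hσ' with rfl | rfl <;> constructor <;> omega
  · have := hxy e'
    simpa only [Function.update_of_ne h'] using this

/-! ### one-unit stability -/

theorem near_one_aux (s t : E → V) (hst : ∀ e, s e ≠ t e) (n : ℕ) :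
    ∀ (lo hi : E → ℤ), (univ.filter fun e => lo e < hi e).card ≤ n → ∀ (κ : V → ℤ) (a c : V),
      (sys s t lo hi (κ + uv a)).Nonempty → (sys s t lo hi (κ + uv c)).Nonempty →
        Near 1 (sys s t lo hi (κ + uv a)) (sys s t lo hi (κ + uv c)) := by
  induction n with
  | zero =>
    intro lo hi hn κ a c ⟨x, hx⟩ ⟨y, hy⟩
    have hn' : ∀ e, hi e ≤ lo e := by
      intro e
      have h0 : (univ.filter fun e => lo e < hi e) = ∅ := by
        rw [← Finset.card_eq_zero]; omega
      have := Finset.filter_eq_empty_iff.mp h0 (Finset.mem_univ e)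
      omega
    rw [mem_sys] at hx hy
    have hxy : x = y := by
      funext e
      have := hx.1 e; have := hy.1 e; have := hn' e
      omega
    have : κ + uv a = κ + uv c := by rw [← hx.2, ← hy.2, hxy]
    rw [this]
    exact Near.refl _ (by norm_num)
  | succ n ih =>
    intro lo hi hn κ a c hA hB
    by_cases hac : a = c
    · subst hac; exact Near.refl _ (by norm_num)
    obtain ⟨x, hx⟩ := id hA
    obtain ⟨y, hy⟩ := id hB
    rw [mem_sys] at hx hy
    -- a cell at `a` on which `x` and `y` differ
    obtain ⟨e, he⟩ : ∃ e, x e * chi s t e a ≠ y e * chi s t e a := by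
      by_contra hcon
      push Not at hcon
      have h1 : bd s t x a = bd s t y a := Finset.sum_congr rfl fun e _ => hcon e
      rw [hx.2, hy.2] at h1
      simp [hac] at h1
    have hxye : x e ≠ y e := fun h => he (by rw [h])
    have hfree : lo e < hi e := by
      have := hx.1 e; have := hy.1 e
      omega
    obtain ⟨σ, u, hua, hσ, hχ⟩ : ∃ (σ : ℤ) (u : V), u ≠ a ∧ (σ = 1 ∨ σ = -1) ∧
        chi s t e = σ • (uv a - uv u) := by
      by_cases h1 : s e = a
      · refine ⟨1, t e, ?_, Or.inl rfl, ?_⟩
        · rintro h2; exact hst e (h1.trans h2.symm)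
        · rw [chi_eq, h1, one_smul]
      · by_cases h2 : t e = a
        · refine ⟨-1, s e, h1, Or.inr rfl, ?_⟩
          rw [chi_eq, h2]; simp
        · exfalso
          simp [chi, h1, h2] at he
    have hsq : σ * σ = 1 := by rcases hσ with rfl | rfl <;> norm_num
    have hψ : σ • chi s t e = uv a - uv u := by rw [hχ, smul_smul, hsq, one_smul]
    -- the smaller system
    set lo' := Function.update lo e 0 with hlo'
    set hi' := Function.update hi e 0 with hhi'
    have hn' : (univ.filter fun e' => lo' e' < hi' e').card ≤ n := by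
      have hsub : (univ.filter fun e' => lo' e' < hi' e') ⊆
          (univ.filter fun e' => lo e' < hi e').erase e := by
        intro e' he'
        rw [Finset.mem_filter] at he'
        rw [Finset.mem_erase, Finset.mem_filter]
        by_cases h : e' = e
        · subst h
          simp [hlo', hhi'] at he'
        · refine ⟨h, Finset.mem_univ _, ?_⟩
          simpa only [hlo', hhi', Function.update_of_ne h] using he'.2
      have h1 := Finset.card_le_card hsub
      rw [Finset.card_erase_of_mem (by simp [hfree])] at h1
      omega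
    have IH := ih lo' hi' hn'
    -- the two forms of the slices
    have eA : ∀ j : ℤ, κ + uv a - j • (σ • chi s t e) = (κ - j • (uv a - uv u)) + uv a := by
      intro j; rw [hψ]; abel
    have eA' : ∀ j : ℤ, κ + uv a - (j + 1) • (σ • chi s t e) = (κ - j • (uv a - uv u)) + uv u := by
      intro j; rw [hψ, add_smul, one_smul]; abel
    have eB : ∀ j : ℤ, κ + uv c - j • (σ • chi s t e) = (κ - j • (uv a - uv u)) + uv c := by
      intro j; rw [hψ]; abel
    have conv : ∀ x y z : ℤ, x ≤ z → z ≤ y → (lo e ≤ σ * x ∧ σ * x ≤ hi e) →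
        (lo e ≤ σ * y ∧ σ * y ≤ hi e) → (lo e ≤ σ * z ∧ σ * z ≤ hi e) := by
      intro x y z h1 h2 h3 h4
      rcases hσ with rfl | rfl <;> constructor <;> omega
    refine cell_step 1 _ _ (fun x => σ * x e) hA hB ?_ ?_ ?_ ?_
    · intro x y hxy
      rw [slice_card _ _ _ _ _ _ _ hsq, slice_card _ _ _ _ _ _ _ hsq,
        slice_card _ _ _ _ _ _ _ hsq, slice_card _ _ _ _ _ _ _ hsq]
      by_cases h1 : lo e ≤ σ * x ∧ σ * x ≤ hi e
      · by_cases h2 : lo e ≤ σ * y ∧ σ * y ≤ hi e
        · rw [if_pos h1, if_pos h2, if_pos h2, if_pos h1, eA, eA, eB, eB]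
          have := rayleigh s t hst lo' hi' (κ - y • (uv a - uv u)) ((y - x) • (uv a - uv u)) a c ?_
          · have e1 : κ - y • (uv a - uv u) + (y - x) • (uv a - uv u) =
                κ - x • (uv a - uv u) := by rw [sub_smul]; abel
            rw [e1] at this
            exact this
          · intro v hv
            simp only [Pi.smul_apply, Pi.sub_apply, uv, Pi.single_eq_of_ne hv, smul_eq_mul, zero_sub]
            have : (0 : ℤ) ≤ (Pi.single u 1 : V → ℤ) v := by
              by_cases h : v = u
              · subst h; simp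
              · simp [h]
            nlinarith
        · rw [if_neg h2]; simp
      · rw [if_neg h1]; simp
    · intro x y hxy
      rw [slice_card _ _ _ _ _ _ _ hsq, slice_card _ _ _ _ _ _ _ hsq,
        slice_card _ _ _ _ _ _ _ hsq, slice_card _ _ _ _ _ _ _ hsq]
      by_cases h1 : lo e ≤ σ * (y + 1) ∧ σ * (y + 1) ≤ hi e
      · by_cases h2 : lo e ≤ σ * x ∧ σ * x ≤ hi e
        · rw [if_pos h1, if_pos h2, if_pos (conv x (y + 1) (x + 1) (by omega) (by omega) h2 h1),
            if_pos (conv x (y + 1) y (by omega) (by omega) h2 h1), eA', eA', eB, eB]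
          have := rayleigh s t hst lo' hi' (κ - x • (uv a - uv u)) ((y - x) • (uv u - uv a)) u c ?_
          · have e1 : κ - x • (uv a - uv u) + (y - x) • (uv u - uv a) =
                κ - y • (uv a - uv u) := by
              have : (uv u - uv a : V → ℤ) = -(uv a - uv u) := by abel
              rw [this, smul_neg, sub_smul]; abel
            rw [e1] at this
            exact this
          · intro v hv
            simp only [Pi.smul_apply, Pi.sub_apply, uv, Pi.single_eq_of_ne hv, smul_eq_mul, zero_sub]
            have : (0 : ℤ) ≤ (Pi.single a 1 : V → ℤ) v := by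
              by_cases h : v = a
              · subst h; simp
              · simp [h]
            nlinarith
        · rw [if_neg h2]; simp
      · rw [if_neg h1]; simp
    · intro j h1 h2
      have r1 := slice_range s t lo hi _ e σ hsq j h1
      have r2 := slice_range s t lo hi _ e σ hsq j h2
      refine near_slice le_rfl s t lo hi lo hi _ _ e σ hsq j j r1.1 r2.1 (by simp) ?_
      have n1 := r1.2
      have n2 := r2.2
      rw [eA] at n1 ⊢
      rw [eB] at n2 ⊢
      exact IH _ _ _ n1 n2
    · intro j h1 h2
      have r1 := slice_range s t lo hi _ e σ hsq (j + 1) h1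
      have r2 := slice_range s t lo hi _ e σ hsq j h2
      refine near_slice le_rfl s t lo hi lo hi _ _ e σ hsq (j + 1) j r1.1 r2.1 (by simp) ?_
      have n1 := r1.2
      have n2 := r2.2
      rw [eA'] at n1 ⊢
      rw [eB] at n2 ⊢
      exact IH _ _ _ n1 n2

/-- **One-unit stability**: moving one unit of demand moves the uniform law by at most one in
every cell. -/
theorem near_one (s t : E → V) (hst : ∀ e, s e ≠ t e) (lo hi : E → ℤ) (κ : V → ℤ) (a c : V)
    (hA : (sys s t lo hi (κ + uv a)).Nonempty) (hB : (sys s t lo hi (κ + uv c)).Nonempty) :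
    Near 1 (sys s t lo hi (κ + uv a)) (sys s t lo hi (κ + uv c)) :=
  near_one_aux s t hst _ lo hi le_rfl κ a c hA hB

/-- demand path -/
theorem near_demand (s t : E → V) (hst : ∀ e, s e ≠ t e) (lo hi : E → ℤ) (n : ℕ) :
    ∀ (β β' : V → ℤ), (∑ v, (β v - β' v).toNat) ≤ n →
      (sys s t lo hi β).Nonempty → (sys s t lo hi β').Nonempty →
        Near n (sys s t lo hi β) (sys s t lo hi β') := by
  induction n with
  | zero =>
    intro β β' hn hA hB
    obtain ⟨x, hx⟩ := id hA
    obtain ⟨y, hy⟩ := id hB
    rw [mem_sys] at hx hy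
    have h1 : ∀ v, β v ≤ β' v := by
      intro v
      have h := (Finset.sum_eq_zero_iff.mp (Nat.le_zero.mp hn)) v (Finset.mem_univ _)
      omega
    have h2 : ∑ v, β v = ∑ v, β' v := by
      rw [← hx.2, ← hy.2, sum_bd, sum_bd]
    have h3 : β = β' := by
      funext v
      exact (Finset.sum_eq_sum_iff_of_le fun v _ => h1 v).mp h2 v (Finset.mem_univ _)
    rw [h3]
    exact Near.refl _ (by simp)
  | succ n ih =>
    intro β β' hn hA hB
    by_cases hββ : β = β'
    · rw [hββ]; exact Near.refl _ (by positivity)
    obtain ⟨x, hx⟩ := id hA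
    obtain ⟨y, hy⟩ := id hB
    rw [mem_sys] at hx hy
    have h2 : ∑ v, β' v = ∑ v, β v := by
      rw [← hx.2, ← hy.2, sum_bd, sum_bd]
    obtain ⟨c, hc⟩ : ∃ c, β c < β' c := by
      by_contra hcon
      push Not at hcon
      apply hββ
      funext v
      exact ((Finset.sum_eq_sum_iff_of_le fun v _ => hcon v).mp h2 v (Finset.mem_univ _)).symm
    obtain ⟨a, ha, z, hz, hzb⟩ := walk s t hst _ x y rfl c (by rw [hx.2, hy.2]; exact hc)
    rw [hx.2, hy.2] at ha
    rw [hx.2] at hzb
    have hac : a ≠ c := by rintro rfl; omega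
    have hz' : (sys s t lo hi (β - uv a + uv c)).Nonempty := by
      refine ⟨z, ?_⟩
      rw [mem_sys]
      refine ⟨fun e => ?_, hzb⟩
      have := hx.1 e; have := hy.1 e; have := hz e
      omega
    have h1 := near_one s t hst lo hi (β - uv a) a c (by simpa using hA) hz'
    have h3 : Near n (sys s t lo hi (β - uv a + uv c)) (sys s t lo hi β') := by
      apply ih _ _ _ hz' hB
      have h4 : ∑ v, ((β - uv a + uv c) v - β' v).toNat < ∑ v, (β v - β' v).toNat := by
        apply Finset.sum_lt_sum
        · intro v _
          simp only [Pi.add_apply, Pi.sub_apply, uv, Pi.single_apply]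
          by_cases hva : v = a
          · subst hva
            simp only [if_true, if_neg hac]
            omega
          · by_cases hvc : v = c
            · subst hvc
              simp only [if_true, if_neg hva]
              omega
            · simp [hva, hvc]
        · refine ⟨a, Finset.mem_univ _, ?_⟩
          simp only [Pi.add_apply, Pi.sub_apply, uv, Pi.single_apply, if_true, if_neg hac]
          omega
      omega
    have h4 := h1.trans h3
    simp only [sub_add_cancel] at h4
    refine h4.mono ?_
    push_cast; omega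

end Crest.Agent.R309.Stab
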