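import Mathlib
import Crest.Agent.R309.Stab1
import Crest.Agent.R309.Stab2
import Crest.Agent.R309.Stab3

/-!
# Row 309, stability chain, part 4 (helper550)

Bound changes, residue classes, windows.
-/

set_option autoImplicit false
set_option linter.unusedSectionVars false

namespace Crest.Agent.R309.Stab

open Finset

variable {E V : Type} [Fintype E] [DecidableEq E] [Fintype V] [DecidableEq V]

/-- enlarging the range of one cell by one unit (in direction `σ`) moves the uniform law by at most
one -/
theorem near_enlarge (s t : E → V) (hst : ∀ e, s e ≠ t e) (lo hi lo' hi' : E → ℤ) (β : V → ℤ) (e : E)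
    (σ : ℤ) (hσ : σ = 1 ∨ σ = -1) (hlo : ∀ e', e' ≠ e → lo' e' = lo e') (hhi : ∀ e', e' ≠ e → hi' e' = hi e')
    (p q : ℤ)
    (hr : ∀ j, (lo e ≤ σ * j ∧ σ * j ≤ hi e) ↔ (p ≤ j ∧ j ≤ q))
    (hr' : ∀ j, (lo' e ≤ σ * j ∧ σ * j ≤ hi' e) ↔ (p ≤ j ∧ j ≤ q + 1))
    (hB : (sys s t lo hi β).Nonempty) (hA : (sys s t lo' hi' β).Nonempty) :
    Near 1 (sys s t lo' hi' β) (sys s t lo hi β) := by
  have hsq : σ * σ = 1 := by rcases hσ with rfl | rfl <;> norm_num
  have elo : Function.update lo' e 0 = Function.update lo e 0 := by
    funext e'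
    by_cases h : e' = e
    · subst h; simp
    · simp only [Function.update_of_ne h]; exact hlo e' h
  have ehi : Function.update hi' e 0 = Function.update hi e 0 := by
    funext e'
    by_cases h : e' = e
    · subst h; simp
    · simp only [Function.update_of_ne h]; exact hhi e' h
  obtain ⟨a, u, hua, hψ⟩ : ∃ a u : V, u ≠ a ∧ σ • chi s t e = uv a - uv u := by
    rcases hσ with rfl | rfl
    · exact ⟨s e, t e, (hst e).symm, by rw [chi_eq, one_smul]⟩
    · exact ⟨t e, s e, hst e, by rw [chi_eq]; simp⟩
  set lo0 := Function.update lo e 0 with hlo0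
  set hi0 := Function.update hi e 0 with hhi0
  refine cell_step 1 _ _ (fun x => σ * x e) hA hB ?_ ?_ ?_ ?_
  · intro x y hxy
    rw [slice_card _ _ _ _ _ _ _ hsq, slice_card _ _ _ _ _ _ _ hsq,
      slice_card _ _ _ _ _ _ _ hsq, slice_card _ _ _ _ _ _ _ hsq, elo, ehi]
    simp only [hr, hr']
    by_cases h1 : p ≤ x ∧ x ≤ q + 1
    · by_cases h2 : p ≤ y ∧ y ≤ q
      · rw [if_pos h1, if_pos h2, if_pos (by omega), if_pos (by omega), mul_comm]
      · rw [if_neg h2]; simp
    · rw [if_neg h1]; simp
  · intro x y hxy
    rw [slice_card _ _ _ _ _ _ _ hsq, slice_card _ _ _ _ _ _ _ hsq,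
      slice_card _ _ _ _ _ _ _ hsq, slice_card _ _ _ _ _ _ _ hsq, elo, ehi]
    simp only [hr, hr']
    by_cases h1 : p ≤ y + 1 ∧ y + 1 ≤ q + 1
    · by_cases h2 : p ≤ x ∧ x ≤ q
      · rw [if_pos h1, if_pos h2, if_pos (by omega), if_pos (by omega)]
        have := rayleigh s t hst lo0 hi0 (β - y • (uv a - uv u) - uv a) ((y - x) • (uv a - uv u)) a u ?_
        · have e1 : β - y • (uv a - uv u) - uv a + (y - x) • (uv a - uv u) + uv a =
              β - x • (σ • chi s t e) := by rw [hψ, sub_smul]; abel
          have e2 : β - y • (uv a - uv u) - uv a + uv u = β - (y + 1) • (σ • chi s t e) := by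
            rw [hψ, add_smul, one_smul]; abel
          have e3 : β - y • (uv a - uv u) - uv a + uv a = β - y • (σ • chi s t e) := by
            rw [hψ]; abel
          have e4 : β - y • (uv a - uv u) - uv a + (y - x) • (uv a - uv u) + uv u =
              β - (x + 1) • (σ • chi s t e) := by
            rw [hψ, sub_smul, add_smul, one_smul]; abel
          rw [e1, e2, e3, e4] at this
          rw [mul_comm, mul_comm (sys s t lo0 hi0 (β - (x + 1) • σ • chi s t e)).card]
          exact this
        · intro v hv
          simp only [Pi.smul_apply, Pi.sub_apply, uv, Pi.single_eq_of_ne hv, smul_eq_mul, zero_sub]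
          have : (0 : ℤ) ≤ (Pi.single u 1 : V → ℤ) v := by
            by_cases h : v = u
            · subst h; simp
            · simp [h]
          nlinarith
      · rw [if_neg h2]; simp
    · rw [if_neg h1]; simp
  · intro j h1 h2
    have r1 := slice_range s t lo' hi' _ e σ hsq j h1
    have r2 := slice_range s t lo hi _ e σ hsq j h2
    refine near_slice le_rfl s t lo' hi' lo hi _ _ e σ hsq j j r1.1 r2.1 (by simp) ?_
    rw [elo, ehi]
    exact Near.refl _ (by norm_num)
  · intro j h1 h2
    have r1 := slice_range s t lo' hi' _ e σ hsq (j + 1) h1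
    have r2 := slice_range s t lo hi _ e σ hsq j h2
    refine near_slice le_rfl s t lo' hi' lo hi _ _ e σ hsq (j + 1) j r1.1 r2.1 (by simp) ?_
    have n1 := r1.2
    have n2 := r2.2
    rw [elo, ehi] at n1 ⊢
    have e3 : β - j • (σ • chi s t e) = β - j • (uv a - uv u) - uv a + uv a := by
      rw [hψ]; abel
    have e2 : β - (j + 1) • (σ • chi s t e) = β - j • (uv a - uv u) - uv a + uv u := by
      rw [hψ, add_smul, one_smul]; abel
    rw [e2] at n1 ⊢
    rw [e3] at n2 ⊢
    exact near_one s t hst lo0 hi0 _ _ _ n1 n2

theorem near_enlarge_hi (s t : E → V) (hst : ∀ e, s e ≠ t e) (lo hi : E → ℤ) (β : V → ℤ) (e : E)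
    (hB : (sys s t lo hi β).Nonempty) :
    Near 1 (sys s t lo (Function.update hi e (hi e + 1)) β) (sys s t lo hi β) := by
  obtain ⟨x, hx⟩ := id hB
  rw [mem_sys] at hx
  refine near_enlarge s t hst lo hi lo _ β e 1 (Or.inl rfl) (fun _ _ => rfl)
    (fun e' h => Function.update_of_ne h _ _) (lo e) (hi e) ?_ ?_ hB ⟨x, ?_⟩
  · intro j; rw [one_mul]
  · intro j; rw [one_mul, Function.update_self]
  · rw [mem_sys]
    refine ⟨fun e' => ?_, hx.2⟩
    by_cases h : e' = e
    · subst h; have := hx.1 e'; simp only [Function.update_self]; omega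
    · rw [Function.update_of_ne h]; exact hx.1 e'

theorem near_enlarge_lo (s t : E → V) (hst : ∀ e, s e ≠ t e) (lo hi : E → ℤ) (β : V → ℤ) (e : E)
    (hB : (sys s t lo hi β).Nonempty) :
    Near 1 (sys s t (Function.update lo e (lo e - 1)) hi β) (sys s t lo hi β) := by
  obtain ⟨x, hx⟩ := id hB
  rw [mem_sys] at hx
  refine near_enlarge s t hst lo hi _ hi β e (-1) (Or.inr rfl) (fun e' h => Function.update_of_ne h _ _)
    (fun _ _ => rfl) (- hi e) (- lo e) ?_ ?_ hB ⟨x, ?_⟩
  · intro j; constructor <;> intro h <;> constructor <;> omega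
  · intro j; rw [Function.update_self]; constructor <;> intro h <;> constructor <;> omega
  · rw [mem_sys]
    refine ⟨fun e' => ?_, hx.2⟩
    by_cases h : e' = e
    · subst h; have := hx.1 e'; simp only [Function.update_self]; omega
    · rw [Function.update_of_ne h]; exact hx.1 e'

/-- enlarging the box -/
theorem near_box (s t : E → V) (hst : ∀ e, s e ≠ t e) (lo' hi' : E → ℤ) (β : V → ℤ) (n : ℕ) :
    ∀ lo hi : E → ℤ, (∀ e, lo' e ≤ lo e) → (∀ e, hi e ≤ hi' e) →
      (∑ e, ((lo e - lo' e).toNat + (hi' e - hi e).toNat)) ≤ n →
      (sys s t lo hi β).Nonempty → Near n (sys s t lo' hi' β) (sys s t lo hi β) := by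
  induction n with
  | zero =>
    intro lo hi hlo hhi hn hB
    have h0 := Finset.sum_eq_zero_iff.mp (Nat.le_zero.mp hn)
    have e1 : lo = lo' := by
      funext e
      have := h0 e (Finset.mem_univ _); have := hlo e; omega
    have e2 : hi = hi' := by
      funext e
      have := h0 e (Finset.mem_univ _); have := hhi e; omega
    subst e1; subst e2
    exact Near.refl _ (by simp)
  | succ n ih =>
    intro lo hi hlo hhi hn hB
    obtain ⟨x, hx⟩ := id hB
    rw [mem_sys] at hx
    by_cases h : ∃ e, lo' e < lo e
    · obtain ⟨e, he⟩ := h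
      have h1 := near_enlarge_lo s t hst lo hi β e hB
      have hne : (sys s t (Function.update lo e (lo e - 1)) hi β).Nonempty := by
        refine ⟨x, ?_⟩
        rw [mem_sys]
        refine ⟨fun e' => ?_, hx.2⟩
        by_cases h : e' = e
        · subst h; have := hx.1 e'; simp only [Function.update_self]; omega
        · rw [Function.update_of_ne h]; exact hx.1 e'
      have h2 := ih (Function.update lo e (lo e - 1)) hi (fun e' => ?_) hhi ?_ hne
      · refine (h2.trans h1).mono ?_
        push_cast; omega
      · by_cases h : e' = e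
        · subst h; simp only [Function.update_self]; omega
        · rw [Function.update_of_ne h]; exact hlo e'
      · have : ∑ e', ((Function.update lo e (lo e - 1) e' - lo' e').toNat + (hi' e' - hi e').toNat) <
            ∑ e', ((lo e' - lo' e').toNat + (hi' e' - hi e').toNat) := by
          apply Finset.sum_lt_sum
          · intro e' _
            by_cases h : e' = e
            · subst h; simp only [Function.update_self]; omega
            · rw [Function.update_of_ne h]
          · exact ⟨e, Finset.mem_univ _, by simp only [Function.update_self]; omega⟩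
        omega
    · by_cases h' : ∃ e, hi e < hi' e
      · obtain ⟨e, he⟩ := h'
        have h1 := near_enlarge_hi s t hst lo hi β e hB
        have hne : (sys s t lo (Function.update hi e (hi e + 1)) β).Nonempty := by
          refine ⟨x, ?_⟩
          rw [mem_sys]
          refine ⟨fun e' => ?_, hx.2⟩
          by_cases h : e' = e
          · subst h; have := hx.1 e'; simp only [Function.update_self]; omega
          · rw [Function.update_of_ne h]; exact hx.1 e'
        have h2 := ih lo (Function.update hi e (hi e + 1)) hlo (fun e' => ?_) ?_ hne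
        · refine (h2.trans h1).mono ?_
          push_cast; omega
        · by_cases h : e' = e
          · subst h; simp only [Function.update_self]; omega
          · rw [Function.update_of_ne h]; exact hhi e'
        · have : ∑ e', ((lo e' - lo' e').toNat + (hi' e' - Function.update hi e (hi e + 1) e').toNat) <
              ∑ e', ((lo e' - lo' e').toNat + (hi' e' - hi e').toNat) := by
            apply Finset.sum_lt_sum
            · intro e' _
              by_cases h : e' = e
              · subst h; simp only [Function.update_self]; omega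
              · rw [Function.update_of_ne h]
            · exact ⟨e, Finset.mem_univ _, by simp only [Function.update_self]; omega⟩
          omega
      · push Not at h h'
        have e1 : lo = lo' := by
          funext e
          exact le_antisymm (h e) (hlo e)
        have e2 : hi = hi' := by
          funext e
          exact le_antisymm (hhi e) (h' e)
        subst e1; subst e2
        exact Near.refl _ (by positivity)

/-- **General stability**: two feasible systems over the same graph. -/
theorem near_sys (s t : E → V) (hst : ∀ e, s e ≠ t e) (lo hi lo' hi' : E → ℤ) (β β' : V → ℤ)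
    (hA : (sys s t lo hi β).Nonempty) (hB : (sys s t lo' hi' β').Nonempty) :
    Near (((∑ e, ((lo e - lo' e).natAbs + (hi e - hi' e).natAbs)) +
      ∑ v, (β v - β' v).toNat : ℕ) : ℤ)
      (sys s t lo hi β) (sys s t lo' hi' β') := by
  obtain ⟨x, hx⟩ := id hA
  obtain ⟨y, hy⟩ := id hB
  rw [mem_sys] at hx hy
  set L : E → ℤ := fun e => min (lo e) (lo' e) with hL
  set H : E → ℤ := fun e => max (hi e) (hi' e) with hH
  have n1 : (sys s t L H β).Nonempty := by
    refine ⟨x, ?_⟩
    rw [mem_sys]
    refine ⟨fun e => ?_, hx.2⟩
    have := hx.1 e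
    exact ⟨(min_le_left _ _).trans this.1, this.2.trans (le_max_left _ _)⟩
  have n2 : (sys s t L H β').Nonempty := by
    refine ⟨y, ?_⟩
    rw [mem_sys]
    refine ⟨fun e => ?_, hy.2⟩
    have := hy.1 e
    exact ⟨(min_le_right _ _).trans this.1, this.2.trans (le_max_right _ _)⟩
  have h1 := near_box s t hst L H β _ lo hi (fun e => min_le_left _ _) (fun e => le_max_left _ _)
    le_rfl hA
  have h2 := near_box s t hst L H β' _ lo' hi' (fun e => min_le_right _ _) (fun e => le_max_right _ _)
    le_rfl hB
  have h3 := near_demand s t hst L H _ β β' le_rfl n1 n2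
  refine ((h1.symm.trans h3).trans h2).mono ?_
  have key : (∑ e, ((lo e - L e).toNat + (H e - hi e).toNat)) +
      (∑ e, ((lo' e - L e).toNat + (H e - hi' e).toNat)) =
      ∑ e, ((lo e - lo' e).natAbs + (hi e - hi' e).natAbs) := by
    rw [← Finset.sum_add_distrib]
    apply Finset.sum_congr rfl
    intro e _
    simp only [hL, hH]
    rcases le_total (lo e) (lo' e) with h | h <;> rcases le_total (hi e) (hi' e) with h' | h' <;>
      simp only [min_eq_left h, min_eq_right h, max_eq_left h', max_eq_right h'] <;> omega
  rw [← key]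
  push_cast
  omega

end Crest.Agent.R309.Stab
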