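import Mathlib
import Crest.Agent.R309.Stab1
import Crest.Agent.R309.Stab2
import Crest.Agent.R309.Stab3
import Crest.Agent.R309.Stab4

/-!
# Row 309, stability chain, part 5 (helper550)

Residue classes and windows.
-/

set_option autoImplicit false
set_option linter.unusedSectionVars false

namespace Crest.Agent.R309.Stab

open Finset

variable {E V : Type} [Fintype E] [DecidableEq E] [Fintype V] [DecidableEq V]

/-! ### residue classes modulo 2 -/

/-- the points of the system with prescribed parities -/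
noncomputable def res (s t : E → V) (lo hi : E → ℤ) (β : V → ℤ) (ρ : E → ℤ) : Finset (E → ℤ) :=
  (sys s t lo hi β).filter fun x => ∀ e, x e % 2 = ρ e

theorem mem_res {s t : E → V} {lo hi : E → ℤ} {β : V → ℤ} {ρ x : E → ℤ} :
    x ∈ res s t lo hi β ρ ↔
      ((∀ e, lo e ≤ x e ∧ x e ≤ hi e) ∧ bd s t x = β) ∧ ∀ e, x e % 2 = ρ e := by
  rw [res, Finset.mem_filter, mem_sys]

theorem res_bij (s t : E → V) (lo hi : E → ℤ) (β : V → ℤ) (ρ : E → ℤ)
    (hne : (res s t lo hi β ρ).Nonempty) :
    Set.BijOn (fun (x : E → ℤ) (e : E) => x e / 2) (res s t lo hi β ρ : Finset (E → ℤ))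
      (sys s t (fun e => (lo e - ρ e + 1) / 2) (fun e => (hi e - ρ e) / 2)
        (fun v => (β v - bd s t ρ v) / 2) : Finset (E → ℤ)) := by
  have key : ∀ x : E → ℤ, (∀ e, x e % 2 = ρ e) → x = 2 • (fun e => x e / 2) + ρ := by
    intro x hx
    funext e
    have e1 : ((2 : ℕ) • (fun e => x e / 2) + ρ) e = 2 * (x e / 2) + ρ e := by
      simp
    rw [e1]
    have := hx e
    omega
  have key2 : ∀ x : E → ℤ, (∀ e, x e % 2 = ρ e) → ∀ v,
      bd s t x v = 2 * bd s t (fun e => x e / 2) v + bd s t ρ v := by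
    intro x hx v
    conv_lhs => rw [key x hx]
    rw [bd_add, ← natCast_zsmul, bd_smul]
    simp
  obtain ⟨x₀, hx₀⟩ := hne
  rw [mem_res] at hx₀
  refine ⟨?_, ?_, ?_⟩
  · intro x hx
    rw [Finset.mem_coe, mem_res] at hx
    obtain ⟨⟨h1, h2⟩, h3⟩ := hx
    rw [Finset.mem_coe, mem_sys]
    refine ⟨fun e => ?_, ?_⟩
    · have := h1 e; have := h3 e
      dsimp only
      omega
    · funext v
      have := key2 x h3 v
      rw [h2] at this
      dsimp only
      omega
  · intro x hx y hy h
    rw [Finset.mem_coe, mem_res] at hx hy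
    funext e
    have h1 := hx.2 e
    have h2 := hy.2 e
    have h3 := congrFun h e
    dsimp only at h3
    omega
  · intro y hy
    rw [Finset.mem_coe, mem_sys] at hy
    obtain ⟨h1, h2⟩ := hy
    have hρ : ∀ e, ρ e = 0 ∨ ρ e = 1 := by
      intro e; have := hx₀.2 e; omega
    refine ⟨fun e => 2 * y e + ρ e, ?_, ?_⟩
    · rw [Finset.mem_coe, mem_res]
      refine ⟨⟨fun e => ?_, ?_⟩, fun e => ?_⟩
      · have h4 := h1 e; have h5 := hρ e
        constructor <;> omega
      · funext v
        have e1 : (fun e => 2 * y e + ρ e) = 2 • y + ρ := by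
          funext e; simp
        rw [e1, bd_add, ← natCast_zsmul, bd_smul, h2]
        have := key2 x₀ hx₀.2 v
        rw [hx₀.1.2] at this
        simp only [Pi.add_apply, Pi.smul_apply, smul_eq_mul]
        push_cast
        omega
      · have := hρ e; omega
    · funext e
      have := hρ e
      dsimp only
      omega

theorem bd_natAbs (s t : E → V) (ρ : E → ℤ) (hρ : ∀ e, |ρ e| ≤ 1) :
    ∑ v, (bd s t ρ v).natAbs ≤ 2 * Fintype.card E := by
  have h1 : ∀ e, ∑ v, |ρ e * chi s t e v| ≤ 2 := by
    intro e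
    have h2 : ∀ v, |ρ e * chi s t e v| ≤ (if s e = v then 1 else 0) + (if t e = v then 1 else 0) := by
      intro v
      rw [abs_mul]
      have h3 : |chi s t e v| ≤ (if s e = v then 1 else 0) + (if t e = v then 1 else 0) := by
        rw [chi]
        split_ifs <;> simp
      have := hρ e
      have h4 := abs_nonneg (chi s t e v)
      nlinarith
    calc ∑ v, |ρ e * chi s t e v| ≤
        ∑ v, ((if s e = v then (1:ℤ) else 0) + (if t e = v then 1 else 0)) :=
          Finset.sum_le_sum fun v _ => h2 v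
      _ = 2 := by rw [Finset.sum_add_distrib]; simp
  have h5 : (∑ v, ((bd s t ρ v).natAbs : ℤ)) ≤ 2 * Fintype.card E := by
    calc (∑ v, ((bd s t ρ v).natAbs : ℤ)) = ∑ v, |bd s t ρ v| := by
          apply Finset.sum_congr rfl; intro v _; rw [Int.natCast_natAbs]
      _ ≤ ∑ v, ∑ e, |ρ e * chi s t e v| := by
          apply Finset.sum_le_sum; intro v _
          exact Finset.abs_sum_le_sum_abs _ _
      _ = ∑ e, ∑ v, |ρ e * chi s t e v| := Finset.sum_comm
      _ ≤ ∑ e : E, 2 := Finset.sum_le_sum fun e _ => h1 e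
      _ = 2 * Fintype.card E := by simp [mul_comm]
  exact_mod_cast h5

/-- **Residue classes are close**: two nonempty parity classes of a system -/
theorem near_res (s t : E → V) (hst : ∀ e, s e ≠ t e) (lo hi : E → ℤ) (β : V → ℤ) (ρ ρ' : E → ℤ)
    (hA : (res s t lo hi β ρ).Nonempty) (hB : (res s t lo hi β ρ').Nonempty) :
    Near (6 * Fintype.card E + 1) (res s t lo hi β ρ) (res s t lo hi β ρ') := by
  have bA := res_bij s t lo hi β ρ hA
  have bB := res_bij s t lo hi β ρ' hB
  obtain ⟨x, hx⟩ := id hA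
  obtain ⟨y, hy⟩ := id hB
  have mx := bA.mapsTo hx
  have my := bB.mapsTo hy
  have h := near_sys s t hst _ _ _ _ _ _ ⟨_, mx⟩ ⟨_, my⟩
  have hρ : ∀ e, ρ e = 0 ∨ ρ e = 1 := by
    intro e; have := (mem_res.mp hx).2 e; omega
  have hρ' : ∀ e, ρ' e = 0 ∨ ρ' e = 1 := by
    intro e; have := (mem_res.mp hy).2 e; omega
  refine Near.of_bij (K' := 3 * Fintype.card E) _ _ bA bB ?_ (h.mono ?_)
  · intro x' hx' y' hy' hd e
    have h1 := hd e
    have h2 := (mem_res.mp hx').2 e
    have h3 := (mem_res.mp hy').2 e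
    have h4 := hρ e
    have h5 := hρ' e
    rw [abs_le] at h1 ⊢
    constructor <;> omega
  · have h1 : ∑ e, (((lo e - ρ e + 1) / 2 - (lo e - ρ' e + 1) / 2).natAbs +
        ((hi e - ρ e) / 2 - (hi e - ρ' e) / 2).natAbs) ≤ 2 * Fintype.card E := by
      calc _ ≤ ∑ e : E, 2 := by
            apply Finset.sum_le_sum
            intro e _
            have h4 := hρ e
            have h5 := hρ' e
            omega
        _ = 2 * Fintype.card E := by simp [mul_comm]
    have h2 : ∑ v, ((β v - bd s t ρ v) / 2 - (β v - bd s t ρ' v) / 2).toNat ≤ Fintype.card E := by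
      have h3 := bd_natAbs s t (ρ' - ρ) (by
        intro e
        simp only [Pi.sub_apply]
        have h4 := hρ e
        have h5 := hρ' e
        rw [abs_le]
        constructor <;> omega)
      have ex : ∀ v, (β v - bd s t ρ v) % 2 = 0 := by
        intro v
        have : β v - bd s t ρ v = bd s t (x - ρ) v := by
          rw [bd_sub, (mem_res.mp hx).1.2]; rfl
        rw [this, bd]
        apply Int.emod_eq_zero_of_dvd
        apply Finset.dvd_sum
        intro e _
        have := (mem_res.mp hx).2 e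
        apply Dvd.dvd.mul_right
        simp only [Pi.sub_apply]
        omega
      have ey : ∀ v, (β v - bd s t ρ' v) % 2 = 0 := by
        intro v
        have : β v - bd s t ρ' v = bd s t (y - ρ') v := by
          rw [bd_sub, (mem_res.mp hy).1.2]; rfl
        rw [this, bd]
        apply Int.emod_eq_zero_of_dvd
        apply Finset.dvd_sum
        intro e _
        have := (mem_res.mp hy).2 e
        apply Dvd.dvd.mul_right
        simp only [Pi.sub_apply]
        omega
      have h4 : 2 * ∑ v, ((β v - bd s t ρ v) / 2 - (β v - bd s t ρ' v) / 2).toNat ≤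
          ∑ v, (bd s t (ρ' - ρ) v).natAbs := by
        rw [Finset.mul_sum]
        apply Finset.sum_le_sum
        intro v _
        rw [bd_sub]
        simp only [Pi.sub_apply]
        have := ex v; have := ey v
        omega
      omega
    have h3 := Nat.add_le_add h1 h2
    have h4 : 2 * Fintype.card E + Fintype.card E = 3 * Fintype.card E := by ring
    rw [h4] at h3
    exact_mod_cast h3

/-! ### windows -/

theorem window_tv {ι B' : Type} [DecidableEq B'] {K : ℤ} {A B : Finset (E → ℤ)} (hN : Near K A B)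
    (S : Finset ι) (W : ι → (E → ℤ) → B') (D : ℝ) (hD0 : 0 ≤ D)
    (hD : ∀ x y : E → ℤ, (∀ e, |x e - y e| ≤ K) →
      ((S.filter fun u => W u x ≠ W u y).card : ℝ) ≤ D) (I : Finset B') :
    ∑ u ∈ S, ∑ b ∈ I, |((A.filter fun x => W u x = b).card : ℝ) / A.card -
      ((B.filter fun x => W u x = b).card : ℝ) / B.card| ≤ 2 * D := by
  obtain ⟨π, h0, h1, h2, h3⟩ := hN
  have eA : ∀ u b, ((A.filter fun x => W u x = b).card : ℝ) / A.card =
      ∑ x ∈ A, ∑ y ∈ B, π x y * (if W u x = b then 1 else 0) := by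
    intro u b
    rw [Finset.card_filter]
    push_cast
    rw [Finset.sum_div]
    apply Finset.sum_congr rfl
    intro x hx
    rw [← Finset.sum_mul, h1 x hx]
    ring
  have eB : ∀ u b, ((B.filter fun x => W u x = b).card : ℝ) / B.card =
      ∑ x ∈ A, ∑ y ∈ B, π x y * (if W u y = b then 1 else 0) := by
    intro u b
    rw [Finset.card_filter, Finset.sum_comm]
    push_cast
    rw [Finset.sum_div]
    apply Finset.sum_congr rfl
    intro y hy
    rw [← Finset.sum_mul, h2 y hy]
    ring
  have step1 : ∀ u b, |((A.filter fun x => W u x = b).card : ℝ) / A.card -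
      ((B.filter fun x => W u x = b).card : ℝ) / B.card| ≤
      ∑ x ∈ A, ∑ y ∈ B, π x y * |(if W u x = b then (1:ℝ) else 0) - (if W u y = b then 1 else 0)| := by
    intro u b
    rw [eA, eB, ← Finset.sum_sub_distrib]
    refine (Finset.abs_sum_le_sum_abs _ _).trans (Finset.sum_le_sum fun x _ => ?_)
    rw [← Finset.sum_sub_distrib]
    refine (Finset.abs_sum_le_sum_abs _ _).trans (Finset.sum_le_sum fun y _ => ?_)
    rw [← mul_sub, abs_mul, abs_of_nonneg (h0 x y)]
  have step2 : ∀ u, ∀ x y : E → ℤ,
      ∑ b ∈ I, |(if W u x = b then (1:ℝ) else 0) - (if W u y = b then 1 else 0)| ≤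
        2 * (if W u x ≠ W u y then 1 else 0) := by
    intro u x y
    by_cases h : W u x = W u y
    · simp [h]
    · simp only [ne_eq, h, not_false_eq_true, if_true, mul_one]
      calc ∑ b ∈ I, |(if W u x = b then (1:ℝ) else 0) - (if W u y = b then 1 else 0)|
          ≤ ∑ b ∈ I, ((if W u x = b then (1:ℝ) else 0) + (if W u y = b then 1 else 0)) := by
            apply Finset.sum_le_sum
            intro b _
            split_ifs <;> norm_num
        _ ≤ 1 + 1 := by
            rw [Finset.sum_add_distrib, Finset.sum_ite_eq, Finset.sum_ite_eq]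
            apply add_le_add <;> split_ifs <;> norm_num
        _ = 2 := by norm_num
  calc ∑ u ∈ S, ∑ b ∈ I, |((A.filter fun x => W u x = b).card : ℝ) / A.card -
        ((B.filter fun x => W u x = b).card : ℝ) / B.card|
      ≤ ∑ u ∈ S, ∑ b ∈ I, ∑ x ∈ A, ∑ y ∈ B,
          π x y * |(if W u x = b then (1:ℝ) else 0) - (if W u y = b then 1 else 0)| :=
        Finset.sum_le_sum fun u _ => Finset.sum_le_sum fun b _ => step1 u b
    _ = ∑ u ∈ S, ∑ x ∈ A, ∑ y ∈ B, π x y *
          ∑ b ∈ I, |(if W u x = b then (1:ℝ) else 0) - (if W u y = b then 1 else 0)| := by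
        apply Finset.sum_congr rfl; intro u _
        rw [Finset.sum_comm]
        apply Finset.sum_congr rfl; intro x _
        rw [Finset.sum_comm]
        apply Finset.sum_congr rfl; intro y _
        rw [Finset.mul_sum]
    _ ≤ ∑ u ∈ S, ∑ x ∈ A, ∑ y ∈ B, π x y * (2 * (if W u x ≠ W u y then 1 else 0)) := by
        refine Finset.sum_le_sum fun u _ => Finset.sum_le_sum fun x _ => Finset.sum_le_sum fun y _ => ?_
        exact mul_le_mul_of_nonneg_left (step2 u x y) (h0 x y)
    _ = ∑ x ∈ A, ∑ y ∈ B, π x y * (2 * ((S.filter fun u => W u x ≠ W u y).card : ℝ)) := by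
        rw [Finset.sum_comm]
        apply Finset.sum_congr rfl; intro x _
        rw [Finset.sum_comm]
        apply Finset.sum_congr rfl; intro y _
        rw [← Finset.mul_sum, ← Finset.mul_sum, Finset.card_filter]
        push_cast
        rfl
    _ ≤ ∑ x ∈ A, ∑ y ∈ B, π x y * (2 * D) := by
        refine Finset.sum_le_sum fun x hx => Finset.sum_le_sum fun y hy => ?_
        by_cases hπ : π x y = 0
        · rw [hπ]; simp
        · exact mul_le_mul_of_nonneg_left (by linarith [hD x y (h3 x hx y hy hπ)]) (h0 x y)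
    _ = (∑ x ∈ A, 1 / (A.card : ℝ)) * (2 * D) := by
        rw [Finset.sum_mul]
        apply Finset.sum_congr rfl; intro x hx
        rw [← Finset.sum_mul, h1 x hx]
    _ ≤ 1 * (2 * D) := by
        apply mul_le_mul_of_nonneg_right _ (by positivity)
        rw [Finset.sum_const, nsmul_eq_mul]
        by_cases h : (A.card : ℝ) = 0
        · rw [h]; simp
        · rw [mul_one_div, div_self h]
    _ = 2 * D := one_mul _

/-- Hermite's identity -/
theorem hermite (L : ℕ) (hL : 0 < L) (a : ℤ) : ∑ u ∈ Finset.range L, (a + (u : ℤ)) / (L : ℤ) = a := by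
  have step : ∀ a : ℤ, ∑ u ∈ Finset.range L, ((a + 1) + (u : ℤ)) / (L : ℤ) =
      (∑ u ∈ Finset.range L, (a + (u : ℤ)) / (L : ℤ)) + 1 := by
    intro a
    have h1 := Finset.sum_range_succ (fun u : ℕ => (a + (u : ℤ)) / (L : ℤ)) L
    have h2 := Finset.sum_range_succ' (fun u : ℕ => (a + (u : ℤ)) / (L : ℤ)) L
    rw [h1] at h2
    have h3 : (a + (L : ℤ)) / (L : ℤ) = a / L + 1 := by
      rw [Int.add_ediv_of_dvd_right (dvd_refl _), Int.ediv_self (by omega)]
    have h4 : ∑ u ∈ Finset.range L, (a + ((u + 1 : ℕ) : ℤ)) / (L : ℤ) =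
        ∑ u ∈ Finset.range L, ((a + 1) + (u : ℤ)) / (L : ℤ) := by
      apply Finset.sum_congr rfl
      intro u _
      push_cast
      ring_nf
    rw [h3, h4] at h2
    simp only [Nat.cast_zero, add_zero] at h2
    linarith
  induction a using Int.induction_on with
  | zero =>
    apply Finset.sum_eq_zero
    intro u hu
    rw [zero_add]
    exact Int.ediv_eq_zero_of_lt (by omega) (by have := Finset.mem_range.mp hu; omega)
  | succ n ih => rw [step, ih]
  | pred n ih =>
    have := step (-(n : ℤ) - 1)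
    rw [sub_add_cancel, ih] at this
    linarith

theorem shift_count (L : ℕ) (hL : 0 < L) (a b : ℤ) :
    (((Finset.range L).filter fun u : ℕ => (a + (u : ℤ)) / (L : ℤ) ≠ (b + (u : ℤ)) / (L : ℤ)).card : ℤ) ≤
      |a - b| := by
  wlog h : a ≤ b generalizing a b
  · have := this b a (by omega)
    rw [abs_sub_comm]
    refine le_trans (le_of_eq ?_) this
    congr 1
    congr 1
    apply Finset.filter_congr
    intro u _
    exact ⟨fun h => h.symm, fun h => h.symm⟩
  rw [Finset.card_filter]
  push_cast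
  calc ∑ u ∈ Finset.range L, (if (a + (u : ℤ)) / (L : ℤ) ≠ (b + (u : ℤ)) / (L : ℤ) then (1:ℤ) else 0)
      ≤ ∑ u ∈ Finset.range L, ((b + (u : ℤ)) / (L : ℤ) - (a + (u : ℤ)) / (L : ℤ)) := by
        apply Finset.sum_le_sum
        intro u _
        have : (a + (u : ℤ)) / (L : ℤ) ≤ (b + (u : ℤ)) / (L : ℤ) :=
          Int.ediv_le_ediv (by omega) (by omega)
        split_ifs with h'
        · omega
        · omega
    _ = b - a := by rw [Finset.sum_sub_distrib, hermite L hL, hermite L hL]
    _ = |a - b| := by rw [abs_sub_comm, abs_of_nonneg (by omega)]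

/-- scalar shifts -/
theorem scalar_count (L : ℕ) (hL : 0 < L) (K : ℕ) (x y : E → ℤ) (h : ∀ e, |x e - y e| ≤ K) :
    (((Finset.range L).filter fun u : ℕ => (fun e => (x e + (u : ℤ)) / (L : ℤ)) ≠
      (fun e => (y e + (u : ℤ)) / (L : ℤ))).card : ℝ) ≤ Fintype.card E * K := by
  have hsub : ((Finset.range L).filter fun u : ℕ => (fun e => (x e + (u : ℤ)) / (L : ℤ)) ≠
      (fun e => (y e + (u : ℤ)) / (L : ℤ))) ⊆
      Finset.univ.biUnion fun e : E => (Finset.range L).filter fun u : ℕ =>
        (x e + (u : ℤ)) / (L : ℤ) ≠ (y e + (u : ℤ)) / (L : ℤ) := by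
    intro u hu
    rw [Finset.mem_filter] at hu
    rw [Finset.mem_biUnion]
    by_contra hcon
    push Not at hcon
    apply hu.2
    funext e
    by_contra hne
    exact hcon e (Finset.mem_univ _) (Finset.mem_filter.mpr ⟨hu.1, hne⟩)
  have h1 : ((Finset.range L).filter fun u : ℕ => (fun e => (x e + (u : ℤ)) / (L : ℤ)) ≠
      (fun e => (y e + (u : ℤ)) / (L : ℤ))).card ≤ Fintype.card E * K := by
    refine (Finset.card_le_card hsub).trans (Finset.card_biUnion_le.trans ?_)
    calc _ ≤ ∑ e : E, K := by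
          apply Finset.sum_le_sum
          intro e _
          have h2 := shift_count L hL (x e) (y e)
          have h3 := h e
          exact_mod_cast h2.trans h3
      _ = Fintype.card E * K := by simp
  exact_mod_cast h1

/-- **Windows, scalar shift** -/
theorem window_scalar (s t : E → V) (hst : ∀ e, s e ≠ t e) (lo hi : E → ℤ) (β : V → ℤ)
    (ρ ρ' : E → ℤ) (hA : (res s t lo hi β ρ).Nonempty) (hB : (res s t lo hi β ρ').Nonempty)
    (L : ℕ) (hL : 0 < L) (I : Finset (E → ℤ)) :
    ∑ u ∈ Finset.range L, ∑ b ∈ I,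
      |(((res s t lo hi β ρ).filter fun x => (fun e => (x e + (u : ℤ)) / (L : ℤ)) = b).card : ℝ) /
          (res s t lo hi β ρ).card -
        (((res s t lo hi β ρ').filter fun x => (fun e => (x e + (u : ℤ)) / (L : ℤ)) = b).card : ℝ) /
          (res s t lo hi β ρ').card| ≤
      2 * (Fintype.card E * (6 * Fintype.card E + 1)) := by
  refine window_tv (near_res s t hst lo hi β ρ ρ' hA hB) (Finset.range L)
    (fun (u : ℕ) (x : E → ℤ) (e : E) => (x e + (u : ℤ)) / (L : ℤ)) _ (by positivity) ?_ I
  intro x y hxy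
  have := scalar_count L hL (6 * Fintype.card E + 1) x y (by intro e; exact_mod_cast hxy e)
  exact_mod_cast this

end Crest.Agent.R309.Stab
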