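import Mathlib
import Crest.Agent.R309.Outer926C
import Crest.Agent.R309.Stab5
import Crest.Agent.R309.Blocks959b

/-!
# Row 309, outer sampler, part D (helper926): the outer chain on `tabs I` mixes

`parityNear` (from helper550's `near_res`), the number of tables, and `tabs_mixing`:
the lazy block chain driven by a tape is within `2^(-m)` of uniform after `m * τ` steps.
-/

set_option autoImplicit false
set_option linter.unusedSectionVars false

namespace Crest.Agent.R309.Outer926

open Finset Crest.Agent.R309.Stab Crest.Agent.R309.Blocks Crest.Agent.R309.Iface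
  Crest.Agent.R309.Conv Crest.Agent.R309.Tape

theorem parityNear {E V : Type} [Fintype E] [DecidableEq E] [Fintype V] [DecidableEq V]
    (s t : E → V) (hst : ∀ e, s e ≠ t e) : ParityNear s t (6 * Fintype.card E + 1) := by
  intro lo hi β a ha b hb
  have key : ∀ c : E → ℤ, (sys s t lo hi β).filter (fun Y => rkey 1 Y = rkey 1 c) =
      res s t lo hi β (rkey 1 c) := by
    intro c
    ext Y
    rw [Finset.mem_filter, res, Finset.mem_filter]
    refine and_congr_right fun _ => ?_
    rw [funext_iff]
    simp [rkey]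
  rw [key, key]
  have hA : (res s t lo hi β (rkey 1 a)).Nonempty := ⟨a, by rw [← key]; simp [ha]⟩
  have hB : (res s t lo hi β (rkey 1 b)).Nonempty := ⟨b, by rw [← key]; simp [hb]⟩
  have h := near_res s t hst lo hi β _ _ hA hB
  push_cast at h ⊢
  exact h

/-- the number of tables of an instance with bounds `< 2^J` -/
theorem card_tabs_le (I : Inst) (J : ℕ) (hb : ∀ row ∈ I.2.2, ∀ b ∈ row, b < 2 ^ J) :
    (tabs I).card ≤ 2 ^ (J * (I.1.length * I.2.1.length)) := by
  classical
  by_cases hS : Shaped I
  · have hI := inst_of_shaped hS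
    have hbb : ∀ i k, bdsF I i k < 2 ^ J := by
      intro i k
      have hi : i.val < I.2.2.length := by rw [hS.1]; exact i.2
      have h1 : I.2.2[i.val] ∈ I.2.2 := List.getElem_mem hi
      have h2 := hS.2 _ h1
      have hk : k.val < (I.2.2[i.val]).length := by rw [h2]; exact k.2
      have e1 : bdsF I i k = (I.2.2[i.val])[k.val] := by
        unfold bdsF ofL
        rw [List.getD_eq_getElem _ _ hi, List.getD_eq_getElem _ _ hk]
      rw [e1]
      exact hb _ h1 _ (List.getElem_mem hk)
    rw [← hI, tabs_inst, Finset.card_image_of_injective _ toL_injective]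
    calc (ftabs (rowsF I) (colsF I) (bdsF I)).card
        ≤ (Fintype.piFinset fun _ : Fin I.1.length => Fintype.piFinset
            fun _ : Fin I.2.1.length => Finset.range (2 ^ J)).card := by
          apply Finset.card_le_card
          intro X hX
          have hX' := mem_ftabs.mp hX
          rw [Fintype.mem_piFinset]
          intro i
          rw [Fintype.mem_piFinset]
          intro k
          rw [Finset.mem_range]
          exact lt_of_le_of_lt (hX'.1 i k) (hbb i k)
      _ = 2 ^ (J * (I.1.length * I.2.1.length)) := by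
          rw [Fintype.card_piFinset]
          simp only [Fintype.card_piFinset, Finset.card_range, Finset.prod_const, Finset.card_univ,
            Fintype.card_fin]
          rw [← pow_mul, ← pow_mul]
          congr 1
          ring
      _ = _ := by simp
  · have hemp : tabs I = ∅ := by
      rw [Finset.eq_empty_iff_forall_notMem]
      intro X hX
      exact hS (IsTab.shaped (mem_tabs.mp hX))
    rw [hemp]
    simp

/-- **The outer chain mixes.** `idx` reads a uniform pair (level, shift) from `q` bits, `inner i` is a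
tape-driven step inside the blocks of `tkey L i.1 i.2`, exactly symmetric, with off-diagonal kernel at
least `c / |block|`. -/
theorem tabs_mixing (I : Inst) (J : ℕ) (hJ : 2 ≤ J)
    (hb : ∀ row ∈ I.2.2, ∀ b ∈ row, b < 2 ^ J) (L : ℕ) (hL : 0 < L)
    (hLJ : 2 * (I.1.length * I.2.1.length * (6 * (I.1.length * I.2.1.length) + 1)) * J ^ 2 ≤ L)
    {q r : ℕ} {idx : List Bool → ℕ × ℕ}
    (hidx : ∀ l : List Bool, l.length = q → idx l ∈ Finset.range J ×ˢ Finset.range L)
    (huni : ∀ i ∈ Finset.range J ×ˢ Finset.range L,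
      pr q (fun l => idx l = i) = 1 / ((Finset.range J ×ˢ Finset.range L).card : ℝ))
    {inner : ℕ × ℕ → Tab → List Bool → Tab} {c : ℝ} (hc0 : 0 < c) (hc1 : c ≤ 1)
    (hs : ∀ i ∈ Finset.range J ×ˢ Finset.range L, ∀ X, IsTab I X → ∀ t : List Bool, t.length = r →
      IsTab I (inner i X t))
    (hsym : ∀ i ∈ Finset.range J ×ˢ Finset.range L, ∀ X, IsTab I X → ∀ Y, IsTab I Y → X ≠ Y →
      ker (inner i) r X Y = ker (inner i) r Y X)
    (hlow : ∀ i ∈ Finset.range J ×ˢ Finset.range L, ∀ X, IsTab I X → ∀ Y, IsTab I Y →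
      tkey L i.1 i.2 Y = tkey L i.1 i.2 X → Y ≠ X →
      c / ((fib (tabs I) (tkey L i.1 i.2) X).card : ℝ) ≤ ker (inner i) r X Y)
    {τ : ℕ} (hτ : 8 * (J : ℝ) * ((J * (I.1.length * I.2.1.length) : ℕ) + 1) / c ≤ τ)
    (φ : Tab → ℝ) (hφ : ∀ Y, 0 ≤ φ Y ∧ φ Y ≤ 1) (m : ℕ) {X : Tab} (hX : IsTab I X) :
    |(markov (lazyStep (fun l => inner (idx l)) q) (q + r + 1))^[m * τ] φ X - unif I φ| ≤
      (1 / 2 : ℝ) ^ m := by
  classical
  have hJr : (2 : ℝ) ≤ (J : ℝ) := by exact_mod_cast hJ
  have hX' : X ∈ tabs I := mem_tabs.mpr hX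
  have hst : ∀ l : List Bool, l.length = q → ∀ x ∈ tabs I, ∀ t : List Bool, t.length = r →
      inner (idx l) x t ∈ tabs I := fun l hl x hx t ht =>
    mem_tabs.mpr (hs _ (hidx l hl) x (mem_tabs.mp hx) t ht)
  rcases Nat.eq_zero_or_pos m with hm | hm
  · subst hm
    rw [pow_zero]
    exact markov_iter_abs_le_one (lazyStep_mem hst) φ (fun y _ => hφ y) _ hX'
  have hcardP : (0 : ℝ) < ((Finset.range J ×ˢ Finset.range L).card : ℝ) := by
    have : 0 < (Finset.range J ×ˢ Finset.range L).card :=
      Finset.card_pos.mpr (Finset.Nonempty.product ⟨0, by simp; omega⟩ ⟨0, by simpa using hL⟩)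
    exact_mod_cast this
  have hN := parityNear (cs : Fin I.1.length × Fin I.2.1.length → _) ct cs_ne_ct
  have hPoinc : ∀ f : Tab → ℝ, sv (tabs I) f ≤ (4 * (J : ℝ)) * Tape.avg q (fun l =>
      csv (tabs I) (tkey L (idx l).1 (idx l).2) f) := by
    intro f
    have h1 := tabs_block_poincare I hN J hJ hb L hL (by simpa [Fintype.card_prod] using hLJ) f
    rw [avg_uniform_idx hidx huni (fun p => csv (tabs I) (tkey L p.1 p.2) f), ← mul_div_assoc,
      le_div_iff₀ hcardP]
    exact h1
  have hmix := tape_block_mixing (κ := fun l => tkey L (idx l).1 (idx l).2) hc0.le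
    (by positivity : (0 : ℝ) < 4 * (J : ℝ)) (by linarith) hst
    (fun l hl x hx y hy => hsym _ (hidx l hl) x (mem_tabs.mp hx) y (mem_tabs.mp hy))
    (fun l hl x hx y hy => hlow _ (hidx l hl) x (mem_tabs.mp hx) y (mem_tabs.mp hy))
    hPoinc φ (fun y _ => by rw [abs_of_nonneg (hφ y).1]; exact (hφ y).2) (m * τ) hX'
  have h8 : (2 : ℝ) * (4 * J) = 8 * J := by ring
  rw [h8] at hmix
  refine hmix.trans ?_
  refine pow_mul_sqrt_le (by positivity) ?_ (card_tabs_le I J hb) hm ?_
  · rw [div_le_one (by positivity)]; linarith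
  · refine le_trans (le_of_eq ?_) hτ
    field_simp

end Crest.Agent.R309.Outer926
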