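import Mathlib
import Crest.Agent.R309.Iface2

/-!
# Row 309, the outer step, part 1 (helper122): blocks of a table at a binary level with shifted windows

For `p = 2 ^ j`, window length `L` and shift `u`, the block of a table `X` is the set of the tables
`Y` with `Y ≡ X mod p` and `(Y / p + u) / L = (X / p + u) / L` (cellwise).
It is in bijection with the tables of the *unary* instance `blk p L u I X` (bounds `< L`).
-/

set_option autoImplicit false

namespace Crest.Agent.R309.OuterAlg

open Crest.Agent.Lib.PT Crest.Agent.R309.Tape Crest.Agent.R309.Iface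

/-! ### cell functions -/

/-- key of a cell value -/
def cKey (p L u x : ℕ) : ℕ × ℕ := (x % p, (x / p + u) / L)

/-- base point of the block -/
def cA (p L u x : ℕ) : ℕ := x % p + p * ((x / p + u) / L * L - u)

/-- coordinate inside the block -/
def cZ (p L u x : ℕ) : ℕ := x / p - ((x / p + u) / L * L - u)

/-- bound of the coordinate inside the block -/
def cH (p L u b x : ℕ) : ℕ :=
  min ((b - x % p) / p) ((x / p + u) / L * L + (L - 1) - u) - ((x / p + u) / L * L - u)

theorem cA_congr {p L u x y : ℕ} (h : cKey p L u y = cKey p L u x) : cA p L u y = cA p L u x := by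
  simp only [cKey, Prod.mk.injEq] at h
  simp only [cA, h.1, h.2]

theorem cH_congr {p L u b x y : ℕ} (h : cKey p L u y = cKey p L u x) :
    cH p L u b y = cH p L u b x := by
  simp only [cKey, Prod.mk.injEq] at h
  simp only [cH, h.1, h.2]

theorem lo_le (L u y : ℕ) : (y + u) / L * L - u ≤ y := by
  have := Nat.div_mul_le_self (y + u) L
  omega

theorem cA_add_cZ (p L u x : ℕ) : cA p L u x + p * cZ p L u x = x := by
  unfold cA cZ
  have h1 := lo_le L u (x / p)
  have h2 : p * ((x / p + u) / L * L - u) + p * (x / p - ((x / p + u) / L * L - u)) = p * (x / p) := by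
    rw [← mul_add]; congr 1; omega
  have h3 := Nat.mod_add_div x p
  omega

theorem cH_lt {L : ℕ} (hL : 0 < L) (p u b x : ℕ) : cH p L u b x < L := by
  unfold cH
  have h1 : min ((b - x % p) / p) ((x / p + u) / L * L + (L - 1) - u) ≤
      (x / p + u) / L * L + (L - 1) - u := min_le_right _ _
  omega

theorem cZ_le_cH {p L : ℕ} (hp : 0 < p) (hL : 0 < L) (u : ℕ) {b x : ℕ} (hx : x ≤ b) :
    cZ p L u x ≤ cH p L u b x := by
  unfold cZ cH
  have h1 : x / p ≤ (b - x % p) / p := by
    rw [Nat.le_div_iff_mul_le hp]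
    have h3 := Nat.mod_add_div x p
    have h4 : x / p * p = p * (x / p) := mul_comm _ _
    omega
  have h2 : x / p ≤ (x / p + u) / L * L + (L - 1) - u := by
    have h5 := Nat.div_add_mod (x / p + u) L
    have h6 := Nat.mod_lt (x / p + u) hL
    have h7 : L * ((x / p + u) / L) = (x / p + u) / L * L := mul_comm _ _
    omega
  have h3 : x / p ≤ min ((b - x % p) / p) ((x / p + u) / L * L + (L - 1) - u) := le_min h1 h2
  omega

theorem lo_le_hi {p L : ℕ} (hp : 0 < p) (hL : 0 < L) (u : ℕ) {b x : ℕ} (hx : x ≤ b) :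
    (x / p + u) / L * L - u ≤ min ((b - x % p) / p) ((x / p + u) / L * L + (L - 1) - u) := by
  have h1 := lo_le L u (x / p)
  have h1' : x / p ≤ (b - x % p) / p := by
    rw [Nat.le_div_iff_mul_le hp]
    have h3 := Nat.mod_add_div x p
    have h4 : x / p * p = p * (x / p) := mul_comm _ _
    omega
  refine le_min (h1.trans h1') ?_
  omega

theorem cell_bound {p L : ℕ} (hp : 0 < p) (hL : 0 < L) (u : ℕ) {b x z : ℕ} (hx : x ≤ b)
    (hz : z ≤ cH p L u b x) : cA p L u x + p * z ≤ b := by
  unfold cH at hz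
  have h0 := lo_le_hi hp hL u hx
  have h1 : min ((b - x % p) / p) ((x / p + u) / L * L + (L - 1) - u) ≤ (b - x % p) / p :=
    min_le_left _ _
  have h2 : (x / p + u) / L * L - u + z ≤ (b - x % p) / p := by omega
  have h3 : p * ((x / p + u) / L * L - u + z) ≤ b - x % p :=
    (Nat.mul_le_mul_left p h2).trans (Nat.mul_div_le _ _)
  have h4 : x % p ≤ x := Nat.mod_le _ _
  unfold cA
  rw [mul_add] at h3
  omega

theorem cell_key {p L : ℕ} (hp : 0 < p) (hL : 0 < L) (u : ℕ) {b x z : ℕ} (hx : x ≤ b)
    (hz : z ≤ cH p L u b x) : cKey p L u (cA p L u x + p * z) = cKey p L u x := by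
  have h0 := lo_le_hi hp hL u hx
  have h1 : min ((b - x % p) / p) ((x / p + u) / L * L + (L - 1) - u) ≤
    (x / p + u) / L * L + (L - 1) - u := min_le_right _ _
  have e : cA p L u x + p * z = x % p + p * ((x / p + u) / L * L - u + z) := by
    unfold cA; ring
  have hm : (cA p L u x + p * z) % p = x % p := by
    rw [e, Nat.add_mul_mod_self_left, Nat.mod_mod]
  have hd : (cA p L u x + p * z) / p = (x / p + u) / L * L - u + z := by
    rw [e, Nat.add_mul_div_left _ _ hp, Nat.div_eq_of_lt (Nat.mod_lt _ hp), zero_add]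
  unfold cKey
  rw [hm, hd]
  congr 1
  unfold cH at hz
  have hlow := Nat.div_mul_le_self (x / p + u) L
  have h5 := Nat.div_add_mod (x / p + u) L
  have h6 := Nat.mod_lt (x / p + u) hL
  have h7 : L * ((x / p + u) / L) = (x / p + u) / L * L := mul_comm _ _
  set w := (x / p + u) / L with hw
  have hlo : w * L ≤ (w * L - u + z) + u := by omega
  have hhi : (w * L - u + z) + u < (w + 1) * L := by
    have e2 : (w + 1) * L = w * L + L := by ring
    have h8 : u ≤ w * L + (L - 1) := by
      have h9 : u ≤ x / p + u := Nat.le_add_left _ _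
      omega
    omega
  exact Nat.div_eq_of_lt_le hlo hhi

theorem cell_Z {p L : ℕ} (hp : 0 < p) (hL : 0 < L) (u : ℕ) {b x z : ℕ} (hx : x ≤ b)
    (hz : z ≤ cH p L u b x) : cZ p L u (cA p L u x + p * z) = z := by
  have h1 := cell_key hp hL u hx hz
  have h2 := cA_add_cZ p L u (cA p L u x + p * z)
  rw [cA_congr h1] at h2
  have h3 : p * cZ p L u (cA p L u x + p * z) = p * z := by omega
  exact Nat.eq_of_mul_eq_mul_left hp h3

/-! ### rows -/

/-- affine decoding of a row -/
def rdec (p : ℕ) (a z : List ℕ) : List ℕ := List.zipWith (fun a z => a + p * z) a z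

theorem row_dec {p L : ℕ} (hp : 0 < p) (hL : 0 < L) (u : ℕ) {x b : List ℕ}
    (hx : List.Forall₂ (· ≤ ·) x b) :
    ∀ {z : List ℕ}, List.Forall₂ (· ≤ ·) z (List.zipWith (cH p L u) b x) →
      List.Forall₂ (· ≤ ·) (rdec p (x.map (cA p L u)) z) b ∧
      (rdec p (x.map (cA p L u)) z).map (cKey p L u) = x.map (cKey p L u) ∧
      (rdec p (x.map (cA p L u)) z).map (cZ p L u) = z ∧
      (rdec p (x.map (cA p L u)) z).sum = (x.map (cA p L u)).sum + p * z.sum ∧
      z.length = x.length ∧
      (rdec p (x.map (cA p L u)) z).length = x.length ∧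
      ∀ j, (rdec p (x.map (cA p L u)) z).getD j 0 = (x.map (cA p L u)).getD j 0 + p * z.getD j 0 := by
  induction hx with
  | nil =>
    intro z hz
    have : z = [] := by simpa using hz
    subst this
    simp [rdec]
  | cons hab _ ih =>
    rename_i a b l₁ l₂ _
    intro z hz
    simp only [List.zipWith_cons_cons] at hz
    cases z with
    | nil => simp at hz
    | cons c z =>
      rw [List.forall₂_cons] at hz
      obtain ⟨h1, h2, h3, h4, h5, h6, h7⟩ := ih hz.2
      simp only [rdec, List.map_cons, List.zipWith_cons_cons, List.sum_cons, List.length_cons,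
        List.forall₂_cons] at *
      refine ⟨⟨cell_bound hp hL u hab hz.1, h1⟩, ?_, ?_, ?_, by omega, by omega, ?_⟩
      · rw [cell_key hp hL u hab hz.1, h2]
      · rw [cell_Z hp hL u hab hz.1, h3]
      · rw [h4]; ring
      · intro j
        cases j with
        | zero => simp
        | succ j => simpa using h7 j

theorem row_key {p L u : ℕ} {x y : List ℕ} (h : y.map (cKey p L u) = x.map (cKey p L u)) :
    y.map (cA p L u) = x.map (cA p L u) ∧
      ∀ b : List ℕ, List.zipWith (cH p L u) b y = List.zipWith (cH p L u) b x := by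
  induction x generalizing y with
  | nil =>
    have : y = [] := by simpa using h
    subst this; simp
  | cons a x ih =>
    cases y with
    | nil => simp at h
    | cons c y =>
      simp only [List.map_cons, List.cons.injEq] at h
      obtain ⟨h1, h2⟩ := ih h.2
      refine ⟨by rw [List.map_cons, List.map_cons, cA_congr h.1, h1], fun b => ?_⟩
      cases b with
      | nil => simp
      | cons b bs => rw [List.zipWith_cons_cons, List.zipWith_cons_cons, cH_congr h.1, h2]

theorem row_enc (p L u : ℕ) (x : List ℕ) : rdec p (x.map (cA p L u)) (x.map (cZ p L u)) = x := by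
  unfold rdec
  induction x with
  | nil => rfl
  | cons a x ih => simp [cA_add_cZ, ih]

theorem row_enc_le {p L : ℕ} (hp : 0 < p) (hL : 0 < L) (u : ℕ) {x b : List ℕ}
    (hx : List.Forall₂ (· ≤ ·) x b) :
    List.Forall₂ (· ≤ ·) (x.map (cZ p L u)) (List.zipWith (cH p L u) b x) := by
  induction hx with
  | nil => simp
  | cons hab _ ih =>
    simp only [List.map_cons, List.zipWith_cons_cons, List.forall₂_cons]
    exact ⟨cZ_le_cH hp hL u hab, ih⟩

theorem row_H_lt {p L : ℕ} (hL : 0 < L) (u : ℕ) (x b : List ℕ) :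
    ∀ h ∈ List.zipWith (cH p L u) b x, h < L := by
  intro h hh
  rw [List.mem_iff_getElem] at hh
  obtain ⟨i, hi, rfl⟩ := hh
  rw [List.getElem_zipWith]
  exact cH_lt hL _ _ _ _

/-! ### tables -/

def tA (p L u : ℕ) (X : Tab) : Tab := X.map (List.map (cA p L u))
def tZ (p L u : ℕ) (X : Tab) : Tab := X.map (List.map (cZ p L u))
def tH (p L u : ℕ) (B X : Tab) : Tab := List.zipWith (List.zipWith (cH p L u)) B X
/-- the key of a table -/
def key (p L u : ℕ) (X : Tab) : List (List (ℕ × ℕ)) := X.map (List.map (cKey p L u))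
/-- affine decoding -/
def dec (p : ℕ) (A Z : Tab) : Tab := List.zipWith (rdec p) A Z

theorem tab_dec {p L : ℕ} (hp : 0 < p) (hL : 0 < L) (u : ℕ) {X B : Tab}
    (hX : List.Forall₂ (List.Forall₂ (· ≤ ·)) X B) :
    ∀ {Z : Tab}, List.Forall₂ (List.Forall₂ (· ≤ ·)) Z (tH p L u B X) →
      List.Forall₂ (List.Forall₂ (· ≤ ·)) (dec p (tA p L u X) Z) B ∧
      key p L u (dec p (tA p L u X) Z) = key p L u X ∧
      tZ p L u (dec p (tA p L u X) Z) = Z ∧
      (dec p (tA p L u X) Z).map List.sum =
        List.zipWith (fun a z => a + p * z) ((tA p L u X).map List.sum) (Z.map List.sum) ∧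
      Z.map List.length = X.map List.length ∧
      (dec p (tA p L u X) Z).map List.length = X.map List.length ∧
      ∀ j, colSum (dec p (tA p L u X) Z) j = colSum (tA p L u X) j + p * colSum Z j := by
  induction hX with
  | nil =>
    intro Z hZ
    have : Z = [] := by simpa [tH] using hZ
    subst this
    simp [dec, tA, tZ, key, colSum]
  | cons hab _ ih =>
    rename_i a b l₁ l₂ _
    intro Z hZ
    simp only [tH, List.zipWith_cons_cons] at hZ
    cases Z with
    | nil => simp at hZ
    | cons c Z =>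
      rw [List.forall₂_cons] at hZ
      obtain ⟨h1, h2, h3, h4, h5, h6, h7⟩ := ih hZ.2
      obtain ⟨r1, r2, r3, r4, r5, r6, r7⟩ := row_dec hp hL u hab hZ.1
      simp only [dec, tA, tZ, key, colSum, List.map_cons, List.zipWith_cons_cons, List.sum_cons,
        List.forall₂_cons] at *
      refine ⟨⟨r1, h1⟩, ?_, ?_, ?_, ?_, ?_, ?_⟩
      · rw [r2, h2]
      · rw [r3, h3]
      · rw [r4, h4]
      · rw [r5, h5]
      · rw [r6, h6]
      · intro j
        rw [r7 j, h7 j]; ring

theorem tab_key {p L u : ℕ} {X Y : Tab} (h : key p L u Y = key p L u X) :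
    tA p L u Y = tA p L u X ∧ ∀ B : Tab, tH p L u B Y = tH p L u B X := by
  unfold key tA tH at *
  induction X generalizing Y with
  | nil =>
    have : Y = [] := by simpa using h
    subst this; simp
  | cons a X ih =>
    cases Y with
    | nil => simp at h
    | cons c Y =>
      simp only [List.map_cons, List.cons.injEq] at h
      obtain ⟨h1, h2⟩ := ih h.2
      obtain ⟨r1, r2⟩ := row_key h.1
      refine ⟨by rw [List.map_cons, List.map_cons, r1, h1], fun b => ?_⟩
      cases b with
      | nil => simp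
      | cons b bs => rw [List.zipWith_cons_cons, List.zipWith_cons_cons, r2, h2]

theorem tab_enc (p L u : ℕ) (X : Tab) : dec p (tA p L u X) (tZ p L u X) = X := by
  unfold dec tA tZ
  induction X with
  | nil => rfl
  | cons a X ih => simp [row_enc, ih]

theorem tab_enc_le {p L : ℕ} (hp : 0 < p) (hL : 0 < L) (u : ℕ) {X B : Tab}
    (hX : List.Forall₂ (List.Forall₂ (· ≤ ·)) X B) :
    List.Forall₂ (List.Forall₂ (· ≤ ·)) (tZ p L u X) (tH p L u B X) := by
  unfold tZ tH
  induction hX with
  | nil => simp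
  | cons hab _ ih =>
    simp only [List.map_cons, List.zipWith_cons_cons, List.forall₂_cons]
    exact ⟨row_enc_le hp hL u hab, ih⟩

theorem tab_H_lt {p L : ℕ} (hL : 0 < L) (u : ℕ) (X B : Tab) :
    ∀ r ∈ tH p L u B X, ∀ h ∈ r, h < L := by
  intro r hr
  unfold tH at hr
  rw [List.mem_iff_getElem] at hr
  obtain ⟨i, hi, rfl⟩ := hr
  rw [List.getElem_zipWith]
  exact row_H_lt hL _ _ _

/-! ### the block instance -/

/-- the block of `X` as an instance -/
def blk (p L u : ℕ) (I : Inst) (X : Tab) : Inst :=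
  ((tZ p L u X).map List.sum, (List.range I.2.1.length).map (colSum (tZ p L u X)),
    tH p L u I.2.2 X)

theorem len_iff (X : Tab) (n : ℕ) :
    (∀ r ∈ X, r.length = n) ↔ ∀ k ∈ X.map List.length, k = n := by
  simp

theorem map_sum_zipWith_cancel {p : ℕ} (hp : 0 < p) {a z z' : List ℕ}
    (hz : z.length = a.length) (hz' : z'.length = a.length)
    (h : List.zipWith (fun a z => a + p * z) a z = List.zipWith (fun a z => a + p * z) a z') :
    z = z' := by
  induction a generalizing z z' with
  | nil =>
    have h1 : z = [] := by simpa using hz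
    have h2 : z' = [] := by simpa using hz'
    rw [h1, h2]
  | cons a l ih =>
    cases z with
    | nil => simp at hz
    | cons c z =>
      cases z' with
      | nil => simp at hz'
      | cons c' z' =>
        simp only [List.zipWith_cons_cons, List.cons.injEq] at h
        have h1 : p * c = p * c' := by omega
        rw [Nat.eq_of_mul_eq_mul_left hp h1, ih (by simpa using hz) (by simpa using hz') h.2]

theorem blk_bound {p L : ℕ} (hL : 0 < L) (u : ℕ) (I : Inst) (X : Tab) :
    ∀ r ∈ (blk p L u I X).2.2, ∀ h ∈ r, h ≤ L := fun r hr h hh =>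
  (tab_H_lt hL u X I.2.2 r hr h hh).le

theorem length_blk_cols (p L u : ℕ) (I : Inst) (X : Tab) :
    (blk p L u I X).2.1.length = I.2.1.length := by
  simp [blk]

theorem getD_blk_cols (p L u : ℕ) (I : Inst) (X : Tab) {j : ℕ} (hj : j < I.2.1.length) :
    (blk p L u I X).2.1.getD j 0 = colSum (tZ p L u X) j := by
  simp [blk, List.getD_eq_getElem?_getD, hj]

theorem map_length_tZ (p L u : ℕ) (X : Tab) :
    (tZ p L u X).map List.length = X.map List.length := by
  simp only [tZ, List.map_map]
  refine List.map_congr_left fun r _ => ?_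
  simp

/-- the coordinates of `X` form a table of the block instance -/
theorem isTab_enc {p L : ℕ} (hp : 0 < p) (hL : 0 < L) (u : ℕ) {I : Inst} {X : Tab}
    (hX : IsTab I X) : IsTab (blk p L u I X) (tZ p L u X) where
  rows := rfl
  len := by
    have h := hX.len
    rw [length_blk_cols]
    rw [len_iff] at h ⊢
    rwa [map_length_tZ]
  cols := by
    intro j hj
    rw [length_blk_cols] at hj
    rw [getD_blk_cols p L u I X hj]
  bds := tab_enc_le hp hL u hX.bds

/-- every table of the block instance decodes to a table of `I` with the same key -/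
theorem isTab_dec {p L : ℕ} (hp : 0 < p) (hL : 0 < L) (u : ℕ) {I : Inst} {X Z : Tab}
    (hX : IsTab I X) (hZ : IsTab (blk p L u I X) Z) :
    IsTab I (dec p (tA p L u X) Z) ∧ key p L u (dec p (tA p L u X) Z) = key p L u X ∧
      tZ p L u (dec p (tA p L u X) Z) = Z := by
  obtain ⟨h1, h2, h3, h4, h5, h6, h7⟩ := tab_dec hp hL u hX.bds hZ.bds
  obtain ⟨g1, g2, g3, g4, g5, g6, g7⟩ := tab_dec hp hL u hX.bds (tab_enc_le hp hL u hX.bds)
  rw [tab_enc] at g4 g7
  refine ⟨⟨?_, ?_, ?_, h1⟩, h2, h3⟩
  · rw [h4, hZ.rows, ← hX.rows, g4]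
    rfl
  · have h := hX.len
    rw [len_iff] at h ⊢
    rwa [h6]
  · intro j hj
    have h8 := hZ.cols j (by rwa [length_blk_cols])
    rw [getD_blk_cols p L u I X hj] at h8
    rw [h7 j, h8, ← g7 j, hX.cols j hj]

/-- the block instance only depends on the class -/
theorem blk_congr {p L : ℕ} (hp : 0 < p) (hL : 0 < L) (u : ℕ) {I : Inst} {X Y : Tab}
    (hX : IsTab I X) (hY : IsTab I Y) (h : key p L u Y = key p L u X) :
    blk p L u I Y = blk p L u I X := by
  obtain ⟨k1, k2⟩ := tab_key h
  obtain ⟨g1, g2, g3, g4, g5, g6, g7⟩ := tab_dec hp hL u hX.bds (tab_enc_le hp hL u hX.bds)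
  obtain ⟨f1, f2, f3, f4, f5, f6, f7⟩ := tab_dec hp hL u hY.bds (tab_enc_le hp hL u hY.bds)
  rw [tab_enc] at g4 g7 f4 f7
  have hrow : (tZ p L u Y).map List.sum = (tZ p L u X).map List.sum := by
    rw [hX.rows] at g4
    rw [hY.rows, k1] at f4
    have e1 : (tA p L u X).length = X.length := by simp [tA]
    have e2 : X.length = Y.length := by
      rw [hX.bds.length_eq, hY.bds.length_eq]
    refine map_sum_zipWith_cancel hp (a := (tA p L u X).map List.sum) ?_ ?_ (f4.symm.trans g4)
    · simp [tZ, e1, e2]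
    · simp [tZ, e1]
  have hcol : ∀ j < I.2.1.length, colSum (tZ p L u Y) j = colSum (tZ p L u X) j := by
    intro j hj
    have a1 := g7 j
    have a2 := f7 j
    rw [hX.cols j hj] at a1
    rw [hY.cols j hj, k1] at a2
    have a3 : p * colSum (tZ p L u Y) j = p * colSum (tZ p L u X) j := by omega
    exact Nat.eq_of_mul_eq_mul_left hp a3
  unfold blk
  rw [hrow, k2 I.2.2]
  congr 2
  refine List.map_congr_left fun j hj => hcol j (List.mem_range.1 hj)

/-- membership in the block through coordinates -/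
theorem dec_eq_iff {p L : ℕ} (hp : 0 < p) (hL : 0 < L) (u : ℕ) {I : Inst} {X Y Z : Tab}
    (hX : IsTab I X) (hZ : IsTab (blk p L u I X) Z) (h : key p L u Y = key p L u X) :
    dec p (tA p L u X) Z = Y ↔ Z = tZ p L u Y := by
  constructor
  · intro e
    rw [← e, (isTab_dec hp hL u hX hZ).2.2]
  · intro e
    rw [e, ← (tab_key h).1, tab_enc]

/-- the number of tables of the block instance is the number of tables in the class -/
theorem card_blk {p L : ℕ} (hp : 0 < p) (hL : 0 < L) (u : ℕ) {I : Inst} {X : Tab}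
    (hX : IsTab I X) :
    (tabs (blk p L u I X)).card = ((tabs I).filter fun Y => key p L u Y = key p L u X).card := by
  classical
  refine Finset.card_bij (fun Z _ => dec p (tA p L u X) Z) ?_ ?_ ?_
  · intro Z hZ
    rw [mem_tabs] at hZ
    obtain ⟨h1, h2, _⟩ := isTab_dec hp hL u hX hZ
    simp [h1, h2]
  · intro Z hZ Z' hZ' e
    rw [mem_tabs] at hZ hZ'
    rw [← (isTab_dec hp hL u hX hZ).2.2, ← (isTab_dec hp hL u hX hZ').2.2, e]
  · intro Y hY
    rw [Finset.mem_filter, mem_tabs] at hY
    refine ⟨tZ p L u Y, ?_, ?_⟩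
    · rw [mem_tabs, ← blk_congr hp hL u hX hY.1 hY.2]
      exact isTab_enc hp hL u hY.1
    · rw [← (tab_key hY.2).1, tab_enc]

/-! ### the block step -/

/-- the inner conditions of `InnerSpec` -/
def InnerOK (E : (Inst × Un) × Tab → List Bool → Tab) (len : ℕ → ℕ) : Prop :=
    ∀ (I : Inst) (K : ℕ), Small I K →
      (∀ X, IsTab I X → ∀ t : List Bool, t.length = len K → IsTab I (E ((I, ⟨K⟩), X) t)) ∧
      (∀ X Y, IsTab I X → IsTab I Y →
        pr (len K) (fun t => E ((I, ⟨K⟩), X) t = Y) = pr (len K) (fun t => E ((I, ⟨K⟩), Y) t = X)) ∧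
      (∀ X Y, IsTab I X → IsTab I Y → X ≠ Y →
        1 / (8 * ((tabs I).card : ℝ)) ≤ pr (len K) (fun t => E ((I, ⟨K⟩), X) t = Y))

/-- the block step: resample `X` inside its block with the inner step -/
def bstep (E : (Inst × Un) × Tab → List Bool → Tab) (K p L u : ℕ) (I : Inst) (X : Tab)
    (t : List Bool) : Tab :=
  dec p (tA p L u X) (E ((blk p L u I X, ⟨K⟩), tZ p L u X) t)

section kernel

variable {E : (Inst × Un) × Tab → List Bool → Tab} {len : ℕ → ℕ} {K p L : ℕ}

theorem small_blk (hL : 0 < L) (u : ℕ) {I : Inst} {X : Tab} (hX : IsTab I X)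
    (hK1 : I.1.length ≤ K) (hK2 : I.2.1.length ≤ K) (hK3 : L ≤ K) : Small (blk p L u I X) K where
  rows := by
    have h : X.length = I.1.length := by
      have := congrArg List.length hX.rows
      simpa using this
    simpa [blk, tZ, h] using hK1
  cols := by rw [length_blk_cols]; exact hK2
  bds := fun r hr h hh => (blk_bound hL u I X r hr h hh).trans hK3

theorem bstep_mem (H : InnerOK E len) (hp : 0 < p) (hL : 0 < L) (u : ℕ) {I : Inst}
    {X : Tab} (hX : IsTab I X) (hS : Small (blk p L u I X) K) {t : List Bool}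
    (ht : t.length = len K) :
    IsTab I (bstep E K p L u I X t) ∧ key p L u (bstep E K p L u I X t) = key p L u X := by
  have h1 := (H _ K hS).1 _ (isTab_enc hp hL u hX) t ht
  have h2 := isTab_dec hp hL u hX h1
  exact ⟨h2.1, h2.2.1⟩

theorem pr_bstep_of_key (H : InnerOK E len) (hp : 0 < p) (hL : 0 < L) (u : ℕ) {I : Inst}
    {X Y : Tab} (hX : IsTab I X) (hS : Small (blk p L u I X) K)
    (h : key p L u Y = key p L u X) :
    pr (len K) (fun t => bstep E K p L u I X t = Y) =
      pr (len K) (fun t => E ((blk p L u I X, ⟨K⟩), tZ p L u X) t = tZ p L u Y) := by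
  refine pr_congr fun t ht => ?_
  have h1 := (H _ K hS).1 _ (isTab_enc hp hL u hX) t ht
  exact dec_eq_iff hp hL u hX h1 h

theorem pr_bstep_eq_zero (H : InnerOK E len) (hp : 0 < p) (hL : 0 < L) (u : ℕ) {I : Inst}
    {X Y : Tab} (hX : IsTab I X) (hS : Small (blk p L u I X) K)
    (h : key p L u Y ≠ key p L u X) :
    pr (len K) (fun t => bstep E K p L u I X t = Y) = 0 := by
  refine pr_eq_zero fun t ht e => h ?_
  rw [← e]
  exact (bstep_mem H hp hL u hX hS ht).2

theorem pr_bstep_symm (H : InnerOK E len) (hp : 0 < p) (hL : 0 < L) (u : ℕ) {I : Inst}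
    {X Y : Tab} (hX : IsTab I X) (hY : IsTab I Y) (hSX : Small (blk p L u I X) K)
    (hSY : Small (blk p L u I Y) K) :
    pr (len K) (fun t => bstep E K p L u I X t = Y) =
      pr (len K) (fun t => bstep E K p L u I Y t = X) := by
  by_cases h : key p L u Y = key p L u X
  · rw [pr_bstep_of_key H hp hL u hX hSX h, pr_bstep_of_key H hp hL u hY hSY h.symm,
      blk_congr hp hL u hX hY h]
    refine (H _ K hSX).2.1 _ _ (isTab_enc hp hL u hX) ?_
    rw [← blk_congr hp hL u hX hY h]
    exact isTab_enc hp hL u hY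
  · rw [pr_bstep_eq_zero H hp hL u hX hSX h,
      pr_bstep_eq_zero H hp hL u hY hSY (fun h' => h h'.symm)]

theorem pr_bstep_ge (H : InnerOK E len) (hp : 0 < p) (hL : 0 < L) (u : ℕ) {I : Inst}
    {X Y : Tab} (hX : IsTab I X) (hY : IsTab I Y) (hS : Small (blk p L u I X) K)
    (h : key p L u Y = key p L u X) (hXY : X ≠ Y) :
    1 / (8 * (((tabs I).filter fun Y => key p L u Y = key p L u X).card : ℝ)) ≤
      pr (len K) (fun t => bstep E K p L u I X t = Y) := by
  rw [pr_bstep_of_key H hp hL u hX hS h, ← card_blk hp hL u hX]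
  refine (H _ K hS).2.2 _ _ (isTab_enc hp hL u hX) ?_ ?_
  · rw [← blk_congr hp hL u hX hY h]
    exact isTab_enc hp hL u hY
  · intro e
    apply hXY
    rw [← tab_enc p L u X, ← tab_enc p L u Y, e, (tab_key h).1]

end kernel

end Crest.Agent.R309.OuterAlg
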