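import Crest.Agent.R309.OuterAlg1
import Crest.Agent.R309.Outer926D
import Crest.Agent.R309.MCTape
import Crest.Agent.R309.PTSolve

/-!
# Row 309, the outer step, part 2 (helper122): `chainSpec_of : InnerSpec → ChainSpec`
-/

set_option autoImplicit false

namespace Crest.Agent.R309.OuterAlg

open Crest.Agent.Lib.PT Crest.Agent.R309.Tape Crest.Agent.R309.Iface Crest.Agent.R309.Blocks
  Crest.Agent.R309.Outer926 Crest.Agent.R309.PTX Crest.Agent.Lib.PT.Arith

/-! ### parameters -/

/-- number of bits of the level -/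
def jb (I : Inst) : ℕ := (sz I.2.2 + 2).size
/-- number of levels -/
def JJ (I : Inst) : ℕ := 2 ^ jb I
/-- lower bound of the window length -/
def WW (I : Inst) : ℕ :=
  2 * (I.1.length * I.2.1.length * (6 * (I.1.length * I.2.1.length) + 1)) * JJ I ^ 2
/-- number of bits of the shift -/
def lb (I : Inst) : ℕ := (WW I).size
/-- window length -/
def LL (I : Inst) : ℕ := 2 ^ lb I
/-- unary size of the block instances -/
def KK (I : Inst) : ℕ := LL I + I.1.length + I.2.1.length
/-- relaxation time -/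
def TT (I : Inst) : ℕ := 64 * JJ I * (JJ I * (I.1.length * I.2.1.length) + 1)

theorem two_pow_size_le (n : ℕ) : 2 ^ n.size ≤ 2 * n + 1 := by
  rcases Nat.eq_zero_or_pos n with h | h
  · subst h; simp
  · have h1 : 0 < n.size := Nat.size_pos.2 h
    obtain ⟨k, hk⟩ : ∃ k, n.size = k + 1 := ⟨n.size - 1, by omega⟩
    have h2 : 2 ^ k ≤ n := by
      by_contra hc
      have := Nat.size_le.2 (not_le.1 hc)
      omega
    rw [hk, pow_succ]
    omega

theorem ptu_jb : PTU jb := by
  unfold jb
  exact PTF.natSizeUn (PTU.toPTF (PTU.add (PTF.szU (by fun_prop)) (PTU.const 2)))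

theorem ptu_two_pow_size {α : Type} [PTCode α] {f : α → ℕ} (hf : PTU f) :
    PTU (fun a => 2 ^ (f a).size) := by
  refine PTF.toPTU (PTF.natTwoPow (PTF.natSizeUn (PTU.toPTF hf))) ?_
  have h : PB (fun a => 2 * f a + 1) := by have := hf.pb; fun_prop
  exact h.mono (fun a => two_pow_size_le _)

theorem ptu_JJ : PTU JJ := by
  unfold JJ jb
  exact ptu_two_pow_size (PTU.add (PTF.szU (by fun_prop)) (PTU.const 2))

theorem ptu_WW : PTU WW := by
  unfold WW
  have h1 : PTU (fun I : Inst => I.1.length) := PTU.length (by fun_prop)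
  have h2 : PTU (fun I : Inst => I.2.1.length) := PTU.length (by fun_prop)
  have h3 := ptu_JJ
  exact PTU.mul (PTU.mul (PTU.const 2) (PTU.mul (PTU.mul h1 h2)
    (PTU.add (PTU.mul (PTU.const 6) (PTU.mul h1 h2)) (PTU.const 1)))) (PTU.pow h3 2)

theorem ptu_lb : PTU lb := by
  unfold lb
  exact PTF.natSizeUn (PTU.toPTF ptu_WW)

theorem ptu_LL : PTU LL := by
  unfold LL lb
  exact ptu_two_pow_size ptu_WW

theorem ptu_KK : PTU KK := by
  unfold KK
  exact PTU.add (PTU.add ptu_LL (PTU.length (by fun_prop))) (PTU.length (by fun_prop))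

theorem ptu_TT : PTU TT := by
  unfold TT
  exact PTU.mul (PTU.mul (PTU.const 64) ptu_JJ)
    (PTU.add (PTU.mul ptu_JJ (PTU.mul (PTU.length (by fun_prop)) (PTU.length (by fun_prop))))
      (PTU.const 1))

theorem two_le_JJ (I : Inst) : 2 ≤ JJ I := by
  unfold JJ jb
  have h1 : 0 < (sz I.2.2 + 2).size := Nat.size_pos.2 (by omega)
  calc 2 = 2 ^ 1 := rfl
    _ ≤ 2 ^ (sz I.2.2 + 2).size := Nat.pow_le_pow_right (by norm_num) h1

theorem bound_lt (I : Inst) : ∀ row ∈ I.2.2, ∀ b ∈ row, b < 2 ^ JJ I := by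
  intro row hrow b hb
  have h1 : b.size ≤ sz I.2.2 := by
    rw [← sz_nat]
    exact (sz_mem_le hb).trans (sz_mem_le hrow)
  have h2 : sz I.2.2 + 2 < 2 ^ (sz I.2.2 + 2).size := Nat.lt_size_self _
  have h3 : b < 2 ^ b.size := Nat.lt_size_self _
  refine lt_of_lt_of_le h3 (Nat.pow_le_pow_right (by norm_num) ?_)
  unfold JJ jb
  omega

theorem LL_pos (I : Inst) : 0 < LL I := by unfold LL; positivity

theorem WW_le_LL (I : Inst) : WW I ≤ LL I := by
  unfold LL lb
  exact (Nat.lt_size_self _).le

/-! ### the step -/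

/-- level and shift from the index bits -/
def idx (I : Inst) (l : List Bool) : ℕ × ℕ := (msb (l.take (jb I)), msb ((l.drop (jb I)).take (lb I)))

/-- the outer step -/
def ostep (E : (Inst × Un) × Tab → List Bool → Tab) (q : Inst × Tab) (t : List Bool) : Tab :=
  lazyStep (fun l X t => bstep E (KK q.1) (2 ^ (idx q.1 l).1) (LL q.1) (idx q.1 l).2 q.1 X t)
    (jb q.1 + lb q.1) q.2 t

theorem idx_mem (I : Inst) (l : List Bool) (_ : l.length = jb I + lb I) :
    idx I l ∈ Finset.range (JJ I) ×ˢ Finset.range (LL I) := by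
  rw [Finset.mem_product, Finset.mem_range, Finset.mem_range]
  unfold idx JJ LL
  constructor
  · refine (msb_lt _).trans_le (Nat.pow_le_pow_right (by norm_num) ?_)
    simp
  · refine (msb_lt _).trans_le (Nat.pow_le_pow_right (by norm_num) ?_)
    simp

theorem pr_idx (I : Inst) (i : ℕ × ℕ) (hi : i ∈ Finset.range (JJ I) ×ˢ Finset.range (LL I)) :
    pr (jb I + lb I) (fun l => idx I l = i) =
      1 / ((Finset.range (JJ I) ×ˢ Finset.range (LL I)).card : ℝ) := by
  rw [Finset.mem_product, Finset.mem_range, Finset.mem_range] at hi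
  have hmsb : ∀ (q k : ℕ), k < 2 ^ q → avg q (fun l => ind (msb l = k)) = 1 / 2 ^ q := by
    intro q k hk
    rw [MC.avg_msb q (fun i => ind (i = k))]
    congr 1
    rw [Finset.sum_eq_single k]
    · exact ind_of rfl
    · intro b _ hb; exact ind_of_not hb
    · intro h; exact absurd (Finset.mem_range.2 hk) h
  unfold pr
  have h1 : avg (jb I + lb I) (fun l => ind (idx I l = i)) =
      avg (jb I + lb I) (fun l => (fun l l' => ind (msb l = i.1) * ind (msb l' = i.2))
        (l.take (jb I)) (l.drop (jb I))) := by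
    refine avg_congr fun l hl => ?_
    have h2 : (l.drop (jb I)).take (lb I) = l.drop (jb I) :=
      List.take_of_length_le (by rw [List.length_drop]; omega)
    unfold idx
    rw [h2]
    beta_reduce
    by_cases ha : msb (l.take (jb I)) = i.1
    · by_cases hb : msb (l.drop (jb I)) = i.2
      · rw [ind_of (by rw [ha, hb]), ind_of ha, ind_of hb]; norm_num
      · rw [ind_of_not (fun h => hb (by rw [← h])), ind_of_not hb, mul_zero]
    · rw [ind_of_not (fun h => ha (by rw [← h])), ind_of_not ha, zero_mul]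
  rw [h1, avg_take_drop (jb I) (lb I) (fun l l' => ind (msb l = i.1) * ind (msb l' = i.2))]
  simp_rw [avg_mul_left, avg_mul_right]
  rw [hmsb _ _ hi.1, hmsb _ _ hi.2]
  rw [Finset.card_product, Finset.card_range, Finset.card_range]
  unfold JJ LL
  push_cast
  field_simp

theorem map_pair_iff {α β γ : Type} (f : α → β) (g : α → γ) (X Y : List (List α)) :
    Y.map (List.map fun x => (f x, g x)) = X.map (List.map fun x => (f x, g x)) ↔
      (Y.map (List.map f), Y.map (List.map g)) = (X.map (List.map f), X.map (List.map g)) := by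
  constructor
  · intro h
    have h1 := congrArg (List.map (List.map Prod.fst)) h
    have h2 := congrArg (List.map (List.map Prod.snd)) h
    simp only [List.map_map] at h1 h2
    have e1 : List.map Prod.fst ∘ List.map (fun x => (f x, g x)) = List.map f := by
      funext l; simp
    have e2 : List.map Prod.snd ∘ List.map (fun x => (f x, g x)) = List.map g := by
      funext l; simp
    rw [e1] at h1
    rw [e2] at h2
    rw [h1, h2]
  · intro h
    rw [Prod.mk.injEq] at h
    have key : ∀ Z : List (List α), Z.map (List.map fun x => (f x, g x)) =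
        List.zipWith (List.zipWith Prod.mk) (Z.map (List.map f)) (Z.map (List.map g)) := by
      intro Z
      induction Z with
      | nil => rfl
      | cons a Z ih =>
        rw [List.map_cons, List.map_cons, List.map_cons, List.zipWith_cons_cons, ← ih]
        congr 1
        clear ih
        induction a with
        | nil => rfl
        | cons b a iha => rw [List.map_cons, List.map_cons, List.map_cons, List.zipWith_cons_cons, ← iha]
    rw [key, key, h.1, h.2]

theorem key_iff_tkey (L j u : ℕ) (X Y : Tab) :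
    key (2 ^ j) L u Y = key (2 ^ j) L u X ↔ tkey L j u Y = tkey L j u X :=
  map_pair_iff (fun x => x % 2 ^ j) (fun x => (x / 2 ^ j + u) / L) X Y

theorem fib_eq_filter (L j u : ℕ) (I : Inst) (X : Tab) :
    fib (tabs I) (tkey L j u) X =
      (tabs I).filter fun Y => key (2 ^ j) L u Y = key (2 ^ j) L u X := by
  ext Y
  rw [mem_fib, Finset.mem_filter, key_iff_tkey]

theorem outer_ok {E : (Inst × Un) × Tab → List Bool → Tab} {len : ℕ → ℕ} (H : InnerOK E len)
    (I : Inst) (X : Tab) (hX : IsTab I X) :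
    (∀ t : List Bool, t.length = jb I + lb I + len (KK I) + 1 → IsTab I (ostep E (I, X) t)) ∧
      ∀ (m : ℕ) (φ : Tab → ℝ), (∀ Y, 0 ≤ φ Y ∧ φ Y ≤ 1) →
        |(markov (fun Y t => ostep E (I, Y) t) (jb I + lb I + len (KK I) + 1))^[m * TT I] φ X
          - unif I φ| ≤ (1 / 2 : ℝ) ^ m := by
  have hL := LL_pos I
  have hsmall : ∀ (p u : ℕ) (Y : Tab), IsTab I Y → Small (blk p (LL I) u I Y) (KK I) :=
    fun p u Y hY => small_blk hL u hY (by unfold KK; omega) (by unfold KK; omega)
      (by unfold KK; omega)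
  set inner : ℕ × ℕ → Tab → List Bool → Tab :=
    fun i Y t => bstep E (KK I) (2 ^ i.1) (LL I) i.2 I Y t with hinner
  have hst : ∀ i : ℕ × ℕ, ∀ Y, IsTab I Y → ∀ t : List Bool, t.length = len (KK I) →
      IsTab I (inner i Y t) := fun i Y hY t ht =>
    (bstep_mem H (by positivity) hL i.2 hY (hsmall _ _ Y hY) ht).1
  constructor
  · intro t ht
    cases t with
    | nil => simp at ht
    | cons b t =>
      simp only [ostep, lazyStep]
      split_ifs with h
      · exact hX
      · refine hst (idx I (t.take (jb I + lb I))) X hX _ ?_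
        rw [List.length_drop]
        simp only [List.length_cons] at ht
        omega
  · intro m φ hφ
    refine tabs_mixing I (JJ I) (two_le_JJ I) (bound_lt I) (LL I) hL (WW_le_LL I)
      (q := jb I + lb I) (r := len (KK I)) (idx := idx I) (idx_mem I) (pr_idx I)
      (inner := inner) (c := 1 / 8) (by norm_num) (by norm_num)
      (fun i _ => hst i) ?_ ?_ (τ := TT I) ?_ φ hφ m hX
    · intro i _ Y hY Z hZ _
      exact pr_bstep_symm H (by positivity) hL i.2 hY hZ (hsmall _ _ Y hY) (hsmall _ _ Z hZ)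
    · intro i _ Y hY Z hZ hk hne
      rw [← key_iff_tkey] at hk
      have h1 := pr_bstep_ge H (by positivity) hL i.2 hY hZ (hsmall _ _ Y hY) hk
        (fun h => hne h.symm)
      rw [fib_eq_filter]
      refine le_trans (le_of_eq ?_) h1
      rw [div_div]
    · unfold TT
      push_cast
      rw [div_le_iff₀ (by norm_num)]
      ring_nf
      rfl

/-! ### poly-time -/

theorem ostep_eq (E : (Inst × Un) × Tab → List Bool → Tab) (q : Inst × Tab) (t : List Bool) :
    ostep E q t = bif t.head?.getD true then q.2 else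
      dec (2 ^ (idx q.1 (t.tail.take (jb q.1 + lb q.1))).1)
        (tA (2 ^ (idx q.1 (t.tail.take (jb q.1 + lb q.1))).1) (LL q.1)
          (idx q.1 (t.tail.take (jb q.1 + lb q.1))).2 q.2)
        (E ((blk (2 ^ (idx q.1 (t.tail.take (jb q.1 + lb q.1))).1) (LL q.1)
              (idx q.1 (t.tail.take (jb q.1 + lb q.1))).2 q.1 q.2, ⟨KK q.1⟩),
            tZ (2 ^ (idx q.1 (t.tail.take (jb q.1 + lb q.1))).1) (LL q.1)
              (idx q.1 (t.tail.take (jb q.1 + lb q.1))).2 q.2)
          (t.tail.drop (jb q.1 + lb q.1))) := by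
  cases t with
  | nil => rfl
  | cons b t =>
    cases b
    · rfl
    · rfl

section ptf

variable {γ : Type} [PTCode γ]

theorem ptf_tA {p L u : γ → ℕ} {X : γ → Tab} (hp : PTF p) (hL : PTF L) (hu : PTF u) (hX : PTF X) :
    PTF (fun c => tA (p c) (L c) (u c) (X c)) := by
  unfold tA cA
  pt_solve

theorem ptf_tZ {p L u : γ → ℕ} {X : γ → Tab} (hp : PTF p) (hL : PTF L) (hu : PTF u) (hX : PTF X) :
    PTF (fun c => tZ (p c) (L c) (u c) (X c)) := by
  unfold tZ cZ
  pt_solve

theorem ptf_tH {p L u : γ → ℕ} {B X : γ → Tab} (hp : PTF p) (hL : PTF L) (hu : PTF u) (hB : PTF B)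
    (hX : PTF X) : PTF (fun c => tH (p c) (L c) (u c) (B c) (X c)) := by
  unfold tH cH
  pt_solve

theorem ptf_dec {p : γ → ℕ} {A Z : γ → Tab} (hp : PTF p) (hA : PTF A) (hZ : PTF Z) :
    PTF (fun c => dec (p c) (A c) (Z c)) := by
  unfold dec rdec
  pt_solve

theorem ptf_colSum {X : γ → Tab} {j : γ → ℕ} (hX : PTF X) (hj : PTF j) :
    PTF (fun c => colSum (X c) (j c)) := by
  unfold colSum
  pt_solve

theorem ptf_blk {p L u : γ → ℕ} {I : γ → Inst} {X : γ → Tab} (hp : PTF p) (hL : PTF L)
    (hu : PTF u) (hI : PTF I) (hX : PTF X) :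
    PTF (fun c => blk (p c) (L c) (u c) (I c) (X c)) := by
  unfold blk
  have hZ := ptf_tZ hp hL hu hX
  refine PTF.prodMk ?_ (PTF.prodMk ?_ ?_)
  · exact PTF.map hZ (by pt_solve)
  · refine PTF.map (PTF.range (PTU.length ?_)) ?_
    · exact PTF.comp (g := fun J : Inst => J.2.1) (by fun_prop) hI
    · exact ptf_colSum (PTF.comp hZ PTF.fst) (by fun_prop)
  · refine ptf_tH hp hL hu ?_ hX
    exact PTF.comp (g := fun J : Inst => J.2.2) (by fun_prop) hI

theorem ptf_idx_snd {I : γ → Inst} {l : γ → List Bool} (hI : PTF I) (hl : PTF l) :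
    PTF (fun c => (idx (I c) (l c)).2) := by
  unfold idx
  refine PTF.comp (g := msb) ptf_msb (ptf_take' ?_ (ptf_drop' ?_ hl))
  · exact PTF.comp (PTU.toPTF ptu_lb) hI
  · exact PTF.comp (PTU.toPTF ptu_jb) hI

theorem ptf_idx_fst {I : γ → Inst} {l : γ → List Bool} (hI : PTF I) (hl : PTF l) :
    PTF (fun c => 2 ^ (idx (I c) (l c)).1) := by
  refine PTF.natTwoPow (PTF.toPTU ?_ ?_)
  · unfold idx
    refine PTF.comp (g := msb) ptf_msb (ptf_take' ?_ hl)
    exact PTF.comp (PTU.toPTF ptu_jb) hI
  · have h1 : PTU (fun c => JJ (I c)) := PTU.comp ptu_JJ hI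
    refine h1.pb.mono fun c => ?_
    unfold idx JJ
    refine ((msb_lt _).trans_le (Nat.pow_le_pow_right (by norm_num) ?_)).le
    simp

end ptf

theorem ptf_ostep {E : (Inst × Un) × Tab → List Bool → Tab}
    (hE : PTF (fun p : ((Inst × Un) × Tab) × List Bool => E p.1 p.2)) :
    PTF (fun p : (Inst × Tab) × List Bool => ostep E p.1 p.2) := by
  have hI : PTF (fun p : (Inst × Tab) × List Bool => p.1.1) := by fun_prop
  have hX : PTF (fun p : (Inst × Tab) × List Bool => p.1.2) := by fun_prop
  have ht : PTF (fun p : (Inst × Tab) × List Bool => p.2.tail) := by pt_solve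
  have hq : PTF (fun p : (Inst × Tab) × List Bool => jb p.1.1 + lb p.1.1) :=
    PTF.natAdd (PTF.comp (PTU.toPTF ptu_jb) hI) (PTF.comp (PTU.toPTF ptu_lb) hI)
  have hl : PTF (fun p : (Inst × Tab) × List Bool => p.2.tail.take (jb p.1.1 + lb p.1.1)) :=
    ptf_take' hq ht
  have hp := ptf_idx_fst hI hl
  have hu := ptf_idx_snd hI hl
  have hL : PTF (fun p : (Inst × Tab) × List Bool => LL p.1.1) :=
    PTF.comp (PTU.toPTF ptu_LL) hI
  have hK : PTU (fun p : (Inst × Tab) × List Bool => KK p.1.1) := PTU.comp ptu_KK hI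
  have hA := ptf_tA hp hL hu hX
  have hZ := ptf_tZ hp hL hu hX
  have hB := ptf_blk hp hL hu hI hX
  have hr : PTF (fun p : (Inst × Tab) × List Bool => p.2.tail.drop (jb p.1.1 + lb p.1.1)) :=
    ptf_drop' hq ht
  have hE' := PTF.comp (g := fun p : ((Inst × Un) × Tab) × List Bool => E p.1 p.2) hE
    (PTF.prodMk (PTF.prodMk (PTF.prodMk hB hK) hZ) hr)
  have hd := ptf_dec hp hA hE'
  refine PTF.of_eq (PTF.cond (c := fun p : (Inst × Tab) × List Bool => p.2.head?.getD true)
    ?_ hX hd) (fun p => (ostep_eq E p.1 p.2).symm)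
  exact PTF.optionGetD (PTF.head? PTF.snd) (PTF.const true)

/-- **The outer chain**: everything about the chain follows from the inner step. -/
theorem chainSpec_of (h : InnerSpec) : ChainSpec := by
  obtain ⟨E, len, hE, hlen, H⟩ := h
  refine ⟨ostep E, fun I => jb I + lb I + len (KK I) + 1, TT, ptf_ostep hE, ?_, ptu_TT, ?_⟩
  · refine PTU.add (PTU.add (PTU.add ptu_jb ptu_lb) ?_) (PTU.const 1)
    exact PTU.comp (n := fun u : Un => len u.val) hlen ptu_KK
  · intro I X hX
    exact outer_ok H I X hX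

end Crest.Agent.R309.OuterAlg
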