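import Crest.Agent.R309.RAMEnc

/-!
# Decoding the output from stack `0`
-/

set_option autoImplicit false

namespace Crest.Agent.R309.RAM

open Crest.WordRAM hiding init
open Crest.Agent.Lib.PT Function

/-- value of a list of bits, least significant first -/
def val : List Bool → ℕ
  | [] => 0
  | b :: l => b.toNat + 2 * val l

theorem val_bits (n : ℕ) : val n.bits = n := by
  induction n using Nat.strong_induction_on with
  | _ n ih =>
    by_cases hn : n = 0
    · subst hn; simp [val]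
    · have h1 : n.bits = n.bodd :: n.div2.bits := by
        have h1 : n.bits ≠ [] := by
          intro h
          have := congrArg List.length h
          rw [Nat.size_eq_bits_len] at this
          exact hn (Nat.size_eq_zero.1 (by simpa using this))
        rw [Nat.div2_bits_eq_tail, Nat.bodd_eq_bits_head]
        cases h2 : n.bits with
        | nil => exact absurd h2 h1
        | cons x l => rfl
      have h2 : n.div2 < n := by
        rw [Nat.div2_val]
        omega
      rw [h1, val, ih _ h2]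
      have := Nat.mod_two_of_bodd n
      rw [← this, Nat.div2_val]
      omega

/-- read the bits of a number; registers `8` (value) and `9` (power of two) -/
def decBits : Prog := .loop (.zero 2)
  (.blk (popB 0 ++ [.load 2 (12 + 0), .mul 2 2 9, .add 8 8 2, .add 9 9 9] ++ popB 0 ++
    [.load 2 (12 + 0)]))

/-- read a number and store it -/
def decNum : Prog :=
  .seq (.blk [.const 8 0, .const 9 1])
    (.seq decBits (.blk ([.store 8 0, .add 0 0 4] ++ popB 0 ++ [.load 2 (12 + 0)])))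

/-- read all numbers -/
def decP : Prog :=
  .seq (.blk (popB 0 ++ [.const 0 0, .const 1 0, .load 2 (12 + 0)])) (.loop (.eq 2 5) decNum)

theorem decBits_run {w K : ℕ} (ρ : ℕ → ℕ) (hK : 0 < K) (X : List Bool) :
    ∀ (bs : List Bool) (S : Store) (σ : St) (A P : ℕ), Rep w K S σ →
    S 0 = bs.flatMap (fun b => [true, b]) ++ false :: X → σ.regs 8 = A % 2 ^ w →
    σ.regs 9 = P % 2 ^ w →
    ∃ σ' t, Ex w ρ decBits (ld 0 σ) (ld 0 σ') t ∧ t ≤ 1 + 9 * bs.length ∧
      Rep w K (update S 0 (false :: X)) σ' ∧ σ'.regs 8 = (A + P * val bs) % 2 ^ w ∧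
      σ'.regs 0 = σ.regs 0 ∧ σ'.regs 1 = σ.regs 1 ∧ σ'.mem = σ.mem ∧ σ'.drawn = σ.drawn := by
  intro bs
  induction bs with
  | nil =>
    intro S σ A P hσ h0 h8 h9
    refine ⟨σ, 1, Ex.loop_done ?_, by omega, ?_, by simpa [val] using h8, rfl, rfl, rfl, rfl⟩
    · show (ld 0 σ).regs 2 = 0
      rw [hσ.ld_reg hK, h0]
      rfl
    · have h0' : S 0 = false :: X := h0
      rw [← h0', update_eq_self]
      exact hσ
  | cons b bs ih =>
    intro S σ A P hσ h0 h8 h9
    have h0' : S 0 = true :: b :: (bs.flatMap (fun b => [true, b]) ++ false :: X) := by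
      rw [h0]; simp
    have r0 := hσ.ld 0
    have r1 := r0.popB (ρ := ρ) hK h0'
    set σ1 := effs w ρ (popB 0) (ld 0 σ) with hσ1
    have a2 : (ld 0 σ1).regs 2 = b.toNat := by
      rw [r1.ld_reg hK, update_self]
      rfl
    have a9 : (ld 0 σ1).regs 9 = P % 2 ^ w := by
      rw [ld_regs (by omega), hσ1, popB_regs (by omega), ld_regs (by omega), h9]
    have a8 : (ld 0 σ1).regs 8 = A % 2 ^ w := by
      rw [ld_regs (by omega), hσ1, popB_regs (by omega), ld_regs (by omega), h8]
    set σ2 := effs w ρ [.mul 2 2 9, .add 8 8 2, .add 9 9 9] (ld 0 σ1) with hσ2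
    have r2 : Rep w K (update S 0 (b :: (bs.flatMap (fun b => [true, b]) ++ false :: X))) σ2 := by
      simp only [hσ2, effs_cons, effs_nil, Op.eff]
      exact (((r1.ld 0).scratch _ (by omega)).scratch _ (by omega)).scratch _ (by omega)
    have b8 : σ2.regs 8 = (A + P * b.toNat) % 2 ^ w := by
      simp only [hσ2, effs_cons, effs_nil, Op.eff]
      rw [update_of_ne (show (8 : ℕ) ≠ 9 by omega), update_self,
        update_of_ne (show (8 : ℕ) ≠ 2 by omega), update_self, a2, a9, a8]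
      rw [mul_comm P]
      simp [Nat.add_mod, Nat.mul_mod]
    have b9 : σ2.regs 9 = (2 * P) % 2 ^ w := by
      simp only [hσ2, effs_cons, effs_nil, Op.eff]
      rw [update_self, update_of_ne (show (9 : ℕ) ≠ 8 by omega),
        update_of_ne (show (9 : ℕ) ≠ 2 by omega), a9]
      rw [two_mul]
      simp [Nat.add_mod]
    have bj : ∀ j, j < 2 → σ2.regs j = σ.regs j := by
      intro j hj
      simp only [hσ2, effs_cons, effs_nil, Op.eff]
      rw [update_of_ne (by omega), update_of_ne (by omega), update_of_ne (by omega),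
        ld_regs (by omega), hσ1, popB_regs (by omega), ld_regs (by omega)]
    have r3 := r2.popB (ρ := ρ) hK (b := b) (l := bs.flatMap (fun b => [true, b]) ++ false :: X)
      (by rw [update_self])
    set σ3 := effs w ρ (popB 0) σ2 with hσ3
    obtain ⟨σ', t, e, ht, r, c8, c0, c1, cm, cd⟩ := ih _ σ3 (A + P * b.toNat) (2 * P) r3
      (by rw [update_self]) (by rw [hσ3, popB_regs (by omega), b8])
      (by rw [hσ3, popB_regs (by omega), b9])
    have heff : effs w ρ (popB 0 ++ [.load 2 (12 + 0), .mul 2 2 9, .add 8 8 2, .add 9 9 9] ++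
        popB 0 ++ [.load 2 (12 + 0)]) (ld 0 σ) = ld 0 σ3 := by
      rw [effs_append, effs_append, effs_append]
      rfl
    have hb : Ex w ρ (.blk (popB 0 ++ [.load 2 (12 + 0), .mul 2 2 9, .add 8 8 2, .add 9 9 9] ++
        popB 0 ++ [.load 2 (12 + 0)])) (ld 0 σ) (ld 0 σ3) 7 := by
      rw [← heff]
      exact Ex.blk _ _
    refine ⟨σ', _, Ex.loop_step ?_ hb e, ?_, ?_, ?_, ?_, ?_, ?_, ?_⟩
    · show ¬ (ld 0 σ).regs 2 = 0
      rw [hσ.ld_reg hK, h0']
      simp [top]
    · simp only [List.length_cons]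
      omega
    · rw [update_idem, update_idem] at r
      exact r
    · rw [c8, val]
      congr 1
      ring
    · rw [c0, hσ3, popB_regs (by omega), bj 0 (by omega)]
    · rw [c1, hσ3, popB_regs (by omega), bj 1 (by omega)]
    · rw [cm]; rfl
    · rw [cd]; rfl

theorem decNum_run {w K : ℕ} (ρ : ℕ → ℕ) (hw : 1 ≤ w) (hK : 0 < K) {a : ℕ} (ha : a < 2 ^ w)
    (X : List Bool) (S : Store) (σ : St) (hσ : Rep w K S σ) (h0 : S 0 = pair a.bits X)
    (hc : σ.regs 0 < 2 ^ (w - 1)) :
    ∃ σ' t, Ex w ρ decNum (ld 0 σ) (ld 0 σ') t ∧ t ≤ 7 + 9 * a.size ∧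
      Rep w K (update S 0 X) σ' ∧ σ'.mem = update σ.mem (σ.regs 0) a ∧
      σ'.regs 0 = σ.regs 0 + 1 ∧ σ'.regs 1 = σ.regs 1 ∧ σ'.drawn = σ.drawn := by
  have hB := two_pow_half hw
  set σ1 : St := { σ with regs := update (update σ.regs 8 (0 % 2 ^ w)) 9 (1 % 2 ^ w) } with hσ1
  have r1 : Rep w K S σ1 := (hσ.scratch _ (by omega)).scratch _ (by omega)
  have e1 : effs w ρ [.const 8 0, .const 9 1] (ld 0 σ) = ld 0 σ1 := by
    simp only [effs_cons, effs_nil, Op.eff, ld, hσ1]
    congr 1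
    funext j
    by_cases h2 : j = 2
    · subst h2; simp
    · by_cases h9 : j = 9
      · subst h9; simp
      · by_cases h8 : j = 8
        · subst h8; simp
        · simp [h2, h8, h9]
  have h0' : S 0 = a.bits.flatMap (fun b => [true, b]) ++ false :: X := h0
  obtain ⟨σ2, t2, e2, b2, r2, c8, c0, c1, cm, cd⟩ := decBits_run ρ hK X a.bits S σ1 0 1 r1 h0'
    (by simp [hσ1]) (by simp [hσ1])
  rw [val_bits, one_mul, zero_add, Nat.mod_eq_of_lt ha] at c8
  have g0 : σ2.regs 0 = σ.regs 0 := by rw [c0]; simp [hσ1]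
  have g1 : σ2.regs 1 = σ.regs 1 := by rw [c1]; simp [hσ1]
  have gm : σ2.mem = σ.mem := by rw [cm]
  set σ3 := effs w ρ [.store 8 0, .add 0 0 4] (ld 0 σ2) with hσ3
  have r3 : Rep w K (update S 0 (false :: X)) σ3 := by
    refine (r2.ld 0).congr ?_ ?_ ?_ ?_ ?_ ?_ ?_
    · simp [hσ3, Op.eff]
    · simp [hσ3, Op.eff]
    · simp [hσ3, Op.eff]
    · simp [hσ3, Op.eff]
    · simp [hσ3, Op.eff]
    · intro k hk
      simp only [hσ3, effs_cons, effs_nil, Op.eff]
      rw [update_of_ne (by omega)]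
    · intro c hc'
      simp only [hσ3, effs_cons, effs_nil, Op.eff]
      rw [ld_regs (show (0 : ℕ) ≠ 2 by omega), update_of_ne (by omega)]
  have a0 : σ3.regs 0 = σ.regs 0 + 1 := by
    simp only [hσ3, effs_cons, effs_nil, Op.eff, update_self]
    rw [ld_regs (show (0 : ℕ) ≠ 2 by omega), ld_regs (show (4 : ℕ) ≠ 2 by omega), g0, r2.one,
      Nat.mod_eq_of_lt (by omega)]
  have a1 : σ3.regs 1 = σ.regs 1 := by
    simp only [hσ3, effs_cons, effs_nil, Op.eff]
    rw [update_of_ne (by omega), ld_regs (show (1 : ℕ) ≠ 2 by omega), g1]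
  have am : σ3.mem = update σ.mem (σ.regs 0) a := by
    simp only [hσ3, effs_cons, effs_nil, Op.eff]
    rw [ld_regs (show (0 : ℕ) ≠ 2 by omega), ld_regs (show (8 : ℕ) ≠ 2 by omega), g0, c8]
    show update σ2.mem _ _ = _
    rw [gm]
  have r4 := r3.popB (ρ := ρ) hK (b := false) (l := X) (by rw [update_self])
  set σ4 := effs w ρ (popB 0) σ3 with hσ4
  have heff : effs w ρ ([.store 8 0, .add 0 0 4] ++ popB 0 ++ [.load 2 (12 + 0)]) (ld 0 σ2) =
      ld 0 σ4 := by
    rw [effs_append, effs_append]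
    rfl
  have hb : Ex w ρ (.blk ([.store 8 0, .add 0 0 4] ++ popB 0 ++ [.load 2 (12 + 0)])) (ld 0 σ2)
      (ld 0 σ4) 4 := by
    rw [← heff]
    exact Ex.blk _ _
  have ha1 : Ex w ρ (.blk [.const 8 0, .const 9 1]) (ld 0 σ) (ld 0 σ1) 2 := by
    rw [← e1]
    exact Ex.blk _ _
  refine ⟨σ4, _, Ex.seq ha1 (Ex.seq e2 hb), ?_, ?_, ?_, ?_, ?_, ?_⟩
  · rw [Nat.size_eq_bits_len] at b2
    omega
  · rw [update_idem] at r4
    exact r4
  · rw [← am]; rfl
  · rw [hσ4, popB_regs (by omega), a0]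
  · rw [hσ4, popB_regs (by omega), a1]
  · change σ2.drawn = σ.drawn
    rw [cd]

theorem dec_loop {w K : ℕ} (ρ : ℕ → ℕ) (hw : 1 ≤ w) (hK : 0 < K) :
    ∀ (out : List ℕ) (σ : St), Rep w K (init (enc out)) σ → (∀ a ∈ out, a < 2 ^ w) →
    σ.regs 0 + out.length ≤ 2 ^ (w - 1) →
    ∃ σ' t, Ex w ρ (.loop (.eq 2 5) decNum) (ld 0 σ) σ' t ∧ t ≤ 1 + 9 * (enc out).length ∧
      σ'.regs 0 = σ.regs 0 + out.length ∧ σ'.regs 1 = σ.regs 1 ∧
      (∀ i (h : i < out.length), σ'.mem (σ.regs 0 + i) = out[i]) ∧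
      (∀ c, c < σ.regs 0 → σ'.mem c = σ.mem c) ∧ σ'.drawn = σ.drawn := by
  intro out
  induction out with
  | nil =>
    intro σ hσ _ _
    refine ⟨ld 0 σ, 1, Ex.loop_done ?_, by omega, ?_, ?_, ?_, fun _ _ => rfl, rfl⟩
    · exact (hσ.ld_eval5 hK).2 rfl
    · rw [ld_regs (by omega)]; rfl
    · rw [ld_regs (by omega)]
    · intro i h
      simp at h
  | cons a out ih =>
    intro σ hσ hout hc
    rw [List.length_cons] at hc
    have henc : enc (a :: out) = pair a.bits (enc out) := rfl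
    obtain ⟨σ1, t1, e1, b1, r1, cm, c0, c1, cd⟩ := decNum_run ρ hw hK (hout a (by simp)) (enc out)
      (init (enc (a :: out))) σ hσ henc (by omega)
    have einit : update (init (enc (a :: out))) 0 (enc out) = init (enc out) := by
      funext j
      by_cases hj : j = 0
      · subst hj; simp
      · rw [update_of_ne hj]; simp [init, hj]
    rw [einit] at r1
    obtain ⟨σ', t2, e2, b2, d0, d1, dm, dl, dd⟩ := ih σ1 r1 (fun x hx => hout x (by simp [hx]))
      (by rw [c0]; omega)
    refine ⟨σ', _, Ex.loop_step ?_ e1 e2, ?_, ?_, ?_, ?_, ?_, ?_⟩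
    · intro h'
      have := (hσ.ld_eval5 hK).1 h'
      rw [init_zero, henc] at this
      exact pair_ne_nil _ _ this
    · rw [henc, core_length_pair, Nat.size_eq_bits_len]
      omega
    · rw [d0, c0, List.length_cons]
      omega
    · rw [d1, c1]
    · intro i hi
      cases i with
      | zero =>
        rw [add_zero, dl _ (by omega), cm, update_self]
        rfl
      | succ i =>
        rw [List.length_cons] at hi
        have := dm i (by omega)
        rw [c0] at this
        rw [show σ.regs 0 + (i + 1) = σ.regs 0 + 1 + i by omega, this]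
        rfl
    · intro c hc'
      rw [dl c (by omega), cm, update_of_ne (by omega)]
    · rw [dd, cd]

theorem decP_run {w K : ℕ} (ρ : ℕ → ℕ) (hw : 1 ≤ w) (hK : 0 < K) (out : List ℕ) (σ : St)
    (hσ : Rep w K (init (true :: enc out)) σ) (hout : ∀ a ∈ out, a < 2 ^ w)
    (hlen : out.length ≤ 2 ^ (w - 1)) :
    ∃ σ' t, Ex w ρ decP (ld 0 σ) σ' t ∧ t ≤ 5 + 9 * (enc out).length ∧
      σ'.regs 0 = out.length ∧ σ'.regs 1 = 0 ∧
      (∀ i (h : i < out.length), σ'.mem i = out[i]) ∧ σ'.drawn = σ.drawn := by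
  have r1 := (hσ.ld 0).popB (ρ := ρ) hK (b := true) (l := enc out) rfl
  have einit : update (init (true :: enc out)) 0 (enc out) = init (enc out) := by
    funext j
    by_cases hj : j = 0
    · subst hj; simp
    · rw [update_of_ne hj]; simp [init, hj]
  rw [einit] at r1
  set σ1 := effs w ρ (popB 0) (ld 0 σ) with hσ1
  set σ2 : St := { σ1 with regs := update (update σ1.regs 0 (0 % 2 ^ w)) 1 (0 % 2 ^ w) } with hσ2
  have r2 : Rep w K (init (enc out)) σ2 := (r1.scratch _ (by omega)).scratch _ (by omega)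
  have a0 : σ2.regs 0 = 0 := by simp [hσ2]
  have a1 : σ2.regs 1 = 0 := by simp [hσ2]
  obtain ⟨σ', t, e, ht, d0, d1, dm, _, dd⟩ := dec_loop ρ hw hK out σ2 r2 hout (by rw [a0]; omega)
  have heff : effs w ρ (popB 0 ++ [.const 0 0, .const 1 0, .load 2 (12 + 0)]) (ld 0 σ) =
      ld 0 σ2 := by
    rw [effs_append]
    rfl
  have hb : Ex w ρ (.blk (popB 0 ++ [.const 0 0, .const 1 0, .load 2 (12 + 0)])) (ld 0 σ)
      (ld 0 σ2) 4 := by
    rw [← heff]
    exact Ex.blk _ _
  refine ⟨σ', _, Ex.seq hb e, by omega, ?_, ?_, ?_, ?_⟩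
  · rw [d0, a0, zero_add]
  · rw [d1, a1]
  · intro i hi
    have := dm i hi
    rwa [a0, zero_add] at this
  · rw [dd]
    rfl

end Crest.Agent.R309.RAM
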