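import Crest.Agent.R309.RAMCmd

/-!
# Random bits and one round of the bit-tape process on the word RAM
-/

set_option autoImplicit false

namespace Crest.Agent.R309.RAM

open Crest.WordRAM hiding init
open Crest.Agent.Lib.PT Function

/-- push the content of register `r` on stack `k` -/
def pushB (k r : ℕ) : List Op := [.add (12 + k) (12 + k) 6, .store r (12 + k)]

/-- remove the top of stack `k` -/
def popB (k : ℕ) : List Op := [.sub (12 + k) (12 + k) 6]

section macros

variable {w K : ℕ} {S : Store} {σ : St} {ρ : ℕ → ℕ}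

theorem effs_append (l l' : List Op) (σ : St) :
    effs w ρ (l ++ l') σ = effs w ρ l' (effs w ρ l σ) := by
  unfold effs
  rw [List.foldl_append]

theorem pushB_regs {k r j : ℕ} (hj : j ≠ 12 + k) :
    (effs w ρ (pushB k r) σ).regs j = σ.regs j := by
  simp only [pushB, effs_cons, effs_nil, Op.eff]
  rw [update_of_ne hj]

theorem pushB_drawn {k r : ℕ} : (effs w ρ (pushB k r) σ).drawn = σ.drawn := rfl

theorem Rep.pushB_mem (h : Rep w K S σ) {k : ℕ} (hk : k < K)
    (room : adr w K k ((S k).length + 1) < 2 ^ w) {r a : ℕ} (ha : a < 2 ^ (w - 1)) :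
    (effs w ρ (RAM.pushB k r) σ).mem a = σ.mem a := by
  simp only [RAM.pushB, effs_cons, effs_nil, Op.eff, update_self]
  rw [h.sp k hk, h.str, ← adr_succ, Nat.mod_eq_of_lt room, update_of_ne]
  have := le_adr w K k ((S k).length + 1)
  omega

theorem Rep.pushB (h : Rep w K S σ) {k : ℕ} (hk : k < K)
    (room : adr w K k ((S k).length + 1) < 2 ^ w) {r : ℕ} (hr : r ≠ 12 + k) {b : Bool}
    (hb : σ.regs r = b.toNat) :
    Rep w K (update S k (b :: S k)) (effs w ρ (RAM.pushB k r) σ) := by
  simp only [RAM.pushB, effs_cons, effs_nil, Op.eff, update_self]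
  have e1 : (σ.regs (12 + k) + σ.regs 6) % 2 ^ w = adr w K k ((S k).length + 1) := by
    rw [h.sp k hk, h.str, ← adr_succ]
    exact Nat.mod_eq_of_lt room
  exact h.push hk b e1 (by rw [update_of_ne hr, hb])

theorem popB_regs {k j : ℕ} (hj : j ≠ 12 + k) :
    (effs w ρ (popB k) σ).regs j = σ.regs j := by
  simp only [popB, effs_cons, effs_nil, Op.eff]
  rw [update_of_ne hj]

theorem popB_mem {k a : ℕ} : (effs w ρ (popB k) σ).mem a = σ.mem a := rfl

theorem popB_drawn {k : ℕ} : (effs w ρ (popB k) σ).drawn = σ.drawn := rfl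

theorem Rep.popB (h : Rep w K S σ) {k : ℕ} (hk : k < K) {b : Bool} {l : List Bool}
    (hS : S k = b :: l) : Rep w K (update S k l) (effs w ρ (RAM.popB k) σ) := by
  simp only [RAM.popB, effs_cons, effs_nil, Op.eff]
  exact h.pop hk hS (by rw [h.str])

theorem ld_regs {k j : ℕ} (hj : j ≠ 2) : (ld k σ).regs j = σ.regs j := by
  simp only [ld]
  rw [update_of_ne hj]

theorem ld_mem {k a : ℕ} : (ld k σ).mem a = σ.mem a := rfl

theorem ld_drawn {k : ℕ} : (ld k σ).drawn = σ.drawn := rfl

end macros

/-- the random bit number `d` -/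
def bitAt (w : ℕ) (ρ : ℕ → ℕ) (d : ℕ) : Bool := decide (ρ d % 2 ^ w % 2 = 1)

theorem bitAt_toNat (w : ℕ) (ρ : ℕ → ℕ) (d : ℕ) : (bitAt w ρ d).toNat = ρ d % 2 ^ w % 2 := by
  unfold bitAt
  rcases Nat.mod_two_eq_zero_or_one (ρ d % 2 ^ w) with h | h <;> simp [h]

/-- the random bits number `d, ..., d + n - 1` -/
def rbits (w : ℕ) (ρ : ℕ → ℕ) : ℕ → ℕ → List Bool
  | _, 0 => []
  | d, n + 1 => bitAt w ρ d :: rbits w ρ (d + 1) n

theorem rbits_length (w : ℕ) (ρ : ℕ → ℕ) (d n : ℕ) : (rbits w ρ d n).length = n := by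
  induction n generalizing d with
  | zero => rfl
  | succ n ih => simp [rbits, ih]

/-- move a bit from stack `0` to stack `1` and push a random bit on stack `2` -/
def drawBody : Prog :=
  .blk (pushB 1 2 ++ [.rand 8, .rem 8 8 5] ++ pushB 2 8 ++ popB 0 ++ [.load 2 (12 + 0)])

/-- reverse stack `0` onto stack `1` and as many random bits onto stack `2` -/
def drawP : Prog := .seq (.blk [.load 2 (12 + 0)]) (.loop (.eq 2 5) drawBody)

theorem draw_loop {w K H : ℕ} (ρ : ℕ → ℕ) (hw : 1 ≤ w) (hH : K * (H + 1) ≤ 2 ^ (w - 1))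
    (hK : 2 < K) : ∀ (n : ℕ) (S : Store) (σ : St), (S 0).length = n → n + (S 1).length ≤ H →
      n + (S 2).length ≤ H → Rep w K S σ →
      ∃ σ' t, Ex w ρ (.loop (.eq 2 5) drawBody) (ld 0 σ) σ' t ∧ t ≤ 1 + 10 * n ∧
        Rep w K (update (update (update S 0 []) 1 ((S 0).reverse ++ S 1)) 2
          ((rbits w ρ σ.drawn n).reverse ++ S 2)) σ' ∧ σ'.drawn = σ.drawn + n := by
  intro n
  induction n with
  | zero =>
    intro S σ h0 _ _ hσ
    have h0' : S 0 = [] := List.length_eq_zero_iff.1 h0
    refine ⟨ld 0 σ, 1, Ex.loop_done ((hσ.ld_eval5 (by omega)).2 h0'), by omega, ?_, rfl⟩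
    have : update (update (update S 0 []) 1 ((S 0).reverse ++ S 1)) 2
        ((rbits w ρ σ.drawn 0).reverse ++ S 2) = S := by
      funext j
      simp only [rbits, List.reverse_nil, List.nil_append, h0']
      by_cases hj2 : j = 2
      · subst hj2; simp
      · rw [update_of_ne hj2]
        by_cases hj1 : j = 1
        · subst hj1; simp
        · rw [update_of_ne hj1]
          by_cases hj0 : j = 0
          · subst hj0; simp [h0']
          · rw [update_of_ne hj0]
    rw [this]
    exact hσ.ld 0
  | succ n ih =>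
    intro S σ h0 h1 h2 hσ
    obtain ⟨b, l, hbl⟩ : ∃ b l, S 0 = b :: l :=
      List.exists_cons_of_ne_nil (by intro h; rw [h] at h0; simp at h0)
    have hl : l.length = n := by rw [hbl] at h0; simpa using h0
    -- step by step
    have r0 := hσ.ld 0
    have b0 : (ld 0 σ).regs 2 = b.toNat := by
      rw [hσ.ld_reg (by omega), hbl]; rfl
    have r1 := r0.pushB (ρ := ρ) (k := 1) (by omega) (adr_lt hw hH (by omega) (by omega)) (r := 2)
      (by omega) b0
    set σ1 := effs w ρ (pushB 1 2) (ld 0 σ) with hσ1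
    have r2 : Rep w K (update S 1 (b :: S 1)) (effs w ρ [.rand 8, .rem 8 8 5] σ1) := by
      simp only [effs_cons, effs_nil, Op.eff]
      exact ((r1.scratch _ (by omega)).drawn _).scratch _ (by omega)
    have b2 : (effs w ρ [.rand 8, .rem 8 8 5] σ1).regs 8 = (bitAt w ρ σ.drawn).toNat := by
      simp only [effs_cons, effs_nil, Op.eff, update_self]
      rw [update_of_ne (show (5 : ℕ) ≠ 8 by omega), r1.two, bitAt_toNat]
      rfl
    have d2 : (effs w ρ [.rand 8, .rem 8 8 5] σ1).drawn = σ.drawn + 1 := rfl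
    set σ2 := effs w ρ [.rand 8, .rem 8 8 5] σ1 with hσ2
    have r3 := r2.pushB (ρ := ρ) (k := 2) (by omega) (adr_lt hw hH (by omega) (by
      rw [update_of_ne (by omega)]; omega)) (r := 8) (by omega) b2
    rw [update_of_ne (show (2 : ℕ) ≠ 1 by omega)] at r3
    set σ3 := effs w ρ (pushB 2 8) σ2 with hσ3
    have d3 : σ3.drawn = σ.drawn + 1 := d2
    have r4 := r3.popB (ρ := ρ) (k := 0) (by omega) (b := b) (l := l) (by
      rw [update_of_ne (by omega), update_of_ne (by omega), hbl])
    set σ4 := effs w ρ (popB 0) σ3 with hσ4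
    have d4 : σ4.drawn = σ.drawn + 1 := d3
    obtain ⟨σ', t, e, ht, r, d⟩ := ih _ σ4 (by rw [update_self]; exact hl)
      (by rw [update_of_ne (by omega), update_of_ne (by omega), update_self, List.length_cons]; omega)
      (by rw [update_of_ne (by omega), update_self, List.length_cons]; omega) r4
    have heff : effs w ρ (pushB 1 2 ++ [.rand 8, .rem 8 8 5] ++ pushB 2 8 ++ popB 0 ++
        [.load 2 (12 + 0)]) (ld 0 σ) = ld 0 σ4 := by
      rw [effs_append, effs_append, effs_append, effs_append]
      rfl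
    have hbody : Ex w ρ drawBody (ld 0 σ) (ld 0 σ4) 8 := by
      rw [← heff]
      exact Ex.blk _ _
    refine ⟨σ', _, Ex.loop_step ?_ hbody e, by omega, ?_, by rw [d, d4]; omega⟩
    · intro h'
      have := (hσ.ld_eval5 (by omega)).1 h'
      rw [hbl] at this
      simp at this
    · convert r using 1
      funext j
      rw [d4, hbl]
      simp only [rbits, List.reverse_cons, List.append_assoc, List.singleton_append]
      by_cases hj2 : j = 2
      · subst hj2
        simp
      · by_cases hj1 : j = 1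
        · subst hj1
          simp
        · by_cases hj0 : j = 0
          · subst hj0
            simp
          · simp [hj2, hj1, hj0]

theorem draw_run {w K H : ℕ} (ρ : ℕ → ℕ) (hw : 1 ≤ w) (hH : K * (H + 1) ≤ 2 ^ (w - 1))
    (hK : 2 < K) (s : List Bool) (hs : s.length ≤ H) (σ : St) (hσ : Rep w K (init s) σ) :
    ∃ σ' t, Ex w ρ drawP σ σ' t ∧ t ≤ 2 + 10 * s.length ∧
      Rep w K (update (update (init []) 1 s.reverse) 2 (rbits w ρ σ.drawn s.length).reverse) σ' ∧
      σ'.drawn = σ.drawn + s.length := by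
  obtain ⟨σ', t, e, ht, r, d⟩ := draw_loop ρ hw hH hK s.length (init s) σ rfl (by simpa using hs)
    (by simpa using hs) hσ
  refine ⟨σ', 1 + t, Ex.seq (Ex.blk _ _) e, by omega, ?_, d⟩
  convert r using 1
  funext j
  by_cases hj2 : j = 2
  · subst hj2; simp [init]
  · by_cases hj1 : j = 1
    · subst hj1; simp [init]
    · by_cases hj0 : j = 0
      · subst hj0; simp [init]
      · simp [hj2, hj1, hj0, init]

/-- the deterministic part of a round: build the pair of state and random bits, then run `c` -/
def roundC (c : Cmd) : Cmd :=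
  .seq (mv 2 0) (.seq (.push 0 false) (.seq (mvMap 1 0 (fun b => [true, b])) c))

theorem roundC_run {c : Cmd} {s τ y : List Bool} {n : ℕ}
    (h : Run c (init (pair s τ)) (init y) n) :
    Run (roundC c) (update (update (init []) 1 s.reverse) 2 τ.reverse) (init y)
      (4 * τ.length + 8 * s.length + 3 + n) := by
  have h1 := run_mv (a := 2) (b := 0) (by omega)
    (update (update (init []) 1 s.reverse) 2 τ.reverse)
  have e1 : update (update (update (update (init []) 1 s.reverse) 2 τ.reverse) 0
      (((update (update (init []) 1 s.reverse) 2 τ.reverse) 2).reverse ++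
        (update (update (init []) 1 s.reverse) 2 τ.reverse) 0)) 2 [] =
      update (init τ) 1 s.reverse := by
    funext j
    by_cases hj2 : j = 2
    · subst hj2; simp [init]
    · by_cases hj1 : j = 1
      · subst hj1; simp
      · by_cases hj0 : j = 0
        · subst hj0; simp [init]
        · simp [hj2, hj1, hj0, init]
  rw [e1] at h1
  have h2 := run_push 0 false (update (init τ) 1 s.reverse)
  have e2 : update (update (init τ) 1 s.reverse) 0 (false :: (update (init τ) 1 s.reverse) 0) =
      update (init (false :: τ)) 1 s.reverse := by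
    funext j
    by_cases hj1 : j = 1
    · subst hj1; simp
    · by_cases hj0 : j = 0
      · subst hj0; simp [init]
      · simp [hj1, hj0, init]
  rw [e2] at h2
  have h3 := run_mvMap (a := 1) (b := 0) (by omega) (fun b => [true, b])
    (update (init (false :: τ)) 1 s.reverse)
  have e3 : update (update (update (init (false :: τ)) 1 s.reverse) 0
      (((update (init (false :: τ)) 1 s.reverse) 1).reverse.flatMap (fun b => [true, b]) ++
        (update (init (false :: τ)) 1 s.reverse) 0)) 1 [] = init (pair s τ) := by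
    funext j
    by_cases hj1 : j = 1
    · subst hj1; simp [init]
    · by_cases hj0 : j = 0
      · subst hj0; simp [init, pair]
      · simp [hj1, hj0, init]
  rw [e3] at h3
  refine (h1.seq (h2.seq (h3.seq h))).mono ?_
  simp only [update_self, List.length_reverse,
    List.length_cons, List.length_nil]
  omega

/-- one round -/
def roundP (c : Cmd) : Prog := .seq drawP (tr (roundC c))

theorem roundP_run {w K H n : ℕ} (ρ : ℕ → ℕ) (hw : 1 ≤ w) (hH : K * (H + 1) ≤ 2 ^ (w - 1))
    (hK : 2 < K) {c : Cmd} (hc : c.maxVar < K) {s y : List Bool} {σ : St}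
    (hσ : Rep w K (init s) σ)
    (h : Run c (init (pair s (rbits w ρ σ.drawn s.length))) (init y) n)
    (hn : 13 * s.length + 3 + n ≤ H) :
    ∃ σ' t, Ex w ρ (roundP c) σ σ' t ∧ t ≤ 2 + 10 * s.length + 5 * (12 * s.length + 3 + n) ∧
      Rep w K (init y) σ' ∧ σ'.drawn = σ.drawn + s.length := by
  obtain ⟨σ1, t1, e1, b1, r1, d1⟩ := draw_run ρ hw hH hK s (by omega) σ hσ
  obtain ⟨t2, b2, e2⟩ := roundC_run h
  rw [rbits_length] at b2
  obtain ⟨σ2, t3, e3, b3, r3, d3⟩ := exec_tr ρ hw hH e2 (by
    simp only [roundC, Cmd.maxVar, mv, mvMap, pushAll]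
    omega) (by
    intro k
    have : ((update (update (init []) 1 s.reverse) 2
        (rbits w ρ σ.drawn s.length).reverse : Store) k).length ≤ s.length := by
      by_cases hk2 : k = 2
      · subst hk2; simp [rbits_length]
      · by_cases hk1 : k = 1
        · subst hk1; simp
        · by_cases hk0 : k = 0
          · subst hk0; simp
          · simp [hk2, hk1, init]
    omega) σ1 r1
  exact ⟨σ2, t1 + t3, Ex.seq e1 e3, by omega, r3, by rw [d3, d1]⟩

end Crest.Agent.R309.RAM
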