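import Crest.Agent.R309.RAMIO

/-!
# Encoding the input words as a bit string on stack `0`
-/

set_option autoImplicit false

namespace Crest.Agent.R309.RAM

open Crest.WordRAM hiding init
open Crest.Agent.Lib.PT Function

/-- find the leading bit of register `8` -/
def encNum1 : Prog := .loop (.lt 10 11) (.blk [.quot 10 10 5])

/-- push the bits -/
def encNum2 : Prog := .loop (.zero 10)
  (.blk ([.quot 2 8 10, .rem 2 2 5] ++ pushB 0 2 ++ pushB 0 4 ++ [.quot 10 10 5]))

/-- push the code of the number in register `8` -/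
def encNum : Prog :=
  .seq (.blk ([.add 11 8 4, .copy 10 7] ++ pushB 0 3)) (.seq encNum1 encNum2)

theorem encNum1_run {w a : ℕ} (ρ : ℕ → ℕ) : ∀ (i : ℕ) (σ : St),
    σ.regs 10 = 2 ^ (a.size + i) / 2 → σ.regs 5 = 2 → σ.regs 11 = a + 1 →
    ∃ t, Ex w ρ encNum1 σ { σ with regs := update σ.regs 10 (2 ^ a.size / 2) } t ∧
      t ≤ 1 + 3 * i := by
  intro i
  induction i with
  | zero =>
    intro σ h10 h5 h11
    have e : ({ σ with regs := update σ.regs 10 (2 ^ a.size / 2) } : St) = σ := by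
      rw [add_zero] at h10
      rw [← h10, update_eq_self]
    rw [e]
    refine ⟨1, Ex.loop_done ?_, by omega⟩
    show σ.regs 10 < σ.regs 11
    rw [h10, h11, add_zero]
    rcases Nat.eq_zero_or_pos a.size with h | h
    · rw [h]; simp
    · have h1 : 2 ^ (a.size - 1) ≤ a := Nat.lt_size.1 (by omega)
      have h2 : 2 ^ a.size = 2 * 2 ^ (a.size - 1) := by
        rw [← pow_succ']
        congr 1
        omega
      omega
  | succ i ih =>
    intro σ h10 h5 h11
    set σ1 := effs w ρ [.quot 10 10 5] σ with hσ1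
    have a10 : σ1.regs 10 = 2 ^ (a.size + i) / 2 := by
      simp only [hσ1, effs_cons, effs_nil, Op.eff, update_self]
      rw [h10, h5, ← add_assoc, pow_succ]
      omega
    have aj : ∀ j, j ≠ 10 → σ1.regs j = σ.regs j := by
      intro j hj
      simp [hσ1, Op.eff, hj]
    obtain ⟨t, e, ht⟩ := ih σ1 a10 (by rw [aj 5 (by omega), h5]) (by rw [aj 11 (by omega), h11])
    have e2 : ({ σ1 with regs := update σ1.regs 10 (2 ^ a.size / 2) } : St) =
        { σ with regs := update σ.regs 10 (2 ^ a.size / 2) } := by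
      simp only [hσ1, effs_cons, effs_nil, Op.eff, update_idem]
    rw [e2] at e
    refine ⟨_, Ex.loop_step ?_ (Ex.blk _ _) e, ?_⟩
    · show ¬ σ.regs 10 < σ.regs 11
      rw [h10, h11, ← add_assoc, pow_succ]
      have h1 : a < 2 ^ a.size := Nat.lt_size_self a
      have h2 : 2 ^ a.size ≤ 2 ^ (a.size + i) := Nat.pow_le_pow_right (by omega) (by omega)
      omega
    · simp only [List.length_cons, List.length_nil]
      omega

theorem encNum2_run {w K H a : ℕ} (ρ : ℕ → ℕ) (hw : 1 ≤ w) (hH : K * (H + 1) ≤ 2 ^ (w - 1))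
    (hK : 0 < K) (X : List Bool) : ∀ (i : ℕ) (S : Store) (σ : St), i ≤ a.size → Rep w K S σ →
    σ.regs 8 = a → σ.regs 10 = 2 ^ i / 2 →
    S 0 = (a / 2 ^ i).bits.flatMap (fun b => [true, b]) ++ X → (S 0).length + 2 * i ≤ H →
    ∃ σ' t, Ex w ρ encNum2 σ σ' t ∧ t ≤ 1 + 9 * i ∧
      Rep w K (update S 0 (a.bits.flatMap (fun b => [true, b]) ++ X)) σ' ∧
      (∀ j, j ≠ 2 → j ≠ 10 → j < 12 → σ'.regs j = σ.regs j) ∧
      (∀ c, c < 2 ^ (w - 1) → σ'.mem c = σ.mem c) ∧ σ'.drawn = σ.drawn := by
  intro i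
  induction i with
  | zero =>
    intro S σ _ hσ h8 h10 h0 _
    refine ⟨σ, 1, Ex.loop_done ?_, by omega, ?_, fun _ _ _ _ => rfl, fun _ _ => rfl, rfl⟩
    · show σ.regs 10 = 0
      rw [h10]; simp
    · rw [pow_zero, Nat.div_one] at h0
      rw [← h0, update_eq_self]
      exact hσ
  | succ i ih =>
    intro S σ hi hσ h8 h10 h0 hroom
    have hdiv : a / 2 ^ (i + 1) = (a / 2 ^ i).div2 := by
      rw [Nat.div2_val, Nat.div_div_eq_div_mul, pow_succ]
    have hne : a / 2 ^ i ≠ 0 := by
      have h1 : 2 ^ i ≤ a := Nat.lt_size.1 (by omega)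
      have := (Nat.div_pos h1 (by positivity))
      omega
    have hbits : (a / 2 ^ i).bits = (a / 2 ^ i).bodd :: (a / 2 ^ (i + 1)).bits := by
      rw [hdiv]
      have h1 : (a / 2 ^ i).bits ≠ [] := by
        intro h
        have := congrArg List.length h
        rw [Nat.size_eq_bits_len] at this
        exact hne (Nat.size_eq_zero.1 (by simpa using this))
      rw [Nat.div2_bits_eq_tail, Nat.bodd_eq_bits_head]
      cases h2 : (a / 2 ^ i).bits with
      | nil => exact absurd h2 h1
      | cons x l => rfl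
    set σ1 := effs w ρ [.quot 2 8 10, .rem 2 2 5] σ with hσ1
    have h10' : σ.regs 10 = 2 ^ i := by
      rw [h10, pow_succ]; omega
    have r1 : Rep w K S σ1 := by
      simp only [hσ1, effs_cons, effs_nil, Op.eff]
      exact (hσ.scratch _ (by omega)).scratch _ (by omega)
    have a2 : σ1.regs 2 = ((a / 2 ^ i).bodd).toNat := by
      simp only [hσ1, effs_cons, effs_nil, Op.eff, update_self]
      rw [update_of_ne (show (5 : ℕ) ≠ 2 by omega), hσ.two, h8, h10', Nat.mod_two_of_bodd]
    have aj : ∀ j, j ≠ 2 → σ1.regs j = σ.regs j := by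
      intro j hj
      simp [hσ1, Op.eff, hj]
    have r2 := r1.pushB (ρ := ρ) (k := 0) hK (adr_lt hw hH hK (by omega)) (r := 2) (by omega) a2
    have m2 := fun c hc => r1.pushB_mem (ρ := ρ) (k := 0) hK (adr_lt hw hH hK (by omega)) (r := 2)
      (a := c) hc
    set σ2 := effs w ρ (pushB 0 2) σ1 with hσ2
    have bj : ∀ j, j ≠ 2 → j < 12 → σ2.regs j = σ.regs j := by
      intro j hj hj'
      rw [hσ2, pushB_regs (by omega), aj j hj]
    have room2 : adr w K 0 ((update S 0 ((a / 2 ^ i).bodd :: S 0) 0).length + 1) < 2 ^ w := by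
      rw [update_self, List.length_cons]
      exact adr_lt hw hH hK (by omega)
    have r3 := r2.pushB (ρ := ρ) (k := 0) hK room2 (r := 4) (b := true) (by omega) r2.one
    have m3 := fun c hc => r2.pushB_mem (ρ := ρ) (k := 0) hK room2 (r := 4) (a := c) hc
    set σ3 := effs w ρ (pushB 0 4) σ2 with hσ3
    have cj : ∀ j, j ≠ 2 → j < 12 → σ3.regs j = σ.regs j := by
      intro j hj hj'
      rw [hσ3, pushB_regs (by omega), bj j hj hj']
    set σ4 := effs w ρ [.quot 10 10 5] σ3 with hσ4
    have r4 : Rep w K (update S 0 (true :: (a / 2 ^ i).bodd :: S 0)) σ4 := by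
      simp only [hσ4, effs_cons, effs_nil, Op.eff]
      have := r3.scratch (d := 10) (σ3.regs 10 / σ3.regs 5) (by omega)
      rw [update_idem, update_self] at this
      exact this
    have d10 : σ4.regs 10 = 2 ^ i / 2 := by
      simp only [hσ4, effs_cons, effs_nil, Op.eff, update_self]
      rw [cj 10 (by omega) (by omega), h10', r3.two]
    have dj : ∀ j, j ≠ 2 → j ≠ 10 → j < 12 → σ4.regs j = σ.regs j := by
      intro j hj hj' hj''
      have : σ4.regs j = σ3.regs j := by simp [hσ4, Op.eff, hj']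
      rw [this, cj j hj hj'']
    obtain ⟨σ', t, e, ht, r, fj, fm, fd⟩ := ih (update S 0 (true :: (a / 2 ^ i).bodd :: S 0)) σ4
      (by omega) r4 (by rw [dj 8 (by omega) (by omega) (by omega), h8]) d10 (by
        rw [update_self, h0, hbits]
        simp) (by
        rw [update_self, List.length_cons, List.length_cons]
        omega)
    have heff : effs w ρ ([.quot 2 8 10, .rem 2 2 5] ++ pushB 0 2 ++ pushB 0 4 ++ [.quot 10 10 5]) σ
        = σ4 := by
      rw [effs_append, effs_append, effs_append]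
    have hbody : Ex w ρ (.blk ([.quot 2 8 10, .rem 2 2 5] ++ pushB 0 2 ++ pushB 0 4 ++
        [.quot 10 10 5])) σ σ4 7 := by
      conv => arg 5; rw [← heff]
      exact Ex.blk _ _
    refine ⟨σ', _, Ex.loop_step ?_ hbody e, by omega, ?_, ?_, ?_, ?_⟩
    · show ¬ σ.regs 10 = 0
      rw [h10']
      positivity
    · rw [update_idem] at r
      exact r
    · intro j h1 h2 h3
      rw [fj j h1 h2 h3, dj j h1 h2 h3]
    · intro c hc
      rw [fm c hc]
      change σ3.mem c = σ.mem c
      rw [m3 c hc, m2 c hc]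
      rfl
    · rw [fd]
      rfl

theorem encNum_run {w K H a : ℕ} (ρ : ℕ → ℕ) (hw : 1 ≤ w) (hH : K * (H + 1) ≤ 2 ^ (w - 1))
    (hK : 0 < K) (ha : a + 1 < 2 ^ w) (X : List Bool) (S : Store) (σ : St) (hσ : Rep w K S σ)
    (h8 : σ.regs 8 = a) (hX : S 0 = X) (hroom : X.length + 1 + 2 * a.size ≤ H) :
    ∃ σ' t, Ex w ρ encNum σ σ' t ∧ t ≤ 6 + 12 * w ∧
      Rep w K (update S 0 (pair a.bits X)) σ' ∧
      (∀ j, j < 10 → j ≠ 2 → σ'.regs j = σ.regs j) ∧
      (∀ c, c < 2 ^ (w - 1) → σ'.mem c = σ.mem c) ∧ σ'.drawn = σ.drawn := by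
  have hsz : a.size ≤ w := Nat.size_le.2 (by omega)
  set σ1 := effs w ρ [.add 11 8 4, .copy 10 7] σ with hσ1
  have r1 : Rep w K S σ1 := by
    simp only [hσ1, effs_cons, effs_nil, Op.eff]
    exact (hσ.scratch _ (by omega)).scratch _ (by omega)
  have a11 : σ1.regs 11 = a + 1 := by
    simp only [hσ1, effs_cons, effs_nil, Op.eff]
    rw [update_of_ne (show (11 : ℕ) ≠ 10 by omega), update_self, h8, hσ.one, Nat.mod_eq_of_lt ha]
  have a10 : σ1.regs 10 = 2 ^ (w - 1) := by
    simp only [hσ1, effs_cons, effs_nil, Op.eff, update_self]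
    rw [update_of_ne (show (7 : ℕ) ≠ 11 by omega), hσ.base]
  have aj : ∀ j, j < 10 → σ1.regs j = σ.regs j := by
    intro j hj
    simp only [hσ1, effs_cons, effs_nil, Op.eff]
    rw [update_of_ne (by omega), update_of_ne (by omega)]
  have room : adr w K 0 ((S 0).length + 1) < 2 ^ w := adr_lt hw hH hK (by rw [hX]; omega)
  have r2 := r1.pushB (ρ := ρ) (k := 0) hK room (r := 3) (b := false) (by omega) r1.zero
  have m2 := fun c hc => r1.pushB_mem (ρ := ρ) (k := 0) hK room (r := 3) (a := c) hc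
  set σ2 := effs w ρ (pushB 0 3) σ1 with hσ2
  have bj : ∀ j, j < 12 → σ2.regs j = σ1.regs j := by
    intro j hj
    rw [hσ2, pushB_regs (by omega)]
  obtain ⟨t3, e3, b3⟩ := encNum1_run (w := w) (a := a) ρ (w - a.size) σ2 (by
      rw [bj 10 (by omega), a10, show a.size + (w - a.size) = w by omega]
      obtain ⟨v, rfl⟩ := Nat.exists_eq_add_of_le hw
      rw [Nat.add_sub_cancel_left, pow_add]
      omega) r2.two (by rw [bj 11 (by omega), a11])
  set σ3 : St := { σ2 with regs := update σ2.regs 10 (2 ^ a.size / 2) } with hσ3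
  have r3 : Rep w K (update S 0 (false :: S 0)) σ3 := r2.scratch _ (by omega)
  have cj : ∀ j, j < 10 → σ3.regs j = σ.regs j := by
    intro j hj
    show update σ2.regs 10 _ j = _
    rw [update_of_ne (by omega), bj j (by omega), aj j hj]
  have c10 : σ3.regs 10 = 2 ^ a.size / 2 := by
    simp [hσ3]
  obtain ⟨σ', t4, e4, b4, r4, fj, fm, fd⟩ := encNum2_run (a := a) ρ hw hH hK (false :: X) a.size
    (update S 0 (false :: S 0)) σ3 le_rfl r3 (by rw [cj 8 (by omega), h8]) c10 (by
      rw [update_self, Nat.div_eq_of_lt (Nat.lt_size_self a), hX]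
      simp) (by
      rw [update_self, List.length_cons, hX]
      omega)
  have heff : effs w ρ ([.add 11 8 4, .copy 10 7] ++ pushB 0 3) σ = σ2 := by
    rw [effs_append]
  have hb : Ex w ρ (.blk ([.add 11 8 4, .copy 10 7] ++ pushB 0 3)) σ σ2 4 := by
    conv => arg 5; rw [← heff]
    exact Ex.blk _ _
  refine ⟨σ', _, Ex.seq hb (Ex.seq e3 e4), ?_, ?_, ?_, ?_, ?_⟩
  · omega
  · rw [update_idem] at r4
    exact r4
  · intro j hj hj2
    rw [fj j hj2 (by omega) (by omega), cj j hj]
  · intro c hc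
    rw [fm c hc]
    change σ2.mem c = σ.mem c
    rw [m2 c hc]
    rfl
  · rw [fd]
    rfl

/-- encode all the input words -/
def encP : Prog :=
  .seq (.blk [.copy 9 0]) (.seq (.loop (.zero 9) (.seq (.blk [.sub 9 9 4, .load 8 9]) encNum))
    (.blk (pushB 0 3)))

theorem enc_loop {w K H : ℕ} (ρ : ℕ → ℕ) (hw : 1 ≤ w) (hH : K * (H + 1) ≤ 2 ^ (w - 1))
    (hK : 0 < K) (L : List ℕ) (hL : ∀ a ∈ L, a + 1 < 2 ^ w) (hlen : L.length ≤ 2 ^ (w - 1))
    (hroom : (enc L).length ≤ H) : ∀ (i : ℕ) (σ : St), i ≤ L.length →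
    Rep w K (init (enc (L.drop i))) σ → σ.regs 9 = i →
    (∀ j (hj : j < L.length), σ.mem j = L[j]) →
    ∃ σ' t, Ex w ρ (.loop (.zero 9) (.seq (.blk [.sub 9 9 4, .load 8 9]) encNum)) σ σ' t ∧
      t ≤ 1 + (10 + 12 * w) * i ∧ Rep w K (init (enc L)) σ' ∧ σ'.drawn = σ.drawn := by
  have hsuf : ∀ i, (enc (L.drop i)).length ≤ (enc L).length := by
    intro i
    have h1 := congrArg (fun l : List ℕ => (enc l).length) (List.take_append_drop i L)
    have h2 : ∀ l l' : List ℕ, (enc (l ++ l')).length = (enc l).length + (enc l').length := by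
      intro l l'
      induction l with
      | nil => simp [show enc ([] : List ℕ) = [] from rfl]
      | cons x l ih =>
        have e1 : enc (x :: l ++ l') = pair (enc x) (enc (l ++ l')) := rfl
        have e2 : enc (x :: l) = pair (enc x) (enc l) := rfl
        rw [e1, e2, core_length_pair, core_length_pair, ih]
        omega
    simp only [h2] at h1
    omega
  intro i
  induction i with
  | zero =>
    intro σ _ hσ h9 _
    exact ⟨σ, 1, Ex.loop_done h9, by omega, hσ, rfl⟩
  | succ i ih =>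
    intro σ hi hσ h9 hmem
    set a := L[i]'(by omega) with ha
    have hdrop : enc (L.drop i) = pair a.bits (enc (L.drop (i + 1))) := by
      rw [List.drop_eq_getElem_cons (by omega)]
      rfl
    set σ1 := effs w ρ [.sub 9 9 4, .load 8 9] σ with hσ1
    have r1 : Rep w K (init (enc (L.drop (i + 1)))) σ1 := by
      simp only [hσ1, effs_cons, effs_nil, Op.eff]
      exact (hσ.scratch _ (by omega)).scratch _ (by omega)
    have a9 : σ1.regs 9 = i := by
      simp only [hσ1, effs_cons, effs_nil, Op.eff]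
      rw [update_of_ne (show (9 : ℕ) ≠ 8 by omega), update_self, h9, hσ.one]
      rfl
    have a8 : σ1.regs 8 = a := by
      simp only [hσ1, effs_cons, effs_nil, Op.eff, update_self]
      rw [h9, hσ.one, Nat.add_sub_cancel, hmem i (by omega)]
    have hlen2 : (enc (L.drop i)).length = (enc (L.drop (i + 1))).length + 1 + 2 * a.size := by
      rw [hdrop, core_length_pair, Nat.size_eq_bits_len]
      omega
    have hs := hsuf i
    obtain ⟨σ2, t2, e2, b2, r2, cj, cm, cd⟩ := encNum_run (a := a) ρ hw hH hK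
      (hL a (List.getElem_mem _)) (enc (L.drop (i + 1))) (init (enc (L.drop (i + 1)))) σ1 r1 a8 rfl
      (by omega)
    have einit : update (init (enc (L.drop (i + 1)))) 0 (pair a.bits (enc (L.drop (i + 1)))) =
        init (enc (L.drop i)) := by
      rw [← hdrop]
      funext j
      by_cases hj : j = 0
      · subst hj; simp
      · rw [update_of_ne hj]; simp [init, hj]
    rw [einit] at r2
    obtain ⟨σ', t3, e3, b3, r3, d3⟩ := ih σ2 (by omega) r2 (by rw [cj 9 (by omega) (by omega), a9])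
      (by
        intro j hj
        rw [cm j (by omega)]
        exact hmem j hj)
    refine ⟨σ', _, Ex.loop_step ?_ (Ex.seq (Ex.blk _ _) e2) e3, ?_, r3, ?_⟩
    · show ¬ σ.regs 9 = 0
      rw [h9]
      omega
    · simp only [List.length_cons, List.length_nil]
      rw [Nat.mul_succ]
      omega
    · rw [d3, cd]
      rfl

theorem encP_run {w K H : ℕ} (ρ : ℕ → ℕ) (hw : 1 ≤ w) (hH : K * (H + 1) ≤ 2 ^ (w - 1))
    (hK : 0 < K) (L : List ℕ) (hL : ∀ a ∈ L, a + 1 < 2 ^ w) (hlen : L.length ≤ 2 ^ (w - 1))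
    (hroom : (enc L).length + 1 ≤ H) (σ : St) (hσ : Rep w K (init []) σ)
    (h0 : σ.regs 0 = L.length) (hmem : ∀ j (hj : j < L.length), σ.mem j = L[j]) :
    ∃ σ' t, Ex w ρ encP σ σ' t ∧ t ≤ 4 + (10 + 12 * w) * L.length ∧
      Rep w K (init (false :: enc L)) σ' ∧ σ'.drawn = σ.drawn := by
  set σ1 := effs w ρ [.copy 9 0] σ with hσ1
  have r1 : Rep w K (init (enc (L.drop L.length))) σ1 := by
    rw [List.drop_length]
    simp only [hσ1, effs_cons, effs_nil, Op.eff]
    exact hσ.scratch _ (by omega)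
  have a9 : σ1.regs 9 = L.length := by
    simp only [hσ1, effs_cons, effs_nil, Op.eff, update_self]
    exact h0
  obtain ⟨σ2, t2, e2, b2, r2, d2⟩ := enc_loop ρ hw hH hK L hL hlen (by omega) L.length σ1 le_rfl r1
    a9 hmem
  have room : adr w K 0 ((init (enc L) 0).length + 1) < 2 ^ w := by
    rw [init_zero]
    exact adr_lt hw hH hK (by omega)
  have r3 := r2.pushB (ρ := ρ) (k := 0) hK room (r := 3) (b := false) (by omega) r2.zero
  refine ⟨_, _, Ex.seq (Ex.blk _ _) (Ex.seq e2 (Ex.blk _ _)), ?_, ?_, ?_⟩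
  · simp only [List.length_cons, List.length_nil, pushB]
    omega
  · convert r3 using 1
    funext j
    by_cases hj : j = 0
    · subst hj; simp
    · rw [update_of_ne hj]; simp [init, hj]
  · rw [pushB_drawn, d2]
    rfl

end Crest.Agent.R309.RAM
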