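import Crest.Agent.R309.RAMProb

/-!
# Output probabilities through harmonic functions
-/

set_option autoImplicit false

namespace Crest.Agent.R309.RAM

open Crest.WordRAM
open Function
open scoped ENNReal

namespace Sim

variable {P : Program} {w : ℕ} {input : List ℕ} {f : List Bool → List Bool → List Bool}
  {R : Set (List Bool)} {s0 : List Bool} {out : List Bool → List ℕ} {T0 : ℕ} {q : List Bool → ℕ}

/-- indicator of having halted with a good output at time `T` -/
noncomputable def pg (P : Program) (w : ℕ) (Good : List ℕ → Prop) (ρ : ℕ → ℕ)
    (c : Cfg P.numRegs) (T : ℕ) : ℝ≥0∞ :=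
  ind (((step P w ρ)^[T] c).halted = true ∧ Good ((step P w ρ)^[T] c).output)

/-- indicator of not having halted at time `T` -/
noncomputable def pn (P : Program) (w : ℕ) (ρ : ℕ → ℕ) (c : Cfg P.numRegs) (T : ℕ) : ℝ≥0∞ :=
  ind (((step P w ρ)^[T] c).halted = false)

theorem pg_loc (Good : List ℕ → Prop) (c : Cfg P.numRegs) (T : ℕ) :
    Loc T (fun y => pg P w Good (plc c.drawn y) c T) := by
  intro y y' hy
  show ind _ = ind _
  rw [iterate_congr (P := P) (w := w) (ρ := plc c.drawn y') (ρ' := plc c.drawn y) T]
  intro i hi hi'
  have := (drawn_le_iterate (P := P) (w := w) (plc c.drawn y') T c).2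
  exact hy _ (by omega)

theorem pn_loc (c : Cfg P.numRegs) (T : ℕ) :
    Loc T (fun y => pn P w (plc c.drawn y) c T) := by
  intro y y' hy
  show ind _ = ind _
  rw [iterate_congr (P := P) (w := w) (ρ := plc c.drawn y') (ρ' := plc c.drawn y) T]
  intro i hi hi'
  have := (drawn_le_iterate (P := P) (w := w) (plc c.drawn y') T c).2
  exact hy _ (by omega)

theorem pg_split (Good : List ℕ → Prop) (ρ : ℕ → ℕ) (c : Cfg P.numRegs) {t T : ℕ} (h : t ≤ T) :
    pg P w Good ρ c T = pg P w Good ρ ((step P w ρ)^[t] c) (T - t) := by
  unfold pg
  rw [← Function.iterate_add_apply, Nat.sub_add_cancel h]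

theorem pn_split (ρ : ℕ → ℕ) (c : Cfg P.numRegs) {t T : ℕ} (h : t ≤ T) :
    pn P w ρ c T = pn P w ρ ((step P w ρ)^[t] c) (T - t) := by
  unfold pn
  rw [← Function.iterate_add_apply, Nat.sub_add_cancel h]

/-- superharmonic functions bound the output probabilities from above -/
theorem pg_le (S : Sim P w input f R s0 out T0 q) (Good : List ℕ → Prop) (H : List Bool → ℝ≥0∞)
    (hH : ∀ s ∈ R, s.head? ≠ some true → B s.length (fun τ => H (f s τ)) ≤ H s)
    (hH' : ∀ s ∈ R, s.head? = some true → ind (Good (out s)) ≤ H s) :
    ∀ (T : ℕ) (s : List Bool) (c : Cfg P.numRegs), s ∈ R → S.Hd s c → ∀ m, T ≤ m →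
      A w m (fun y => pg P w Good (plc c.drawn y) c T) ≤ H s := by
  intro T
  induction T using Nat.strong_induction_on with
  | _ T ih =>
    intro s c hs hc m hm
    by_cases hh : s.head? = some true
    · refine le_trans ?_ (hH' s hs hh)
      rw [← A_const (w := w) (n := m) (ind (Good (out s)))]
      refine A_mono fun y => ?_
      obtain ⟨t, c', h2, h3, h4, h5⟩ := S.stop s hs hh c hc (plc c.drawn y)
      unfold pg
      by_cases hT : ((step P w (plc c.drawn y))^[T] c).halted = true
      · have e : ((step P w (plc c.drawn y))^[T] c).output = out s := by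
          rcases le_total t T with htT | htT
          · rw [iterate_of_halted (w := w) htT (by rw [h3]; exact h4), h3, h5]
          · rw [← iterate_of_halted (w := w) htT hT, h3, h5]
        rw [e]
        by_cases hg : Good (out s)
        · rw [ind_true hg]; exact ind_le_one _
        · rw [ind_false (fun h => hg h.2)]; exact bot_le
      · rw [ind_false (fun h => hT h.1)]; exact bot_le
    · refine le_trans ?_ (hH s hs hh)
      have e1 : A w m (fun y => pg P w Good (plc c.drawn y) c T) =
          A w (s.length + m) (fun y => pg P w Good (plc c.drawn y) c T) := by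
        rw [A_loc hm (pg_loc Good c T), A_loc (show T ≤ s.length + m by omega) (pg_loc Good c T)]
      rw [e1]
      refine A_le_B S.hw m s.length _ _ fun x hx => ?_
      obtain ⟨t, c', h1, h2, h3, h4, h5⟩ := S.round' hs hh hc x hx
      by_cases htT : t ≤ T
      · have h6 : ∀ y, pg P w Good (plc c.drawn (sapp x y)) c T =
            pg P w Good (plc c'.drawn y) c' (T - t) := by
          intro y
          rw [pg_split Good _ c htT, (h5 y).1]
          unfold pg
          rw [(h5 y).2]
        simp only [h6]
        exact ih (T - t) (by omega) _ c' (S.closed s hs hh _ (by rw [length_bits, hx])) h3 m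
          (by omega)
      · have h6 : ∀ y, pg P w Good (plc c.drawn (sapp x y)) c T = 0 := by
          intro y
          refine ind_false fun h => ?_
          have := not_halted_of_le (P := P) (w := w) (ρ := plc c.drawn (sapp x y)) (c := c)
            (show T ≤ t by omega) (by rw [(h5 y).1]; exact S.nh _ _ h3)
          rw [this] at h
          exact Bool.noConfusion h.1
        simp only [h6, A_const]
        exact bot_le

/-- subharmonic functions bound the output probabilities from below -/
theorem le_pg (S : Sim P w input f R s0 out T0 q) (Good : List ℕ → Prop) (H : List Bool → ℝ≥0∞)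
    (hH : ∀ s ∈ R, s.head? ≠ some true → H s ≤ B s.length (fun τ => H (f s τ)))
    (hH' : ∀ s ∈ R, s.head? = some true → H s ≤ ind (Good (out s)))
    (hH1 : ∀ s ∈ R, H s ≤ 1) :
    ∀ (T : ℕ) (s : List Bool) (c : Cfg P.numRegs), s ∈ R → S.Hd s c → ∀ m, T ≤ m →
      H s ≤ A w m (fun y => pg P w Good (plc c.drawn y) c T + pn P w (plc c.drawn y) c T) := by
  intro T
  induction T using Nat.strong_induction_on with
  | _ T ih =>
    intro s c hs hc m hm
    by_cases hh : s.head? = some true
    · refine (hH' s hs hh).trans ?_
      rw [← A_const (w := w) (n := m) (ind (Good (out s)))]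
      refine A_mono fun y => ?_
      obtain ⟨t, c', h2, h3, h4, h5⟩ := S.stop s hs hh c hc (plc c.drawn y)
      unfold pg pn
      by_cases hT : ((step P w (plc c.drawn y))^[T] c).halted = true
      · have e : ((step P w (plc c.drawn y))^[T] c).output = out s := by
          rcases le_total t T with htT | htT
          · rw [iterate_of_halted (w := w) htT (by rw [h3]; exact h4), h3, h5]
          · rw [← iterate_of_halted (w := w) htT hT, h3, h5]
        rw [e]
        by_cases hg : Good (out s)
        · rw [ind_true hg, ind_true (p := _ ∧ _) ⟨hT, hg⟩]; exact le_add_right le_rfl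
        · rw [ind_false hg]; exact bot_le
      · rw [ind_true (p := ((step P w (plc c.drawn y))^[T] c).halted = false) (by simpa using hT)]
        exact (ind_le_one _).trans (le_add_left le_rfl)
    · refine (hH s hs hh).trans ?_
      have e1 : A w m (fun y => pg P w Good (plc c.drawn y) c T + pn P w (plc c.drawn y) c T) =
          A w (s.length + m)
            (fun y => pg P w Good (plc c.drawn y) c T + pn P w (plc c.drawn y) c T) := by
        rw [A_add, A_add, A_loc hm (pg_loc Good c T),
          A_loc (show T ≤ s.length + m by omega) (pg_loc Good c T), A_loc hm (pn_loc c T),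
          A_loc (show T ≤ s.length + m by omega) (pn_loc c T)]
      rw [e1]
      refine B_le_A S.hw m s.length _ _ fun x hx => ?_
      obtain ⟨t, c', h1, h2, h3, h4, h5⟩ := S.round' hs hh hc x hx
      have hcl := S.closed s hs hh (bits w x) (by rw [length_bits, hx])
      by_cases htT : t ≤ T
      · have h6 : ∀ y, pg P w Good (plc c.drawn (sapp x y)) c T =
            pg P w Good (plc c'.drawn y) c' (T - t) := by
          intro y
          rw [pg_split Good _ c htT, (h5 y).1]
          unfold pg
          rw [(h5 y).2]
        have h7 : ∀ y, pn P w (plc c.drawn (sapp x y)) c T =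
            pn P w (plc c'.drawn y) c' (T - t) := by
          intro y
          rw [pn_split _ c htT, (h5 y).1]
          unfold pn
          rw [(h5 y).2]
        simp only [h6, h7]
        exact ih (T - t) (by omega) _ c' hcl h3 m (by omega)
      · have h6 : ∀ y, pn P w (plc c.drawn (sapp x y)) c T = 1 := by
          intro y
          refine ind_true ?_
          exact not_halted_of_le (P := P) (w := w) (ρ := plc c.drawn (sapp x y)) (c := c)
            (show T ≤ t by omega) (by rw [(h5 y).1]; exact S.nh _ _ h3)
        simp only [h6]
        refine (hH1 _ hcl).trans ?_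
        rw [A_add, A_const]
        exact le_add_left le_rfl

/-- **Output probabilities.** -/
theorem probHaltsWith_eq (S : Sim P w input f R s0 out T0 q) (Good : List ℕ → Prop)
    (H : List Bool → ℝ≥0∞)
    (hH : ∀ s ∈ R, s.head? ≠ some true → H s = B s.length (fun τ => H (f s τ)))
    (hH' : ∀ s ∈ R, s.head? = some true → H s = ind (Good (out s)))
    (hH1 : ∀ s ∈ R, H s ≤ 1) (hfin : expectedTime P w input ≠ ⊤) :
    ENNReal.ofReal (probHaltsWith P w input Good) = H s0 := by
  obtain ⟨t, c, h2, h3, h4, h5⟩ := S.start'
  have hprob : ∀ T E, 0 ≤ probAfter P w input T E ∧ probAfter P w input T E ≤ 1 := by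
    intro T E
    unfold probAfter Crest.FinProb.uniformProb
    constructor
    · positivity
    · apply div_le_one_of_le₀
      · exact_mod_cast Finset.card_le_univ _
      · positivity
  -- the two bounds at time `T`
  have hup : ∀ T, ENNReal.ofReal (probAfter P w input T
      fun c => c.halted = true ∧ Good c.output) ≤ H s0 := by
    intro T
    rw [ofReal_probAfter]
    by_cases htT : t ≤ T
    · have h6 : ∀ y, ind ((run P w y input T).halted = true ∧ Good (run P w y input T).output) =
          pg P w Good (plc c.drawn y) c (T - t) := by
        intro y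
        have := pg_split (w := w) Good y (init P w input) htT
        rw [h5 y] at this
        rw [h4, plc_zero, ← this]
        rfl
      simp only [h6]
      exact S.pg_le Good H (fun s hs hh => (hH s hs hh).ge) (fun s hs hh => (hH' s hs hh).ge)
        (T - t) s0 c S.mem0 h3 T (by omega)
    · have h6 : ∀ y, ind ((run P w y input T).halted = true ∧ Good (run P w y input T).output) =
          0 := by
        intro y
        refine ind_false fun h => ?_
        have := not_halted_of_le (P := P) (w := w) (ρ := y) (c := init P w input)
          (show T ≤ t by omega) (by rw [h5]; exact S.nh _ _ h3)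
        have h7 := h.1
        unfold run at h7
        rw [this] at h7
        exact Bool.noConfusion h7
      simp only [h6, A_const]
      exact bot_le
  have hlo : ∀ T, t ≤ T → H s0 ≤ ENNReal.ofReal (probAfter P w input T
      fun c => c.halted = true ∧ Good c.output) +
        ENNReal.ofReal (probAfter P w input T fun c => c.halted = false) := by
    intro T htT
    rw [ofReal_probAfter, ofReal_probAfter, ← A_add]
    have h6 : ∀ y, ind ((run P w y input T).halted = true ∧ Good (run P w y input T).output) =
        pg P w Good (plc c.drawn y) c (T - t) := by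
      intro y
      have := pg_split (w := w) Good y (init P w input) htT
      rw [h5 y] at this
      rw [h4, plc_zero, ← this]
      rfl
    have h7 : ∀ y, ind ((run P w y input T).halted = false) =
        pn P w (plc c.drawn y) c (T - t) := by
      intro y
      have := pn_split (w := w) y (init P w input) htT
      rw [h5 y] at this
      rw [h4, plc_zero, ← this]
      rfl
    simp only [h6, h7]
    exact S.le_pg Good H (fun s hs hh => (hH s hs hh).le) (fun s hs hh => (hH' s hs hh).le) hH1
      (T - t) s0 c S.mem0 h3 T (by omega)
  have hbdd : BddAbove (Set.range fun T => probAfter P w input T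
      fun c => c.halted = true ∧ Good c.output) :=
    ⟨1, by rintro _ ⟨T, rfl⟩; exact (hprob T _).2⟩
  apply le_antisymm
  · have hH0 : H s0 ≠ ⊤ := ne_top_of_le_ne_top (by simp) (hH1 s0 S.mem0)
    rw [← ENNReal.ofReal_toReal hH0]
    apply ENNReal.ofReal_le_ofReal
    apply ciSup_le
    intro T
    have := hup T
    rw [← ENNReal.ofReal_toReal hH0] at this
    exact (ENNReal.ofReal_le_ofReal_iff ENNReal.toReal_nonneg).1 this
  · have hlim := ENNReal.tendsto_atTop_zero_of_tsum_ne_top hfin
    have h1 : Filter.Tendsto (fun T => ENNReal.ofReal (probHaltsWith P w input Good) +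
        ENNReal.ofReal (probAfter P w input T fun c => c.halted = false)) Filter.atTop
        (nhds (ENNReal.ofReal (probHaltsWith P w input Good) + 0)) :=
      tendsto_const_nhds.add hlim
    rw [add_zero] at h1
    refine ge_of_tendsto h1 ?_
    filter_upwards [Filter.eventually_ge_atTop t] with T hT
    refine (hlo T hT).trans ?_
    refine add_le_add_left ?_ _
    apply ENNReal.ofReal_le_ofReal
    exact le_ciSup hbdd T

end Sim

end Crest.Agent.R309.RAM
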