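import Crest.Agent.R309.RAMDraw
import Crest.Agent.Lib.PT.Typed

/-!
# Boot, input encoding and output decoding on the word RAM
-/

set_option autoImplicit false

namespace Crest.Agent.R309.RAM

open Crest.WordRAM hiding init
open Crest.Agent.Lib.PT Function

/-! ### boot -/

/-- set up the constants -/
def boot1 : Prog :=
  .seq (.blk [.const 4 1, .const 5 2, .const 7 1, .add 8 7 7])
    (.loop (.zero 8) (.blk [.copy 7 8, .add 8 7 7]))

/-- sentinel of stack `k` -/
def sentinel (k : ℕ) : List Op := [.const 8 k, .add (12 + k) 7 8, .store 5 (12 + k)]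

/-- set up the stacks -/
def boot2 (K : ℕ) : Prog := .blk (.const 6 K :: (List.range K).flatMap sentinel)

/-- boot -/
def boot (K : ℕ) : Prog := .seq boot1 (boot2 K)

theorem boot1_loop {w : ℕ} (ρ : ℕ → ℕ) : ∀ (i : ℕ) (σ : St), i < w →
    σ.regs 7 = 2 ^ (w - 1 - i) → σ.regs 8 = 2 ^ (w - i) % 2 ^ w →
    ∃ σ' t, Ex w ρ (.loop (.zero 8) (.blk [.copy 7 8, .add 8 7 7])) σ σ' t ∧ t ≤ 1 + 4 * i ∧
      σ'.regs 7 = 2 ^ (w - 1) ∧ (∀ j, j ≠ 7 → j ≠ 8 → σ'.regs j = σ.regs j) ∧ σ'.mem = σ.mem ∧
      σ'.drawn = σ.drawn := by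
  intro i
  induction i with
  | zero =>
    intro σ hi h7 h8
    refine ⟨σ, 1, Ex.loop_done ?_, by omega, by simpa using h7, fun _ _ _ => rfl, rfl, rfl⟩
    show σ.regs 8 = 0
    rw [h8]
    simp
  | succ i ih =>
    intro σ hi h7 h8
    have h8' : σ.regs 8 = 2 ^ (w - (i + 1)) := by
      rw [h8]
      exact Nat.mod_eq_of_lt (Nat.pow_lt_pow_right (by omega) (by omega))
    set σ1 := effs w ρ [.copy 7 8, .add 8 7 7] σ with hσ1
    have a7 : σ1.regs 7 = σ.regs 8 := by simp [hσ1, Op.eff]
    have a8 : σ1.regs 8 = (σ.regs 8 + σ.regs 8) % 2 ^ w := by simp [hσ1, Op.eff]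
    have aj : ∀ j, j ≠ 7 → j ≠ 8 → σ1.regs j = σ.regs j := by
      intro j h1 h2
      simp [hσ1, Op.eff, h1, h2]
    obtain ⟨σ', t, e, ht, c7, cj, cm, cd⟩ := ih σ1 (by omega) (by
      rw [a7, h8']
      congr 1
      omega) (by
      rw [a8, h8', ← two_mul, ← pow_succ']
      congr 2
      omega)
    refine ⟨σ', _, Ex.loop_step ?_ (Ex.blk _ _) e, ?_, c7, ?_, ?_, ?_⟩
    · show ¬ σ.regs 8 = 0
      rw [h8']
      positivity
    · simp only [List.length_cons, List.length_nil]
      omega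
    · intro j h1 h2
      rw [cj j h1 h2, aj j h1 h2]
    · rw [cm]; rfl
    · rw [cd]; rfl

theorem boot2_stacks {w : ℕ} (ρ : ℕ → ℕ) (K : ℕ) (hK : 2 * K < 2 ^ (w - 1)) (hw : 1 ≤ w) (σ : St)
    (h5 : σ.regs 5 = 2) (h7 : σ.regs 7 = 2 ^ (w - 1)) :
    (∀ k, k < K → (effs w ρ ((List.range K).flatMap sentinel) σ).regs (12 + k) = 2 ^ (w - 1) + k) ∧
    (∀ k, k < K → (effs w ρ ((List.range K).flatMap sentinel) σ).mem (2 ^ (w - 1) + k) = 2) ∧
    (∀ j, j ≠ 8 → j < 12 → (effs w ρ ((List.range K).flatMap sentinel) σ).regs j = σ.regs j) ∧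
    (∀ a, a < 2 ^ (w - 1) → (effs w ρ ((List.range K).flatMap sentinel) σ).mem a = σ.mem a) ∧
    (effs w ρ ((List.range K).flatMap sentinel) σ).drawn = σ.drawn := by
  have hB := two_pow_half hw
  induction K with
  | zero => simp
  | succ K ih =>
    obtain ⟨i1, i2, i3, i4, i5⟩ := ih (by omega)
    rw [List.range_succ, List.flatMap_append, effs_append, List.flatMap_singleton]
    set σ1 := effs w ρ ((List.range K).flatMap sentinel) σ
    have e : effs w ρ (sentinel K) σ1 =
        { regs := update (update σ1.regs 8 K) (12 + K) (2 ^ (w - 1) + K)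
          mem := update σ1.mem (2 ^ (w - 1) + K) 2
          drawn := σ1.drawn } := by
      have g5 : σ1.regs 5 = 2 := by rw [i3 5 (by omega) (by omega), h5]
      have g7 : σ1.regs 7 = 2 ^ (w - 1) := by rw [i3 7 (by omega) (by omega), h7]
      simp only [sentinel, effs_cons, effs_nil, Op.eff]
      rw [update_of_ne (show (7 : ℕ) ≠ 8 by omega), update_self, g7,
        Nat.mod_eq_of_lt (show K < 2 ^ w by omega), update_self,
        update_of_ne (show (5 : ℕ) ≠ 12 + K by omega), update_of_ne (show (5 : ℕ) ≠ 8 by omega), g5,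
        Nat.mod_eq_of_lt (show 2 ^ (w - 1) + K < 2 ^ w by omega)]
    rw [e]
    refine ⟨?_, ?_, ?_, ?_, i5⟩
    · intro k hk
      show update _ _ _ _ = _
      by_cases hkK : k = K
      · subst hkK; rw [update_self]
      · rw [update_of_ne (by omega), update_of_ne (by omega)]
        exact i1 k (by omega)
    · intro k hk
      show update _ _ _ _ = _
      by_cases hkK : k = K
      · subst hkK; rw [update_self]
      · rw [update_of_ne (by omega)]
        exact i2 k (by omega)
    · intro j h1 h2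
      show update _ _ _ _ = _
      rw [update_of_ne (by omega), update_of_ne (by omega)]
      exact i3 j h1 h2
    · intro a ha
      show update _ _ _ _ = _
      rw [update_of_ne (by omega)]
      exact i4 a ha

theorem boot_run {w K : ℕ} (ρ : ℕ → ℕ) (hw : 2 ≤ w) (hK : 2 * K < 2 ^ (w - 1)) (σ : St)
    (h3 : σ.regs 3 = 0) :
    ∃ σ' t, Ex w ρ (boot K) σ σ' t ∧ t ≤ 4 * w + 3 * K + 6 ∧ Rep w K (init []) σ' ∧
      σ'.regs 0 = σ.regs 0 ∧ (∀ a, a < 2 ^ (w - 1) → σ'.mem a = σ.mem a) ∧ σ'.drawn = σ.drawn := by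
  have hB := two_pow_half (show 1 ≤ w by omega)
  have hp : 2 ^ 2 ≤ 2 ^ w := Nat.pow_le_pow_right (by omega) hw
  set σ1 := effs w ρ [.const 4 1, .const 5 2, .const 7 1, .add 8 7 7] σ with hσ1
  have m1 : 1 % 2 ^ w = 1 := Nat.mod_eq_of_lt (by omega)
  have m2 : 2 % 2 ^ w = 2 := Nat.mod_eq_of_lt (by omega)
  have a4 : σ1.regs 4 = 1 := by simp [hσ1, Op.eff, m1]
  have a5 : σ1.regs 5 = 2 := by simp [hσ1, Op.eff, m2]
  have a7 : σ1.regs 7 = 1 := by simp [hσ1, Op.eff, m1]
  have a8 : σ1.regs 8 = 2 := by simp [hσ1, Op.eff, m1, m2]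
  have a3 : σ1.regs 3 = 0 := by simp [hσ1, Op.eff, h3]
  have a0 : σ1.regs 0 = σ.regs 0 := by simp [hσ1, Op.eff]
  obtain ⟨σ2, t, e, ht, c7, cj, cm, cd⟩ := boot1_loop (w := w) ρ (w - 1) σ1 (by omega)
    (by rw [a7]; simp) (by
      rw [a8, show w - (w - 1) = 1 by omega]
      simpa using m2.symm)
  set σ3 := effs w ρ [.const 6 K] σ2 with hσ3
  have b6 : σ3.regs 6 = K := by
    simp only [hσ3, effs_cons, effs_nil, Op.eff, update_self]
    exact Nat.mod_eq_of_lt (by omega)
  have bj : ∀ j, j ≠ 6 → σ3.regs j = σ2.regs j := by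
    intro j hj
    simp [hσ3, Op.eff, hj]
  obtain ⟨s1, s2, s3, s4, s5⟩ := boot2_stacks ρ K hK (by omega) σ3
    (by rw [bj 5 (by omega), cj 5 (by omega) (by omega), a5])
    (by rw [bj 7 (by omega), c7])
  refine ⟨effs w ρ (.const 6 K :: (List.range K).flatMap sentinel) σ2, _,
    Ex.seq (Ex.seq (Ex.blk _ _) e) (Ex.blk _ _), ?_, ?_, ?_, ?_, ?_⟩
  · have hlen : ((List.range K).flatMap sentinel).length = 3 * K := by
      clear s1 s2 s3 s4 s5 hK b6 bj hσ3 σ3
      induction K with
      | zero => simp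
      | succ K ih =>
        rw [List.range_succ, List.flatMap_append, List.length_append, ih, List.flatMap_singleton]
        simp [sentinel]
        omega
    simp only [List.length_cons, List.length_nil, hlen]
    omega
  · rw [effs_cons]
    change Rep w K (init []) (effs w ρ ((List.range K).flatMap sentinel) σ3)
    constructor
    · rw [s3 3 (by omega) (by omega), bj 3 (by omega), cj 3 (by omega) (by omega), a3]
    · rw [s3 4 (by omega) (by omega), bj 4 (by omega), cj 4 (by omega) (by omega), a4]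
    · rw [s3 5 (by omega) (by omega), bj 5 (by omega), cj 5 (by omega) (by omega), a5]
    · rw [s3 6 (by omega) (by omega), b6]
    · rw [s3 7 (by omega) (by omega), bj 7 (by omega), c7]
    · intro k hk
      rw [s1 k hk]
      have : (init [] : Store) k = [] := by unfold init; split <;> rfl
      rw [this]
      simp [adr]
    · intro k hk
      have : (init [] : Store) k = [] := by unfold init; split <;> rfl
      rw [this]
      show _ = 2
      rw [← s2 k hk]
      simp [adr]
  · rw [effs_cons]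
    change (effs w ρ ((List.range K).flatMap sentinel) σ3).regs 0 = σ.regs 0
    rw [s3 0 (by omega) (by omega), bj 0 (by omega), cj 0 (by omega) (by omega), a0]
  · intro a ha
    rw [effs_cons]
    change (effs w ρ ((List.range K).flatMap sentinel) σ3).mem a = σ.mem a
    rw [s4 a ha]
    change σ2.mem a = σ.mem a
    rw [cm]
    rfl
  · rw [effs_cons]
    change (effs w ρ ((List.range K).flatMap sentinel) σ3).drawn = σ.drawn
    rw [s5]
    change σ2.drawn = σ.drawn
    rw [cd]
    rfl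

end Crest.Agent.R309.RAM
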