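import Mathlib
import Crest.Prelude.Def_WordRAM

/-!
# A structured language compiled to the word RAM

* `Op`: straight-line instructions with registers named by natural numbers.
* `Prog`: blocks, sequencing, conditionals, `loop c p` (repeat `p` until `c` holds).
* `Ex w ρ p s s' t`: big-step semantics with the exact number of machine steps.
* `Prog.comp`: compilation; `Ex.run`: correctness.
-/

set_option autoImplicit false

namespace Crest.Agent.R309.RAM

open Crest.WordRAM

/-- machine state without control -/
structure St where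
  /-- registers -/
  regs : ℕ → ℕ
  /-- memory -/
  mem : ℕ → ℕ
  /-- number of random words drawn -/
  drawn : ℕ

/-- straight-line instructions -/
inductive Op
  | const (d v : ℕ)
  | copy (d s : ℕ)
  | add (d a b : ℕ)
  | sub (d a b : ℕ)
  | mul (d a b : ℕ)
  | quot (d a b : ℕ)
  | rem (d a b : ℕ)
  | load (d a : ℕ)
  | store (s a : ℕ)
  | rand (d : ℕ)

/-- conditions -/
inductive Cond
  | zero (a : ℕ)
  | eq (a b : ℕ)
  | lt (a b : ℕ)

namespace Op

/-- effect of an instruction -/
def eff (w : ℕ) (ρ : ℕ → ℕ) (i : Op) (s : St) : St :=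
  match i with
  | const d v => { s with regs := Function.update s.regs d (v % 2 ^ w) }
  | copy d a => { s with regs := Function.update s.regs d (s.regs a) }
  | add d a b => { s with regs := Function.update s.regs d ((s.regs a + s.regs b) % 2 ^ w) }
  | sub d a b => { s with regs := Function.update s.regs d (s.regs a - s.regs b) }
  | mul d a b => { s with regs := Function.update s.regs d ((s.regs a * s.regs b) % 2 ^ w) }
  | quot d a b => { s with regs := Function.update s.regs d (s.regs a / s.regs b) }
  | rem d a b => { s with regs := Function.update s.regs d (s.regs a % s.regs b) }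
  | load d a => { s with regs := Function.update s.regs d (s.mem (s.regs a)) }
  | store a b => { s with mem := Function.update s.mem (s.regs b) (s.regs a) }
  | rand d => { s with regs := Function.update s.regs d (ρ s.drawn % 2 ^ w), drawn := s.drawn + 1 }

/-- all registers used are below `r` -/
def ok (r : ℕ) : Op → Prop
  | const d _ => d < r
  | copy d a => d < r ∧ a < r
  | add d a b => d < r ∧ a < r ∧ b < r
  | sub d a b => d < r ∧ a < r ∧ b < r
  | mul d a b => d < r ∧ a < r ∧ b < r
  | quot d a b => d < r ∧ a < r ∧ b < r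
  | rem d a b => d < r ∧ a < r ∧ b < r
  | load d a => d < r ∧ a < r
  | store a b => a < r ∧ b < r
  | rand d => d < r

instance (r : ℕ) (i : Op) : Decidable (i.ok r) := by
  cases i <;> unfold ok <;> infer_instance

/-- the machine instruction -/
def toInstr (r : ℕ) [NeZero r] : Op → Instr r
  | const d v => .const (Fin.ofNat r d) v
  | copy d a => .copy (Fin.ofNat r d) (Fin.ofNat r a)
  | add d a b => .add (Fin.ofNat r d) (Fin.ofNat r a) (Fin.ofNat r b)
  | sub d a b => .sub (Fin.ofNat r d) (Fin.ofNat r a) (Fin.ofNat r b)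
  | mul d a b => .mul (Fin.ofNat r d) (Fin.ofNat r a) (Fin.ofNat r b)
  | quot d a b => .quot (Fin.ofNat r d) (Fin.ofNat r a) (Fin.ofNat r b)
  | rem d a b => .rem (Fin.ofNat r d) (Fin.ofNat r a) (Fin.ofNat r b)
  | load d a => .load (Fin.ofNat r d) (Fin.ofNat r a)
  | store a b => .store (Fin.ofNat r a) (Fin.ofNat r b)
  | rand d => .rand (Fin.ofNat r d)

end Op

namespace Cond

/-- truth of a condition -/
def eval (c : Cond) (s : St) : Prop :=
  match c with
  | zero a => s.regs a = 0
  | eq a b => s.regs a = s.regs b
  | lt a b => s.regs a < s.regs b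

instance (c : Cond) (s : St) : Decidable (c.eval s) := by
  cases c <;> unfold eval <;> infer_instance

/-- registers below `r` -/
def ok (r : ℕ) : Cond → Prop
  | zero a => a < r
  | eq a b => a < r ∧ b < r
  | lt a b => a < r ∧ b < r

instance (r : ℕ) (i : Cond) : Decidable (i.ok r) := by
  cases i <;> unfold ok <;> infer_instance

/-- the conditional jump -/
def jmp (r : ℕ) [NeZero r] (c : Cond) (l : ℕ) : Instr r :=
  match c with
  | zero a => .jumpIfZero (Fin.ofNat r a) l
  | eq a b => .jumpIfEq (Fin.ofNat r a) (Fin.ofNat r b) l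
  | lt a b => .jumpIfLt (Fin.ofNat r a) (Fin.ofNat r b) l

end Cond

/-- structured programs -/
inductive Prog
  | blk (l : List Op)
  | seq (p q : Prog)
  | ite (c : Cond) (p q : Prog)
  | loop (c : Cond) (p : Prog)

namespace Prog

/-- all registers below `r` -/
def ok (r : ℕ) : Prog → Prop
  | blk l => ∀ i ∈ l, i.ok r
  | seq p q => p.ok r ∧ q.ok r
  | ite c p q => c.ok r ∧ p.ok r ∧ q.ok r
  | loop c p => c.ok r ∧ p.ok r

/-- code length -/
def len : Prog → ℕ
  | blk l => l.length
  | seq p q => p.len + q.len
  | ite _ p q => q.len + 2 + p.len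
  | loop _ p => p.len + 2

/-- compilation at offset `o` -/
def comp (r : ℕ) [NeZero r] : Prog → ℕ → List (Instr r)
  | blk l, _ => l.map (Op.toInstr r)
  | seq p q, o => p.comp r o ++ q.comp r (o + p.len)
  | ite c p q, o =>
      c.jmp r (o + 2 + q.len) :: (q.comp r (o + 1) ++ (.jump (o + 2 + q.len + p.len) ::
        p.comp r (o + 2 + q.len)))
  | loop c p, o => c.jmp r (o + p.len + 2) :: (p.comp r (o + 1) ++ [.jump o])

theorem length_comp (r : ℕ) [NeZero r] (p : Prog) : ∀ o, (p.comp r o).length = p.len := by
  induction p with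
  | blk l => intro o; simp [comp, len]
  | seq p q ihp ihq => intro o; simp [comp, len, ihp, ihq]
  | ite c p q ihp ihq => intro o; simp [comp, len, ihp, ihq]; omega
  | loop c p ih => intro o; simp [comp, len, ih]

end Prog

/-- effect of a block -/
def effs (w : ℕ) (ρ : ℕ → ℕ) (l : List Op) (s : St) : St :=
  l.foldl (fun s i => i.eff w ρ s) s

@[simp] theorem effs_nil (w : ℕ) (ρ : ℕ → ℕ) (s : St) : effs w ρ [] s = s := rfl
@[simp] theorem effs_cons (w : ℕ) (ρ : ℕ → ℕ) (i : Op) (l : List Op) (s : St) :
    effs w ρ (i :: l) s = effs w ρ l (i.eff w ρ s) := rfl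

/-- big-step semantics with step counts -/
inductive Ex (w : ℕ) (ρ : ℕ → ℕ) : Prog → St → St → ℕ → Prop
  | blk (l : List Op) (s : St) : Ex w ρ (.blk l) s (effs w ρ l s) l.length
  | seq {p q : Prog} {s s' s'' : St} {t t' : ℕ} :
      Ex w ρ p s s' t → Ex w ρ q s' s'' t' → Ex w ρ (.seq p q) s s'' (t + t')
  | ite_true {c : Cond} {p q : Prog} {s s' : St} {t : ℕ} :
      c.eval s → Ex w ρ p s s' t → Ex w ρ (.ite c p q) s s' (1 + t)
  | ite_false {c : Cond} {p q : Prog} {s s' : St} {t : ℕ} :
      ¬ c.eval s → Ex w ρ q s s' t → Ex w ρ (.ite c p q) s s' (1 + t + 1)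
  | loop_done {c : Cond} {p : Prog} {s : St} : c.eval s → Ex w ρ (.loop c p) s s 1
  | loop_step {c : Cond} {p : Prog} {s s' s'' : St} {t t' : ℕ} :
      ¬ c.eval s → Ex w ρ p s s' t → Ex w ρ (.loop c p) s' s'' t' →
        Ex w ρ (.loop c p) s s'' (1 + t + 1 + t')

/-- the machine configuration of a state -/
def cfg (r pc : ℕ) (s : St) : Cfg r where
  pc := pc
  halted := false
  regs := fun j => s.regs j
  mem := s.mem
  drawn := s.drawn

/-- the code `l` sits at position `o` of `P` -/
def At {r : ℕ} (code : List (Instr r)) (o : ℕ) (l : List (Instr r)) : Prop :=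
  ∀ i, i < l.length → code[o + i]? = l[i]?

theorem At.app {r : ℕ} {code : List (Instr r)} {o : ℕ} {l l' : List (Instr r)}
    (h : At code o (l ++ l')) : At code o l ∧ At code (o + l.length) l' := by
  constructor
  · intro i hi
    rw [h i (by simp; omega), List.getElem?_append_left hi]
  · intro i hi
    have := h (l.length + i) (by simp; omega)
    rw [List.getElem?_append_right (by omega)] at this
    rw [add_assoc, this]
    congr 1
    omega

theorem At.cons {r : ℕ} {code : List (Instr r)} {o : ℕ} {a : Instr r} {l : List (Instr r)}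
    (h : At code o (a :: l)) : code[o]? = some a ∧ At code (o + 1) l := by
  constructor
  · have := h 0 (by simp)
    simpa using this
  · intro i hi
    have := h (i + 1) (by simp; omega)
    rw [List.getElem?_cons_succ] at this
    rw [← this]
    congr 1
    omega

theorem At.self {r : ℕ} (code : List (Instr r)) : At code 0 code := by
  intro i _
  rw [Nat.zero_add]

theorem ofNat_val {r : ℕ} [NeZero r] {a : ℕ} (h : a < r) : ((Fin.ofNat r a : Fin r) : ℕ) = a := by
  simp [Fin.ofNat, Nat.mod_eq_of_lt h]

theorem writeReg_eq {r : ℕ} [NeZero r] {d : ℕ} (h : d < r) (R : ℕ → ℕ) (v : ℕ) :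
    writeReg (fun j : Fin r => R j) (Fin.ofNat r d) v = fun j : Fin r => Function.update R d v j := by
  funext j
  unfold writeReg
  by_cases hj : (j : ℕ) = d
  · rw [if_pos, hj, Function.update_self]
    apply Fin.ext
    rw [ofNat_val h, hj]
  · rw [if_neg, Function.update_of_ne hj]
    intro h'
    apply hj
    rw [h', ofNat_val h]

theorem writeMem_eq (M : ℕ → ℕ) (a v : ℕ) : writeMem M a v = Function.update M a v := by
  funext i
  unfold writeMem
  rw [Function.update_apply]

theorem step_op {P : Program} [NeZero P.numRegs] {w : ℕ} {ρ : ℕ → ℕ} {i : Op} {pc : ℕ} {s : St}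
    (hok : i.ok P.numRegs) (h : P.code[pc]? = some (i.toInstr P.numRegs)) :
    step P w ρ (cfg P.numRegs pc s) = cfg P.numRegs (pc + 1) (i.eff w ρ s) := by
  unfold step
  cases i with
  | const d v =>
    simp only [Op.toInstr] at h
    simp only [cfg, Bool.false_eq_true, if_false, h, Op.eff, writeReg_eq (show d < P.numRegs from hok)]
  | copy d a =>
    simp only [Op.toInstr] at h
    simp only [cfg, Bool.false_eq_true, if_false, h, Op.eff,
      writeReg_eq (show d < P.numRegs from hok.1), ofNat_val (show a < P.numRegs from hok.2)]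
  | add d a b =>
    simp only [Op.toInstr] at h
    simp only [cfg, Bool.false_eq_true, if_false, h, Op.eff,
      writeReg_eq (show d < P.numRegs from hok.1), ofNat_val (show a < P.numRegs from hok.2.1),
      ofNat_val (show b < P.numRegs from hok.2.2)]
  | sub d a b =>
    simp only [Op.toInstr] at h
    simp only [cfg, Bool.false_eq_true, if_false, h, Op.eff,
      writeReg_eq (show d < P.numRegs from hok.1), ofNat_val (show a < P.numRegs from hok.2.1),
      ofNat_val (show b < P.numRegs from hok.2.2)]
  | mul d a b =>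
    simp only [Op.toInstr] at h
    simp only [cfg, Bool.false_eq_true, if_false, h, Op.eff,
      writeReg_eq (show d < P.numRegs from hok.1), ofNat_val (show a < P.numRegs from hok.2.1),
      ofNat_val (show b < P.numRegs from hok.2.2)]
  | quot d a b =>
    simp only [Op.toInstr] at h
    simp only [cfg, Bool.false_eq_true, if_false, h, Op.eff,
      writeReg_eq (show d < P.numRegs from hok.1), ofNat_val (show a < P.numRegs from hok.2.1),
      ofNat_val (show b < P.numRegs from hok.2.2)]
  | rem d a b =>
    simp only [Op.toInstr] at h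
    simp only [cfg, Bool.false_eq_true, if_false, h, Op.eff,
      writeReg_eq (show d < P.numRegs from hok.1), ofNat_val (show a < P.numRegs from hok.2.1),
      ofNat_val (show b < P.numRegs from hok.2.2)]
  | load d a =>
    simp only [Op.toInstr] at h
    simp only [cfg, Bool.false_eq_true, if_false, h, Op.eff,
      writeReg_eq (show d < P.numRegs from hok.1), ofNat_val (show a < P.numRegs from hok.2)]
  | store a b =>
    simp only [Op.toInstr] at h
    simp only [cfg, Bool.false_eq_true, if_false, h, Op.eff, writeMem_eq,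
      ofNat_val (show a < P.numRegs from hok.1), ofNat_val (show b < P.numRegs from hok.2)]
  | rand d =>
    simp only [Op.toInstr] at h
    simp only [cfg, Bool.false_eq_true, if_false, h, Op.eff, writeReg_eq (show d < P.numRegs from hok)]

theorem step_jmp {P : Program} [NeZero P.numRegs] {w : ℕ} {ρ : ℕ → ℕ} {c : Cond} {pc l : ℕ} {s : St}
    (hok : c.ok P.numRegs) (h : P.code[pc]? = some (c.jmp P.numRegs l)) :
    step P w ρ (cfg P.numRegs pc s) = cfg P.numRegs (if c.eval s then l else pc + 1) s := by
  unfold step
  cases c with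
  | zero a =>
    simp only [Cond.jmp] at h
    simp only [cfg, Bool.false_eq_true, if_false, h, Cond.eval, ofNat_val (show a < P.numRegs from hok)]
  | eq a b =>
    simp only [Cond.jmp] at h
    simp only [cfg, Bool.false_eq_true, if_false, h, Cond.eval,
      ofNat_val (show a < P.numRegs from hok.1), ofNat_val (show b < P.numRegs from hok.2)]
  | lt a b =>
    simp only [Cond.jmp] at h
    simp only [cfg, Bool.false_eq_true, if_false, h, Cond.eval,
      ofNat_val (show a < P.numRegs from hok.1), ofNat_val (show b < P.numRegs from hok.2)]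

theorem step_jump {P : Program} {w : ℕ} {ρ : ℕ → ℕ} {pc l : ℕ} {s : St}
    (h : P.code[pc]? = some (.jump l)) :
    step P w ρ (cfg P.numRegs pc s) = cfg P.numRegs l s := by
  unfold step
  simp only [cfg, Bool.false_eq_true, if_false, h]

theorem run_ops {P : Program} [NeZero P.numRegs] {w : ℕ} {ρ : ℕ → ℕ} (l : List Op) :
    ∀ {pc : ℕ} {s : St}, (∀ i ∈ l, i.ok P.numRegs) → At P.code pc (l.map (Op.toInstr P.numRegs)) →
    (step P w ρ)^[l.length] (cfg P.numRegs pc s) = cfg P.numRegs (pc + l.length) (effs w ρ l s) := by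
  induction l with
  | nil => intro pc s _ _; rfl
  | cons i l ih =>
    intro pc s hok h
    rw [List.map_cons] at h
    obtain ⟨h1, h2⟩ := h.cons
    rw [List.length_cons, Function.iterate_succ_apply, step_op (hok i (by simp)) h1,
      ih (fun j hj => hok j (by simp [hj])) h2, effs_cons]
    congr 1
    omega

/-- correctness of the compilation -/
theorem Ex.run {P : Program} [NeZero P.numRegs] {w : ℕ} {ρ : ℕ → ℕ} {p : Prog} {s s' : St} {t : ℕ}
    (h : Ex w ρ p s s' t) : ∀ {o : ℕ}, p.ok P.numRegs → At P.code o (p.comp P.numRegs o) →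
    (step P w ρ)^[t] (cfg P.numRegs o s) = cfg P.numRegs (o + p.len) s' := by
  induction h with
  | blk l s => intro o hok h; exact run_ops l hok h
  | @seq p q s s' s'' t t' _ _ ih1 ih2 =>
    intro o hok h
    obtain ⟨h1, h2⟩ := h.app
    rw [Prog.length_comp] at h2
    rw [add_comm t t', Function.iterate_add_apply, ih1 hok.1 h1, ih2 hok.2 h2]
    simp only [Prog.len, add_assoc]
  | @ite_true c p q s s' t hc _ ih =>
    intro o hok h
    obtain ⟨h1, h2⟩ := h.cons
    obtain ⟨h3, h4⟩ := h2.app
    obtain ⟨h5, h6⟩ := h4.cons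
    rw [Prog.length_comp] at h5 h6
    rw [add_comm 1 t, Function.iterate_add_apply, Function.iterate_one, step_jmp hok.1 h1, if_pos hc]
    have e : o + 1 + q.len + 1 = o + 2 + q.len := by omega
    rw [e] at h6
    rw [ih hok.2.1 h6]
    simp only [Prog.len]
    congr 1
    omega
  | @ite_false c p q s s' t hc _ ih =>
    intro o hok h
    obtain ⟨h1, h2⟩ := h.cons
    obtain ⟨h3, h4⟩ := h2.app
    obtain ⟨h5, h6⟩ := h4.cons
    rw [Prog.length_comp] at h5
    rw [show 1 + t + 1 = 1 + (t + 1) by omega, Function.iterate_add_apply,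
      Function.iterate_add_apply, Function.iterate_one, step_jmp hok.1 h1, if_neg hc,
      ih hok.2.2 h3, step_jump h5]
    simp only [Prog.len]
    congr 1
    omega
  | @loop_done c p s hc =>
    intro o hok h
    obtain ⟨h1, h2⟩ := h.cons
    rw [Function.iterate_one, step_jmp hok.1 h1, if_pos hc]
    simp only [Prog.len]
    congr 1
  | @loop_step c p s s' s'' t t' hc _ _ ih1 ih2 =>
    intro o hok h
    obtain ⟨h1, h2⟩ := h.cons
    obtain ⟨h3, h4⟩ := h2.app
    obtain ⟨h5, _⟩ := h4.cons
    rw [Prog.length_comp] at h5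
    rw [show 1 + t + 1 + t' = t' + (1 + (t + 1)) by omega, Function.iterate_add_apply,
      Function.iterate_add_apply, Function.iterate_add_apply, Function.iterate_one,
      step_jmp hok.1 h1, if_neg hc, ih1 hok.2 h3, step_jump h5, ih2 hok h]

/-- one iteration of a loop, from loop head to loop head -/
theorem loop_iter {P : Program} [NeZero P.numRegs] {w : ℕ} {ρ : ℕ → ℕ} {c : Cond} {p : Prog}
    {s s' : St} {t o : ℕ} (hc : ¬ c.eval s) (hp : Ex w ρ p s s' t) (hok : (Prog.loop c p).ok P.numRegs)
    (h : At P.code o ((Prog.loop c p).comp P.numRegs o)) :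
    (step P w ρ)^[t + 2] (cfg P.numRegs o s) = cfg P.numRegs o s' := by
  obtain ⟨h1, h2⟩ := h.cons
  obtain ⟨h3, h4⟩ := h2.app
  obtain ⟨h5, _⟩ := h4.cons
  rw [Prog.length_comp] at h5
  rw [show t + 2 = 1 + (t + 1) by omega, Function.iterate_add_apply, Function.iterate_add_apply,
    Function.iterate_one, step_jmp hok.1 h1, if_neg hc, hp.run hok.2 h3, step_jump h5]

end Crest.Agent.R309.RAM
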