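import Crest.Agent.R309.RAMAvg

/-!
# Expected time and output probabilities of a machine simulating a bit-tape process
-/

set_option autoImplicit false

namespace Crest.Agent.R309.RAM

open Crest.WordRAM
open Function
open scoped ENNReal

section locality

variable {P : Program} {w : ℕ}

theorem drawn_le_step (ρ : ℕ → ℕ) (c : Cfg P.numRegs) : c.drawn ≤ (step P w ρ c).drawn ∧
    (step P w ρ c).drawn ≤ c.drawn + 1 := by
  unfold step
  split
  · exact ⟨le_rfl, by omega⟩
  · dsimp only
    split <;> simp

theorem step_congr {ρ ρ' : ℕ → ℕ} {c : Cfg P.numRegs}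
    (h : ∀ i, c.drawn ≤ i → i < (step P w ρ c).drawn → ρ' i = ρ i) :
    step P w ρ' c = step P w ρ c := by
  by_cases hh : c.halted = true
  · unfold step
    rw [if_pos hh, if_pos hh]
  · by_cases hr : ∃ d, P.code[c.pc]? = some (.rand d)
    · obtain ⟨d, hd⟩ := hr
      have h1 : (step P w ρ c).drawn = c.drawn + 1 := by
        unfold step
        simp only [hh, hd]
        rfl
      have h2 := h c.drawn le_rfl (by omega)
      unfold step
      simp only [hd, h2]
    · unfold step
      rw [if_neg hh, if_neg hh]
      cases hcode : P.code[c.pc]? with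
      | none => rfl
      | some i =>
        cases i with
        | rand d => exact absurd ⟨d, hcode⟩ hr
        | _ => rfl

theorem drawn_le_iterate (ρ : ℕ → ℕ) (T : ℕ) (c : Cfg P.numRegs) :
    c.drawn ≤ ((step P w ρ)^[T] c).drawn ∧ ((step P w ρ)^[T] c).drawn ≤ c.drawn + T := by
  induction T generalizing c with
  | zero => exact ⟨le_rfl, le_rfl⟩
  | succ T ih =>
    rw [Function.iterate_succ_apply]
    have h1 := drawn_le_step (w := w) ρ c
    have h2 := ih (step P w ρ c)
    omega

theorem iterate_congr {ρ ρ' : ℕ → ℕ} (T : ℕ) {c : Cfg P.numRegs}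
    (h : ∀ i, c.drawn ≤ i → i < ((step P w ρ)^[T] c).drawn → ρ' i = ρ i) :
    (step P w ρ')^[T] c = (step P w ρ)^[T] c := by
  induction T generalizing c with
  | zero => rfl
  | succ T ih =>
    rw [Function.iterate_succ_apply] at h
    rw [Function.iterate_succ_apply, Function.iterate_succ_apply]
    have h1 := drawn_le_step (w := w) ρ c
    have h2 := drawn_le_iterate (w := w) ρ T (step P w ρ c)
    have e1 : step P w ρ' c = step P w ρ c :=
      step_congr fun i hi hi' => h i hi (by omega)
    rw [e1]
    exact ih fun i hi hi' => h i (by omega) hi'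

theorem step_halted {ρ : ℕ → ℕ} {c : Cfg P.numRegs} (h : c.halted = true) :
    step P w ρ c = c := by
  unfold step
  rw [if_pos h]

theorem iterate_halted {ρ : ℕ → ℕ} {c : Cfg P.numRegs} (h : c.halted = true) (T : ℕ) :
    (step P w ρ)^[T] c = c := by
  induction T with
  | zero => rfl
  | succ T ih => rw [Function.iterate_succ_apply, step_halted h, ih]

/-- not halted now, so not halted before -/
theorem not_halted_of_le {ρ : ℕ → ℕ} {c : Cfg P.numRegs} {t T : ℕ} (ht : t ≤ T)
    (h : ((step P w ρ)^[T] c).halted = false) : ((step P w ρ)^[t] c).halted = false := by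
  by_contra h'
  rw [Bool.not_eq_false] at h'
  rw [show T = (T - t) + t by omega, Function.iterate_add_apply, iterate_halted h', h'] at h
  exact Bool.noConfusion h

/-- halted now, so the same configuration later -/
theorem iterate_of_halted {ρ : ℕ → ℕ} {c : Cfg P.numRegs} {t T : ℕ} (ht : t ≤ T)
    (h : ((step P w ρ)^[t] c).halted = true) :
    (step P w ρ)^[T] c = (step P w ρ)^[t] c := by
  conv_lhs => rw [show T = (T - t) + t by omega, Function.iterate_add_apply, iterate_halted h]

end locality

/-- A program simulating a bit-tape process: states `s` (bit strings) in the set `R`; while the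
first bit of `s` is not `true`, draw `|s|` random bits `τ` and replace `s` by `f s τ`; `out s` is the
output when the first bit is `true`. -/
structure Sim (P : Program) (w : ℕ) (input : List ℕ) (f : List Bool → List Bool → List Bool)
    (R : Set (List Bool)) (s0 : List Bool) (out : List Bool → List ℕ) (T0 : ℕ)
    (q : List Bool → ℕ) where
  /-- the configuration is at the head of the main loop with state `s` -/
  Hd : List Bool → Cfg P.numRegs → Prop
  nh : ∀ s c, Hd s c → c.halted = false
  start : ∀ ρ, ∃ t c, t ≤ T0 ∧ (step P w ρ)^[t] (init P w input) = c ∧ Hd s0 c ∧ c.drawn = 0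
  round : ∀ s ∈ R, s.head? ≠ some true → ∀ c, Hd s c → ∀ ρ, ∃ t c', 1 ≤ t ∧ t ≤ q s ∧
    (step P w ρ)^[t] c = c' ∧ Hd (f s (rbits w ρ c.drawn s.length)) c' ∧
      c'.drawn = c.drawn + s.length
  stop : ∀ s ∈ R, s.head? = some true → ∀ c, Hd s c → ∀ ρ, ∃ t c', t ≤ q s ∧
    (step P w ρ)^[t] c = c' ∧ c'.halted = true ∧ c'.output = out s
  mem0 : s0 ∈ R
  closed : ∀ s ∈ R, s.head? ≠ some true → ∀ τ : List Bool, τ.length = s.length → f s τ ∈ R
  hw : 1 ≤ w

namespace Sim

variable {P : Program} {w : ℕ} {input : List ℕ} {f : List Bool → List Bool → List Bool}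
  {R : Set (List Bool)} {s0 : List Bool} {out : List Bool → List ℕ} {T0 : ℕ} {q : List Bool → ℕ}

/-- the stream `y` placed at offset `d` -/
def plc (d : ℕ) (y : ℕ → ℕ) : ℕ → ℕ := fun i => y (i - d)

theorem sapp_lt (x : List ℕ) (y y' : ℕ → ℕ) (i : ℕ) (hi : i < x.length) :
    sapp x y i = sapp x y' i := by
  induction x generalizing i with
  | nil => simp at hi
  | cons a x ih =>
    cases i with
    | zero => rfl
    | succ i => exact ih i (by simpa using hi)

theorem sapp_add (x : List ℕ) (y : ℕ → ℕ) (i : ℕ) : sapp x y (x.length + i) = y i := by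
  induction x with
  | nil => simp [sapp]
  | cons a x ih =>
    have : (a :: x).length + i = (x.length + i) + 1 := by simp; omega
    rw [this]
    exact ih

theorem rbits_sapp (w : ℕ) (x : List ℕ) (y : ℕ → ℕ) (d : ℕ) :
    rbits w (plc d (sapp x y)) d x.length = bits w x := by
  have key : ∀ (x : List ℕ) (ρ : ℕ → ℕ) (d : ℕ), (∀ i, i < x.length → ρ (d + i) = x[i]?.getD 0) →
      rbits w ρ d x.length = bits w x := by
    intro x
    induction x with
    | nil => intro ρ d _; rfl
    | cons a x ih =>
      intro ρ d h
      have h0 := h 0 (by simp)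
      simp only [add_zero, List.getElem?_cons_zero, Option.getD_some] at h0
      simp only [List.length_cons, rbits, bits, List.map_cons]
      congr 1
      · unfold bitAt
        rw [h0]
      · refine ih ρ (d + 1) fun i hi => ?_
        have := h (i + 1) (by simp; omega)
        rw [List.getElem?_cons_succ] at this
        rw [← this]
        congr 1
        omega
  have key2 : ∀ (x : List ℕ) (y : ℕ → ℕ) (i : ℕ), i < x.length → sapp x y i = x[i]?.getD 0 := by
    intro x
    induction x with
    | nil => intro y i hi; simp at hi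
    | cons a x ih =>
      intro y i hi
      cases i with
      | zero => rfl
      | succ i =>
        rw [List.getElem?_cons_succ]
        exact ih y i (by simpa using hi)
  refine key x _ d fun i hi => ?_
  unfold plc
  rw [Nat.add_sub_cancel_left]
  exact key2 x y i hi

/-- the round from a fixed configuration, uniformly in the later random words -/
theorem round' (S : Sim P w input f R s0 out T0 q) {s : List Bool} (hs : s ∈ R)
    (hh : s.head? ≠ some true) {c : Cfg P.numRegs} (hc : S.Hd s c) (x : List ℕ)
    (hx : x.length = s.length) :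
    ∃ t c', 1 ≤ t ∧ t ≤ q s ∧ S.Hd (f s (bits w x)) c' ∧ c'.drawn = c.drawn + s.length ∧
      ∀ y : ℕ → ℕ, (step P w (plc c.drawn (sapp x y)))^[t] c = c' ∧
        ∀ T, (step P w (plc c.drawn (sapp x y)))^[T] c' = (step P w (plc c'.drawn y))^[T] c' := by
  obtain ⟨t, c', h1, h2, h3, h4, h5⟩ := S.round s hs hh c hc (plc c.drawn (sapp x (fun _ => 0)))
  rw [← hx, rbits_sapp] at h4
  refine ⟨t, c', h1, h2, h4, h5, fun y => ⟨?_, fun T => ?_⟩⟩
  · rw [← h3]
    apply iterate_congr
    intro i hi hi'
    rw [h3, h5] at hi'
    exact sapp_lt _ _ _ _ (by omega)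
  · apply iterate_congr
    intro i hi _
    unfold plc
    rw [h5, ← hx, show i - c.drawn = x.length + (i - (c.drawn + x.length)) by omega, sapp_add]

theorem length_bits (w : ℕ) (x : List ℕ) : (bits w x).length = x.length := by simp [bits]

/-- Every halting run outputs `out s` for a reachable halting state. -/
theorem halts (S : Sim P w input f R s0 out T0 q) (ρ : ℕ → ℕ) (T : ℕ) (o : List ℕ)
    (h : HaltsWithin P w ρ input T o) : ∃ s ∈ R, s.head? = some true ∧ out s = o := by
  have key : ∀ (T : ℕ) (s : List Bool) (c : Cfg P.numRegs), s ∈ R → S.Hd s c →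
      ((step P w ρ)^[T] c).halted = true → ((step P w ρ)^[T] c).output = o →
      ∃ s ∈ R, s.head? = some true ∧ out s = o := by
    intro T
    induction T using Nat.strong_induction_on with
    | _ T ih =>
      intro s c hs hc hT ho
      by_cases hh : s.head? = some true
      · obtain ⟨t, c', _, h3, h4, h5⟩ := S.stop s hs hh c hc ρ
        refine ⟨s, hs, hh, ?_⟩
        rcases le_total t T with htT | htT
        · have := iterate_of_halted (w := w) (ρ := ρ) (c := c) htT (by rw [h3]; exact h4)
          rw [this, h3, h5] at ho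
          exact ho
        · have := iterate_of_halted (w := w) (ρ := ρ) (c := c) htT hT
          rw [h3] at this
          rw [← this, h5] at ho
          exact ho
      · obtain ⟨t, c', h1, h2, h3, h4, h5⟩ := S.round s hs hh c hc ρ
        have htT : t ≤ T := by
          by_contra hlt
          have := not_halted_of_le (P := P) (w := w) (ρ := ρ) (c := c) (show T ≤ t by omega)
            (by rw [h3]; exact S.nh _ _ h4)
          rw [this] at hT
          exact Bool.noConfusion hT
        have e : (step P w ρ)^[T] c = (step P w ρ)^[T - t] c' := by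
          conv_lhs => rw [show T = (T - t) + t by omega, Function.iterate_add_apply, h3]
        rw [e] at hT ho
        exact ih (T - t) (by omega) _ c'
          (S.closed s hs hh _ (by rw [rbits_length])) h4 hT ho
  obtain ⟨t, c, _, h3, h4, _⟩ := S.start ρ
  obtain ⟨h5, h6⟩ := h
  unfold run at h5 h6
  have htT : t ≤ T := by
    by_contra hlt
    have := not_halted_of_le (P := P) (w := w) (ρ := ρ) (c := init P w input)
      (show T ≤ t by omega) (by rw [h3]; exact S.nh _ _ h4)
    rw [this] at h5
    exact Bool.noConfusion h5
  have e : (step P w ρ)^[T] (init P w input) = (step P w ρ)^[T - t] c := by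
    conv_lhs => rw [show T = (T - t) + t by omega, Function.iterate_add_apply, h3]
  rw [e] at h5 h6
  exact key _ s0 c S.mem0 h4 h5 h6

/-- number of steps before time `T` at which the machine is not halted -/
noncomputable def nhc (P : Program) (w : ℕ) (ρ : ℕ → ℕ) (c : Cfg P.numRegs) (T : ℕ) : ℝ≥0∞ :=
  ∑ t ∈ Finset.range T, ind (((step P w ρ)^[t] c).halted = false)

theorem nhc_le (ρ : ℕ → ℕ) (c : Cfg P.numRegs) (T : ℕ) : nhc P w ρ c T ≤ T := by
  unfold nhc
  refine (Finset.sum_le_card_nsmul _ _ 1 fun t _ => ind_le_one _).trans ?_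
  simp

theorem nhc_split (ρ : ℕ → ℕ) (c : Cfg P.numRegs) (t T : ℕ) :
    nhc P w ρ c T ≤ t + nhc P w ρ ((step P w ρ)^[t] c) (T - t) := by
  classical
  rcases le_total T t with h | h
  · refine (nhc_le ρ c T).trans ?_
    exact le_add_right (by exact_mod_cast h)
  · obtain ⟨u, rfl⟩ := Nat.exists_eq_add_of_le h
    rw [Nat.add_sub_cancel_left]
    have h1 : nhc P w ρ c (t + u) = nhc P w ρ c t + nhc P w ρ ((step P w ρ)^[t] c) u := by
      unfold nhc
      rw [Finset.sum_range_add]
      congr 1
      refine Finset.sum_congr rfl fun i _ => ?_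
      rw [← Function.iterate_add_apply, add_comm i t]
    rw [h1]
    exact add_le_add_left (nhc_le ρ c t) _

theorem nhc_halted {ρ : ℕ → ℕ} {c : Cfg P.numRegs} (h : c.halted = true) (T : ℕ) :
    nhc P w ρ c T = 0 := by
  classical
  unfold nhc
  refine Finset.sum_eq_zero fun t _ => ?_
  rw [iterate_halted h, h]
  exact ind_false (by simp)

theorem nhc_congr {ρ ρ' : ℕ → ℕ} {c : Cfg P.numRegs} {T : ℕ}
    (h : ∀ i, c.drawn ≤ i → i < c.drawn + T → ρ' i = ρ i) :
    nhc P w ρ' c T = nhc P w ρ c T := by
  classical
  unfold nhc
  refine Finset.sum_congr rfl fun t ht => ?_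
  rw [Finset.mem_range] at ht
  rw [iterate_congr t]
  intro i hi hi'
  have := (drawn_le_iterate (w := w) ρ t c).2
  exact h i hi (by omega)

theorem nhc_loc (c : Cfg P.numRegs) (T : ℕ) :
    Loc T (fun y => nhc P w (plc c.drawn y) c T) := by
  intro y y' hy
  apply nhc_congr
  intro i hi hi'
  exact hy _ (by omega)

/-- The potential bound. -/
theorem nhc_potential (S : Sim P w input f R s0 out T0 q) (V : List Bool → ℝ≥0∞)
    (hV : ∀ s ∈ R, s.head? ≠ some true → (q s : ℝ≥0∞) + B s.length (fun τ => V (f s τ)) ≤ V s)
    (hV' : ∀ s ∈ R, s.head? = some true → (q s : ℝ≥0∞) ≤ V s) :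
    ∀ (T : ℕ) (s : List Bool) (c : Cfg P.numRegs), s ∈ R → S.Hd s c → ∀ m, T ≤ m →
      A w m (fun y => nhc P w (plc c.drawn y) c T) ≤ V s := by
  intro T
  induction T using Nat.strong_induction_on with
  | _ T ih =>
    intro s c hs hc m hm
    by_cases hh : s.head? = some true
    · refine le_trans ?_ (hV' s hs hh)
      rw [← A_const (w := w) (n := m) (q s : ℝ≥0∞)]
      refine A_mono fun y => ?_
      obtain ⟨t, c', h2, h3, h4, h5⟩ := S.stop s hs hh c hc (plc c.drawn y)
      refine (nhc_split (plc c.drawn y) c t T).trans ?_
      rw [h3, nhc_halted h4, add_zero]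
      exact_mod_cast h2
    · refine le_trans ?_ (hV s hs hh)
      rcases Nat.eq_zero_or_pos T with rfl | hT
      · have : (fun y => nhc P w (plc c.drawn y) c 0) = fun _ => 0 := by
          funext y
          simp [nhc]
        rw [this, A_const]
        exact bot_le
      · have e1 : A w m (fun y => nhc P w (plc c.drawn y) c T) =
            A w (s.length + m) (fun y => nhc P w (plc c.drawn y) c T) := by
          rw [A_loc hm (nhc_loc c T), A_loc (show T ≤ s.length + m by omega) (nhc_loc c T)]
        rw [e1]
        have e2 : (q s : ℝ≥0∞) + B s.length (fun τ => V (f s τ)) =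
            B s.length (fun τ => (q s : ℝ≥0∞) + V (f s τ)) := by
          rw [B_add, B_const]
        rw [e2]
        refine A_le_B S.hw m s.length _ _ fun x hx => ?_
        obtain ⟨t, c', h1, h2, h3, h4, h5⟩ := S.round' hs hh hc x hx
        have h6 : ∀ y, nhc P w (plc c.drawn (sapp x y)) c T ≤
            (q s : ℝ≥0∞) + nhc P w (plc c'.drawn y) c' (T - t) := by
          intro y
          refine (nhc_split (plc c.drawn (sapp x y)) c t T).trans ?_
          rw [(h5 y).1]
          have : nhc P w (plc c.drawn (sapp x y)) c' (T - t) =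
              nhc P w (plc c'.drawn y) c' (T - t) := by
            unfold nhc
            refine Finset.sum_congr rfl fun i _ => ?_
            rw [(h5 y).2 i]
          rw [this]
          exact add_le_add_left (by exact_mod_cast h2) _
        refine (A_mono h6).trans ?_
        rw [A_add, A_const]
        refine add_le_add_right ?_ _
        exact ih (T - t) (by omega) _ c' (S.closed s hs hh _ (by rw [length_bits, hx])) h3 m
          (by omega)

/-- the start configuration does not depend on the random words -/
theorem start' (S : Sim P w input f R s0 out T0 q) : ∃ t c, t ≤ T0 ∧ S.Hd s0 c ∧ c.drawn = 0 ∧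
    ∀ ρ, (step P w ρ)^[t] (init P w input) = c := by
  obtain ⟨t, c, h1, h2, h3, h4⟩ := S.start (fun _ => 0)
  refine ⟨t, c, h1, h3, h4, fun ρ => ?_⟩
  rw [← h2]
  apply iterate_congr
  intro i _ hi
  rw [h2, h4] at hi
  omega

theorem plc_zero (y : ℕ → ℕ) : plc 0 y = y := by
  funext i
  simp [plc]

/-- **Expected time.** -/
theorem expectedTime_le (S : Sim P w input f R s0 out T0 q) (V : List Bool → ℝ≥0∞)
    (hV : ∀ s ∈ R, s.head? ≠ some true → (q s : ℝ≥0∞) + B s.length (fun τ => V (f s τ)) ≤ V s)
    (hV' : ∀ s ∈ R, s.head? = some true → (q s : ℝ≥0∞) ≤ V s) :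
    expectedTime P w input ≤ T0 + V s0 := by
  classical
  unfold expectedTime
  rw [ENNReal.tsum_eq_iSup_nat]
  refine iSup_le fun J => ?_
  have h1 : ∑ T ∈ Finset.range J, ENNReal.ofReal (probAfter P w input T fun c => c.halted = false) =
      A w J (fun y => nhc P w y (init P w input) J) := by
    have h2 : ∀ T ∈ Finset.range J,
        ENNReal.ofReal (probAfter P w input T fun c => c.halted = false) =
        A w J (fun y => ind (((step P w y)^[T] (init P w input)).halted = false)) := by
      intro T hT
      rw [Finset.mem_range] at hT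
      rw [ofReal_probAfter, A_loc hT.le]
      · rfl
      · intro y y' hy
        show ind (((step P w y)^[T] (init P w input)).halted = false) =
          ind (((step P w y')^[T] (init P w input)).halted = false)
        rw [iterate_congr (P := P) (w := w) (ρ := y') (ρ' := y) T]
        intro i _ hi
        have := (drawn_le_iterate (P := P) (w := w) y' T (init P w input)).2
        have e : (init P w input).drawn = 0 := rfl
        exact hy i (by omega)
    rw [Finset.sum_congr rfl h2]
    have h3 : ∀ K : ℕ, A w J (fun y => nhc P w y (init P w input) K) = ∑ T ∈ Finset.range K,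
        A w J (fun y => ind (((step P w y)^[T] (init P w input)).halted = false)) := by
      intro K
      induction K with
      | zero =>
        have : (fun y => nhc P w y (init P w input) 0) = fun _ => 0 := by
          funext y
          simp [nhc]
        rw [this, A_const]
        rfl
      | succ K ih =>
        rw [Finset.sum_range_succ, ← ih, ← A_add]
        congr 1
        funext y
        unfold nhc
        rw [Finset.sum_range_succ]
    exact (h3 J).symm
  rw [h1]
  obtain ⟨t, c, h2, h3, h4, h5⟩ := S.start'
  have h6 : ∀ y, nhc P w y (init P w input) J ≤ (T0 : ℝ≥0∞) + nhc P w (plc c.drawn y) c (J - t) := by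
    intro y
    refine (nhc_split y (init P w input) t J).trans ?_
    rw [h5 y, h4, plc_zero]
    exact add_le_add_left (by exact_mod_cast h2) _
  refine (A_mono h6).trans ?_
  rw [A_add, A_const]
  exact add_le_add_right (S.nhc_potential V hV hV' (J - t) s0 c S.mem0 h3 J (by omega)) _

end Sim

end Crest.Agent.R309.RAM
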