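import Crest.Agent.R309.RAMHarm

/-!
# Every polynomial-time bit-tape process runs on the word RAM
-/

set_option autoImplicit false

namespace Crest.Agent.R309.RAM

open Crest.WordRAM hiding init
open Crest.Agent.Lib.PT Function

open Classical in
/-- the output list coded by a halting state -/
noncomputable def outOf (s : List Bool) : List ℕ :=
  if h : ∃ o : List ℕ, s = true :: enc o then h.choose else []

theorem outOf_eq (o : List ℕ) : outOf (true :: enc o) = o := by
  unfold outOf
  have h : ∃ o' : List ℕ, true :: enc o = true :: enc o' := ⟨o, rfl⟩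
  rw [dif_pos h]
  have := h.choose_spec
  rw [List.cons.injEq] at this
  exact (enc_injective this.2).symm

/-- **Bit-tape processes on the word RAM.** The polynomial `q` (cost of a round) depends only on the
round function `g`; the initial function `h` only influences `qh`. -/
theorem ram_process {g : List Bool → List Bool → List Bool}
    (hg : PT (fun z => g (fst z) (snd z))) :
    ∃ q : Polynomial ℕ, ∀ h : List Bool → List Bool, PT h → ∃ (P : Program) (qh : Polynomial ℕ),
      ∀ (w : ℕ) (L : List ℕ) (R : Set (List Bool)) (Λ : ℕ),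
        qh.eval (enc L).length * q.eval Λ ≤ 2 ^ w → (∀ a ∈ L, a + 1 < 2 ^ w) →
        h (enc L) ∈ R → (∀ s ∈ R, s.length ≤ Λ) →
        (∀ s ∈ R, s.head? ≠ some true → ∀ τ : List Bool, τ.length = s.length → g s τ ∈ R) →
        (∀ s ∈ R, s.head? = some true →
          ∃ o : List ℕ, s = true :: enc o ∧ ∀ a ∈ o, a < 2 ^ w) →
        Nonempty (Sim P w L g R (h (enc L)) outOf (qh.eval (w + (enc L).length))
          (fun s => q.eval s.length)) := by
  obtain ⟨c, p, hc⟩ := hg
  refine ⟨30 + 70 * Polynomial.X + 5 * p.comp (3 * Polynomial.X + 1), fun h hh => ?_⟩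
  obtain ⟨ch, ph, hch⟩ : PT (fun x => h x.tail) := hh.comp PT.tail
  set K := max c.maxVar ch.maxVar + 3 with hKdef
  have hcK : c.maxVar < K := by omega
  have hchK : ch.maxVar < K := by omega
  refine ⟨machine K ch c,
    4 * (Polynomial.C K) * (Polynomial.X + 3 + ph.comp (Polynomial.X + 1)) +
      (4 * Polynomial.X + 3 * (Polynomial.C K) + 11 + (10 + 12 * Polynomial.X) * Polynomial.X +
        5 * ph.comp (Polynomial.X + 1)), ?_⟩
  intro w L R Λ hsize hL h0 hΛ hcl hout
  have hqh : ∀ x : ℕ, (4 * (Polynomial.C K) * (Polynomial.X + 3 + ph.comp (Polynomial.X + 1)) +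
      (4 * Polynomial.X + 3 * (Polynomial.C K) + 11 + (10 + 12 * Polynomial.X) * Polynomial.X +
        5 * ph.comp (Polynomial.X + 1)) : Polynomial ℕ).eval x =
      4 * K * (x + 3 + ph.eval (x + 1)) + (4 * x + 3 * K + 11 + (10 + 12 * x) * x +
        5 * ph.eval (x + 1)) := by
    intro x
    simp [Polynomial.eval_comp]
  have hq : ∀ x : ℕ, (30 + 70 * Polynomial.X + 5 * p.comp (3 * Polynomial.X + 1) :
      Polynomial ℕ).eval x = 30 + 70 * x + 5 * p.eval (3 * x + 1) := by
    intro x
    simp [Polynomial.eval_comp]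
  rw [hqh, hq] at hsize
  set e := (enc L).length with he
  set a := e + 3 + ph.eval (e + 1) with ha
  set b := 30 + 70 * Λ + 5 * p.eval (3 * Λ + 1) with hb
  set H := e + 2 + ph.eval (e + 1) + (13 * Λ + 3 + p.eval (3 * Λ + 1)) with hH
  have hKH : K * (H + 1) * 2 ≤ 2 ^ w := by
    refine le_trans ?_ hsize
    have h1 : H + 1 ≤ a + b := by omega
    have ha1 : 1 ≤ a := by omega
    have hb1 : 1 ≤ b := by omega
    have h2 : a + b ≤ 2 * (a * b) := by
      have h3 : a * 1 ≤ a * b := Nat.mul_le_mul_left a hb1
      have h4 : 1 * b ≤ a * b := Nat.mul_le_mul_right b ha1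
      omega
    calc K * (H + 1) * 2 ≤ K * (2 * (a * b)) * 2 := by
          refine Nat.mul_le_mul_right 2 (Nat.mul_le_mul_left K (h1.trans h2))
      _ = 4 * K * a * b := by ring
      _ ≤ _ := Nat.mul_le_mul_right b (Nat.le_add_right _ _)
  have hK3 : 3 ≤ K := by omega
  have hw2 : 2 ≤ w := by
    by_contra hlt
    have h1 : 2 ^ w ≤ 2 ^ 1 := Nat.pow_le_pow_right (by omega) (by omega)
    have h2 : 3 * (H + 1) * 2 ≤ K * (H + 1) * 2 :=
      Nat.mul_le_mul_right 2 (Nat.mul_le_mul_right (H + 1) hK3)
    omega
  have hB := two_pow_half (show 1 ≤ w by omega)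
  have hHw : K * (H + 1) ≤ 2 ^ (w - 1) := by omega
  refine ⟨{
    Hd := Head w K ch c
    nh := fun s c h => h.not_halted
    start := ?_
    round := ?_
    stop := ?_
    mem0 := h0
    closed := hcl
    hw := by omega }⟩
  · intro ρ
    have hrun : Run ch (init (false :: enc L)) (init (h (enc L))) (ph.eval (e + 1)) := by
      have := hch (false :: enc L)
      simpa using this
    obtain ⟨t, c', h1, h2, h3, h4⟩ := machine_start (n := ph.eval (e + 1)) ρ (by omega) hchK hcK hw2
      hHw L hL hrun (by omega)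
    refine ⟨t, c', h1.trans ?_, h2, h3, h4⟩
    have hlen := length_le_enc L
    rw [hqh]
    have hm : ph.eval (e + 1) ≤ ph.eval (w + e + 1) := polyEval_mono ph (by omega)
    have hm2 : (10 + 12 * w) * L.length ≤ (10 + 12 * (w + e)) * (w + e) :=
      Nat.mul_le_mul (by omega) (by omega)
    have hm3 : 0 ≤ 4 * K * (w + e + 3 + ph.eval (w + e + 1)) := Nat.zero_le _
    omega
  · intro s hs hnh cf hcf ρ
    have hrun : Run c (init (pair s (rbits w ρ cf.drawn s.length)))
        (init (g s (rbits w ρ cf.drawn s.length))) (p.eval (3 * s.length + 1)) := by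
      have h1 : Run c (init (pair s (rbits w ρ cf.drawn s.length)))
          (init (g (fst (pair s (rbits w ρ cf.drawn s.length)))
            (snd (pair s (rbits w ρ cf.drawn s.length)))))
          (p.eval (pair s (rbits w ρ cf.drawn s.length)).length) :=
        hc (pair s (rbits w ρ cf.drawn s.length))
      rw [core_fst_pair, core_snd_pair, core_length_pair, rbits_length] at h1
      refine h1.mono (polyEval_mono p (by omega))
    have hsl := hΛ s hs
    have hpm : p.eval (3 * s.length + 1) ≤ p.eval (3 * Λ + 1) := polyEval_mono p (by omega)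
    obtain ⟨t, c', h1, h2, h3, h4, h5⟩ := machine_round (n := p.eval (3 * s.length + 1)) ρ (by omega)
      hchK hcK (by omega) hHw hcf hnh hrun (by omega)
    refine ⟨t, c', h1, ?_, h3, h4, h5⟩
    show t ≤ _
    rw [hq]
    omega
  · intro s hs hh' cf hcf ρ
    obtain ⟨o, rfl, ho⟩ := hout s hs hh'
    have hsl := hΛ _ hs
    rw [List.length_cons] at hsl
    have hol := length_le_enc o
    have hKH1 : 1 * (H + 1) ≤ K * (H + 1) := Nat.mul_le_mul_right (H + 1) (by omega)
    obtain ⟨t, c', h1, h2, h3, h4⟩ := machine_halt ρ (by omega) hchK hcK (by omega) hcf ho (by omega)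
    refine ⟨t, c', ?_, h2, h3, by rw [h4, outOf_eq]⟩
    show t ≤ _
    rw [hq, List.length_cons]
    omega

end Crest.Agent.R309.RAM
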