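import Crest.Agent.R309.Count632D
import Crest.Agent.R309.Parse
import Crest.Prelude.Def_Randomized

/-!
# R309: the randomised approximation scheme (S0479) from the chain and feasibility interfaces
-/

set_option autoImplicit false

namespace Crest.Agent.R309.S0479Of

open Crest.Agent.Lib.PT Crest.Agent.R309.Tape Crest.Agent.R309.Iface
open Crest.Agent.R309.Parse Crest.Agent.R309.Count632 Crest.Tables Crest.Enc
open Crest.FinProb Crest.Randomized

/-- the parsed input -/
def ctx (x : List Bool) : Ctx :=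
  ((parseIn x).1, ⟨(parseIn x).2.2.2.length⟩, ⟨(parseIn x).2.2.1.den.size⟩)

theorem ptf_ctx : PTF ctx := by
  unfold ctx
  have h := ptf_parseIn (γ := List Bool) (l := fun x => x) PTF.id
  have h1 : PTF (fun x : List Bool => (parseIn x).1) :=
    PTF.comp (g := fun p : Inst × ℚ × ℚ × List Bool => p.1) (by fun_prop) h
  have h2 : PTF (fun x : List Bool => (parseIn x).2.2.2) :=
    PTF.comp (g := fun p : Inst × ℚ × ℚ × List Bool => p.2.2.2) (by fun_prop) h
  have h3 : PTF (fun x : List Bool => (parseIn x).2.2.1) :=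
    PTF.comp (g := fun p : Inst × ℚ × ℚ × List Bool => p.2.2.1) (by fun_prop) h
  refine PTF.prodMk h1 (PTF.prodMk ?_ ?_)
  · exact PTU.length h2
  · exact PTF.natSizeUn (PTF.ratDen h3)

theorem ctx_code {m n : ℕ} (rs : Fin m → ℕ) (cs : Fin n → ℕ) (b : Fin m → Fin n → ℕ) (ε δ : ℚ) (k : ℕ) :
    ctx (marginsCode rs cs ++ boundsCode b ++ ratCode ε ++ ratCode δ ++ List.replicate k true) =
      (Conv.inst rs cs b, ⟨k⟩, ⟨δ.den.size⟩) := by
  unfold ctx
  rw [parseIn_code]
  simp only [List.length_replicate]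
  rfl

theorem half_pow_den_le (δ : ℚ) (hδ : 0 < δ) : ((1 : ℝ) / 2) ^ δ.den.size ≤ δ := by
  have h1 : δ.den < 2 ^ δ.den.size := Nat.lt_size_self δ.den
  have h2 : (0 : ℝ) < δ.den := by exact_mod_cast δ.den_pos
  have h3 : (δ.den : ℝ) ≤ 2 ^ δ.den.size := by exact_mod_cast h1.le
  have h4 : (1 : ℝ) ≤ δ.num := by
    have : 0 < δ.num := Rat.num_pos.2 hδ
    exact_mod_cast this
  have h5 : (δ : ℝ) = δ.num / δ.den := by
    have := Rat.num_div_den δ
    have h6 : ((δ.num : ℚ) / (δ.den : ℚ) : ℚ) = δ := this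
    calc (δ : ℝ) = (((δ.num : ℚ) / (δ.den : ℚ) : ℚ) : ℝ) := by rw [h6]
      _ = δ.num / δ.den := by push_cast; rfl
  rw [h5, one_div_pow]
  calc (1 : ℝ) / 2 ^ δ.den.size ≤ 1 / δ.den := one_div_le_one_div_of_le h2 h3
    _ ≤ δ.num / δ.den := div_le_div_of_nonneg_right h4 h2.le

theorem S0479_of (hF : FeasSpec) (hC : ChainSpec) :
    ∃ (A : List Bool × List Bool → List Bool) (r : Polynomial ℕ), RandPolyTime A ∧
      ∀ (m n : ℕ) (rs : Fin m → ℕ) (cs : Fin n → ℕ) (b : Fin m → Fin n → ℕ) (ε δ : ℚ),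
        0 < ε → ε < 1 → 0 < δ → δ < 1 →
        (∀ ω : Fin (r.eval (marginsCode rs cs ++ boundsCode b ++ ratCode ε ++ ratCode δ ++ List.replicate ⌈ε⁻¹⌉₊ true).length) → Bool,
          ∃ z : ℚ, 0 ≤ z ∧ A (marginsCode rs cs ++ boundsCode b ++ ratCode ε ++ ratCode δ ++ List.replicate ⌈ε⁻¹⌉₊ true, List.ofFn ω) = ratCode z) ∧
        (numBoundedTables rs cs b = 0 →
          ∀ ω : Fin (r.eval (marginsCode rs cs ++ boundsCode b ++ ratCode ε ++ ratCode δ ++
              List.replicate ⌈ε⁻¹⌉₊ true).length) → Bool,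
            A (marginsCode rs cs ++ boundsCode b ++ ratCode ε ++ ratCode δ ++
              List.replicate ⌈ε⁻¹⌉₊ true, List.ofFn ω) = ratCode 0) ∧
        1 - (δ : ℝ) ≤ uniformProb {ω : Fin (r.eval (marginsCode rs cs ++ boundsCode b ++ ratCode ε ++
              ratCode δ ++ List.replicate ⌈ε⁻¹⌉₊ true).length) → Bool |
            ∃ z : ℚ, A (marginsCode rs cs ++ boundsCode b ++ ratCode ε ++ ratCode δ ++
                List.replicate ⌈ε⁻¹⌉₊ true, List.ofFn ω) = ratCode z ∧
              (1 - ε) * numBoundedTables rs cs b ≤ z ∧ z ≤ (1 + ε) * numBoundedTables rs cs b} := by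
  obtain ⟨feas, hfeas, hf1, hf2⟩ := hF
  obtain ⟨step, len, tau, hstep, hlen, htau, hC⟩ := hC
  -- a polynomial bound for `tau * len`
  obtain ⟨q, hq⟩ : PB (fun I => tau I * len I) := (htau.pb).mul (hlen.pb)
  -- the algorithm
  set A : List Bool × List Bool → List Bool := fun p =>
    ratCode (alg feas step len tau q (ctx p.1) (p.2.take (algLen q (ctx p.1)))) with hA
  have hlenU : PTU (fun x : List Bool => algLen q (ctx x)) := PTU.comp (ptu_algLen q) ptf_ctx
  obtain ⟨p, hp⟩ : PB (fun x : List Bool => algLen q (ctx x)) := hlenU.pb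
  refine ⟨A, p.comp (Polynomial.C 3 * Polynomial.X), ?_, ?_⟩
  · refine PTF.polyTimeComputable_pairEnc (ptf_ratCode ?_)
    have h1 := ptf_alg (q := q) hfeas hstep hlen htau
    refine PTF.comp (g := fun p : Ctx × List Bool => alg feas step len tau q p.1 p.2)
      (f := fun p : List Bool × List Bool => (ctx p.1, p.2.take (algLen q (ctx p.1)))) h1 ?_
    refine PTF.prodMk (PTF.comp ptf_ctx PTF.fst) (PTF.take ?_ (by fun_prop))
    exact PTU.comp (n := fun x : List Bool => algLen q (ctx x)) hlenU PTF.fst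
  intro m n rs cs b ε δ hε0 hε1 hδ0 hδ1
  set x := marginsCode rs cs ++ boundsCode b ++ ratCode ε ++ ratCode δ ++
    List.replicate ⌈ε⁻¹⌉₊ true with hx
  have hctx : ctx x = (Conv.inst rs cs b, ⟨⌈ε⁻¹⌉₊⟩, ⟨δ.den.size⟩) := ctx_code rs cs b ε δ _
  have hcnt : cnt (ctx x).1 = numBoundedTables rs cs b := by
    rw [hctx]; exact Conv.card_tabs_inst rs cs b
  have hsh : Conv.Shaped (ctx x).1 := by
    rw [hctx]; exact Conv.shaped_inst rs cs b
  refine ⟨fun ω => ⟨_, alg_nonneg _ _, rfl⟩, fun h0 ω => ?_, ?_⟩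
  · change ratCode (alg feas step len tau q (ctx x) ((List.ofFn ω).take (algLen q (ctx x)))) = ratCode 0
    rw [alg_zero hf1 hf2 (ctx x) hsh (by rw [hcnt, h0])]
  · have hE : cE (ctx x) = ⌈ε⁻¹⌉₊ := by rw [hctx]; rfl
    have ht : (ctx x).2.2.val = δ.den.size := by rw [hctx]
    have hε' : 0 < ε⁻¹ := inv_pos.2 hε0
    have hE1 : 1 ≤ cE (ctx x) := by
      rw [hE]; exact Nat.ceil_pos.2 hε'
    have hEε : 1 / (cE (ctx x) : ℚ) ≤ ε := by
      rw [hE, one_div]
      refine inv_le_of_inv_le₀ hε0 ?_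
      exact Nat.le_ceil _
    have hmain := alg_pr hf1 hf2 hC hq (ctx x) hsh hE1
    rw [ht, hcnt] at hmain
    have hlen' : algLen q (ctx x) ≤ (p.comp (Polynomial.C 3 * Polynomial.X)).eval x.length := by
      have := hp x
      rw [sz_listBool] at this
      simpa [Polynomial.eval_comp] using this
    rw [← pr_take hlen'] at hmain
    have hδ' := half_pow_den_le δ hδ0
    have e := uniformProb_eq_pr ((p.comp (Polynomial.C 3 * Polynomial.X)).eval x.length)
      (fun l => ∃ z : ℚ, A (x, l) = ratCode z ∧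
        (1 - ε) * numBoundedTables rs cs b ≤ z ∧ z ≤ (1 + ε) * numBoundedTables rs cs b)
    rw [e]
    refine le_trans ?_ (hmain.trans (pr_mono fun l _ hl => ?_))
    · linarith
    · have hN : (0 : ℚ) ≤ numBoundedTables rs cs b := Nat.cast_nonneg _
      refine ⟨_, rfl, ?_, ?_⟩
      · refine le_trans (mul_le_mul_of_nonneg_right ?_ hN) hl.1
        linarith
      · refine le_trans hl.2 (mul_le_mul_of_nonneg_right ?_ hN)
        linarith

end Crest.Agent.R309.S0479Of
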