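import Crest.Agent.R309.Exact9Final

/-!
# R309: the exact uniform sampler (S0481) from the chain and the RAM process theorem
-/

set_option autoImplicit false

namespace Crest.Agent.R309.Exact9

open Crest.Agent.R309.Tape Crest.Agent.Lib.PT Crest.Agent.R309.Iface Crest.Agent.R309.PTX
open Crest.Agent.R309.NW Crest.Agent.R309.S0480Of Crest.Agent.R309.Feas Crest.Agent.R309.Parse
open Crest.WordRAM Crest.Tables

/-- **S0481 from the chain and the process theorem.** -/
theorem S0481_of (HP : ProcessSpec) (HC : ChainSpec) :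
    ∃ (P : Crest.WordRAM.Program) (c₀ c₁ C d : ℕ),
      ∀ (m n : ℕ) (rs : Fin m → ℕ) (cs : Fin n → ℕ), ∑ i, rs i = ∑ j, cs j →
        Crest.WordRAM.expectedTime P (c₀ * (m + n + Nat.clog 2 (∑ i, rs i + 2) + 1) ^ c₁)
            (m :: n :: (List.ofFn rs ++ List.ofFn cs))
          ≤ ((C * (m + n + Nat.clog 2 (∑ i, rs i + 2) + 1) ^ d : ℕ) : ENNReal) ∧
        (∀ (ρ : ℕ → ℕ) (T : ℕ) (out : List ℕ),
          Crest.WordRAM.HaltsWithin P (c₀ * (m + n + Nat.clog 2 (∑ i, rs i + 2) + 1) ^ c₁) ρ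
            (m :: n :: (List.ofFn rs ++ List.ofFn cs)) T out →
          ∃ X : Fin m → Fin n → ℕ, IsTable rs cs X ∧ out = (List.ofFn fun i => List.ofFn (X i)).flatten) ∧
        ∀ X : Fin m → Fin n → ℕ, IsTable rs cs X →
          Crest.WordRAM.probHaltsWith P (c₀ * (m + n + Nat.clog 2 (∑ i, rs i + 2) + 1) ^ c₁)
              (m :: n :: (List.ofFn rs ++ List.ofFn cs))
              (fun out => out = (List.ofFn fun i => List.ofFn (X i)).flatten)
            = 1 / (numBoundedTables rs cs (fun _ _ => ∑ i, rs i) : ℝ) := by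
  -- (no classical)
  obtain ⟨step, len, tau, hstep, hlen, htau, hch⟩ := HC
  -- the round function
  have hD : (tdata step).Poly := tdata_poly hstep
  have hf : PTF (fun p : Conf Iface.Inst Tab × Bits => rnd (tdata step) p.1 p.2.val) :=
    PTF.comp (g := fun p : Conf Iface.Inst Tab × List Bool => rnd (tdata step) p.1 p.2)
      (f := fun p : Conf Iface.Inst Tab × Bits => (p.1, p.2.val)) (ptf_rnd hD) (by fun_prop)
  obtain ⟨qf, hqf⟩ := typed_process HP hf
  obtain ⟨k, hk⟩ := poly_le_pow (qone qf)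
  obtain ⟨a, ha⟩ := exists_exp k
  obtain ⟨P, Kp, qg, hP⟩ := hqf (startC (len := len) (tau := tau) a) (ptf_startC hlen htau a)
  obtain ⟨py, hpy⟩ := (ptu_yy hlen htau).pb
  -- bounds in terms of the size parameter `S`
  let YS : ℕ → ℕ := fun S => py.eval (21 * S ^ 3)
  have bI : PolyB (fun S => 21 * S ^ 3) := (PolyB.const 21).mul (PolyB.id.pow 3)
  have bY : PolyB YS := bI.eval py
  let LS : ℕ → ℕ := fun S => 3 * S ^ 2
  have bL : PolyB LS := (PolyB.const 3).mul (PolyB.id.pow 2)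
  let E1 : ℕ → ℕ := fun S => (LS S + 2) + (13 * (LS S + 1) + 3 + qg.eval (LS S))
  have bE : PolyB E1 := (bL.add (PolyB.const 2)).add
    ((((PolyB.const 13).mul (bL.add (PolyB.const 1))).add (PolyB.const 3)).add (bL.eval qg))
  let WS : ℕ → ℕ := fun S => E1 S + (6 + a + 3 * YS S) * k + (Kp + 5) + 2 * S
  have bW : PolyB WS := ((bE.add (((PolyB.const (6 + a)).add ((PolyB.const 3).mul bY)).mul
    (PolyB.const k))).add (PolyB.const (Kp + 5))).add ((PolyB.const 2).mul PolyB.id)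
  obtain ⟨c₀, c₁, hW⟩ := bW
  let wS : ℕ → ℕ := fun S => c₀ * S ^ c₁
  have bw : PolyB wS := ⟨c₀, c₁, fun x _ => le_rfl⟩
  let TS : ℕ → ℕ := fun S => (4 * wS S + 3 * Kp + 11 + (10 + 12 * wS S) * S) +
    (20 + 70 * (LS S + 1) + 5 * qg.eval (LS S)) +
    ((2 * 2 ^ a * YS S ^ 2 + 1) * (qone qf).eval (57 * 2 ^ a * YS S ^ 3) + 1) +
    (7 + 9 * (21 * S ^ 3 + 1))
  have bT : PolyB TS := by
    refine PolyB.add (PolyB.add (PolyB.add ?_ ?_) ?_) ?_
    · exact ((((PolyB.const 4).mul bw).add (PolyB.const (3 * Kp))).add (PolyB.const 11)).add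
        (((PolyB.const 10).add ((PolyB.const 12).mul bw)).mul PolyB.id)
    · exact ((PolyB.const 20).add ((PolyB.const 70).mul (bL.add (PolyB.const 1)))).add
        ((PolyB.const 5).mul (bL.eval qg))
    · exact (((((PolyB.const (2 * 2 ^ a)).mul (bY.pow 2)).add (PolyB.const 1)).mul
        (PolyB.eval ((PolyB.const (57 * 2 ^ a)).mul (bY.pow 3)) (qone qf))).add (PolyB.const 1))
    · exact (PolyB.const 7).add ((PolyB.const 9).mul (bI.add (PolyB.const 1)))
  obtain ⟨C, d, hTS⟩ := bT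
  refine ⟨P, c₀, c₁, C, d, fun m n rs cs hsum => ?_⟩
  -- the instance
  obtain ⟨N, hN⟩ : ∃ N, N = ∑ i, rs i := ⟨_, rfl⟩
  obtain ⟨S, hS⟩ : ∃ S, S = SS m n (∑ i, rs i) := ⟨_, rfl⟩
  have hSS : m + n + Nat.clog 2 (∑ i, rs i + 2) + 1 = S := hS.symm
  rw [hSS]
  obtain ⟨L, hL⟩ : ∃ L, L = inp rs cs := ⟨_, rfl⟩
  have hLL : (m :: n :: (List.ofFn rs ++ List.ofFn cs)) = L := hL.symm
  rw [hLL]
  obtain ⟨I, hI⟩ : ∃ I, I = inst (List.ofFn rs) (List.ofFn cs) := ⟨_, rfl⟩
  obtain ⟨p, hp⟩ : ∃ p, p = par len tau a I := ⟨_, rfl⟩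
  set e := env len tau a I with he
  set tb := enumT (List.ofFn rs) (List.ofFn cs) (2 ^ p.D) with htb
  have hS2 := le_two_pow_SS m n (∑ i, rs i)
  have hSN := lt_two_pow_SS m n (∑ i, rs i)
  rw [← hS] at hS2 hSN
  obtain ⟨hS2, hSlt⟩ := hS2
  have hS1 : 1 ≤ S := by omega
  have hnw : IsTab I (nw (List.ofFn rs) (List.ofFn cs)) := hI ▸ isTab_nw hsum
  have hgood : Good (tdata step) e tb := by
    rw [he, htb, hp, hI]
    refine good_env a (hI ▸ hnw) (fun X hX => (hch _ X hX).1) (fun m φ hφ => ?_)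
    exact (hch _ _ (hI ▸ hnw)).2 m φ hφ
  have hDge : 2 ^ lgE (List.ofFn rs) (List.ofFn cs) ≤ 2 ^ p.D := by
    refine Nat.pow_le_pow_right (by norm_num) ?_
    rw [hp, hI]
    exact Nat.le_add_right _ _
  have hmem : ∀ X, X ∈ tb ↔ IsTab I X := fun X => by rw [hI]; exact mem_enumT hDge X
  have hsz : ∀ X ∈ tb, sz X ≤ sz I := fun X hX => sz_tab_le ((hmem X).1 hX)
  have hszI : sz I ≤ 21 * S ^ 3 := by rw [hI, hS]; exact sz_inst_le hsum
  have hszL : sz L ≤ LS S := by rw [hL, hS]; exact sz_inp_le hsum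
  have hlenL : L.length ≤ S := by rw [hL, length_inp]; omega
  have hy : p.y ≤ YS S := by
    have h1 : p.y = yy len tau I := by rw [hp]; rfl
    rw [h1]
    exact (hpy I).trans (polyEval_mono py hszI)
  have hpa : p.a = a := by rw [hp]; rfl
  have hpD : p.D = (par len tau a I).D := by rw [hp]
  obtain ⟨w, hw⟩ : ∃ w, w = c₀ * S ^ c₁ := ⟨_, rfl⟩
  rw [← hw]
  have hWw : WS S ≤ w := by rw [hw]; exact hW S hS1
  have hst0 : (tdata step).start e.1 = nw (List.ofFn rs) (List.ofFn cs) := by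
    show nw I.1 I.2.1 = _
    rw [hI]
    rfl
  have hstart : startC (len := len) (tau := tau) a L =
      (e, Sum.inl ((tdata step).start e.1, ⟨eT e⟩)) := by
    rw [hst0]
    unfold startC
    rw [hL]
    unfold inp
    rw [parseW_eq]
    simp only
    rw [← hI]
    rfl
  have h2w : 2 ≤ w := by
    have : WS S = E1 S + (6 + a + 3 * YS S) * k + (Kp + 5) + 2 * S := rfl
    omega
  -- the space bound
  set H : ℕ := (sz L + 2) + (13 * (sz L + 1) + 3 + qg.eval (sz L)) +
    (13 * (p.LL + 4) + 3 + qf.eval p.LL) with hH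
  have hq1 : (qone qf).eval p.LL ≤ (p.LL + 2) ^ k := hk _
  have hHw : Kp * (H + 1) ≤ 2 ^ (w - 1) := by
    have h1 : H + 1 ≤ 2 ^ (E1 S + (6 + a + 3 * YS S) * k + 2) := by
      have h3 : (sz L + 2) + (13 * (sz L + 1) + 3 + qg.eval (sz L)) ≤ E1 S := by
        have := polyEval_mono qg hszL
        have e3 : E1 S = (LS S + 2) + (13 * (LS S + 1) + 3 + qg.eval (LS S)) := rfl
        omega
      have h4 : 13 * (p.LL + 4) + 3 + qf.eval p.LL ≤ 2 ^ ((6 + a + 3 * YS S) * k) := by
        have h5 : 13 * (p.LL + 4) + 3 + qf.eval p.LL ≤ (qone qf).eval p.LL := by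
          rw [eval_qone]; omega
        refine h5.trans (hq1.trans ?_)
        rw [pow_mul]
        refine Nat.pow_le_pow_left (p.LL_le.trans (Nat.pow_le_pow_right (by norm_num) ?_)) k
        rw [hpa]
        omega
      have h6 : E1 S < 2 ^ E1 S := Nat.lt_two_pow_self
      have h7 : 2 ^ E1 S ≤ 2 ^ (E1 S + (6 + a + 3 * YS S) * k) :=
        Nat.pow_le_pow_right (by norm_num) (by omega)
      have h8 : 2 ^ ((6 + a + 3 * YS S) * k) ≤ 2 ^ (E1 S + (6 + a + 3 * YS S) * k) :=
        Nat.pow_le_pow_right (by norm_num) (by omega)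
      rw [pow_add _ _ 2]
      omega
    calc Kp * (H + 1) ≤ 2 ^ Kp * 2 ^ (E1 S + (6 + a + 3 * YS S) * k + 2) :=
          Nat.mul_le_mul Nat.lt_two_pow_self.le h1
      _ = 2 ^ (Kp + (E1 S + (6 + a + 3 * YS S) * k + 2)) := (pow_add _ _ _).symm
      _ ≤ 2 ^ (w - 1) := by
          refine Nat.pow_le_pow_right (by norm_num) ?_
          have : WS S = E1 S + (6 + a + 3 * YS S) * k + (Kp + 5) + 2 * S := rfl
          omega
  have hSw : 2 * S + 1 ≤ w - 1 := by
    have : WS S = E1 S + (6 + a + 3 * YS S) * k + (Kp + 5) + 2 * S := rfl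
    omega
  have hpow : 2 ^ S ≤ 2 ^ w := Nat.pow_le_pow_right (by norm_num) (by omega)
  have key := hP w H L (Inv e tb) (fun o => ∃ X, IsTab I X ∧ o = X.flatten)
    (hcost (sz I + 1)) h2w hHw ?_ ?_ ?_ ?_ ?_ ?_
  rotate_left
  · intro x hx
    rw [hL] at hx
    have := mem_inp hsum hx
    rw [← hS] at this
    omega
  · show sz L + 2 ≤ H
    omega
  · omega
  · rw [hstart]
    exact ⟨rfl, hgood.start, le_rfl⟩
  · intro s hs
    have h1 := (sz_inv (len := len) (tau := tau) (a := a) (I := I) hsz hs).1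
    rw [← hp] at h1
    refine ⟨?_, fun τ hτ => ?_⟩
    · have := polyEval_mono qf h1
      omega
    · obtain ⟨h2, h3⟩ := inv_rnd hgood hs τ (by rw [hτ]; exact (eL_le_sz s).trans (by omega))
      refine ⟨h2, fun o ho => ?_⟩
      obtain ⟨y, hy, hy'⟩ := h3 o ho
      exact ⟨y, (hmem y).1 hy, hy'⟩
  · rintro o ⟨X, hX, rfl⟩
    have hX' := hX
    rw [hI, isTab_inst_iff', mem_listsFull] at hX'
    obtain ⟨_, h1, h2⟩ := hX'
    refine ⟨fun x hx => ?_, ?_, ?_⟩
    · obtain ⟨r, hr, hxr⟩ := List.mem_flatten.1 hx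
      have h3 := (mem_listsFull.1 (h2 r hr)).2 x hxr
      rw [List.mem_range, List.sum_ofFn] at h3
      omega
    · rw [hI, isTab_iff_table] at hX
      obtain ⟨Y, rfl, _⟩ := hX
      rw [length_flatten_ofFn2]
      have h3 : m ≤ 2 ^ S := by omega
      have h4 : n ≤ 2 ^ S := by omega
      calc m * n ≤ 2 ^ S * 2 ^ S := Nat.mul_le_mul h3 h4
        _ = 2 ^ (S + S) := (pow_add _ _ _).symm
        _ ≤ 2 ^ (w - 1) := Nat.pow_le_pow_right (by norm_num) (by omega)
    · have h3 := (sz_flatten_le X).trans (sz_tab_le hX)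
      unfold hcost
      omega
  obtain ⟨k1, k2⟩ := key
  -- the potential
  obtain ⟨aC, haC⟩ : ∃ aC : ℝ, aC = (((qone qf).eval p.LA : ℕ) : ℝ) := ⟨_, rfl⟩
  obtain ⟨bC, hbC⟩ : ∃ bC : ℝ, bC = (((qone qf).eval p.LL : ℕ) : ℝ) := ⟨_, rfl⟩
  have haC0 : 0 ≤ aC := by rw [haC]; exact Nat.cast_nonneg _
  have hbC0 : 0 ≤ bC := by rw [hbC]; exact Nat.cast_nonneg _
  obtain ⟨k3, k4⟩ := k2 (Vf e aC bC) (fun s _ => Vf_nonneg haC0 hbC0 s) (by
    intro s hs
    have h1 := sz_inv (len := len) (tau := tau) (a := a) (I := I) hsz hs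
    rw [← hp] at h1
    have h2 := potential hgood haC0 hbC0 hs (rcost (sz s + 4) (qf.eval (sz s)) : ℝ)
      (fun hA => by
        rw [rcost_qone, haC]
        exact_mod_cast polyEval_mono (qone qf) (h1.2 hA))
      (fun _ => by
        rw [rcost_qone, hbC]
        exact_mod_cast polyEval_mono (qone qf) h1.1)
      (ℓ := sz s + 4) ((eL_le_sz s).trans (by omega))
    refine le_trans (le_of_eq ?_) h2
    congr 1
    refine congrArg (avg (sz s + 4)) (funext fun τ => ?_)
    rcases hr : rnd (tdata step) s τ with s' | o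
    · rfl
    · rfl)
  refine ⟨?_, ?_, ?_⟩
  · -- expected time
    refine k3.trans ?_
    have hVstart : Vf e aC bC (startC (len := len) (tau := tau) a L) ≤ (p.T + 1) * aC + 1 := by
      rw [hstart]
      unfold Vf
      simp only
      have e1 : eT e = p.T := by rw [hp]; rfl
      have e2 : eD e = p.D := by rw [hp]; rfl
      have e3 : eK e = p.K := by rw [hp]; rfl
      rw [e1, e2, e3]
      have h1 : (p.D + 2) * (qone qf).eval p.LL ≤ 2 ^ p.K :=
        p.cost_le k _ (by rw [hpa]; exact ha) hq1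
      have h2 : ((p.D : ℝ) + 2) * bC ≤ 2 ^ p.K := by
        rw [hbC]; exact_mod_cast h1
      have h3 : (2 : ℝ)⁻¹ ^ p.K * (((p.D : ℝ) + 2) * bC) ≤ 1 := by
        rw [inv_pow]
        rw [inv_mul_le_iff₀ (by positivity), mul_one]
        exact h2
      linarith
    have hTle : p.T + 1 ≤ 2 * 2 ^ a * YS S ^ 2 + 1 := by
      have h1 := p.T_le
      rw [hpa] at h1
      have h2 : 2 * 2 ^ a * p.y ^ 2 ≤ 2 * 2 ^ a * YS S ^ 2 :=
        Nat.mul_le_mul_left _ (Nat.pow_le_pow_left hy 2)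
      omega
    have hLAle : (qone qf).eval p.LA ≤ (qone qf).eval (57 * 2 ^ a * YS S ^ 3) := by
      refine polyEval_mono _ ?_
      have h1 := p.LA_le
      rw [hpa] at h1
      exact h1.trans (Nat.mul_le_mul_left _ (Nat.pow_le_pow_left hy 3))
    have hA : (p.T + 1) * (qone qf).eval p.LA + 1 ≤
        (2 * 2 ^ a * YS S ^ 2 + 1) * (qone qf).eval (57 * 2 ^ a * YS S ^ 3) + 1 :=
      Nat.add_le_add_right (Nat.mul_le_mul hTle hLAle) 1
    have hB : scost w Kp L.length ≤ 4 * wS S + 3 * Kp + 11 + (10 + 12 * wS S) * S := by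
      have : wS S = w := hw.symm
      rw [this]
      unfold scost
      exact Nat.add_le_add_left (Nat.mul_le_mul_left _ hlenL) _
    have hCc : rcost (sz L + 1) (qg.eval (sz L)) ≤ 20 + 70 * (LS S + 1) + 5 * qg.eval (LS S) := by
      have := polyEval_mono qg hszL
      unfold rcost
      omega
    have hDc : hcost (sz I + 1) ≤ 7 + 9 * (21 * S ^ 3 + 1) := by
      unfold hcost
      omega
    have htot : scost w Kp L.length + rcost (sz L + 1) (qg.eval (sz L)) +
        ((p.T + 1) * (qone qf).eval p.LA + 1) + hcost (sz I + 1) ≤ C * S ^ d := by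
      refine le_trans ?_ (hTS S hS1)
      exact Nat.add_le_add (Nat.add_le_add (Nat.add_le_add hB hCc) hA) hDc
    rw [← ENNReal.ofReal_natCast (C * S ^ d)]
    refine ENNReal.ofReal_le_ofReal ?_
    have htot' : ((scost w Kp L.length + rcost (sz L + 1) (qg.eval (sz L)) +
        ((p.T + 1) * (qone qf).eval p.LA + 1) + hcost (sz I + 1) : ℕ) : ℝ) ≤
        ((C * S ^ d : ℕ) : ℝ) := by exact_mod_cast htot
    refine le_trans ?_ htot'
    push_cast
    rw [← haC]
    linarith
  · intro ρ T out hh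
    obtain ⟨X, hX, hout⟩ := k1 ρ T out hh
    rw [hI, isTab_iff_table] at hX
    obtain ⟨Y, rfl, hY⟩ := hX
    exact ⟨Y, hY, hout⟩
  · intro X hX
    have hXt : IsTab I (ofFn2 X) := by rw [hI, isTab_iff_table]; exact ⟨X, rfl, hX⟩
    set Gd : List ℕ → Prop := fun out => out = (List.ofFn fun i => List.ofFn (X i)).flatten with hGd
    have h1 := k4 Gd (Hf (tdata step) e tb (fun o => ind (Gd o)))
      (fun s _ => Hf_mem hgood (fun o => ⟨ind_nonneg _, ind_le_one _⟩) s) (by
        intro s hs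
        have h2 := harmonic hgood hs (fun o => ind (Gd o)) (ℓ := sz s + 4)
          ((eL_le_sz s).trans (by omega))
        refine h2.symm.trans ?_
        refine congrArg (avg (sz s + 4)) (funext fun τ => ?_)
        rcases hr : rnd (tdata step) s τ with s' | o
        · simp only [hr]; rfl
        · simp only [hr]; rfl)
    rw [h1, hstart, Hf_start hgood _ ⟨eT e⟩ rfl]
    have hnd : tb.Nodup := hgood.nodup
    have hfs : tb.toFinset = tabs I := by rw [hI]; exact toFinset_enumT hDge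
    have hcard : tb.length = numBoundedTables rs cs (fun _ _ => ∑ i, rs i) := by
      rw [← List.toFinset_card_of_nodup hnd, hfs, hI, inst_eq, card_tabs]
    rw [hcard, ← List.sum_toFinset _ hnd, hfs]
    congr 1
    rw [Finset.sum_eq_single (ofFn2 X)]
    · exact ind_of rfl
    · intro Z hZ hne
      refine ind_of_not fun h => hne ?_
      rw [mem_tabs, hI, isTab_iff_table] at hZ
      obtain ⟨Y, rfl, _⟩ := hZ
      exact flat_inj h
    · intro h
      exact absurd (mem_tabs.2 hXt) h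

end Crest.Agent.R309.Exact9
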