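import Mathlib

/-!
# R309: stochastic gradient descent on the gauge, averaged form

`Ω` finite set of configurations, `τ : Ω → V → ℤ` defect vector, weights `w > 0`, base `B > 1`.
In the field `k : V → ℤ` the configuration `x` has weight `w x * B ^ (k · τ x)`; `A φ k` is the
expectation of `φ (k - τ x)`.  If some real field `l` has `∑ w x exp (l · τ x) ≤ 2 N₀`, then the
average over the times `s < T` of the expectation of `N₀ / Z k_s` is at least
`3/8 - |l|² / (4 T log B)`, for the process started from the field `0`.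
-/

set_option autoImplicit false
set_option linter.unusedSectionVars false

namespace Crest.Agent.R309.Sgd943

open Finset

variable {Ω V : Type*} [Fintype Ω] [Fintype V]

/-- pairing of a field with a defect vector -/
def dot (k τ : V → ℤ) : ℤ := ∑ v, k v * τ v

/-- weight of `x` in the field `k` -/
noncomputable def wt (w : Ω → ℝ) (τ : Ω → V → ℤ) (B : ℝ) (k : V → ℤ) (x : Ω) : ℝ :=
  w x * B ^ dot k (τ x)

/-- partition function in the field `k` -/
noncomputable def Z (w : Ω → ℝ) (τ : Ω → V → ℤ) (B : ℝ) (k : V → ℤ) : ℝ := ∑ x, wt w τ B k x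

/-- one SGD step as an operator on functions of the field -/
noncomputable def A (w : Ω → ℝ) (τ : Ω → V → ℤ) (B : ℝ) (φ : (V → ℤ) → ℝ) (k : V → ℤ) : ℝ :=
  ∑ x, wt w τ B k x / Z w τ B k * φ (k - τ x)

section basic

variable {w : Ω → ℝ} {τ : Ω → V → ℤ} {B : ℝ}

theorem wt_pos (hw : ∀ x, 0 < w x) (hB : 0 < B) (k : V → ℤ) (x : Ω) : 0 < wt w τ B k x :=
  mul_pos (hw x) (zpow_pos hB _)

theorem Z_pos [Nonempty Ω] (hw : ∀ x, 0 < w x) (hB : 0 < B) (k : V → ℤ) : 0 < Z w τ B k :=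
  Finset.sum_pos (fun x _ => wt_pos hw hB k x) Finset.univ_nonempty

theorem p_nonneg [Nonempty Ω] (hw : ∀ x, 0 < w x) (hB : 0 < B) (k : V → ℤ) (x : Ω) :
    0 ≤ wt w τ B k x / Z w τ B k := (div_pos (wt_pos hw hB k x) (Z_pos hw hB k)).le

theorem p_sum [Nonempty Ω] (hw : ∀ x, 0 < w x) (hB : 0 < B) (k : V → ℤ) :
    ∑ x, wt w τ B k x / Z w τ B k = 1 := by
  rw [← Finset.sum_div]
  exact div_self (Z_pos hw hB k).ne'

theorem A_mono [Nonempty Ω] (hw : ∀ x, 0 < w x) (hB : 0 < B) {φ ψ : (V → ℤ) → ℝ}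
    (h : ∀ k, φ k ≤ ψ k) (k : V → ℤ) : A w τ B φ k ≤ A w τ B ψ k :=
  Finset.sum_le_sum fun x _ => mul_le_mul_of_nonneg_left (h _) (p_nonneg hw hB k x)

theorem A_iter_mono [Nonempty Ω] (hw : ∀ x, 0 < w x) (hB : 0 < B) (s : ℕ) {φ ψ : (V → ℤ) → ℝ}
    (h : ∀ k, φ k ≤ ψ k) (k : V → ℤ) : (A w τ B)^[s] φ k ≤ (A w τ B)^[s] ψ k := by
  induction s generalizing φ ψ with
  | zero => exact h k
  | succ s ih =>
    simp only [Function.iterate_succ_apply]
    exact ih (A_mono hw hB h)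

/-- affine combinations pass through `A` -/
theorem A_affine [Nonempty Ω] (hw : ∀ x, 0 < w x) (hB : 0 < B) (c d : ℝ) (φ ψ : (V → ℤ) → ℝ) :
    A w τ B (fun k => c + d * (φ k - ψ k)) = fun k => c + d * (A w τ B φ k - A w τ B ψ k) := by
  funext k
  unfold A
  have h1 : c = ∑ x, wt w τ B k x / Z w τ B k * c := by
    rw [← Finset.sum_mul, p_sum hw hB, one_mul]
  conv_rhs => rw [h1]
  rw [← Finset.sum_sub_distrib, Finset.mul_sum, ← Finset.sum_add_distrib]
  apply Finset.sum_congr rfl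
  intro x _
  ring

theorem A_iter_affine [Nonempty Ω] (hw : ∀ x, 0 < w x) (hB : 0 < B) (s : ℕ) (c d : ℝ)
    (φ ψ : (V → ℤ) → ℝ) (k : V → ℤ) :
    (A w τ B)^[s] (fun k => c + d * (φ k - ψ k)) k =
      c + d * ((A w τ B)^[s] φ k - (A w τ B)^[s] ψ k) := by
  induction s generalizing φ ψ with
  | zero => rfl
  | succ s ih =>
    simp only [Function.iterate_succ_apply]
    rw [A_affine hw hB, ih]

theorem A_iter_nonneg [Nonempty Ω] (hw : ∀ x, 0 < w x) (hB : 0 < B) (s : ℕ) {φ : (V → ℤ) → ℝ}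
    (h : ∀ k, 0 ≤ φ k) (k : V → ℤ) : 0 ≤ (A w τ B)^[s] φ k := by
  induction s generalizing φ with
  | zero => exact h k
  | succ s ih =>
    simp only [Function.iterate_succ_apply]
    exact ih fun k => Finset.sum_nonneg fun x _ => mul_nonneg (p_nonneg hw hB k x) (h _)

end basic

variable (w : Ω → ℝ) (τ : Ω → V → ℤ) (B : ℝ)

/-- potential of the field `k` with respect to the comparison field `l` -/
noncomputable def D (b : ℝ) (l : V → ℝ) (k : V → ℤ) : ℝ := ∑ v, (b * k v - l v) ^ 2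

/-- pointwise drift inequality -/
theorem drift [Nonempty Ω] (hw : ∀ x, 0 < w x) (hB : 1 < B) (G2 : ℝ)
    (hG : ∀ x, ∑ v, (τ x v : ℝ) ^ 2 ≤ G2) (l : V → ℝ) (N0 : ℝ)
    (hl : ∑ x, w x * Real.exp (∑ v, l v * (τ x v : ℝ)) ≤ 2 * N0) (k : V → ℤ) :
    (1 / 2) * (1 - Real.log B * G2 / 2) + (-(1 / (4 * Real.log B))) *
      (D (Real.log B) l k - A w τ B (D (Real.log B) l) k) ≤ N0 / Z w τ B k := by
  have hB0 : 0 < B := by linarith
  set b := Real.log B with hb
  have hb0 : 0 < b := Real.log_pos hB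
  have hZ := Z_pos (τ := τ) hw hB0 k
  set p : Ω → ℝ := fun x => wt w τ B k x / Z w τ B k with hp
  have hp0 : ∀ x, 0 ≤ p x := p_nonneg hw hB0 k
  have hp1 : ∑ x, p x = 1 := p_sum hw hB0 k
  -- the drift term
  set Y : ℝ := ∑ x, p x * ∑ v, (b * k v - l v) * (τ x v : ℝ) with hY
  -- lower bound for the ratio of partition functions
  have h1 : 1 - Y ≤ (∑ x, w x * Real.exp (∑ v, l v * (τ x v : ℝ))) / Z w τ B k := by
    have h2 : (∑ x, w x * Real.exp (∑ v, l v * (τ x v : ℝ))) / Z w τ B k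
        = ∑ x, p x * Real.exp (-(∑ v, (b * k v - l v) * (τ x v : ℝ))) := by
      rw [Finset.sum_div]
      apply Finset.sum_congr rfl
      intro x _
      simp only [hp, wt]
      have h3 : B ^ dot k (τ x) = Real.exp (b * ∑ v, (k v : ℝ) * (τ x v : ℝ)) := by
        rw [← Real.rpow_intCast, Real.rpow_def_of_pos hB0, ← hb]
        congr 2
        unfold dot
        push_cast
        rfl
      rw [h3]
      have h4 : Real.exp (∑ v, l v * (τ x v : ℝ)) = Real.exp (b * ∑ v, (k v : ℝ) * (τ x v : ℝ)) *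
          Real.exp (-(∑ v, (b * k v - l v) * (τ x v : ℝ))) := by
        rw [← Real.exp_add]
        congr 1
        rw [Finset.mul_sum, ← Finset.sum_neg_distrib, ← Finset.sum_add_distrib]
        apply Finset.sum_congr rfl
        intro v _
        ring
      rw [h4]
      ring
    rw [h2]
    have h5 : 1 - Y = ∑ x, p x * (1 - ∑ v, (b * k v - l v) * (τ x v : ℝ)) := by
      simp only [mul_sub, mul_one, Finset.sum_sub_distrib, hp1, hY]
    rw [h5]
    apply Finset.sum_le_sum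
    intro x _
    apply mul_le_mul_of_nonneg_left _ (hp0 x)
    have := Real.add_one_le_exp (-(∑ v, (b * k v - l v) * (τ x v : ℝ)))
    linarith
  -- the potential
  have h6 : A w τ B (D b l) k ≤ D b l k - 2 * b * Y + b ^ 2 * G2 := by
    have h7 : A w τ B (D b l) k = ∑ x, p x * (D b l k - 2 * b * (∑ v, (b * k v - l v) * (τ x v : ℝ))
        + b ^ 2 * ∑ v, (τ x v : ℝ) ^ 2) := by
      unfold A
      apply Finset.sum_congr rfl
      intro x _
      simp only [hp]
      congr 1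
      unfold D
      rw [Finset.mul_sum, Finset.mul_sum, ← Finset.sum_sub_distrib, ← Finset.sum_add_distrib]
      apply Finset.sum_congr rfl
      intro v _
      simp only [Pi.sub_apply]
      push_cast
      ring
    rw [h7]
    have h8 : D b l k - 2 * b * Y + b ^ 2 * G2 = ∑ x, p x * (D b l k -
        2 * b * (∑ v, (b * k v - l v) * (τ x v : ℝ)) + b ^ 2 * G2) := by
      simp only [mul_add, mul_sub, Finset.sum_add_distrib, Finset.sum_sub_distrib, ← Finset.sum_mul,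
        hp1, hY, one_mul, Finset.mul_sum]
      congr 2
      apply Finset.sum_congr rfl
      intro x _
      apply Finset.sum_congr rfl
      intro v _
      ring
    rw [h8]
    apply Finset.sum_le_sum
    intro x _
    apply mul_le_mul_of_nonneg_left _ (hp0 x)
    have := mul_le_mul_of_nonneg_left (hG x) (sq_nonneg b)
    linarith
  have h9 : (1 - Y) / 2 ≤ N0 / Z w τ B k := by
    have : (∑ x, w x * Real.exp (∑ v, l v * (τ x v : ℝ))) / Z w τ B k ≤ 2 * N0 / Z w τ B k :=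
      div_le_div_of_nonneg_right hl hZ.le
    have h10 : 2 * N0 / Z w τ B k = 2 * (N0 / Z w τ B k) := by ring
    linarith
  have h11 : Y ≤ (D b l k - A w τ B (D b l) k) / (2 * b) + b * G2 / 2 := by
    rw [div_add_div _ _ (by positivity) (by norm_num), le_div_iff₀ (by positivity)]
    nlinarith [h6]
  have h12 : -(1 / (4 * b)) * (D b l k - A w τ B (D b l) k)
      = -((D b l k - A w τ B (D b l) k) / (2 * b)) / 2 := by
    field_simp
    ring
  rw [h12]
  linarith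

/-- **SGD, exact sampling, averaged form.** -/
theorem sgd_exact [Nonempty Ω] (hw : ∀ x, 0 < w x) (hB : 1 < B) (G2 : ℝ)
    (hG : ∀ x, ∑ v, (τ x v : ℝ) ^ 2 ≤ G2) (l : V → ℝ) (N0 : ℝ)
    (hl : ∑ x, w x * Real.exp (∑ v, l v * (τ x v : ℝ)) ≤ 2 * N0) (T : ℕ) (k0 : V → ℤ) :
    (T : ℝ) * ((1 / 2) * (1 - Real.log B * G2 / 2)) - D (Real.log B) l k0 / (4 * Real.log B) ≤
      ∑ s ∈ range T, (A w τ B)^[s] (fun k => N0 / Z w τ B k) k0 := by
  have hB0 : 0 < B := by linarith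
  have hb0 : 0 < Real.log B := Real.log_pos hB
  have hD : ∀ k, 0 ≤ D (Real.log B) l k := fun k => Finset.sum_nonneg fun v _ => sq_nonneg _
  have hstep : ∀ s ∈ range T, (1 / 2) * (1 - Real.log B * G2 / 2) + (-(1 / (4 * Real.log B))) *
      ((A w τ B)^[s] (D (Real.log B) l) k0 - (A w τ B)^[s + 1] (D (Real.log B) l) k0) ≤
        (A w τ B)^[s] (fun k => N0 / Z w τ B k) k0 := by
    intro s _
    have h1 := A_iter_mono (τ := τ) hw hB0 s (drift w τ B hw hB G2 hG l N0 hl) k0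
    rw [A_iter_affine hw hB0] at h1
    rw [Function.iterate_succ_apply]
    exact h1
  refine le_trans ?_ (Finset.sum_le_sum hstep)
  rw [Finset.sum_add_distrib, Finset.sum_const, Finset.card_range, nsmul_eq_mul, ← Finset.mul_sum,
    Finset.sum_range_sub']
  simp only [Function.iterate_zero, id]
  have h2 := A_iter_nonneg (τ := τ) hw hB0 T hD k0
  have h3 : 0 < 1 / (4 * Real.log B) := by positivity
  have h4 : D (Real.log B) l k0 / (4 * Real.log B) = (1 / (4 * Real.log B)) * D (Real.log B) l k0 := by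
    ring
  rw [h4]
  nlinarith [mul_nonneg h3.le h2]

/-- perturbation of the iterates: `A'` is any operator preserving `[0,1]`-valued functions which is
within `ε` of `A` on the domain reached so far -/
theorem iter_approx [Nonempty Ω] (hw : ∀ x, 0 < w x) (hB : 0 < B)
    (A' : ((V → ℤ) → ℝ) → (V → ℤ) → ℝ) (ε : ℝ) (P : ℕ → (V → ℤ) → Prop) (T : ℕ)
    (hP : ∀ j k x, P j k → P (j + 1) (k - τ x))
    (hA' : ∀ φ : (V → ℤ) → ℝ, (∀ k, 0 ≤ φ k ∧ φ k ≤ 1) → ∀ k, 0 ≤ A' φ k ∧ A' φ k ≤ 1)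
    (hap : ∀ φ : (V → ℤ) → ℝ, (∀ k, 0 ≤ φ k ∧ φ k ≤ 1) → ∀ j < T, ∀ k, P j k →
      |A' φ k - A w τ B φ k| ≤ ε)
    (φ : (V → ℤ) → ℝ) (hφ : ∀ k, 0 ≤ φ k ∧ φ k ≤ 1) (s : ℕ) :
    ∀ j k, j + s ≤ T → P j k → |A'^[s] φ k - (A w τ B)^[s] φ k| ≤ s * ε := by
  have hpres : ∀ s, ∀ k, 0 ≤ A'^[s] φ k ∧ A'^[s] φ k ≤ 1 := by
    intro s
    induction s with
    | zero => exact hφ
    | succ s ih =>
      rw [Function.iterate_succ_apply']
      exact hA' _ ih
  induction s with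
  | zero => intro j k _ _; simp
  | succ s ih =>
    intro j k hj hk
    rw [Function.iterate_succ_apply', Function.iterate_succ_apply']
    have h1 := hap _ (hpres s) j (by omega) k hk
    have h2 : |A w τ B (A'^[s] φ) k - A w τ B ((A w τ B)^[s] φ) k| ≤ s * ε := by
      unfold A
      rw [← Finset.sum_sub_distrib]
      calc |∑ x, (wt w τ B k x / Z w τ B k * A'^[s] φ (k - τ x)
            - wt w τ B k x / Z w τ B k * (A w τ B)^[s] φ (k - τ x))|
          ≤ ∑ x, |wt w τ B k x / Z w τ B k * A'^[s] φ (k - τ x)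
            - wt w τ B k x / Z w τ B k * (A w τ B)^[s] φ (k - τ x)| := Finset.abs_sum_le_sum_abs _ _
        _ ≤ ∑ x, wt w τ B k x / Z w τ B k * (s * ε) := by
            apply Finset.sum_le_sum
            intro x _
            rw [← mul_sub, abs_mul, abs_of_nonneg (p_nonneg hw hB k x)]
            exact mul_le_mul_of_nonneg_left (ih (j + 1) (k - τ x) (by omega) (hP j k x hk))
              (p_nonneg hw hB k x)
        _ = s * ε := by rw [← Finset.sum_mul, p_sum hw hB, one_mul]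
    have h3 : A' (A'^[s] φ) k - A w τ B ((A w τ B)^[s] φ) k
        = (A' (A'^[s] φ) k - A w τ B (A'^[s] φ) k)
          + (A w τ B (A'^[s] φ) k - A w τ B ((A w τ B)^[s] φ) k) := by ring
    rw [h3]
    refine (abs_add_le _ _).trans ?_
    push_cast
    linarith

/-- **SGD, approximate sampling, averaged form.** -/
theorem sgd_approx [Nonempty Ω] (hw : ∀ x, 0 < w x) (hB : 1 < B) (G2 : ℝ)
    (hG : ∀ x, ∑ v, (τ x v : ℝ) ^ 2 ≤ G2) (l : V → ℝ) (N0 : ℝ) (hN0 : 0 ≤ N0)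
    (hNZ : ∀ k, N0 ≤ Z w τ B k)
    (hl : ∑ x, w x * Real.exp (∑ v, l v * (τ x v : ℝ)) ≤ 2 * N0)
    (A' : ((V → ℤ) → ℝ) → (V → ℤ) → ℝ) (ε : ℝ) (P : ℕ → (V → ℤ) → Prop) (T : ℕ)
    (hP0 : P 0 0) (hP : ∀ j k x, P j k → P (j + 1) (k - τ x))
    (hA' : ∀ φ : (V → ℤ) → ℝ, (∀ k, 0 ≤ φ k ∧ φ k ≤ 1) → ∀ k, 0 ≤ A' φ k ∧ A' φ k ≤ 1)
    (hap : ∀ φ : (V → ℤ) → ℝ, (∀ k, 0 ≤ φ k ∧ φ k ≤ 1) → ∀ j < T, ∀ k, P j k →
      |A' φ k - A w τ B φ k| ≤ ε) (hε : 0 ≤ ε)
    (hbG : Real.log B * G2 ≤ 1 / 2) (hT : 2 * ∑ v, l v ^ 2 ≤ T * Real.log B) :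
    (T : ℝ) * (1 / 4 - T * ε) ≤ ∑ s ∈ range T, A'^[s] (fun k => N0 / Z w τ B k) 0 := by
  have hB0 : 0 < B := by linarith
  have hb0 : 0 < Real.log B := Real.log_pos hB
  have h1 := sgd_exact w τ B hw hB G2 hG l N0 hl T 0
  have hD0 : D (Real.log B) l (0 : V → ℤ) = ∑ v, l v ^ 2 := by simp [D]
  rw [hD0] at h1
  have hφ : ∀ k, 0 ≤ N0 / Z w τ B k ∧ N0 / Z w τ B k ≤ 1 := fun k =>
    ⟨div_nonneg hN0 (Z_pos hw hB0 k).le, (div_le_one (Z_pos hw hB0 k)).mpr (hNZ k)⟩
  have h2 : ∀ s ∈ range T, (A w τ B)^[s] (fun k => N0 / Z w τ B k) 0 - T * ε ≤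
      A'^[s] (fun k => N0 / Z w τ B k) 0 := by
    intro s hs
    rw [Finset.mem_range] at hs
    have h3 := iter_approx w τ B hw hB0 A' ε P T hP hA' hap _ hφ s 0 0 (by omega) hP0
    have h4 := (abs_le.mp h3).1
    have h5 : (s : ℝ) * ε ≤ T * ε := mul_le_mul_of_nonneg_right (by exact_mod_cast hs.le) hε
    linarith
  refine le_trans ?_ (Finset.sum_le_sum h2)
  rw [Finset.sum_sub_distrib, Finset.sum_const, Finset.card_range, nsmul_eq_mul]
  have h6 : (∑ v, l v ^ 2) / (4 * Real.log B) ≤ T / 8 := by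
    rw [div_le_div_iff₀ (by positivity) (by norm_num)]
    linarith
  have h7 : (T : ℝ) * ((1 / 2) * (1 - Real.log B * G2 / 2)) ≥ T * (3 / 8) := by
    apply mul_le_mul_of_nonneg_left _ (Nat.cast_nonneg _)
    linarith
  linarith

end Crest.Agent.R309.Sgd943
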