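import Crest.Agent.R309.USInner
import Crest.Agent.R309.GaugeEx943
import Crest.Agent.R309.Sgd943

/-!
# R309: the gauge process of the unary sampler, averaged lower bound

`hsgd943` is the hypothesis `hsgd` of `US.inner_lower`.
-/

set_option autoImplicit false

namespace Crest.Agent.R309.SgdUS943

open Finset Crest.Agent.R309.Tape Crest.Agent.R309.US

/-! ### lists and functions -/

theorem zipWith_ofFn {α β γ : Type*} (g : α → β → γ) {n : ℕ} (a : Fin n → α) (b : Fin n → β) :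
    List.zipWith g (List.ofFn a) (List.ofFn b) = List.ofFn fun i => g (a i) (b i) := by
  apply List.ext_getElem
  · simp
  · intro i h1 h2
    simp

/-- defects as a function -/
def tf (I : Inst) (y : List ℕ) : Fin I.2.length → ℤ := fun v => I.2.getD v 0 - load I.1 y v

theorem ofFn_tf (I : Inst) (y : List ℕ) : tau I y = List.ofFn (tf I y) := by
  apply List.ext_getElem
  · simp [tau]
  · intro i h1 h2
    simp [tau, tf]

theorem norm1_ofFn {n : ℕ} (f : Fin n → ℤ) : norm1 (List.ofFn f) = ∑ v, (f v).natAbs := by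
  unfold norm1
  rw [List.map_ofFn, List.sum_ofFn]
  rfl

theorem dot_ofFn {n : ℕ} (k f : Fin n → ℤ) : US.dot (List.ofFn k) (List.ofFn f) = Sgd943.dot k f := by
  unfold US.dot Sgd943.dot
  rw [zipWith_ofFn, List.sum_ofFn]

theorem upd_ofFn (I : Inst) (k : Fin I.2.length → ℤ) (y : List ℕ) :
    List.zipWith (fun a b => a - b) (List.ofFn k) (tau I y) = List.ofFn (k - tf I y) := by
  rw [ofFn_tf, zipWith_ofFn]
  rfl

theorem replicate_eq (n : ℕ) : List.replicate n (0 : ℤ) = List.ofFn (0 : Fin n → ℤ) := by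
  apply List.ext_getElem
  · simp
  · intro i h1 h2
    simp

/-! ### weights -/

/-- configurations -/
abbrev Om (I : Inst) := {y : List ℕ // y ∈ box I.1}

instance (I : Inst) : Nonempty (Om I) := ⟨⟨_, zero_mem_box I.1⟩⟩

/-- vertex weight -/
noncomputable def w0 (I : Inst) (t : ℕ) (x : Om I) : ℝ := (1 / 2 : ℝ) ^ (t * norm1 (tau I x.1))

theorem w0_pos (I : Inst) (t : ℕ) (x : Om I) : 0 < w0 I t x := by unfold w0; positivity

/-- defect function on configurations -/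
def tO (I : Inst) (x : Om I) : Fin I.2.length → ℤ := tf I x.1

theorem wt_eq (I : Inst) (t p : ℕ) (k : Fin I.2.length → ℤ) (x : Om I) :
    Sgd943.wt (w0 I t) (tO I) (Bp p) k x = US.wt I t p (List.ofFn k) x.1 := by
  unfold Sgd943.wt US.wt w0 tO
  conv_rhs => rw [ofFn_tf, dot_ofFn]
  rw [ofFn_tf]

theorem sum_Om (I : Inst) (F : List ℕ → ℝ) : ∑ x : Om I, F x.1 = ∑ y ∈ box I.1, F y :=
  (Finset.sum_coe_sort (box I.1) F)

theorem Z_eq (I : Inst) (t p : ℕ) (k : Fin I.2.length → ℤ) :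
    Sgd943.Z (w0 I t) (tO I) (Bp p) k = Zk I t p (List.ofFn k) := by
  unfold Sgd943.Z Zk
  simp_rw [wt_eq]
  exact sum_Om I (fun y => US.wt I t p (List.ofFn k) y)

theorem Bp_gt {p : ℕ} (hp : 1 ≤ p) : 1 < Bp p := by
  unfold Bp
  have h1 : (1 / 2 : ℝ) ^ p ≤ (1 / 2) ^ 1 := pow_le_pow_of_le_one (by norm_num) (by norm_num) hp
  have h2 : (0 : ℝ) < (1 / 2) ^ p := by positivity
  rw [one_lt_inv₀ (by linarith)]
  linarith

theorem log_Bp_ge {p : ℕ} (hp : 1 ≤ p) : (1 / 2 : ℝ) ^ p ≤ Real.log (Bp p) := by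
  unfold Bp
  have h1 : (1 / 2 : ℝ) ^ p ≤ (1 / 2) ^ 1 := pow_le_pow_of_le_one (by norm_num) (by norm_num) hp
  have h2 : (0 : ℝ) < (1 / 2) ^ p := by positivity
  rw [Real.log_inv]
  have h3 := Real.log_le_sub_one_of_pos (x := 1 - (1 / 2 : ℝ) ^ p) (by linarith)
  linarith

theorem log_Bp_le {p : ℕ} (hp : 1 ≤ p) : Real.log (Bp p) ≤ 2 * (1 / 2 : ℝ) ^ p := by
  have h1 : (1 / 2 : ℝ) ^ p ≤ (1 / 2) ^ 1 := pow_le_pow_of_le_one (by norm_num) (by norm_num) hp
  have h2 : (0 : ℝ) < (1 / 2) ^ p := by positivity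
  have h3 := Real.log_le_sub_one_of_pos (x := Bp p) (by linarith [Bp_gt hp])
  refine h3.trans ?_
  unfold Bp
  have h4 : (0 : ℝ) < 1 - (1 / 2) ^ p := by linarith
  rw [sub_le_iff_le_add, inv_le_comm₀ h4 (by linarith), ]
  rw [inv_le_comm₀ (by linarith) h4] 
  rw [inv_le_iff_one_le_mul₀ h4]
  nlinarith

theorem card_sols_le_Z (I : Inst) (t p : ℕ) (hp : 1 ≤ p) (k : List ℤ) :
    ((sols I).card : ℝ) ≤ Zk I t p k := by
  have hB : 0 < Bp p := lt_trans one_pos (Bp_gt hp)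
  have h1 : ((sols I).card : ℝ) = ∑ y ∈ sols I, US.wt I t p k y := by
    rw [Finset.sum_congr rfl (fun y hy => wt_of_sol (mem_sols.1 hy).2)]
    simp
  rw [h1]
  unfold Zk
  apply Finset.sum_le_sum_of_subset_of_nonneg
  · exact Finset.filter_subset _ _
  · intro y _ _
    unfold US.wt
    exact mul_nonneg (by positivity) (zpow_pos hB _).le

/-! ### the gauge for list instances -/

/-- source of a cell -/
def sE (I : Inst) (hv : ∀ c ∈ I.1, c.1 < I.2.length ∧ c.2.1 < I.2.length) (e : Fin I.1.length) :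
    Fin I.2.length := ⟨(I.1[e]).1, (hv _ (List.getElem_mem e.2)).1⟩

/-- target of a cell -/
def tE (I : Inst) (hv : ∀ c ∈ I.1, c.1 < I.2.length ∧ c.2.1 < I.2.length) (e : Fin I.1.length) :
    Fin I.2.length := ⟨(I.1[e]).2.1, (hv _ (List.getElem_mem e.2)).2⟩

/-- upper bounds -/
def hE (I : Inst) (e : Fin I.1.length) : ℤ := (I.1[e]).2.2

/-- demand function -/
def dE (I : Inst) (v : Fin I.2.length) : ℤ := I.2.getD v 0

/-- list to function -/
def toX (I : Inst) (y : List ℕ) (e : Fin I.1.length) : ℤ := (y.getD e 0 : ℕ)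

/-- function to list -/
def toY (I : Inst) (x : Fin I.1.length → ℤ) : List ℕ := List.ofFn fun e => (x e).toNat

theorem toX_mem (I : Inst) {y : List ℕ} (hy : y ∈ box I.1) : toX I y ∈ Icc 0 (hE I) := by
  rw [mem_box_iff] at hy
  rw [Finset.mem_Icc]
  constructor
  · intro e; simp [toX]
  · intro e
    have := hy.2 e e.2
    simp only [toX, hE]
    rw [List.getD_eq_getElem _ _ e.2] at this
    exact_mod_cast this

theorem toY_mem (I : Inst) {x : Fin I.1.length → ℤ} (hx : x ∈ Icc 0 (hE I)) : toY I x ∈ box I.1 := by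
  rw [Finset.mem_Icc] at hx
  rw [mem_box_iff]
  refine ⟨by simp [toY], fun i hi => ?_⟩
  have h1 := hx.2 ⟨i, hi⟩
  have h0 := hx.1 ⟨i, hi⟩
  simp only [hE, Pi.zero_apply] at h1 h0
  rw [List.getD_eq_getElem _ _ hi, List.getD_eq_getElem _ _ (by simpa [toY] using hi)]
  simp only [toY, List.getElem_ofFn]
  have h2 : (x ⟨i, hi⟩).toNat ≤ ((I.1[(⟨i, hi⟩ : Fin I.1.length)]).2.2 : ℤ).toNat :=
    Int.toNat_le_toNat h1
  simpa using h2

theorem toY_toX (I : Inst) {y : List ℕ} (hy : y ∈ box I.1) : toY I (toX I y) = y := by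
  have hl := length_of_mem_box hy
  apply List.ext_getElem
  · simp [toY, hl]
  · intro i h1 h2
    simp [toY, toX, h2]

theorem toX_toY (I : Inst) {x : Fin I.1.length → ℤ} (hx : x ∈ Icc 0 (hE I)) : toX I (toY I x) = x := by
  rw [Finset.mem_Icc] at hx
  funext e
  have h0 := hx.1 e
  simp only [Pi.zero_apply] at h0
  simp [toX, toY, h0]

theorem load_eq (I : Inst) (hv : ∀ c ∈ I.1, c.1 < I.2.length ∧ c.2.1 < I.2.length) {y : List ℕ}
    (hy : y ∈ box I.1) (v : Fin I.2.length) :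
    load I.1 y v = Gauge943.bd (sE I hv) (tE I hv) (toX I y) v := by
  have hl := length_of_mem_box hy
  unfold load Gauge943.bd
  have h1 : List.zipWith (fun c a => contrib c a v) I.1 y
      = List.ofFn (fun e : Fin I.1.length => contrib (I.1[e]) (y.getD e 0) v) := by
    apply List.ext_getElem
    · simp [hl]
    · intro i h1 h2
      simp only [List.getElem_zipWith, List.getElem_ofFn]
      simp only [List.length_zipWith, hl, min_self] at h1
      rw [List.getD_eq_getElem _ _ (by rw [hl]; exact h1)]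
      rfl
  rw [h1, List.sum_ofFn]
  apply Finset.sum_congr rfl
  intro e _
  unfold contrib toX
  have e1 : ((I.1[e]).1 = (v : ℕ)) ↔ (sE I hv e = v) := by
    simp [sE, Fin.ext_iff]
  have e2 : ((I.1[e]).2.1 = (v : ℕ)) ↔ (tE I hv e = v) := by
    simp [tE, Fin.ext_iff]
  simp only [e1, e2]
  split_ifs <;> simp

theorem tf_eq (I : Inst) (hv : ∀ c ∈ I.1, c.1 < I.2.length ∧ c.2.1 < I.2.length) {y : List ℕ}
    (hy : y ∈ box I.1) : tf I y = -(Gauge943.bd (sE I hv) (tE I hv) (toX I y) - dE I) := by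
  funext v
  simp only [tf, Pi.neg_apply, Pi.sub_apply, dE, ← load_eq I hv hy v]
  ring

theorem card_sols (I : Inst) (hv : ∀ c ∈ I.1, c.1 < I.2.length ∧ c.2.1 < I.2.length) :
    (sols I).card = Gauge943.N (sE I hv) (tE I hv) 0 (hE I) (dE I) := by
  unfold Gauge943.N
  refine Finset.card_bij' (fun y _ => toX I y) (fun x _ => toY I x) ?_ ?_ ?_ ?_
  · intro y hy
    rw [mem_sols] at hy
    rw [Gauge943.mem_sol]
    have h1 := toX_mem I hy.1
    rw [Finset.mem_Icc] at h1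
    refine ⟨h1, ?_⟩
    have h2 := tf_eq I hv hy.1
    have h3 : tf I y = 0 := by
      have := hy.2
      rw [ofFn_tf, norm1_ofFn] at this
      funext v
      have h4 := Finset.sum_eq_zero_iff.mp this v (Finset.mem_univ v)
      simpa using h4
    rw [h3] at h2
    have h5 : Gauge943.bd (sE I hv) (tE I hv) (toX I y) - dE I = 0 := by
      rw [← neg_eq_zero]; exact h2.symm
    exact sub_eq_zero.mp h5
  · intro x hx
    rw [Gauge943.mem_sol] at hx
    have hx' : x ∈ Icc 0 (hE I) := by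
      rw [Finset.mem_Icc]
      exact hx.1
    rw [mem_sols]
    refine ⟨toY_mem I hx', ?_⟩
    rw [ofFn_tf, norm1_ofFn, tf_eq I hv (toY_mem I hx'), toX_toY I hx', hx.2]
    simp
  · intro y hy
    exact toY_toX I (mem_sols.1 hy).1
  · intro x hx
    rw [Gauge943.mem_sol] at hx
    have hx' : x ∈ Icc 0 (hE I) := by
      rw [Finset.mem_Icc]
      exact hx.1
    exact toX_toY I hx'

theorem sum_box_eq (I : Inst) (F : (Fin I.1.length → ℤ) → ℝ) :
    ∑ y ∈ box I.1, F (toX I y) = ∑ x ∈ Icc 0 (hE I), F x := by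
  refine Finset.sum_bij' (fun y _ => toX I y) (fun x _ => toY I x) ?_ ?_ ?_ ?_ ?_
  · intro y hy; exact toX_mem I hy
  · intro x hx; exact toY_mem I hx
  · intro y hy; exact toY_toX I hy
  · intro x hx; exact toX_toY I hx
  · intro y _; rfl

theorem card_box_eq (I : Inst) : ((box I.1).card : ℝ) = ((Icc 0 (hE I)).card : ℝ) := by
  have := sum_box_eq I (fun _ => 1)
  simpa using this

/-- the gauge, list form -/
theorem gauge_list (I : Inst) (hv : ∀ c ∈ I.1, c.1 < I.2.length ∧ c.2.1 < I.2.length)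
    (hne : (sols I).Nonempty) (t : ℕ) (ht : 2 * I.2.length ^ 2 ≤ 4 ^ t) :
    ∃ l : Fin I.2.length → ℝ, (∀ v, |l v| ≤ Real.log (box I.1).card) ∧
      ∑ x : Om I, w0 I t x * Real.exp (∑ v, l v * (tO I x v : ℝ)) ≤ 2 * ((sols I).card : ℝ) := by
  have hN : 0 < Gauge943.N (sE I hv) (tE I hv) 0 (hE I) (dE I) := by
    rw [← card_sols I hv]; exact Finset.card_pos.mpr hne
  obtain ⟨l, hl1, hl2⟩ := GaugeEx943.gauge_exists (sE I hv) (tE I hv) 0 (hE I) (dE I) hN
  refine ⟨fun v => - l v, ?_, ?_⟩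
  · intro v
    rw [abs_neg, card_box_eq]
    exact hl1 v
  · have h1 := GaugeEx943.soft_mass_le (sE I hv) (tE I hv) 0 (hE I) (dE I) hN l hl2
      ((1 / 2 : ℝ) ^ t) (by positivity) (by
        rw [Fintype.card_fin]
        have h2 : (2 : ℝ) * (I.2.length : ℝ) ^ 2 ≤ 4 ^ t := by exact_mod_cast ht
        have h3 : ((1 / 2 : ℝ) ^ t) ^ 2 = 1 / 4 ^ t := by
          rw [← pow_mul, mul_comm t 2, pow_mul, one_div (4 ^ t), ← inv_pow]
          norm_num
        rw [h3, one_div_mul_eq_div, div_le_iff₀ (by positivity)]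
        linarith)
    rw [← card_sols I hv] at h1
    refine le_trans (le_of_eq ?_) h1
    rw [← sum_box_eq I (fun x => ((1 / 2 : ℝ) ^ t) ^
      GaugeEx943.nrm (Gauge943.bd (sE I hv) (tE I hv) x - dE I) *
        GaugeEx943.gf l (Gauge943.bd (sE I hv) (tE I hv) x - dE I))]
    rw [← sum_Om I (fun y => ((1 / 2 : ℝ) ^ t) ^
      GaugeEx943.nrm (Gauge943.bd (sE I hv) (tE I hv) (toX I y) - dE I) *
        GaugeEx943.gf l (Gauge943.bd (sE I hv) (tE I hv) (toX I y) - dE I))]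
    apply Finset.sum_congr rfl
    intro x _
    have h4 := tf_eq I hv x.2
    have h5 : Gauge943.bd (sE I hv) (tE I hv) (toX I x.1) - dE I = - tf I x.1 := by rw [h4, neg_neg]
    rw [h5]
    unfold w0 tO GaugeEx943.gf GaugeEx943.nrm
    rw [ofFn_tf, norm1_ofFn, ← pow_mul]
    congr 1
    · simp
    · congr 1
      apply Finset.sum_congr rfl
      intro v _
      simp only [Pi.neg_apply]
      push_cast
      ring

/-! ### the process -/

/-- the update operator on functions of function-valued fields -/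
noncomputable def A' (I : Inst) (q t p m N : ℕ) (ψ : (Fin I.2.length → ℤ) → ℝ)
    (k : Fin I.2.length → ℤ) : ℝ :=
  avg (N * (q + m)) (fun l => ψ (k - tf I (soft I q t p m N (List.ofFn k)
    (List.replicate I.1.length 0) l)))

theorem markov_upd (I : Inst) (q t p m N : ℕ) (φ : List ℤ → ℝ) (s : ℕ) :
    ∀ k : Fin I.2.length → ℤ, (markov (upd I q t p m N) (N * (q + m)))^[s] φ (List.ofFn k)
      = (A' I q t p m N)^[s] (fun k => φ (List.ofFn k)) k := by
  induction s with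
  | zero => intro k; rfl
  | succ s ih =>
    intro k
    rw [Function.iterate_succ_apply', Function.iterate_succ_apply']
    unfold markov A'
    refine avg_congr fun l _ => ?_
    unfold upd
    rw [upd_ofFn]
    exact ih _

theorem GB_ofFn {n A : ℕ} {k : Fin n → ℤ} : GB n A (List.ofFn k) ↔ ∀ v, (k v).natAbs ≤ A := by
  unfold GB
  constructor
  · rintro ⟨-, h⟩ v
    exact h _ (by simp)
  · intro h
    refine ⟨by simp, fun a ha => ?_⟩
    rw [List.mem_ofFn] at ha
    obtain ⟨v, rfl⟩ := ha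
    exact h v

/-- **The averaged SGD bound in the form needed by `US.inner_lower`.** -/
theorem hsgd943 (I : Inst) (hv : ∀ c ∈ I.1, c.1 < I.2.length ∧ c.2.1 < I.2.length)
    (hne : (sols I).Nonempty) (q t p m N lT D Lam : ℕ) (ε : ℝ) (hε : 0 ≤ ε)
    (ht : 2 * I.2.length ^ 2 ≤ 4 ^ t)
    (hD : ∀ y ∈ box I.1, ∀ a ∈ tau I y, a.natAbs ≤ D)
    (hp : 1 ≤ p) (hpD : 4 * (I.2.length * D ^ 2) ≤ 2 ^ p)
    (hLam : (box I.1).card ≤ 2 ^ Lam) (hT : 2 * (I.2.length * Lam ^ 2) * 2 ^ p ≤ 2 ^ lT)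
    (hs : ∀ k, GB I.2.length (2 ^ lT * D) k → ∀ φ : List ℕ → ℝ, (∀ y, 0 ≤ φ y ∧ φ y ≤ 1) →
      |avg (N * (q + m)) (fun l => φ (soft I q t p m N k (List.replicate I.1.length 0) l)) -
        (∑ y ∈ box I.1, US.wt I t p k y * φ y) / Zk I t p k| ≤ ε) :
    1 / 4 - 2 ^ lT * ε ≤ (∑ s ∈ range (2 ^ lT), (markov (upd I q t p m N) (N * (q + m)))^[s]
      (fun k => ((sols I).card : ℝ) / Zk I t p k) (List.replicate I.2.length 0)) / 2 ^ lT := by
  obtain ⟨l, hl1, hl2⟩ := gauge_list I hv hne t ht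
  have hB := Bp_gt hp
  have hB0 : 0 < Bp p := by linarith
  have hlog := log_Bp_ge hp
  have hlog2 := log_Bp_le hp
  have hp2 : (0 : ℝ) < (1 / 2) ^ p := by positivity
  have hp3 : ((1 / 2 : ℝ) ^ p) * 2 ^ p = 1 := by rw [← mul_pow]; norm_num
  have hG : ∀ x : Om I, ∑ v, (tO I x v : ℝ) ^ 2 ≤ ((I.2.length * D ^ 2 : ℕ) : ℝ) := by
    intro x
    have h1 : ∀ v ∈ (univ : Finset (Fin I.2.length)), (tO I x v : ℝ) ^ 2 ≤ (D : ℝ) ^ 2 := by
      intro v _
      have h2 : (tO I x v).natAbs ≤ D := by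
        apply hD x.1 x.2
        rw [ofFn_tf]
        exact List.mem_ofFn.2 ⟨v, rfl⟩
      rw [sq_le_sq]
      have h3 : |(tO I x v : ℝ)| = ((tO I x v).natAbs : ℝ) := by
        rw [Nat.cast_natAbs]; push_cast; rfl
      rw [h3, abs_of_nonneg (Nat.cast_nonneg D)]
      exact_mod_cast h2
    refine (Finset.sum_le_sum h1).trans ?_
    simp
  have hbG : Real.log (Bp p) * ((I.2.length * D ^ 2 : ℕ) : ℝ) ≤ 1 / 2 := by
    have h1 : (4 : ℝ) * ((I.2.length * D ^ 2 : ℕ) : ℝ) ≤ 2 ^ p := by exact_mod_cast hpD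
    calc Real.log (Bp p) * ((I.2.length * D ^ 2 : ℕ) : ℝ)
        ≤ 2 * (1 / 2 : ℝ) ^ p * ((I.2.length * D ^ 2 : ℕ) : ℝ) :=
          mul_le_mul_of_nonneg_right hlog2 (Nat.cast_nonneg _)
      _ = ((1 / 2 : ℝ) ^ p) * (4 * ((I.2.length * D ^ 2 : ℕ) : ℝ)) / 2 := by ring
      _ ≤ ((1 / 2 : ℝ) ^ p) * (2 ^ p) / 2 := by
          have := mul_le_mul_of_nonneg_left h1 hp2.le
          linarith
      _ = 1 / 2 := by rw [hp3]
  have hl3 : ∑ v, l v ^ 2 ≤ ((I.2.length * Lam ^ 2 : ℕ) : ℝ) := by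
    have hbox : (0 : ℝ) < (box I.1).card := by
      exact_mod_cast Finset.card_pos.mpr ⟨_, zero_mem_box I.1⟩
    have h1 : Real.log (box I.1).card ≤ Lam := by
      have h2 : ((box I.1).card : ℝ) ≤ 2 ^ Lam := by exact_mod_cast hLam
      have h3 := Real.log_le_log hbox h2
      rw [Real.log_pow] at h3
      have h4 : Real.log 2 ≤ 1 := by
        have := Real.log_two_lt_d9
        linarith
      have h5 : (Lam : ℝ) * Real.log 2 ≤ Lam * 1 := mul_le_mul_of_nonneg_left h4 (Nat.cast_nonneg _)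
      linarith
    have h2 : ∀ v ∈ (univ : Finset (Fin I.2.length)), l v ^ 2 ≤ (Lam : ℝ) ^ 2 := by
      intro v _
      rw [sq_le_sq, abs_of_nonneg (Nat.cast_nonneg (α := ℝ) Lam)]
      exact (hl1 v).trans h1
    refine (Finset.sum_le_sum h2).trans ?_
    simp
  have hTT : 2 * ∑ v, l v ^ 2 ≤ ((2 ^ lT : ℕ) : ℝ) * Real.log (Bp p) := by
    have h1 : (2 : ℝ) * ((I.2.length * Lam ^ 2 : ℕ) : ℝ) * 2 ^ p ≤ ((2 ^ lT : ℕ) : ℝ) := by
      exact_mod_cast hT
    calc 2 * ∑ v, l v ^ 2 ≤ 2 * ((I.2.length * Lam ^ 2 : ℕ) : ℝ) := by linarith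
      _ = (2 * ((I.2.length * Lam ^ 2 : ℕ) : ℝ) * 2 ^ p) * (1 / 2 : ℝ) ^ p := by
          have : (2 * ((I.2.length * Lam ^ 2 : ℕ) : ℝ) * 2 ^ p) * (1 / 2 : ℝ) ^ p
            = 2 * ((I.2.length * Lam ^ 2 : ℕ) : ℝ) * ((1 / 2 : ℝ) ^ p * 2 ^ p) := by ring
          rw [this, hp3, mul_one]
      _ ≤ ((2 ^ lT : ℕ) : ℝ) * (1 / 2 : ℝ) ^ p := mul_le_mul_of_nonneg_right h1 hp2.le
      _ ≤ ((2 ^ lT : ℕ) : ℝ) * Real.log (Bp p) :=
          mul_le_mul_of_nonneg_left hlog (Nat.cast_nonneg _)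
  have key := Sgd943.sgd_approx (w0 I t) (tO I) (Bp p) (w0_pos I t) hB
    ((I.2.length * D ^ 2 : ℕ) : ℝ) hG l ((sols I).card : ℝ) (Nat.cast_nonneg _)
    (fun k => by rw [Z_eq]; exact card_sols_le_Z I t p hp _) hl2
    (A' I q t p m N) ε (fun j k => ∀ v, (k v).natAbs ≤ j * D) (2 ^ lT)
    (by intro v; simp)
    (by
      intro j k x hk v
      have h1 := hk v
      have h2 : (tO I x v).natAbs ≤ D := by
        apply hD x.1 x.2
        rw [ofFn_tf]
        exact List.mem_ofFn.2 ⟨v, rfl⟩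
      have h3 := Int.natAbs_sub_le (k v) (tO I x v)
      simp only [Pi.sub_apply]
      calc (k v - tO I x v).natAbs ≤ (k v).natAbs + (tO I x v).natAbs := h3
        _ ≤ j * D + D := Nat.add_le_add h1 h2
        _ = (j + 1) * D := by ring)
    (by
      intro φ hφ k
      exact ⟨avg_nonneg fun l _ => (hφ _).1, avg_le_const fun l _ => (hφ _).2⟩)
    (by
      intro φ hφ j hj k hk
      have h1 : GB I.2.length (2 ^ lT * D) (List.ofFn k) := by
        rw [GB_ofFn]
        intro v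
        exact (hk v).trans (Nat.mul_le_mul_right D hj.le)
      have h2 := hs (List.ofFn k) h1 (fun y => φ (k - tf I y)) (fun y => hφ _)
      have h3 : Sgd943.A (w0 I t) (tO I) (Bp p) φ k
          = (∑ y ∈ box I.1, US.wt I t p (List.ofFn k) y * φ (k - tf I y)) / Zk I t p (List.ofFn k) := by
        unfold Sgd943.A
        rw [← sum_Om I (fun y => US.wt I t p (List.ofFn k) y * φ (k - tf I y)), Finset.sum_div]
        apply Finset.sum_congr rfl
        intro x _
        rw [wt_eq, Z_eq]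
        simp only [tO]
        ring
      rw [h3]
      exact h2)
    hε hbG hTT
  have hpow : (0 : ℝ) < 2 ^ lT := by positivity
  rw [le_div_iff₀ hpow]
  rw [replicate_eq]
  simp_rw [markov_upd]
  have e1 : (((2 ^ lT : ℕ) : ℝ)) = 2 ^ lT := by push_cast; rfl
  rw [e1] at key
  calc (1 / 4 - 2 ^ lT * ε) * 2 ^ lT = 2 ^ lT * (1 / 4 - 2 ^ lT * ε) := by ring
    _ ≤ _ := key
    _ = _ := by
      apply Finset.sum_congr rfl
      intro s _
      simp_rw [Z_eq]

end Crest.Agent.R309.SgdUS943
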