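import Mathlib
import Crest.Agent.R309.Stab5
import Crest.Agent.R309.Outer926B

/-!
# Row 309, stability chain, part 6 (helper550)

`ParityNear` of helper926's `Outer926B` holds with `K = 6 |E| + 1`; the block Poincaré inequality
without hypotheses.
-/

set_option autoImplicit false
set_option linter.unusedSectionVars false

namespace Crest.Agent.R309.Stab

open Finset Crest.Agent.R309.Outer926 Crest.Agent.R309.Blocks

variable {E V : Type} [Fintype E] [DecidableEq E] [Fintype V] [DecidableEq V]

theorem parityNear (s t : E → V) (hst : ∀ e, s e ≠ t e) : ParityNear s t (6 * Fintype.card E + 1) := by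
  intro lo hi β a ha b hb
  have key : ∀ a : E → ℤ, ((sys s t lo hi β).filter fun Y => rkey 1 Y = rkey 1 a) =
      res s t lo hi β (rkey 1 a) := by
    intro a
    unfold res
    apply Finset.filter_congr
    intro x _
    constructor
    · intro h e
      have := congrFun h e
      simpa [rkey] using this
    · intro h
      funext e
      have := h e
      simpa [rkey] using this
  rw [key, key]
  have h := near_res s t hst lo hi β (rkey 1 a) (rkey 1 b) ⟨a, ?_⟩ ⟨b, ?_⟩
  · exact_mod_cast h
  · rw [← key]; simp [ha]
  · rw [← key]; simp [hb]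

/-- **Block Poincaré inequality for box systems**, unconditional. -/
theorem block_poincare_sys (s t : E → V) (hst : ∀ e, s e ≠ t e) (lo hi : E → ℤ)
    (β : V → ℤ) (J : ℕ) (hJ : 2 ≤ J) (hrange : ∀ e, hi e - lo e < 2 ^ J) (L : ℕ) (hL : 0 < L)
    (hLJ : 2 * (Fintype.card E * (6 * Fintype.card E + 1)) * J ^ 2 ≤ L) (f : (E → ℤ) → ℝ) :
    sv (sys s t lo hi β) f * ((Finset.range J ×ˢ Finset.range L).card : ℝ) ≤
      (4 * (J : ℝ)) * ∑ p ∈ Finset.range J ×ˢ Finset.range L,
        csv (sys s t lo hi β) (fun z => (rkey p.1 z, wkey L p.1 p.2 z)) f :=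
  sys_block_poincare (parityNear s t hst) lo hi β J hJ hrange L hL hLJ f

end Crest.Agent.R309.Stab
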