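import Crest.Agent.R309.UGDefs

/-!
R309: basic facts on the configuration sums `cs`, the partition function `Z`, and the
bilinear forms.
-/

set_option autoImplicit false
set_option linter.unusedSectionVars false

namespace Crest.Agent.R309.UG

open Finset

variable {V : Type*} [DecidableEq V]

theorem sh_add (e : Cell V) (y : ℕ) (β δ : V → ℤ) : e.sh y (β + δ) = e.sh y β + δ := by
  unfold Cell.sh; module

theorem sh_sub (e : Cell V) (y : ℕ) (β δ : V → ℤ) : e.sh y (β - δ) = e.sh y β - δ := by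
  unfold Cell.sh; module

theorem sh_comm (e f : Cell V) (x y : ℕ) (β : V → ℤ) :
    e.sh x (f.sh y β) = f.sh y (e.sh x β) := by
  unfold Cell.sh; module

theorem cs_shift (R : List (Cell V)) : ∀ (β δ : V → ℤ) (H : (V → ℤ) → List ℕ → ℝ),
    cs R (β + δ) H = cs R β (fun t Y => H (t + δ) Y) := by
  induction R with
  | nil => intro β δ H; rfl
  | cons e R ih =>
    intro β δ H
    rw [cs_cons, cs_cons]
    refine Finset.sum_congr rfl fun y _ => ?_
    rw [sh_add, ih]

theorem cs_shift_sub (R : List (Cell V)) (β δ : V → ℤ) (H : (V → ℤ) → List ℕ → ℝ) :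
    cs R (β - δ) H = cs R β (fun t Y => H (t - δ) Y) := by
  rw [sub_eq_add_neg, cs_shift]; simp only [sub_eq_add_neg]

theorem cs_add (R : List (Cell V)) : ∀ (β : V → ℤ) (H H' : (V → ℤ) → List ℕ → ℝ),
    cs R β (fun t Y => H t Y + H' t Y) = cs R β H + cs R β H' := by
  induction R with
  | nil => intro β H H'; rfl
  | cons e R ih =>
    intro β H H'
    rw [cs_cons, cs_cons, cs_cons, ← Finset.sum_add_distrib]
    refine Finset.sum_congr rfl fun y _ => ?_
    rw [ih, mul_add]

theorem cs_mul_left (R : List (Cell V)) : ∀ (β : V → ℤ) (c : ℝ) (H : (V → ℤ) → List ℕ → ℝ),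
    cs R β (fun t Y => c * H t Y) = c * cs R β H := by
  induction R with
  | nil => intro β c H; rfl
  | cons e R ih =>
    intro β c H
    rw [cs_cons, cs_cons, Finset.mul_sum]
    refine Finset.sum_congr rfl fun y _ => ?_
    rw [ih]; ring

theorem cs_sub (R : List (Cell V)) (β : V → ℤ) (H H' : (V → ℤ) → List ℕ → ℝ) :
    cs R β (fun t Y => H t Y - H' t Y) = cs R β H - cs R β H' := by
  have h := cs_add R β H (fun t Y => (-1) * H' t Y)
  rw [cs_mul_left] at h
  rw [show (fun (t : V → ℤ) (Y : List ℕ) => H t Y - H' t Y)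
      = (fun t Y => H t Y + (-1) * H' t Y) from by funext t Y; ring, h]
  ring

theorem cs_zero (R : List (Cell V)) (β : V → ℤ) :
    cs R β (fun _ _ => (0 : ℝ)) = 0 := by
  have h := cs_mul_left R β 0 (fun _ _ => (0 : ℝ))
  simpa using h

theorem cs_sum {ι : Type*} (s : Finset ι) (R : List (Cell V)) (β : V → ℤ)
    (H : ι → (V → ℤ) → List ℕ → ℝ) :
    cs R β (fun t Y => ∑ i ∈ s, H i t Y) = ∑ i ∈ s, cs R β (H i) := by
  classical
  induction s using Finset.induction_on with
  | empty => simpa using cs_zero R β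
  | insert a s ha ih =>
    rw [Finset.sum_insert ha, ← ih, ← cs_add]
    congr 1; funext t Y; rw [Finset.sum_insert ha]

theorem cs_mono (R : List (Cell V)) (hR : ∀ e ∈ R, e.OK) :
    ∀ (β : V → ℤ) (H H' : (V → ℤ) → List ℕ → ℝ), (∀ t Y, H t Y ≤ H' t Y) →
    cs R β H ≤ cs R β H' := by
  induction R with
  | nil => intro β H H' h; exact h _ _
  | cons e R ih =>
    intro β H H' h
    rw [cs_cons, cs_cons]
    refine Finset.sum_le_sum fun y hy => ?_
    have hpos := (hR e (by simp)).pos y (by simpa [Nat.lt_succ_iff] using hy)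
    exact mul_le_mul_of_nonneg_left
      (ih (fun f hf => hR f (by simp [hf])) _ _ _ (fun t Y => h t (y :: Y))) hpos.le

theorem cs_nonneg (R : List (Cell V)) (hR : ∀ e ∈ R, e.OK) (β : V → ℤ)
    (H : (V → ℤ) → List ℕ → ℝ) (h : ∀ t Y, 0 ≤ H t Y) : 0 ≤ cs R β H := by
  have := cs_mono R hR β (fun _ _ => 0) H h
  rwa [cs_zero] at this

theorem cs_pos (R : List (Cell V)) (hR : ∀ e ∈ R, e.OK) :
    ∀ (β : V → ℤ) (H : (V → ℤ) → List ℕ → ℝ), (∀ t Y, 0 < H t Y) → 0 < cs R β H := by
  induction R with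
  | nil => intro β H h; exact h _ _
  | cons e R ih =>
    intro β H h
    rw [cs_cons]
    refine Finset.sum_pos (fun y hy => ?_) ⟨0, by simp⟩
    have hpos := (hR e (by simp)).pos y (by simpa [Nat.lt_succ_iff] using hy)
    exact mul_pos hpos (ih (fun f hf => hR f (by simp [hf])) _ _ (fun t Y => h t (y :: Y)))

/-- Cauchy–Schwarz for the positive functional `cs R β`. -/
theorem cs_sq_le (R : List (Cell V)) (hR : ∀ e ∈ R, e.OK) (β : V → ℤ)
    (w : (V → ℤ) → ℝ) (hw : ∀ t, 0 ≤ w t) (g : List ℕ → ℝ) :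
    (cs R β (fun t Y => w t * g Y)) ^ 2
      ≤ cs R β (fun t _ => w t) * cs R β (fun t Y => w t * g Y ^ 2) := by
  set a := cs R β (fun t _ => w t)
  set b := cs R β (fun t Y => w t * g Y)
  set c := cs R β (fun t Y => w t * g Y ^ 2)
  have ha : 0 ≤ a := cs_nonneg R hR β _ (fun t _ => hw t)
  have key : ∀ x : ℝ, 0 ≤ a * (x * x) + (2 * b) * x + c := by
    intro x
    have h1 : 0 ≤ cs R β (fun t Y => w t * (x + g Y) ^ 2) :=
      cs_nonneg R hR β _ (fun t Y => mul_nonneg (hw t) (sq_nonneg _))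
    have h2 : cs R β (fun t Y => w t * (x + g Y) ^ 2) = a * (x * x) + (2 * b) * x + c := by
      have : (fun (t : V → ℤ) (Y : List ℕ) => w t * (x + g Y) ^ 2)
          = (fun t Y => (x * x * w t + 2 * x * (w t * g Y)) + w t * g Y ^ 2) := by
        funext t Y; ring
      rw [this, cs_add, cs_add, cs_mul_left, cs_mul_left]
      ring
    rw [← h2]; exact h1
  have := discrim_le_zero key
  unfold discrim at this
  nlinarith [this]

section Z

variable {G : (V → ℤ) → ℝ}

theorem Z_pos (hG : ∀ β, 0 < G β) (R : List (Cell V)) (hR : ∀ e ∈ R, e.OK) (β : V → ℤ) :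
    0 < Z G R β := cs_pos R hR β _ (fun t _ => hG t)

theorem Z_shift_le (K : ℝ) (hK : ∀ t a b, G (t + ev a - ev b) ≤ K * G t)
    (R : List (Cell V)) (hR : ∀ e ∈ R, e.OK) (β : V → ℤ) (a b : V) :
    Z G R (β + ev a - ev b) ≤ K * Z G R β := by
  unfold Z
  rw [cs_shift_sub, cs_shift, ← cs_mul_left]
  refine cs_mono R hR _ _ _ (fun t _ => ?_)
  have := hK t a b
  simpa [sub_eq_add_neg, add_assoc, add_comm, add_left_comm] using this

theorem Z_swap (e f : Cell V) (R : List (Cell V)) (β : V → ℤ) :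
    Z G (e :: f :: R) β = Z G (f :: e :: R) β := by
  rw [Z_cons, Z_cons]
  simp only [Z_cons, Finset.mul_sum]
  rw [Finset.sum_comm]
  refine Finset.sum_congr rfl fun y _ => Finset.sum_congr rfl fun x _ => ?_
  rw [sh_comm]; ring

theorem Z_perm {R R' : List (Cell V)} (h : R.Perm R') : ∀ β : V → ℤ, Z G R β = Z G R' β := by
  induction h with
  | nil => intro β; rfl
  | cons x _ ih => intro β; rw [Z_cons, Z_cons]; exact Finset.sum_congr rfl fun y _ => by rw [ih]
  | swap x y l => intro β; exact Z_swap y x l β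
  | trans _ _ ih1 ih2 => intro β; rw [ih1, ih2]

end Z

section forms

variable [Fintype V]

/-- real unit vector -/
def one (a : V) : V → ℝ := Pi.single a 1

theorem Q_add_left (A : V → V → ℝ) (ν ν' μ : V → ℝ) : Q A (ν + ν') μ = Q A ν μ + Q A ν' μ := by
  unfold Q; rw [← Finset.sum_add_distrib]
  refine Finset.sum_congr rfl fun a _ => ?_
  rw [← Finset.sum_add_distrib]
  refine Finset.sum_congr rfl fun b _ => ?_
  simp only [Pi.add_apply]; ring

theorem Q_smul_left (A : V → V → ℝ) (c : ℝ) (ν μ : V → ℝ) : Q A (c • ν) μ = c * Q A ν μ := by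
  unfold Q; rw [Finset.mul_sum]
  refine Finset.sum_congr rfl fun a _ => ?_
  rw [Finset.mul_sum]
  refine Finset.sum_congr rfl fun b _ => ?_
  simp only [Pi.smul_apply, smul_eq_mul]; ring

theorem Q_symm (A : V → V → ℝ) (hA : ∀ a b, A a b = A b a) (ν μ : V → ℝ) :
    Q A ν μ = Q A μ ν := by
  unfold Q; rw [Finset.sum_comm]
  refine Finset.sum_congr rfl fun a _ => Finset.sum_congr rfl fun b _ => ?_
  rw [hA b a]; ring

theorem Q_one_right (A : V → V → ℝ) (ν : V → ℝ) (c : V) :
    Q A ν (one c) = ∑ a, ν a * A a c := by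
  unfold Q one
  refine Finset.sum_congr rfl fun a _ => ?_
  rw [Finset.sum_eq_single c]
  · simp
  · intro b _ hb; simp [hb]
  · simp

theorem Q_one_one (A : V → V → ℝ) (a c : V) : Q A (one a) (one c) = A a c := by
  rw [Q_one_right, Finset.sum_eq_single a]
  · simp [one]
  · intro b _ hb; simp [one, hb]
  · simp

theorem frm_symm (G : (V → ℤ) → ℝ) (R : List (Cell V)) (β : V → ℤ) (a b : V) :
    frm G R β a b = frm G R β b a := by
  unfold frm; rw [sub_right_comm]

/-- expansion of the form on `ν + x e_u + y e_w` -/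
theorem Q_expand (A : V → V → ℝ) (hA : ∀ a b, A a b = A b a) (ν : V → ℝ) (u w : V) (x y : ℝ) :
    Q A (ν + x • one u + y • one w) (ν + x • one u + y • one w)
      = Q A ν ν + 2 * x * Q A ν (one u) + 2 * y * Q A ν (one w)
        + x ^ 2 * A u u + y ^ 2 * A w w + 2 * x * y * A u w := by
  have h : ∀ μ, Q A (ν + x • one u + y • one w) μ
      = Q A ν μ + x * Q A (one u) μ + y * Q A (one w) μ := by
    intro μ; rw [Q_add_left, Q_add_left, Q_smul_left, Q_smul_left]
  rw [h, Q_symm A hA ν, Q_symm A hA (one u) (ν + x • one u + y • one w),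
    Q_symm A hA (one w) (ν + x • one u + y • one w), h, h, h,
    Q_symm A hA (one u) ν, Q_symm A hA (one w) ν, Q_one_one, Q_one_one, Q_one_one, Q_one_one,
    hA w u]
  ring

/-- value of the form against a unit vector after the modification -/
theorem Q_expand_right (A : V → V → ℝ) (ν : V → ℝ) (u w c : V) (x y : ℝ) :
    Q A (ν + x • one u + y • one w) (one c)
      = Q A ν (one c) + x * A u c + y * A w c := by
  rw [Q_add_left, Q_add_left, Q_smul_left, Q_smul_left, Q_one_one, Q_one_one]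

end forms

end Crest.Agent.R309.UG
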