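import Crest.Agent.R309.UGEnergy

/-!
R309: the transport inequality.  For log-concave cell weights and a vertex weight `G` with
`G (t + e_a - e_b) ≤ K * G t`, the laws of the configurations of `R` with demands `γ - e_u`,
`γ - e_w` satisfy `(E h - E' h)^2 ≤ (#R * K^2 * (B+1)^2 / 2) * (normalised Dirichlet form)`.
-/

set_option autoImplicit false
set_option linter.unusedSectionVars false

namespace Crest.Agent.R309.UG

open Finset

variable {V : Type*} [DecidableEq V] [Fintype V]

theorem Ex_cons (G : (V → ℤ) → ℝ) (e : Cell V) (R : List (Cell V)) (β : V → ℤ)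
    (h : List ℕ → ℝ) :
    Ex G (e :: R) β h = ∑ y ∈ range (e.b + 1), e.wt y * Ex G R (e.sh y β) (fun Y => h (y :: Y)) :=
  rfl

theorem Ex_one (G : (V → ℤ) → ℝ) (R : List (Cell V)) (β : V → ℤ) :
    Ex G R β (fun _ => 1) = Z G R β := by
  unfold Ex Z; simp

theorem Ex_sub_eq (G : (V → ℤ) → ℝ) (R : List (Cell V)) (β : V → ℤ) (h h' : List ℕ → ℝ) :
    Ex G R β (fun Y => h Y - h' Y) = Ex G R β h - Ex G R β h' := by
  unfold Ex; rw [← cs_sub]; congr 1; funext t Y; ring

theorem Ex_nonneg (G : (V → ℤ) → ℝ) (hG : ∀ β, 0 < G β) (R : List (Cell V))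
    (hR : ∀ e ∈ R, e.OK) (β : V → ℤ) (h : List ℕ → ℝ) (hh : ∀ Y, 0 ≤ h Y) : 0 ≤ Ex G R β h :=
  cs_nonneg R hR β _ (fun t Y => mul_nonneg (hG t).le (hh Y))

theorem Ex_sq_le (G : (V → ℤ) → ℝ) (hG : ∀ β, 0 < G β) (R : List (Cell V))
    (hR : ∀ e ∈ R, e.OK) (β : V → ℤ) (h : List ℕ → ℝ) :
    (Ex G R β h) ^ 2 ≤ Z G R β * Ex G R β (fun Y => h Y ^ 2) :=
  cs_sq_le R hR β G (fun t => (hG t).le) h

/-- the signed measure `m_ν` tested against `h` -/
noncomputable def Mf (G : (V → ℤ) → ℝ) (R : List (Cell V)) (γ : V → ℤ) (ν : V → ℝ)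
    (h : List ℕ → ℝ) : ℝ := ∑ a, ν a * Ex G R (γ - ev a) h

theorem Mf_cons (G : (V → ℤ) → ℝ) (e : Cell V) (R : List (Cell V)) (γ : V → ℤ) (ν : V → ℝ)
    (h : List ℕ → ℝ) :
    Mf G (e :: R) γ ν h
      = ∑ y ∈ range (e.b + 1), e.wt y * Mf G R (e.sh y γ) ν (fun Y => h (y :: Y)) := by
  unfold Mf
  simp only [Ex_cons, Finset.mul_sum, sh_sub]
  rw [Finset.sum_comm]
  refine Finset.sum_congr rfl fun y _ => Finset.sum_congr rfl fun a _ => by ring

theorem Mf_upd (G : (V → ℤ) → ℝ) (R : List (Cell V)) (γ : V → ℤ) (ν : V → ℝ) (u w : V)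
    (x y : ℝ) (h : List ℕ → ℝ) :
    Mf G R γ (ν + x • one u + y • one w) h
      = Mf G R γ ν h + x * Ex G R (γ - ev u) h + y * Ex G R (γ - ev w) h := by
  have h1 : ∀ c : V, ∑ a, (one c : V → ℝ) a * Ex G R (γ - ev a) h = Ex G R (γ - ev c) h := by
    intro c
    rw [Finset.sum_eq_single c]
    · simp [one]
    · intro b _ hb; simp [one, hb]
    · simp
  unfold Mf
  simp only [Pi.add_apply, Pi.smul_apply, smul_eq_mul, add_mul, Finset.sum_add_distrib, mul_assoc]
  rw [← Finset.mul_sum, ← Finset.mul_sum, h1, h1]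

/-- Dirichlet form with hole weights -/
noncomputable def HD (G : (V → ℤ) → ℝ) : List (Cell V) → (V → ℤ) → (List ℕ → ℝ) → ℝ
  | [], _, _ => 0
  | e :: R, γ, h =>
      (∑ y ∈ range e.b, min (e.wt y) (e.wt (y + 1)) *
        Ex G R (e.sh y γ - ev e.u) (fun Y => (h ((y + 1) :: Y) - h (y :: Y)) ^ 2))
      + ∑ y ∈ range (e.b + 1), e.wt y * HD G R (e.sh y γ) (fun Y => h (y :: Y))

theorem HD_nonneg (G : (V → ℤ) → ℝ) (hG : ∀ β, 0 < G β) (R : List (Cell V)) :
    (∀ e ∈ R, e.OK) → ∀ (γ : V → ℤ) (h : List ℕ → ℝ), 0 ≤ HD G R γ h := by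
  induction R with
  | nil => intro _ γ h; exact le_refl _
  | cons e R ih =>
    intro hR γ h
    have hR' : ∀ f ∈ R, f.OK := fun f hf => hR f (by simp [hf])
    have he := hR e (by simp)
    unfold HD
    refine add_nonneg (Finset.sum_nonneg fun y hy => ?_) (Finset.sum_nonneg fun y hy => ?_)
    · have hy' : y < e.b := by simpa using hy
      exact mul_nonneg (le_min (he.pos y hy'.le).le (he.pos _ hy').le)
        (Ex_nonneg G hG R hR' _ _ fun Y => sq_nonneg _)
    · exact mul_nonneg (he.pos y (by simpa [Nat.lt_succ_iff] using hy)).le (ih hR' _ _)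

theorem Lf_perm (G : (V → ℤ) → ℝ) {R R' : List (Cell V)} (h : R.Perm R') (γ : V → ℤ)
    (ν : V → ℝ) : Lf G R γ ν = Lf G R' γ ν := by
  unfold Lf; refine Finset.sum_congr rfl fun a _ => by rw [Z_perm h]

theorem PhiA_nonneg (G : (V → ℤ) → ℝ) (hG : ∀ β, 0 < G β) (hL : LorentzFor G)
    (γ : V → ℤ) (ν : V → ℝ) :
    ∀ (R P : List (Cell V)), (∀ f ∈ R, f.OK) → (∀ f ∈ P, f.OK) → Lf G (P ++ R) γ ν = 0 →
    0 ≤ PhiA G P R γ ν := by
  intro R
  induction R with
  | nil => intro P _ _ _; exact le_refl _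
  | cons k R ih =>
    intro P hR hP h0
    have hk := hR k (by simp)
    have hPR : ∀ f ∈ P ++ R, f.OK := fun f hf => by
      rcases List.mem_append.1 hf with h | h
      · exact hP f h
      · exact hR f (by simp [h])
    unfold PhiA
    refine add_nonneg ?_ ?_
    · have h1 : Lf G (k :: (P ++ R)) γ ν = 0 := by
        rw [← h0]; exact Lf_perm G List.perm_middle.symm γ ν
      refine le_trans (Finset.sum_nonneg fun j hj => ?_)
        (energy_bound G hG k hk (P ++ R) hPR (fun β => hL _ hPR β) γ ν h1)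
      have hj' : j < k.b := by simpa using hj
      have := hk.pos j hj'.le
      have := hk.pos (j + 1) hj'
      have := (Z_pos hG (P ++ R) hPR (k.sh (j + 1) γ - ev k.w)).le
      have h2 : 0 ≤ Nn G k (P ++ R) γ (j + 1) := this
      positivity
    · refine ih (P ++ [k]) (fun f hf => hR f (by simp [hf])) (fun f hf => ?_) ?_
      · rcases List.mem_append.1 hf with h | h
        · exact hP f h
        · have : f = k := by simpa using h
          exact this ▸ hk
      · simpa using h0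

theorem two_term (A B a1 a2 b1 b2 : ℝ) (ha1 : 0 ≤ a1) (ha2 : 0 ≤ a2) (hb1 : 0 ≤ b1)
    (hb2 : 0 ≤ b2) (hA : A ^ 2 ≤ a1 * a2) (hB : B ^ 2 ≤ b1 * b2) :
    (A + B) ^ 2 ≤ (a1 + b1) * (a2 + b2) := by
  have := Finset.sum_sq_le_sum_mul_sum_of_sq_le_mul (R := ℝ) (Finset.univ : Finset (Fin 2))
    (r := ![A, B]) (f := ![a1, b1]) (g := ![a2, b2])
    (fun i _ => by fin_cases i <;> simpa) (fun i _ => by fin_cases i <;> simpa)
    (fun i _ => by fin_cases i <;> simpa)
  simpa [Fin.sum_univ_two] using this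

/-- **Flow inequality**. -/
theorem flow_ineq (G : (V → ℤ) → ℝ) (hG : ∀ β, 0 < G β) (hL : LorentzFor G)
    (R : List (Cell V)) : (∀ f ∈ R, f.OK) → ∀ (γ : V → ℤ) (ν : V → ℝ) (h : List ℕ → ℝ),
    Lf G R γ ν = 0 → (Mf G R γ ν h) ^ 2 ≤ PhiA G [] R γ ν * HD G R γ h := by
  induction R with
  | nil =>
    intro _ γ ν h h0
    have : Mf G [] γ ν h = Lf G [] γ ν * h [] := by
      unfold Mf Lf Ex Z
      rw [Finset.sum_mul]
      refine Finset.sum_congr rfl fun a _ => ?_
      simp; ring
    rw [this, h0]; simp [PhiA, HD]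
  | cons e R ih =>
    intro hR γ ν h h0
    have hR' : ∀ f ∈ R, f.OK := fun f hf => hR f (by simp [hf])
    have he := hR e (by simp)
    have ih := ih hR'
    set F := Ff G e R γ ν with hF
    set N := Nn G e R γ with hN
    have hNpos : ∀ y, 0 < N y := fun y => Z_pos hG R hR' _
    have hF0 : F 0 = 0 := Ff_zero G e R γ ν
    have hFb : F (e.b + 1) = 0 := Ff_last G e R γ ν h0
    set E : ℕ → (List ℕ → ℝ) → ℝ := fun y g => Ex G R (e.sh y γ - ev e.w) g with hE
    have hEu : ∀ y g, Ex G R (e.sh y γ - ev e.u) g = E (y + 1) g := by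
      intro y g; simp only [hE, sh_succ]; congr 1; abel
    -- decomposition of the signed measure
    have hdec : Mf G (e :: R) γ ν h
        = (∑ y ∈ range (e.b + 1), e.wt y *
            Mf G R (e.sh y γ) (upd e F ν y) (fun Y => h (y :: Y)))
          + ∑ y ∈ range e.b, F (y + 1) *
              E (y + 1) (fun Y => h (y :: Y) - h ((y + 1) :: Y)) := by
      rw [Mf_cons]
      have h1 : ∀ y ∈ range (e.b + 1), e.wt y * Mf G R (e.sh y γ) ν (fun Y => h (y :: Y))
          = e.wt y * Mf G R (e.sh y γ) (upd e F ν y) (fun Y => h (y :: Y))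
            + (F (y + 1) * E (y + 1) (fun Y => h (y :: Y)) - F y * E y (fun Y => h (y :: Y))) := by
        intro y hy
        have hw := (he.pos y (by simpa [Nat.lt_succ_iff] using hy)).ne'
        unfold upd
        rw [Mf_upd, hEu]
        simp only [hE]
        field_simp; ring
      rw [Finset.sum_congr rfl h1, Finset.sum_add_distrib, Finset.sum_sub_distrib]
      congr 1
      rw [Finset.sum_range_succ, hFb, Finset.sum_range_succ', hF0]
      simp only [zero_mul, add_zero]
      rw [← Finset.sum_sub_distrib]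
      refine Finset.sum_congr rfl fun y _ => ?_
      simp only [hE]
      rw [Ex_sub_eq]; ring
    have hmu : ∀ y ∈ range e.b, 0 < min (e.wt y) (e.wt (y + 1)) := by
      intro y hy
      have hy' : y < e.b := by simpa using hy
      exact lt_min (he.pos y hy'.le) (he.pos _ hy')
    have hPhi : ∀ y ∈ range (e.b + 1), 0 ≤ PhiA G [] R (e.sh y γ) (upd e F ν y) := by
      intro y hy
      have hy' : y ≤ e.b := by simpa [Nat.lt_succ_iff] using hy
      exact PhiA_nonneg G hG hL _ _ R [] hR' (by simp) (Lf_next G hG e he R hR' γ ν y hy')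
    -- first part
    have hA : (∑ y ∈ range (e.b + 1), e.wt y *
            Mf G R (e.sh y γ) (upd e F ν y) (fun Y => h (y :: Y))) ^ 2
        ≤ (∑ y ∈ range (e.b + 1), e.wt y * PhiA G [] R (e.sh y γ) (upd e F ν y))
          * (∑ y ∈ range (e.b + 1), e.wt y * HD G R (e.sh y γ) (fun Y => h (y :: Y))) := by
      refine Finset.sum_sq_le_sum_mul_sum_of_sq_le_mul _ ?_ ?_ ?_
      · intro y hy
        exact mul_nonneg (he.pos y (by simpa [Nat.lt_succ_iff] using hy)).le (hPhi y hy)
      · intro y hy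
        exact mul_nonneg (he.pos y (by simpa [Nat.lt_succ_iff] using hy)).le
          (HD_nonneg G hG R hR' _ _)
      · intro y hy
        have hy' : y ≤ e.b := by simpa [Nat.lt_succ_iff] using hy
        have h2 := ih (e.sh y γ) (upd e F ν y) (fun Y => h (y :: Y))
          (Lf_next G hG e he R hR' γ ν y hy')
        have hw := he.pos y hy'
        calc _ = e.wt y ^ 2 * (Mf G R (e.sh y γ) (upd e F ν y) (fun Y => h (y :: Y))) ^ 2 := by
              ring
          _ ≤ e.wt y ^ 2 * (PhiA G [] R (e.sh y γ) (upd e F ν y)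
                * HD G R (e.sh y γ) (fun Y => h (y :: Y))) :=
              mul_le_mul_of_nonneg_left h2 (sq_nonneg _)
          _ = _ := by ring
    -- second part
    have hB : (∑ y ∈ range e.b, F (y + 1) *
              E (y + 1) (fun Y => h (y :: Y) - h ((y + 1) :: Y))) ^ 2
        ≤ (∑ y ∈ range e.b, (F (y + 1) ^ 2 * N (y + 1)) / min (e.wt y) (e.wt (y + 1)))
          * (∑ y ∈ range e.b, min (e.wt y) (e.wt (y + 1)) *
        Ex G R (e.sh y γ - ev e.u) (fun Y => (h ((y + 1) :: Y) - h (y :: Y)) ^ 2)) := by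
      refine Finset.sum_sq_le_sum_mul_sum_of_sq_le_mul _ ?_ ?_ ?_
      · intro y hy
        exact div_nonneg (mul_nonneg (sq_nonneg _) (hNpos _).le) (hmu y hy).le
      · intro y hy
        exact mul_nonneg (hmu y hy).le (Ex_nonneg G hG R hR' _ _ fun Y => sq_nonneg _)
      · intro y hy
        have hm := hmu y hy
        have h2 := Ex_sq_le G hG R hR' (e.sh (y + 1) γ - ev e.w)
          (fun Y => h (y :: Y) - h ((y + 1) :: Y))
        have h3 : (fun Y => (h (y :: Y) - h ((y + 1) :: Y)) ^ 2)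
            = (fun Y => (h ((y + 1) :: Y) - h (y :: Y)) ^ 2) := by funext Y; ring
        rw [h3] at h2
        rw [hEu, mul_pow]
        calc _ ≤ F (y + 1) ^ 2 * (N (y + 1) *
                E (y + 1) (fun Y => (h ((y + 1) :: Y) - h (y :: Y)) ^ 2)) :=
              mul_le_mul_of_nonneg_left h2 (sq_nonneg _)
          _ = _ := by field_simp
    rw [hdec]
    have hcomb := two_term _ _ _ _ _ _
      (Finset.sum_nonneg fun y hy =>
        mul_nonneg (he.pos y (by simpa [Nat.lt_succ_iff] using hy)).le (hPhi y hy))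
      (Finset.sum_nonneg fun y hy =>
        mul_nonneg (he.pos y (by simpa [Nat.lt_succ_iff] using hy)).le
          (HD_nonneg G hG R hR' (e.sh y γ) (fun Y => h (y :: Y))))
      (Finset.sum_nonneg fun y hy =>
        div_nonneg (mul_nonneg (sq_nonneg (F (y + 1))) (hNpos (y + 1)).le) (hmu y hy).le)
      (Finset.sum_nonneg fun y hy =>
        mul_nonneg (hmu y hy).le (Ex_nonneg G hG R hR' (e.sh y γ - ev e.u)
          (fun Y => (h ((y + 1) :: Y) - h (y :: Y)) ^ 2) fun Y => sq_nonneg _))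
      hA hB
    refine le_trans hcomb ?_
    have hHD : HD G (e :: R) γ h
        = (∑ y ∈ range (e.b + 1), e.wt y * HD G R (e.sh y γ) (fun Y => h (y :: Y)))
          + ∑ y ∈ range e.b, min (e.wt y) (e.wt (y + 1)) *
        Ex G R (e.sh y γ - ev e.u) (fun Y => (h ((y + 1) :: Y) - h (y :: Y)) ^ 2) := by
      rw [add_comm]; rfl
    rw [hHD]
    refine mul_le_mul_of_nonneg_right ?_ ?_
    · have h4 : PhiA G [] (e :: R) γ ν = Tk G e R γ ν + PhiA G [e] R γ ν := rfl
      rw [h4, add_comm]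
      refine add_le_add ?_ ?_
      · refine le_trans (Finset.sum_le_sum fun y hy => ?_)
          (energy_bound G hG e he R hR' (fun β => hL R hR' β) γ ν h0)
        have hy' : y < e.b := by simpa using hy
        have hw := he.pos y hy'.le
        have hw1 := he.pos (y + 1) hy'
        rw [div_eq_mul_one_div]
        refine mul_le_mul_of_nonneg_left ?_ (mul_nonneg (sq_nonneg _) (hNpos _).le)
        rcases min_choice (e.wt y) (e.wt (y + 1)) with hm | hm <;> rw [hm]
        · have : 0 < 1 / e.wt (y + 1) := by positivity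
          linarith
        · have : 0 < 1 / e.wt y := by positivity
          linarith
      · exact PhiA_super G hG e he γ ν F hF0 hFb R [] hR' (by simp)
    · exact add_nonneg
        (Finset.sum_nonneg fun y hy =>
          mul_nonneg (he.pos y (by simpa [Nat.lt_succ_iff] using hy)).le
            (HD_nonneg G hG R hR' _ _))
        (Finset.sum_nonneg fun y hy =>
          mul_nonneg (hmu y hy).le (Ex_nonneg G hG R hR' _ _ fun Y => sq_nonneg _))

/-- hole Dirichlet form versus the Dirichlet form -/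
theorem HD_le (G : (V → ℤ) → ℝ) (hG : ∀ β, 0 < G β) (K : ℝ)
    (hK : ∀ t a b, G (t + ev a - ev b) ≤ K * G t) (c : V) (R : List (Cell V)) :
    (∀ f ∈ R, f.OK) → ∀ (γ : V → ℤ) (h : List ℕ → ℝ),
    HD G R γ h ≤ K * Dir G R (γ - ev c) h := by
  induction R with
  | nil => intro _ γ h; simp [HD, Dir]
  | cons e R ih =>
    intro hR γ h
    have hR' : ∀ f ∈ R, f.OK := fun f hf => hR f (by simp [hf])
    have he := hR e (by simp)
    unfold HD Dir
    rw [mul_add, Finset.mul_sum, Finset.mul_sum]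
    refine add_le_add (Finset.sum_le_sum fun y hy => ?_) (Finset.sum_le_sum fun y hy => ?_)
    · have hy' : y < e.b := by simpa using hy
      have hw := he.pos y hy'.le
      have hw1 := he.pos (y + 1) hy'
      unfold Ex
      rw [sh_sub, cs_shift_sub, cs_shift_sub, ← cs_mul_left, ← cs_mul_left]
      refine cs_mono R hR' _ _ _ fun t Y => ?_
      have h1 : G (t - ev e.u) ≤ K * G (t - ev c) := by
        have := hK (t - ev c) c e.u
        rwa [show t - ev c + ev c - ev e.u = t - ev e.u from by abel] at this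
      have h2 : G (t - ev e.u) ≤ K * G (t - ev c - ev e.u + ev e.w) := by
        have := hK (t - ev c - ev e.u + ev e.w) c e.w
        rwa [show t - ev c - ev e.u + ev e.w + ev c - ev e.w = t - ev e.u from by abel] at this
      rw [← mul_assoc, ← mul_assoc]
      refine mul_le_mul_of_nonneg_right ?_ (sq_nonneg _)
      rw [mul_min_of_nonneg _ _ (by
        have := hK t e.u e.u
        have h3 := hG t
        have h4 : G t ≤ K * G t := by simpa using this
        nlinarith)]
      refine le_min ?_ ?_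
      · calc min (e.wt y) (e.wt (y + 1)) * G (t - ev e.u)
            ≤ e.wt y * G (t - ev e.u) :=
              mul_le_mul_of_nonneg_right (min_le_left _ _) (hG _).le
          _ ≤ e.wt y * (K * G (t - ev c)) := mul_le_mul_of_nonneg_left h1 hw.le
          _ = _ := by ring
      · calc min (e.wt y) (e.wt (y + 1)) * G (t - ev e.u)
            ≤ e.wt (y + 1) * G (t - ev e.u) :=
              mul_le_mul_of_nonneg_right (min_le_right _ _) (hG _).le
          _ ≤ e.wt (y + 1) * (K * G (t - ev c - ev e.u + ev e.w)) :=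
              mul_le_mul_of_nonneg_left h2 hw1.le
          _ = _ := by ring
    · have h1 := ih hR' (e.sh y γ) (fun Y => h (y :: Y))
      rw [← sh_sub] at h1
      have := mul_le_mul_of_nonneg_left h1
        (he.pos y (by simpa [Nat.lt_succ_iff] using hy)).le
      linarith [this]

/-- bound on the one-cell potential at the root vector -/
theorem Tk_root (G : (V → ℤ) → ℝ) (hG : ∀ β, 0 < G β) (K : ℝ)
    (hK : ∀ t a b, G (t + ev a - ev b) ≤ K * G t) (k : Cell V) (hk : k.OK) (B : ℕ)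
    (hkB : k.b ≤ B) (R : List (Cell V)) (hR : ∀ f ∈ R, f.OK) (γ : V → ℤ) (u w : V)
    (zu zw : ℝ) (hzu : 0 < zu) (hzw : 0 < zw) :
    Tk G k R γ ((0 : V → ℝ) + (1 / zu) • one u + (-(1 / zw)) • one w)
      ≤ K * ((B : ℝ) + 1) ^ 2 / 2 * (Z G (k :: R) (γ - ev u) / (zu * zw)) := by
  have hK0 : 0 ≤ K := by
    have := hK 0 u u
    have h3 := hG 0
    have h4 : G 0 ≤ K * G 0 := by simpa using this
    by_contra h
    push Not at h
    nlinarith
  have hmax : ∀ j ∈ range k.b, (((j : ℝ) + 1) * ((k.b : ℝ) - j) / 2) ≤ ((B : ℝ) + 1) ^ 2 / 8 := by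
    intro j hj
    have h1 : ((j : ℝ) + 1) * ((k.b : ℝ) - j) ≤ ((k.b : ℝ) + 1) ^ 2 / 4 := by
      nlinarith [sq_nonneg (((j : ℝ) + 1) - ((k.b : ℝ) - j))]
    have h2 : ((k.b : ℝ) + 1) ^ 2 ≤ ((B : ℝ) + 1) ^ 2 := by
      have : (k.b : ℝ) ≤ B := by exact_mod_cast hkB
      have h0 : (0 : ℝ) ≤ k.b := Nat.cast_nonneg _
      nlinarith
    linarith
  have hjpos : ∀ j ∈ range k.b, 0 ≤ (((j : ℝ) + 1) * ((k.b : ℝ) - j) / 2) := by
    intro j hj
    have : (j : ℝ) < k.b := by exact_mod_cast (by simpa using hj : j < k.b)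
    have : 0 ≤ (k.b : ℝ) - j := by linarith
    positivity
  -- bound for each form
  have hQ : ∀ j, -Q (frm G R (k.sh j γ + ev k.w)) ((0 : V → ℝ) + (1 / zu) • one u
        + (-(1 / zw)) • one w) ((0 : V → ℝ) + (1 / zu) • one u + (-(1 / zw)) • one w)
      ≤ 2 / (zu * zw) * Z G R (k.sh j γ + ev k.w - ev u - ev w) := by
    intro j
    rw [Q_expand _ (frm_symm G R _)]
    have h1 : 0 ≤ frm G R (k.sh j γ + ev k.w) u u := (Z_pos hG R hR _).le
    have h2 : 0 ≤ frm G R (k.sh j γ + ev k.w) w w := (Z_pos hG R hR _).le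
    have h3 : Q (frm G R (k.sh j γ + ev k.w)) 0 0 = 0 := by simp [Q]
    have h4 : Q (frm G R (k.sh j γ + ev k.w)) 0 (one u) = 0 := by simp [Q]
    have h5 : Q (frm G R (k.sh j γ + ev k.w)) 0 (one w) = 0 := by simp [Q]
    rw [h3, h4, h5]
    have h6 : frm G R (k.sh j γ + ev k.w) u w = Z G R (k.sh j γ + ev k.w - ev u - ev w) := rfl
    rw [← h6]
    have h7 : 0 ≤ (1 / zu) ^ 2 * frm G R (k.sh j γ + ev k.w) u u := by positivity
    have h8 : 0 ≤ (-(1 / zw)) ^ 2 * frm G R (k.sh j γ + ev k.w) w w := by positivity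
    have h9 : 2 / (zu * zw) * frm G R (k.sh j γ + ev k.w) u w
        = -(2 * (1 / zu) * -(1 / zw) * frm G R (k.sh j γ + ev k.w) u w) := by
      field_simp
    rw [h9]; linarith
  have hZ1 : ∀ j, Z G R (k.sh j γ + ev k.w - ev u - ev w) ≤ K * Z G R (k.sh j (γ - ev u)) := by
    intro j
    have := Z_shift_le K hK R hR (k.sh j (γ - ev u)) k.w w
    rw [sh_sub] at this ⊢
    rwa [show k.sh j γ + ev k.w - ev u - ev w = k.sh j γ - ev u + ev k.w - ev w from by abel]
  have hZ2 : ∀ j, Z G R (k.sh j γ + ev k.w - ev u - ev w)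
      ≤ K * Z G R (k.sh (j + 1) (γ - ev u)) := by
    intro j
    have := Z_shift_le K hK R hR (k.sh (j + 1) (γ - ev u)) k.u w
    rw [sh_succ, sh_sub] at this ⊢
    rwa [show k.sh j γ + ev k.w - ev u - ev w
      = k.sh j γ - ev u - ev k.u + ev k.w + ev k.u - ev w from by abel]
  have hzz : 0 < zu * zw := mul_pos hzu hzw
  -- sum
  have hS1 : ∑ j ∈ range k.b, k.wt j * Z G R (k.sh j (γ - ev u)) ≤ Z G (k :: R) (γ - ev u) := by
    rw [Z_cons]
    refine Finset.sum_le_sum_of_subset_of_nonneg (Finset.range_subset_range.2 (Nat.le_succ _)) ?_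
    intro j hj _
    exact mul_nonneg (hk.pos j (by simpa [Nat.lt_succ_iff] using hj)).le (Z_pos hG R hR _).le
  have hS2 : ∑ j ∈ range k.b, k.wt (j + 1) * Z G R (k.sh (j + 1) (γ - ev u))
      ≤ Z G (k :: R) (γ - ev u) := by
    rw [Z_cons, Finset.sum_range_succ']
    have := mul_nonneg (hk.pos 0 (Nat.zero_le _)).le (Z_pos hG R hR (k.sh 0 (γ - ev u))).le
    linarith
  unfold Tk
  calc _ ≤ ∑ j ∈ range k.b, (((B : ℝ) + 1) ^ 2 / 8) * (2 / (zu * zw)) * K *
        (k.wt j * Z G R (k.sh j (γ - ev u)) + k.wt (j + 1) * Z G R (k.sh (j + 1) (γ - ev u))) := by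
        refine Finset.sum_le_sum fun j hj => ?_
        have hj' : j < k.b := by simpa using hj
        have hw := hk.pos j hj'.le
        have hw1 := hk.pos (j + 1) hj'
        have hz0 := (Z_pos hG R hR (k.sh j γ + ev k.w - ev u - ev w)).le
        calc _ ≤ (((j : ℝ) + 1) * ((k.b : ℝ) - j) / 2) * (k.wt j + k.wt (j + 1))
              * (2 / (zu * zw) * Z G R (k.sh j γ + ev k.w - ev u - ev w)) :=
              mul_le_mul_of_nonneg_left (hQ j)
                (mul_nonneg (hjpos j hj) (by positivity))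
          _ ≤ (((B : ℝ) + 1) ^ 2 / 8) * (k.wt j + k.wt (j + 1))
              * (2 / (zu * zw) * Z G R (k.sh j γ + ev k.w - ev u - ev w)) := by
              refine mul_le_mul_of_nonneg_right ?_ (by positivity)
              exact mul_le_mul_of_nonneg_right (hmax j hj) (by positivity)
          _ = (((B : ℝ) + 1) ^ 2 / 8) * (2 / (zu * zw)) *
              (k.wt j * Z G R (k.sh j γ + ev k.w - ev u - ev w)
                + k.wt (j + 1) * Z G R (k.sh j γ + ev k.w - ev u - ev w)) := by ring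
          _ ≤ (((B : ℝ) + 1) ^ 2 / 8) * (2 / (zu * zw)) *
              (k.wt j * (K * Z G R (k.sh j (γ - ev u)))
                + k.wt (j + 1) * (K * Z G R (k.sh (j + 1) (γ - ev u)))) := by
              refine mul_le_mul_of_nonneg_left ?_ (by positivity)
              exact add_le_add (mul_le_mul_of_nonneg_left (hZ1 j) hw.le)
                (mul_le_mul_of_nonneg_left (hZ2 j) hw1.le)
          _ = _ := by ring
    _ = (((B : ℝ) + 1) ^ 2 / 8) * (2 / (zu * zw)) * K *
        ((∑ j ∈ range k.b, k.wt j * Z G R (k.sh j (γ - ev u)))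
          + ∑ j ∈ range k.b, k.wt (j + 1) * Z G R (k.sh (j + 1) (γ - ev u))) := by
        rw [← Finset.mul_sum, Finset.sum_add_distrib]
    _ ≤ (((B : ℝ) + 1) ^ 2 / 8) * (2 / (zu * zw)) * K *
        (Z G (k :: R) (γ - ev u) + Z G (k :: R) (γ - ev u)) := by
        refine mul_le_mul_of_nonneg_left (add_le_add hS1 hS2) (by positivity)
    _ = _ := by field_simp; ring

theorem PhiA_root (G : (V → ℤ) → ℝ) (hG : ∀ β, 0 < G β) (K : ℝ)
    (hK : ∀ t a b, G (t + ev a - ev b) ≤ K * G t) (B : ℕ) (γ : V → ℤ) (u w : V)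
    (zu zw : ℝ) (hzu : 0 < zu) (hzw : 0 < zw) :
    ∀ (R P : List (Cell V)), (∀ f ∈ R, f.OK) → (∀ f ∈ R, f.b ≤ B) → (∀ f ∈ P, f.OK) →
    PhiA G P R γ ((0 : V → ℝ) + (1 / zu) • one u + (-(1 / zw)) • one w)
      ≤ R.length * (K * ((B : ℝ) + 1) ^ 2 / 2 * (Z G (P ++ R) (γ - ev u) / (zu * zw))) := by
  intro R
  induction R with
  | nil => intro P _ _ _; simp [PhiA]
  | cons k R ih =>
    intro P hR hRB hP
    have hk := hR k (by simp)
    have hPR : ∀ f ∈ P ++ R, f.OK := fun f hf => by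
      rcases List.mem_append.1 hf with h | h
      · exact hP f h
      · exact hR f (by simp [h])
    have h1 := Tk_root G hG K hK k hk B (hRB k (by simp)) (P ++ R) hPR γ u w zu zw hzu hzw
    have h2 := ih (P ++ [k]) (fun f hf => hR f (by simp [hf])) (fun f hf => hRB f (by simp [hf]))
      (fun f hf => by
        rcases List.mem_append.1 hf with h | h
        · exact hP f h
        · have : f = k := by simpa using h
          exact this ▸ hk)
    rw [Z_perm (G := G) (List.perm_middle.symm : (k :: (P ++ R)).Perm (P ++ k :: R))] at h1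
    have e1 : (P ++ [k]) ++ R = P ++ k :: R := by simp
    rw [e1] at h2
    unfold PhiA
    have e2 : ((k :: R).length : ℝ) = (R.length : ℝ) + 1 := by simp
    rw [e2, add_mul, one_mul, add_comm ((R.length : ℝ) * _)]
    exact add_le_add h1 h2

/-- **Transport inequality.** -/
theorem transport (G : (V → ℤ) → ℝ) (hG : ∀ β, 0 < G β) (hL : LorentzFor G) (K : ℝ)
    (hK : ∀ t a b, G (t + ev a - ev b) ≤ K * G t) (B : ℕ) (R : List (Cell V))
    (hR : ∀ f ∈ R, f.OK) (hB : ∀ f ∈ R, f.b ≤ B) (γ : V → ℤ) (u w : V) (h : List ℕ → ℝ) :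
    (Ex G R (γ - ev u) h / Z G R (γ - ev u) - Ex G R (γ - ev w) h / Z G R (γ - ev w)) ^ 2
      ≤ (R.length * K ^ 2 * ((B : ℝ) + 1) ^ 2 / 2)
        * (Dir G R (γ - ev w) h / Z G R (γ - ev w)) := by
  set zu := Z G R (γ - ev u) with hzu
  set zw := Z G R (γ - ev w) with hzw
  have pu : 0 < zu := Z_pos hG R hR _
  have pw : 0 < zw := Z_pos hG R hR _
  set ν : V → ℝ := (0 : V → ℝ) + (1 / zu) • one u + (-(1 / zw)) • one w with hν
  have h0 : Lf G R γ ν = 0 := by
    rw [hν, Lf_upd, ← hzu, ← hzw]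
    have : Lf G R γ 0 = 0 := by simp [Lf]
    rw [this]; field_simp; ring
  have hM : Mf G R γ ν h = Ex G R (γ - ev u) h / zu - Ex G R (γ - ev w) h / zw := by
    rw [hν, Mf_upd]
    have : Mf G R γ 0 h = 0 := by simp [Mf]
    rw [this]; ring
  have h1 := flow_ineq G hG hL R hR γ ν h h0
  rw [hM] at h1
  refine le_trans h1 ?_
  have h2 := PhiA_root G hG K hK B γ u w zu zw pu pw R [] hR hB (by simp)
  rw [List.nil_append, ← hzu] at h2
  have h3 := HD_le G hG K hK w R hR γ h
  have h4 := HD_nonneg G hG R hR γ h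
  have hK0 : 0 ≤ K := by
    have := hK 0 u u
    have h3 := hG 0
    have h4 : G 0 ≤ K * G 0 := by simpa using this
    by_contra h
    push Not at h
    nlinarith
  calc _ ≤ ((R.length : ℝ) * (K * ((B : ℝ) + 1) ^ 2 / 2 * (zu / (zu * zw)))) * HD G R γ h :=
        mul_le_mul_of_nonneg_right h2 h4
    _ ≤ ((R.length : ℝ) * (K * ((B : ℝ) + 1) ^ 2 / 2 * (zu / (zu * zw))))
        * (K * Dir G R (γ - ev w) h) :=
        mul_le_mul_of_nonneg_left h3 (by positivity)
    _ = _ := by field_simp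

end Crest.Agent.R309.UG
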