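import Mathlib
import Crest.Agent.Lib.PT.ArithPure
import Crest.Agent.R309.Tape
import Crest.Agent.R309.MCTape

/-!
# R309: the unary sampler, definitions (helper305)

An instance is a list of cells `(u, w, b)` together with a list of integer demands.  The value `y ≤ b` of a
cell gives `+y` to the vertex `u` and `-y` to the vertex `w`.  `tau I y` is the list of defects
`demand - load`.
-/

set_option autoImplicit false

namespace Crest.Agent.R309.US

open Finset

/-- cell `(u, w, b)` -/
abbrev UCell := ℕ × ℕ × ℕ

/-- instance: cells and demands -/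
abbrev Inst := List UCell × List ℤ

/-- the configurations: lists of values `≤ b`, in the order of the cells -/
def box : List UCell → Finset (List ℕ)
  | [] => {[]}
  | c :: R => (range (c.2.2 + 1) ×ˢ box R).image (fun p => p.1 :: p.2)

theorem mem_box_nil {y : List ℕ} : y ∈ box [] ↔ y = [] := by simp [box]

theorem mem_box_cons {c : UCell} {R : List UCell} {y : List ℕ} :
    y ∈ box (c :: R) ↔ ∃ a Y, a ≤ c.2.2 ∧ Y ∈ box R ∧ y = a :: Y := by
  simp only [box, mem_image, mem_product, mem_range, Prod.exists, Nat.lt_succ_iff]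
  constructor
  · rintro ⟨a, Y, ⟨h1, h2⟩, rfl⟩; exact ⟨a, Y, h1, h2, rfl⟩
  · rintro ⟨a, Y, h1, h2, rfl⟩; exact ⟨a, Y, ⟨h1, h2⟩, rfl⟩

@[simp] theorem cons_mem_box {c : UCell} {R : List UCell} {a : ℕ} {Y : List ℕ} :
    a :: Y ∈ box (c :: R) ↔ a ≤ c.2.2 ∧ Y ∈ box R := by
  rw [mem_box_cons]
  constructor
  · rintro ⟨a', Y', h1, h2, h3⟩
    obtain ⟨rfl, rfl⟩ := List.cons.inj h3
    exact ⟨h1, h2⟩
  · rintro ⟨h1, h2⟩; exact ⟨a, Y, h1, h2, rfl⟩

@[simp] theorem nil_mem_box_cons {c : UCell} {R : List UCell} : [] ∉ box (c :: R) := by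
  rw [mem_box_cons]; rintro ⟨a, Y, _, _, h⟩; exact absurd h (by simp)

theorem length_of_mem_box {R : List UCell} {y : List ℕ} (h : y ∈ box R) : y.length = R.length := by
  induction R generalizing y with
  | nil => rw [mem_box_nil] at h; simp [h]
  | cons c R ih =>
    obtain ⟨a, Y, _, h2, rfl⟩ := mem_box_cons.1 h
    simp [ih h2]

theorem mem_box_iff {R : List UCell} {y : List ℕ} :
    y ∈ box R ↔ y.length = R.length ∧ ∀ i < R.length, y.getD i 0 ≤ (R.getD i (0, 0, 0)).2.2 := by
  induction R generalizing y with
  | nil => rw [mem_box_nil]; simp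
  | cons c R ih =>
    cases y with
    | nil => simp
    | cons a Y =>
      rw [cons_mem_box, ih]
      constructor
      · rintro ⟨h1, h2, h3⟩
        refine ⟨by simp [h2], fun i hi => ?_⟩
        cases i with
        | zero => simpa using h1
        | succ i => simpa using h3 i (by simpa using hi)
      · rintro ⟨h1, h2⟩
        refine ⟨by simpa using h2 0 (by simp), by simpa using h1, fun i hi => ?_⟩
        simpa using h2 (i + 1) (by simpa using hi)

theorem sum_box_nil {M : Type*} [AddCommMonoid M] (F : List ℕ → M) : ∑ y ∈ box [], F y = F [] := by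
  simp [box]

theorem sum_box_cons {M : Type*} [AddCommMonoid M] (c : UCell) (R : List UCell) (F : List ℕ → M) :
    ∑ y ∈ box (c :: R), F y = ∑ a ∈ range (c.2.2 + 1), ∑ Y ∈ box R, F (a :: Y) := by
  change ∑ y ∈ (range (c.2.2 + 1) ×ˢ box R).image (fun p => p.1 :: p.2), F y = _
  rw [sum_image, sum_product]
  rintro ⟨a, Y⟩ _ ⟨a', Y'⟩ _ h
  simp only [List.cons.injEq] at h
  exact Prod.ext h.1 h.2

theorem zero_mem_box (R : List UCell) : List.replicate R.length 0 ∈ box R := by
  induction R with
  | nil => simp [box]
  | cons c R ih => simpa [List.replicate_succ] using ih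

/-- contribution of a cell with value `y` to the load of vertex `v` -/
def contrib (c : UCell) (y : ℕ) (v : ℕ) : ℤ :=
  (if c.1 = v then (y : ℤ) else 0) - (if c.2.1 = v then (y : ℤ) else 0)

/-- load at vertex `v` -/
def load (R : List UCell) (y : List ℕ) (v : ℕ) : ℤ :=
  (List.zipWith (fun c a => contrib c a v) R y).sum

/-- the list of defects -/
def tau (I : Inst) (y : List ℕ) : List ℤ :=
  (List.range I.2.length).map (fun v => I.2.getD v 0 - load I.1 y v)

/-- `ℓ¹` norm of a list of integers -/
def norm1 (t : List ℤ) : ℕ := (t.map Int.natAbs).sum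

/-- inner product -/
def dot (k t : List ℤ) : ℤ := (List.zipWith (fun a b => a * b) k t).sum

/-- the move number `i`: cell `i / 2`, up if `i` is odd, down otherwise -/
def mv (R : List UCell) (y : List ℕ) (i : ℕ) : Option (List ℕ) :=
  if i / 2 < R.length then
    if i % 2 = 1 then
      if y.getD (i / 2) 0 < (R.getD (i / 2) (0, 0, 0)).2.2 then
        some (y.set (i / 2) (y.getD (i / 2) 0 + 1))
      else none
    else
      if 0 < y.getD (i / 2) 0 then some (y.set (i / 2) (y.getD (i / 2) 0 - 1)) else none
  else none

/-- increase of `‖τ‖₁` (truncated at `0`) -/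
def incr (I : Inst) (y z : List ℕ) : ℕ := norm1 (tau I z) - norm1 (tau I y)

/-- decrease of `k · τ` (truncated at `0`) -/
def decrK (I : Inst) (k : List ℤ) (y z : List ℕ) : ℕ :=
  (dot k (tau I y) - dot k (tau I z)).toNat

/-- acceptance threshold for the move `y → z` (compared with an `m`-bit number): the acceptance
probability is `2^(-t * incr) * (1 - 2^(-p))^decrK`, exactly, as soon as `incr ≤ m`, `decrK ≤ m` and
`t * incr + p * decrK ≤ m` (the `min`s only serve to make it polynomial time on all inputs and `≤ 2^m`) -/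
def num (I : Inst) (t p m : ℕ) (k : List ℤ) (y z : List ℕ) : ℕ :=
  min (2 ^ m) (2 ^ (m - (t * min (incr I y z) m + p * min (decrK I k y z) m)) *
    (2 ^ p - 1) ^ min (decrK I k y z) m)

/-- one step of the soft single-cell chain with field `k`; it reads `q + m` bits -/
def step (I : Inst) (q t p m : ℕ) (k : List ℤ) (y : List ℕ) (bits : List Bool) : List ℕ :=
  MC.mstep q (mv I.1) (num I t p m k) y bits

/-- `N` steps of the soft chain; it reads `N * (q + m)` bits -/
def soft (I : Inst) (q t p m N : ℕ) (k : List ℤ) (y : List ℕ) (tape : List Bool) : List ℕ :=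
  Tape.runSteps (step I q t p m k) (q + m) N y tape

/-- one round of the stochastic gradient: state `(k, s)`, `s` = number of remaining updates -/
def sgdRound (I : Inst) (q t p m N : ℕ) (st : List ℤ × ℕ) (tape : List Bool) : List ℤ × ℕ :=
  if st.2 = 0 then st else
    (List.zipWith (fun a b => a - b) st.1
      (tau I (soft I q t p m N st.1 (List.replicate I.1.length 0) tape)), st.2 - 1)

/-- the gauge after `s` updates (`T` rounds are run, only the first `s` of them change `k`);
it reads `T * (N * (q + m))` bits -/
def gauge (I : Inst) (q t p m N T s : ℕ) (tape : List Bool) : List ℤ :=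
  (Tape.runSteps (sgdRound I q t p m N) (N * (q + m)) T (List.replicate I.2.length 0, s) tape).1

/-- number of bits read by `inner` -/
def innerLen (q m N lT : ℕ) : ℕ := lT + (2 ^ lT * (N * (q + m)) + N * (q + m))

/-- the inner step: random time `s < 2 ^ lT`, gauge after `s` updates, then `N` steps of the soft chain
from `X`; accepted iff the result has no defect -/
def inner (I : Inst) (q t p m N lT : ℕ) (X : List ℕ) (tape : List Bool) : List ℕ :=
  let s := Lib.PT.Arith.msb (tape.take lT)
  let rest := tape.drop lT
  let k := gauge I q t p m N (2 ^ lT) s (rest.take (2 ^ lT * (N * (q + m))))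
  let Y := soft I q t p m N k X (rest.drop (2 ^ lT * (N * (q + m))))
  if norm1 (tau I Y) = 0 then Y else X

end Crest.Agent.R309.US
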