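import Crest.Agent.R309.UGMart
import Crest.Agent.R309.UGTrans
import Crest.Agent.R309.LorNS
import Crest.Agent.R309.USDefs

/-!
R309: the unary gap theorem, final forms.

* `unary_gap`: Poincare inequality for list systems with a `GOK` vertex weight;
* `box_gap`: the same on `US.box`, for the weight `θ ^ ‖τ‖₁ * q ^ (k · τ)` (any field `k`).
-/

set_option autoImplicit false

namespace Crest.Agent.R309.UGBox

open Finset Crest.Agent.R309.UG

section gen

variable {V : Type*} [DecidableEq V] [Fintype V]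

/-- **Unary gap theorem**, list form. -/
theorem unary_gap {G : (V → ℤ) → ℝ} (hG : GOK G) {κ : ℝ} (hκ0 : 0 < κ)
    (hκ : ∀ t a c, κ * G t ≤ G (t - ev a + ev c)) {B : ℕ} (R : List (Cell V))
    (hR : ∀ e ∈ R, e.OK ∧ e.b ≤ B) (β : V → ℤ) (f : List ℕ → ℝ) :
    Ex G R β (fun Y => f Y ^ 2) - Ex G R β f ^ 2 / Z G R β
      ≤ (((R.length : ℝ) ^ 2 + 2) * ((B : ℝ) + 1) ^ 4 * (κ⁻¹) ^ 2) * Dir G R β f := by
  have hL : LorentzFor G := UGL.lorentz hG
  have hK : ∀ t a b, G (t + ev a - ev b) ≤ κ⁻¹ * G t := by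
    intro t a b
    have h := hκ (t + ev a - ev b) a b
    rw [show t + ev a - ev b - ev a + ev b = t by abel] at h
    rw [inv_mul_eq_div, le_div_iff₀ hκ0, mul_comm]
    exact h
  have hT : UGMart.TransFor G (fun e => e.OK ∧ e.b ≤ B) R.length
      ((R.length : ℝ) * (κ⁻¹) ^ 2 * ((B : ℝ) + 1) ^ 2 / 2) := by
    intro R' hR' hlen β a c h
    have ht := UG.transport G hG.pos hL κ⁻¹ hK B R' (fun e he => (hR' e he).1)
      (fun e he => (hR' e he).2) (β + ev c) a c h
    rw [show β + ev c - ev a = β - ev a + ev c by abel, show β + ev c - ev c = β by abel] at ht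
    refine ht.trans ?_
    have hD : 0 ≤ Dir G R' β h / Z G R' β :=
      div_nonneg (UGMart.Dir_nonneg hG.pos (fun e he => (hR' e he).1) _ _)
        (UGMart.Z_pos hG.pos (fun e he => (hR' e he).1) _).le
    apply mul_le_mul_of_nonneg_right _ hD
    have : (R'.length : ℝ) ≤ R.length := by exact_mod_cast hlen
    gcongr
  have h := UGMart.unary_gap_of hG.pos hL hκ0 hκ (B := B) (M := R.length)
    (K := (R.length : ℝ) * (κ⁻¹) ^ 2 * ((B : ℝ) + 1) ^ 2 / 2) (by positivity) hT R hR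
    (Nat.le_succ _) β f
  refine h.trans ?_
  have hD : 0 ≤ Dir G R β f := UGMart.Dir_nonneg hG.pos (fun e he => (hR e he).1) _ _
  apply mul_le_mul_of_nonneg_right _ hD
  have h1 : (1 : ℝ) ≤ ((B : ℝ) + 1) ^ 2 := by
    have : (1 : ℝ) ≤ (B : ℝ) + 1 := by
      have : (0 : ℝ) ≤ B := Nat.cast_nonneg _
      linarith
    exact one_le_pow₀ this
  have h2 : 0 ≤ (κ⁻¹) ^ 2 := by positivity
  have h3 : 2 * ((B : ℝ) + 1) ^ 2 * (κ⁻¹) ^ 2 ≤ 2 * ((B : ℝ) + 1) ^ 4 * (κ⁻¹) ^ 2 := by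
    have : ((B : ℝ) + 1) ^ 2 ≤ ((B : ℝ) + 1) ^ 4 := by nlinarith
    gcongr
  have h4 : (R.length : ℝ) * (2 * ((B : ℝ) + 1) ^ 2 * ((R.length : ℝ) * (κ⁻¹) ^ 2
      * ((B : ℝ) + 1) ^ 2 / 2)) = (R.length : ℝ) ^ 2 * ((B : ℝ) + 1) ^ 4 * (κ⁻¹) ^ 2 := by ring
  rw [h4]
  nlinarith

end gen

/-! ### box sums -/

section box

variable {V : Type*} [DecidableEq V]

/-- the UG cell of a US cell -/
def cell (φ : ℕ → V) (W : US.UCell → ℕ → ℝ) (c : US.UCell) : Cell V :=
  ⟨φ c.1, φ c.2.1, c.2.2, W c⟩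

/-- product of the cell weights -/
def Wt (W : US.UCell → ℕ → ℝ) : List US.UCell → List ℕ → ℝ
  | c :: R, y :: Y => W c y * Wt W R Y
  | _, _ => 1

/-- residual demand -/
def res (φ : ℕ → V) : List US.UCell → (V → ℤ) → List ℕ → (V → ℤ)
  | c :: R, β, y :: Y =>
      res φ R (β - (y : ℤ) • ev (φ c.1) - ((c.2.2 : ℤ) - (y : ℤ)) • ev (φ c.2.1)) Y
  | _, β, _ => β

theorem res_add (φ : ℕ → V) (R : List US.UCell) : ∀ (β δ : V → ℤ) (Y : List ℕ),
    res φ R (β + δ) Y = res φ R β Y + δ := by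
  induction R with
  | nil => intro β δ Y; simp [res]
  | cons c R ih =>
    intro β δ Y
    cases Y with
    | nil => simp [res]
    | cons y Y =>
      simp only [res]
      rw [← ih]
      congr 1
      module

/-- weight of a configuration -/
def bw (φ : ℕ → V) (W : US.UCell → ℕ → ℝ) (G : (V → ℤ) → ℝ) (R : List US.UCell)
    (β : V → ℤ) (Y : List ℕ) : ℝ := Wt W R Y * G (res φ R β Y)

theorem cs_eq_sum (φ : ℕ → V) (W : US.UCell → ℕ → ℝ) (R : List US.UCell) :
    ∀ (β : V → ℤ) (H : (V → ℤ) → List ℕ → ℝ),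
      cs (R.map (cell φ W)) β H = ∑ Y ∈ US.box R, Wt W R Y * H (res φ R β Y) Y := by
  induction R with
  | nil => intro β H; simp [US.sum_box_nil, Wt, res]
  | cons c R ih =>
    intro β H
    rw [List.map_cons, cs_cons, US.sum_box_cons]
    apply Finset.sum_congr rfl
    intro y _
    rw [ih, Finset.mul_sum]
    apply Finset.sum_congr rfl
    intro Y _
    simp only [Wt, res, cell, Cell.sh]
    ring

theorem Ex_eq_sum (φ : ℕ → V) (W : US.UCell → ℕ → ℝ) (G : (V → ℤ) → ℝ) (R : List US.UCell)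
    (β : V → ℤ) (h : List ℕ → ℝ) :
    Ex G (R.map (cell φ W)) β h = ∑ Y ∈ US.box R, bw φ W G R β Y * h Y := by
  unfold Ex bw
  rw [cs_eq_sum]
  apply Finset.sum_congr rfl
  intro Y _
  ring

theorem Z_eq_sum (φ : ℕ → V) (W : US.UCell → ℕ → ℝ) (G : (V → ℤ) → ℝ) (R : List US.UCell)
    (β : V → ℤ) :
    Z G (R.map (cell φ W)) β = ∑ Y ∈ US.box R, bw φ W G R β Y := by
  unfold Z bw
  rw [cs_eq_sum]

/-- Dirichlet form on the box for a weight `w` -/
noncomputable def bD (R : List US.UCell) (w f : List ℕ → ℝ) : ℝ :=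
  ∑ Y ∈ US.box R, ∑ i ∈ range R.length,
    if Y.getD i 0 < (R.getD i (0, 0, 0)).2.2 then
      min (w Y) (w (Y.set i (Y.getD i 0 + 1))) * (f (Y.set i (Y.getD i 0 + 1)) - f Y) ^ 2
    else 0

theorem bD_smul (R : List US.UCell) {a : ℝ} (ha : 0 ≤ a) (w f : List ℕ → ℝ) :
    bD R (fun Y => a * w Y) f = a * bD R w f := by
  unfold bD
  rw [Finset.mul_sum]
  apply Finset.sum_congr rfl
  intro Y _
  rw [Finset.mul_sum]
  apply Finset.sum_congr rfl
  intro i _
  split_ifs
  · rw [← mul_min_of_nonneg _ _ ha]; ring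
  · simp

theorem bD_cons (c : US.UCell) (R : List US.UCell) (w f : List ℕ → ℝ) :
    bD (c :: R) w f = (∑ y ∈ range c.2.2, ∑ Y ∈ US.box R,
        min (w (y :: Y)) (w ((y + 1) :: Y)) * (f ((y + 1) :: Y) - f (y :: Y)) ^ 2)
      + ∑ y ∈ range (c.2.2 + 1), bD R (fun Y => w (y :: Y)) (fun Y => f (y :: Y)) := by
  unfold bD
  rw [US.sum_box_cons]
  simp only [List.length_cons, Finset.sum_range_succ' _ R.length, List.getD_cons_zero,
    List.getD_cons_succ, List.set_cons_zero, List.set_cons_succ]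
  simp only [Finset.sum_add_distrib]
  rw [add_comm]
  congr 1
  rw [Finset.sum_range_succ]
  simp only [lt_self_iff_false, if_false, Finset.sum_const_zero, add_zero]
  apply Finset.sum_congr rfl
  intro y hy
  rw [mem_range] at hy
  simp only [hy, if_true]

theorem Wt_nonneg {W : US.UCell → ℕ → ℝ} : ∀ {R : List US.UCell},
    (∀ c ∈ R, ∀ y ≤ c.2.2, 0 < W c y) → ∀ Y ∈ US.box R, 0 < Wt W R Y := by
  intro R
  induction R with
  | nil => intro _ Y _; cases Y <;> simp [Wt]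
  | cons c R ih =>
    intro h Y hY
    obtain ⟨a, Y', h1, h2, rfl⟩ := US.mem_box_cons.1 hY
    exact mul_pos (h c (by simp) a h1) (ih (fun c' hc' => h c' (by simp [hc'])) Y' h2)

theorem Dir_eq_sum (φ : ℕ → V) (W : US.UCell → ℕ → ℝ) (G : (V → ℤ) → ℝ) :
    ∀ (R : List US.UCell), (∀ c ∈ R, ∀ y ≤ c.2.2, 0 < W c y) → ∀ (β : V → ℤ) (h : List ℕ → ℝ),
      Dir G (R.map (cell φ W)) β h = bD R (bw φ W G R β) h := by
  intro R
  induction R with
  | nil => intro _ β h; simp [bD, Dir, US.sum_box_nil]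
  | cons c R ih =>
    intro hW β h
    have hW' : ∀ c ∈ R, ∀ y ≤ c.2.2, 0 < W c y := fun c' hc' => hW c' (by simp [hc'])
    rw [List.map_cons, Dir, bD_cons]
    congr 1
    · apply Finset.sum_congr rfl
      intro y hy
      rw [mem_range] at hy
      rw [cs_eq_sum]
      apply Finset.sum_congr rfl
      intro Y hY
      have hp := Wt_nonneg hW' Y hY
      have e1 : bw φ W G (c :: R) β (y :: Y)
          = Wt W R Y * (W c y * G (res φ R ((cell φ W c).sh y β) Y)) := by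
        simp only [bw, Wt, res, cell, Cell.sh]; ring
      have e2 : bw φ W G (c :: R) β ((y + 1) :: Y)
          = Wt W R Y * (W c (y + 1) * G (res φ R ((cell φ W c).sh y β) Y
            - ev (φ c.1) + ev (φ c.2.1))) := by
        have : res φ R ((cell φ W c).sh y β) Y - ev (φ c.1) + ev (φ c.2.1)
            = res φ R ((cell φ W c).sh (y + 1) β) Y := by
          rw [sh_succ, sub_add, sub_eq_add_neg, ← res_add]
          congr 1
          simp only [cell]
          abel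
        rw [this]
        simp only [bw, Wt, res, cell, Cell.sh]; ring
      rw [e1, e2, ← mul_min_of_nonneg _ _ hp.le]
      simp only [cell]
      ring
    · apply Finset.sum_congr rfl
      intro y hy
      rw [mem_range, Nat.lt_succ_iff] at hy
      rw [ih hW']
      change W c y * bD R _ _ = _
      rw [← bD_smul _ (hW c (by simp) y hy).le]
      congr 1
      funext Y
      simp only [bw, Wt, res, cell, Cell.sh]
      ring

end box

/-! ### the concrete weights -/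

section concrete

/-- gauge weight of a cell -/
noncomputable def gw {n : ℕ} (φ : ℕ → Fin (n + 1)) (lam : Fin (n + 1) → ℝ) (c : US.UCell)
    (y : ℕ) : ℝ := lam (φ c.1) ^ (-(y : ℤ)) * lam (φ c.2.1) ^ ((y : ℤ) - (c.2.2 : ℤ))

/-- `∏ lam ^ t` -/
noncomputable def Lm {n : ℕ} (lam : Fin (n + 1) → ℝ) (t : Fin (n + 1) → ℤ) : ℝ :=
  ∏ v, lam v ^ t v

theorem Lm_pos {n : ℕ} {lam : Fin (n + 1) → ℝ} (hl : ∀ v, 0 < lam v) (t : Fin (n + 1) → ℤ) :
    0 < Lm lam t := Finset.prod_pos fun v _ => zpow_pos (hl v) _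

theorem Lm_add {n : ℕ} {lam : Fin (n + 1) → ℝ} (hl : ∀ v, 0 < lam v)
    (t s : Fin (n + 1) → ℤ) : Lm lam (t + s) = Lm lam t * Lm lam s := by
  unfold Lm
  rw [← Finset.prod_mul_distrib]
  exact Finset.prod_congr rfl fun v _ => zpow_add₀ (hl v).ne' _ _

theorem Lm_smul_ev {n : ℕ} (lam : Fin (n + 1) → ℝ) (a : Fin (n + 1)) (z : ℤ) :
    Lm lam (z • ev a) = lam a ^ z := by
  unfold Lm
  rw [Finset.prod_eq_single a]
  · simp [ev]
  · intro b _ hb; simp [ev, hb]
  · simp

theorem Lm_res {n : ℕ} (φ : ℕ → Fin (n + 1)) {lam : Fin (n + 1) → ℝ} (hl : ∀ v, 0 < lam v) :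
    ∀ (R : List US.UCell) (β : Fin (n + 1) → ℤ), ∀ Y ∈ US.box R,
      Lm lam (res φ R β Y) = Wt (gw φ lam) R Y * Lm lam β := by
  intro R
  induction R with
  | nil =>
    intro β Y hY
    rw [US.mem_box_nil] at hY
    subst hY
    simp [res, Wt]
  | cons c R ih =>
    intro β Y hY
    obtain ⟨a, Y', h1, h2, rfl⟩ := US.mem_box_cons.1 hY
    simp only [res, Wt]
    rw [ih _ _ h2]
    have e : β - (a : ℤ) • ev (φ c.1) - ((c.2.2 : ℤ) - (a : ℤ)) • ev (φ c.2.1)
        = β + (-(a : ℤ)) • ev (φ c.1) + ((a : ℤ) - (c.2.2 : ℤ)) • ev (φ c.2.1) := by module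
    rw [e, Lm_add hl, Lm_add hl, Lm_smul_ev, Lm_smul_ev]
    simp only [gw]
    ring

/-- the vertex map `v ↦ min v n` -/
def phi (n : ℕ) (v : ℕ) : Fin (n + 1) := ⟨min v n, by omega⟩

/-- the demand vector of an instance -/
def dem (n : ℕ) (d : List ℤ) : Fin (n + 1) → ℤ := fun v => if (v : ℕ) < n then d.getD v 0 else 0

/-- total shift of the demands -/
def bas (n : ℕ) : List US.UCell → Fin (n + 1) → ℤ
  | [] => 0
  | c :: R => (c.2.2 : ℤ) • ev (phi n c.2.1) + bas n R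

theorem phi_eq {n v : ℕ} {a : Fin (n + 1)} (ha : (a : ℕ) < n) : phi n v = a ↔ v = a := by
  unfold phi
  rw [Fin.ext_iff]
  simp only
  omega

theorem res_bas (n : ℕ) : ∀ (R : List US.UCell) (β : Fin (n + 1) → ℤ), ∀ Y ∈ US.box R,
    ∀ v : Fin (n + 1), (v : ℕ) < n →
      res (phi n) R (β + bas n R) Y v = β v - US.load R Y v := by
  intro R
  induction R with
  | nil =>
    intro β Y hY v _
    rw [US.mem_box_nil] at hY
    subst hY
    simp [res, bas, US.load]
  | cons c R ih =>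
    intro β Y hY v hv
    obtain ⟨a, Y', h1, h2, rfl⟩ := US.mem_box_cons.1 hY
    simp only [res, bas]
    have e : β + ((c.2.2 : ℤ) • ev (phi n c.2.1) + bas n R) - (a : ℤ) • ev (phi n c.1)
        - ((c.2.2 : ℤ) - (a : ℤ)) • ev (phi n c.2.1)
        = (β - (a : ℤ) • ev (phi n c.1) + (a : ℤ) • ev (phi n c.2.1)) + bas n R := by module
    rw [e, ih _ _ h2 v hv]
    have h3 : US.load (c :: R) (a :: Y') (v : ℕ) = US.contrib c a v + US.load R Y' v := by
      simp [US.load]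
    rw [h3]
    have h4 : ∀ x : ℕ, (ev (phi n x) : Fin (n + 1) → ℤ) v = if x = (v : ℕ) then 1 else 0 := by
      intro x
      unfold ev
      rw [Pi.single_apply]
      by_cases hx : x = (v : ℕ)
      · rw [if_pos hx, if_pos ((phi_eq hv).2 hx).symm]
      · rw [if_neg hx, if_neg]
        intro h
        exact hx ((phi_eq hv).1 h.symm)
    simp only [Pi.add_apply, Pi.sub_apply, Pi.smul_apply, h4, US.contrib, smul_eq_mul, mul_ite,
      mul_one, mul_zero]
    ring

/-- the factor of the vertex `v` -/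
noncomputable def gv (θ : ℝ) (n : ℕ) (v : Fin (n + 1)) (t : ℤ) : ℝ :=
  if (v : ℕ) < n then θ ^ t.natAbs else 1

theorem gv_lc {θ : ℝ} (h0 : 0 < θ) (h1 : θ ≤ 1) (n : ℕ) (v : Fin (n + 1)) :
    UGL.LC (gv θ n v) := by
  by_cases h : (v : ℕ) < n
  · have : gv θ n v = fun t : ℤ => θ ^ t.natAbs := by funext t; simp [gv, h]
    rw [this]; exact UGL.lc_theta h0 h1
  · have : gv θ n v = fun _ : ℤ => (1 : ℝ) := by funext t; simp [gv, h]
    rw [this]; exact ⟨fun _ => one_pos, fun _ => by norm_num⟩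

/-- the vertex weight -/
noncomputable def Gt (θ : ℝ) (n : ℕ) (t : Fin (n + 1) → ℤ) : ℝ := ∏ v, gv θ n v (t v)

theorem Gt_gok {θ : ℝ} (h0 : 0 < θ) (h1 : θ ≤ 1) (n : ℕ) : GOK (Gt θ n) :=
  UGL.gok_prod (gv θ n) (gv_lc h0 h1 n)

theorem Gt_ratio1 {θ : ℝ} (h0 : 0 < θ) (h1 : θ ≤ 1) (n : ℕ) (t : Fin (n + 1) → ℤ)
    (a : Fin (n + 1)) (z : ℤ) (hz : z.natAbs ≤ 1) :
    θ * Gt θ n t ≤ Gt θ n (t + z • ev a) := by
  unfold Gt
  rw [← Finset.mul_prod_erase _ _ (mem_univ a), ← Finset.mul_prod_erase _ _ (mem_univ a)]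
  have hpos : ∀ v t, 0 < gv θ n v t := fun v t => (gv_lc h0 h1 n v).pos t
  have e : ∏ x ∈ univ.erase a, gv θ n x ((t + z • ev a) x) = ∏ x ∈ univ.erase a, gv θ n x (t x) := by
    apply Finset.prod_congr rfl
    intro x hx
    have hx : x ≠ a := (Finset.mem_erase.1 hx).1
    simp [ev, hx]
  rw [e, ← mul_assoc]
  apply mul_le_mul_of_nonneg_right _ (Finset.prod_pos fun v _ => hpos v _).le
  have e2 : (t + z • ev a) a = t a + z := by simp [ev]
  rw [e2]
  unfold gv
  split_ifs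
  · rw [← pow_succ']
    apply pow_le_pow_of_le_one h0.le h1
    omega
  · linarith

theorem Gt_ratio {θ : ℝ} (h0 : 0 < θ) (h1 : θ ≤ 1) (n : ℕ) (t : Fin (n + 1) → ℤ)
    (a c : Fin (n + 1)) : θ ^ 2 * Gt θ n t ≤ Gt θ n (t - ev a + ev c) := by
  have e1 := Gt_ratio1 h0 h1 n t a (-1) (by norm_num)
  have e2 := Gt_ratio1 h0 h1 n (t + (-1 : ℤ) • ev a) c 1 (by norm_num)
  have e3 : t + (-1 : ℤ) • ev a + (1 : ℤ) • ev c = t - ev a + ev c := by module
  rw [e3] at e2
  calc θ ^ 2 * Gt θ n t = θ * (θ * Gt θ n t) := by ring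
    _ ≤ θ * Gt θ n (t + (-1 : ℤ) • ev a) := mul_le_mul_of_nonneg_left e1 h0.le
    _ ≤ _ := e2

/-- the soft weight with a field: `θ ^ ‖τ‖₁ * q ^ (k · τ)` -/
noncomputable def sw (θ q : ℝ) (k : List ℤ) (I : US.Inst) (Y : List ℕ) : ℝ :=
  θ ^ US.norm1 (US.tau I Y) * q ^ US.dot k (US.tau I Y)

theorem sum_map_range {M : Type*} [AddCommMonoid M] (g : ℕ → M) (n : ℕ) :
    ((List.range n).map g).sum = ∑ i ∈ range n, g i := by
  induction n with
  | zero => simp
  | succ n ih => rw [List.range_succ, List.map_append, List.sum_append, ih,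
      Finset.sum_range_succ]; simp

theorem dot_map_range (k : List ℤ) : ∀ (n : ℕ) (g : ℕ → ℤ),
    US.dot k ((List.range n).map g) = ∑ i ∈ range n, k.getD i 0 * g i := by
  induction k with
  | nil => intro n g; simp [US.dot]
  | cons a k ih =>
    intro n g
    cases n with
    | zero => simp [US.dot]
    | succ n =>
      rw [List.range_succ_eq_map, List.map_cons, List.map_map, Finset.sum_range_succ']
      have h := ih n (g ∘ Nat.succ)
      unfold US.dot at h ⊢
      rw [List.zipWith_cons_cons, List.sum_cons, h]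
      simp only [Function.comp, List.getD_cons_zero, List.getD_cons_succ, Nat.succ_eq_add_one]
      ring

/-- the field as a function on the vertices -/
noncomputable def lamf (q : ℝ) (k : List ℤ) (n : ℕ) : Fin (n + 1) → ℝ :=
  fun v => if (v : ℕ) < n then q ^ k.getD v 0 else 1

theorem lamf_pos {q : ℝ} (hq : 0 < q) (k : List ℤ) (n : ℕ) (v : Fin (n + 1)) :
    0 < lamf q k n v := by
  unfold lamf; split_ifs
  · exact zpow_pos hq _
  · exact one_pos

theorem sw_eq {θ q : ℝ} (hq : 0 < q) (k : List ℤ) (I : US.Inst)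
    (Y : List ℕ) (hY : Y ∈ US.box I.1) :
    sw θ q k I Y = Lm (lamf q k I.2.length) (dem I.2.length I.2 + bas I.2.length I.1)
      * bw (phi I.2.length) (gw (phi I.2.length) (lamf q k I.2.length)) (Gt θ I.2.length) I.1
        (dem I.2.length I.2 + bas I.2.length I.1) Y := by
  obtain ⟨R, d⟩ := I
  simp only at hY ⊢
  set n := d.length with hn
  set β := dem n d + bas n R with hβ
  have hL := Lm_res (phi n) (lamf_pos hq k n) R β Y hY
  have hres : ∀ v : Fin (n + 1), (v : ℕ) < n →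
      res (phi n) R β Y v = d.getD v 0 - US.load R Y v := by
    intro v hv
    rw [hβ, res_bas n R (dem n d) Y hY v hv]
    simp [dem, hv]
  unfold bw
  have e1 : Lm (lamf q k n) β * (Wt (gw (phi n) (lamf q k n)) R Y * Gt θ n (res (phi n) R β Y))
      = Gt θ n (res (phi n) R β Y) * Lm (lamf q k n) (res (phi n) R β Y) := by
    rw [hL]; ring
  rw [e1]
  unfold sw
  have htau : US.tau (R, d) Y = (List.range n).map (fun v => d.getD v 0 - US.load R Y v) := rfl
  congr 1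
  · -- theta part
    unfold Gt
    rw [Fin.prod_univ_castSucc]
    have hlast : gv θ n (Fin.last n) (res (phi n) R β Y (Fin.last n)) = 1 := by simp [gv]
    rw [hlast, mul_one]
    have h1 : ∀ i : Fin n, gv θ n i.castSucc (res (phi n) R β Y i.castSucc)
        = θ ^ (d.getD i 0 - US.load R Y i).natAbs := by
      intro i
      have hi : ((i.castSucc : Fin (n + 1)) : ℕ) < n := by simp
      rw [hres _ hi]
      unfold gv
      rw [if_pos hi]
      simp
    rw [Finset.prod_congr rfl (fun i _ => h1 i), Finset.prod_pow_eq_pow_sum]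
    congr 1
    rw [US.norm1, htau, List.map_map, sum_map_range,
      Fin.sum_univ_eq_sum_range (fun i => (d.getD i 0 - US.load R Y i).natAbs) n]
    rfl
  · -- field part
    unfold Lm
    rw [Fin.prod_univ_castSucc]
    have hlast : lamf q k n (Fin.last n) ^ (res (phi n) R β Y (Fin.last n)) = 1 := by simp [lamf]
    rw [hlast, mul_one]
    have h1 : ∀ i : Fin n, lamf q k n i.castSucc ^ (res (phi n) R β Y i.castSucc)
        = q ^ (k.getD i 0 * (d.getD i 0 - US.load R Y i)) := by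
      intro i
      have hi : ((i.castSucc : Fin (n + 1)) : ℕ) < n := by simp
      rw [hres _ hi]
      unfold lamf
      rw [if_pos hi, zpow_mul]
      simp
    rw [Finset.prod_congr rfl (fun i _ => h1 i), htau, dot_map_range,
      ← Fin.sum_univ_eq_sum_range (fun i => k.getD i 0 * (d.getD i 0 - US.load R Y i)) n]
    have h2 : ∀ (s : Finset (Fin n)) (g : Fin n → ℤ), q ^ (∑ i ∈ s, g i) = ∏ i ∈ s, q ^ g i := by
      intro s g
      induction s using Finset.induction_on with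
      | empty => simp
      | insert a s ha ih => rw [Finset.sum_insert ha, Finset.prod_insert ha, zpow_add₀ hq.ne', ih]
    rw [h2]

theorem sw_pos {θ q : ℝ} (h0 : 0 < θ) (hq : 0 < q) (k : List ℤ) (I : US.Inst) (Y : List ℕ) :
    0 < sw θ q k I Y := mul_pos (pow_pos h0 _) (zpow_pos hq _)

theorem bD_congr {R : List US.UCell} {w w' f : List ℕ → ℝ} (h : ∀ Y ∈ US.box R, w Y = w' Y) :
    bD R w f = bD R w' f := by
  unfold bD
  apply Finset.sum_congr rfl
  intro Y hY
  apply Finset.sum_congr rfl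
  intro i hi
  rw [mem_range] at hi
  split_ifs with hc
  · have hY2 : Y.set i (Y.getD i 0 + 1) ∈ US.box R := by
      rw [US.mem_box_iff] at hY ⊢
      refine ⟨by simp [hY.1], fun j hj => ?_⟩
      rw [List.getD_eq_getElem _ _ (by rw [List.length_set, hY.1]; exact hj), List.getElem_set]
      split_ifs with hij
      · subst hij; omega
      · have := hY.2 j hj
        rwa [List.getD_eq_getElem _ _ (by rw [hY.1]; exact hj)] at this
    rw [h Y hY, h _ hY2]
  · rfl

/-- **Unary gap theorem** on the box, for every field `k`. -/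
theorem box_gap {θ q : ℝ} (h0 : 0 < θ) (h1 : θ ≤ 1) (hq : 0 < q) (k : List ℤ) (I : US.Inst)
    {B : ℕ} (hB : ∀ c ∈ I.1, c.2.2 ≤ B) (f : List ℕ → ℝ) :
    (∑ Y ∈ US.box I.1, sw θ q k I Y * f Y ^ 2)
        - (∑ Y ∈ US.box I.1, sw θ q k I Y * f Y) ^ 2 / (∑ Y ∈ US.box I.1, sw θ q k I Y)
      ≤ (((I.1.length : ℝ) ^ 2 + 2) * ((B : ℝ) + 1) ^ 4 * (θ ^ 4)⁻¹) * bD I.1 (sw θ q k I) f := by
  set n := I.2.length with hn
  set φ := phi n with hφ
  set lam := lamf q k n with hlam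
  set W := gw φ lam with hW
  set β := dem n I.2 + bas n I.1 with hβ
  have hl : ∀ v, 0 < lam v := lamf_pos hq k n
  have hcells : ∀ e ∈ I.1.map (cell φ W), e.OK ∧ e.b ≤ B := by
    intro e he
    obtain ⟨c, hc, rfl⟩ := List.mem_map.1 he
    refine ⟨⟨fun y _ => ?_, fun y _ => ?_⟩, hB c hc⟩
    · exact mul_pos (zpow_pos (hl _) _) (zpow_pos (hl _) _)
    · apply le_of_eq
      simp only [cell, hW, gw]
      rw [mul_mul_mul_comm, mul_pow, ← zpow_add₀ (hl _).ne', ← zpow_add₀ (hl _).ne',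
        ← zpow_natCast, ← zpow_natCast, ← zpow_mul, ← zpow_mul]
      congr 1 <;> congr 1 <;> push_cast <;> ring
  have hg := unary_gap (Gt_gok h0 h1 n) (κ := θ ^ 2) (by positivity)
    (Gt_ratio h0 h1 n) (B := B) (I.1.map (cell φ W)) hcells β f
  have hWpos : ∀ c ∈ I.1, ∀ y ≤ c.2.2, 0 < W c y := fun c _ y _ =>
    mul_pos (zpow_pos (hl _) _) (zpow_pos (hl _) _)
  rw [Ex_eq_sum, Ex_eq_sum, Z_eq_sum, Dir_eq_sum φ W (Gt θ n) I.1 hWpos, List.length_map] at hg
  set C : ℝ := Lm lam β with hC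
  have hCpos : 0 < C := Lm_pos hl β
  have hsw : ∀ Y ∈ US.box I.1, sw θ q k I Y = C * bw φ W (Gt θ n) I.1 β Y :=
    fun Y hY => sw_eq hq k I Y hY
  have hbD : bD I.1 (sw θ q k I) f = C * bD I.1 (bw φ W (Gt θ n) I.1 β) f := by
    rw [← bD_smul _ hCpos.le]; exact bD_congr hsw
  have s1 : ∀ g : List ℕ → ℝ, ∑ Y ∈ US.box I.1, sw θ q k I Y * g Y
      = C * ∑ Y ∈ US.box I.1, bw φ W (Gt θ n) I.1 β Y * g Y := by
    intro g
    rw [Finset.mul_sum]
    apply Finset.sum_congr rfl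
    intro Y hY
    rw [hsw Y hY, mul_assoc]
  have s2 : ∑ Y ∈ US.box I.1, sw θ q k I Y
      = C * ∑ Y ∈ US.box I.1, bw φ W (Gt θ n) I.1 β Y := by
    rw [Finset.mul_sum]
    exact Finset.sum_congr rfl hsw
  rw [s1 (fun Y => f Y ^ 2), s1 f, s2, hbD]
  have hdiv : (C * ∑ Y ∈ US.box I.1, bw φ W (Gt θ n) I.1 β Y * f Y) ^ 2
      / (C * ∑ Y ∈ US.box I.1, bw φ W (Gt θ n) I.1 β Y)
      = C * ((∑ Y ∈ US.box I.1, bw φ W (Gt θ n) I.1 β Y * f Y) ^ 2
      / (∑ Y ∈ US.box I.1, bw φ W (Gt θ n) I.1 β Y)) := by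
    field_simp
  rw [hdiv, ← mul_sub, mul_left_comm]
  apply mul_le_mul_of_nonneg_left _ hCpos.le
  refine hg.trans (le_of_eq ?_)
  rw [show ((θ ^ 2)⁻¹) ^ 2 = (θ ^ 4)⁻¹ by rw [inv_pow, ← pow_mul]]

end concrete

end Crest.Agent.R309.UGBox
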