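import Crest.Agent.R309.UGBasic

/-!
R309: the conservation inequality (one processed cell) for log-concave cell weights, and the
Lorentzian induction step.
-/

set_option autoImplicit false
set_option linter.unusedSectionVars false

namespace Crest.Agent.R309.UG

open Finset

variable {V : Type*} [DecidableEq V]

/-- the modified vector `ν - (F (y+1) / w_y) e_u + (F y / w_y) e_w` -/
noncomputable def upd (e : Cell V) (F : ℕ → ℝ) (ν : V → ℝ) (y : ℕ) : V → ℝ :=
  ν + (-(F (y + 1) / e.wt y)) • one e.u + (F y / e.wt y) • one e.w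

/-- numerical core of the conservation law: partial sums. -/
theorem quad_partial (w F a : ℕ → ℝ) (b : ℕ) (hw : ∀ y ≤ b, 0 < w y)
    (hlc : ∀ y, y + 2 ≤ b → w y * w (y + 2) ≤ w (y + 1) ^ 2) (ha : ∀ y, 0 ≤ a y) (hF0 : F 0 = 0) :
    ∀ n, n + 1 ≤ b →
      F (n + 2) ^ 2 * a (n + 3) / w (n + 1) + F (n + 1) ^ 2 * a (n + 2) / w n
        - 2 * F (n + 1) * F (n + 2) * a (n + 2) / w (n + 1)
      ≤ ∑ y ∈ range (n + 2), (F (y + 1) ^ 2 * a (y + 2) + F y ^ 2 * a y
          - 2 * F y * F (y + 1) * a (y + 1)) / w y := by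
  intro n
  induction n with
  | zero =>
    intro hb
    have h1 := hw 1 hb
    have h0 := hw 0 (by omega)
    rw [Finset.sum_range_succ, Finset.sum_range_succ, Finset.sum_range_zero]
    simp only [hF0, zero_add]
    have : 0 ≤ F 1 ^ 2 * a 1 / w 1 := div_nonneg (mul_nonneg (sq_nonneg _) (ha _)) h1.le
    have e1 : (F 1 ^ 2 * a 2 + 0 ^ 2 * a 0 - 2 * 0 * F 1 * a 1) / w 0 = F 1 ^ 2 * a 2 / w 0 := by
      ring
    have e2 : (F (1 + 1) ^ 2 * a (1 + 2) + F 1 ^ 2 * a 1 - 2 * F 1 * F (1 + 1) * a (1 + 1)) / w 1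
        = F 2 ^ 2 * a 3 / w 1 + F 1 ^ 2 * a 1 / w 1 - 2 * F 1 * F 2 * a 2 / w 1 := by
      norm_num; ring
    rw [e1, e2]; linarith
  | succ n ih =>
    intro hb
    have ih := ih (by omega)
    rw [Finset.sum_range_succ]
    have hn := hw n (by omega)
    have hn1 := hw (n + 1) (by omega)
    have hn2 := hw (n + 2) (by omega)
    have hl := hlc n (by omega)
    -- discriminant
    have key : 0 ≤ F (n + 1) ^ 2 * a (n + 2) / w n + F (n + 2) ^ 2 * a (n + 2) / w (n + 2)
        - 2 * F (n + 1) * F (n + 2) * a (n + 2) / w (n + 1) := by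
      have e : F (n + 1) ^ 2 * a (n + 2) / w n + F (n + 2) ^ 2 * a (n + 2) / w (n + 2)
          - 2 * F (n + 1) * F (n + 2) * a (n + 2) / w (n + 1)
          = a (n + 2) * (F (n + 1) ^ 2 / w n + F (n + 2) ^ 2 / w (n + 2)
            - 2 * F (n + 1) * F (n + 2) / w (n + 1)) := by ring
      rw [e]
      refine mul_nonneg (ha _) ?_
      have e3 : F (n + 1) ^ 2 / w n + F (n + 2) ^ 2 / w (n + 2)
            - 2 * F (n + 1) * F (n + 2) / w (n + 1)
          = (w (n + 1) * w (n + 2) * F (n + 1) ^ 2 + w n * w (n + 1) * F (n + 2) ^ 2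
            - 2 * (w n * w (n + 2)) * F (n + 1) * F (n + 2)) / (w n * w (n + 1) * w (n + 2)) := by
        field_simp
      rw [e3]
      refine div_nonneg ?_ (by positivity)
      -- (w_{n+1} w_{n+2}) X² + (w_n w_{n+1}) Y² ≥ 2 w_n w_{n+2} |X Y|
      set X := F (n + 1); set Y := F (n + 2)
      set p := w n; set q := w (n + 1); set r := w (n + 2)
      -- multiply by q > 0 : q² r X² + p q² Y² - 2 p q r X Y ≥ p r (r X² + p Y²)... 
      have h4 : 0 ≤ q * (q * r * X ^ 2 + p * q * Y ^ 2 - 2 * (p * r) * X * Y) := by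
        have h5 : p * r * (r * X ^ 2 + p * Y ^ 2) ≤ q ^ 2 * (r * X ^ 2 + p * Y ^ 2) :=
          mul_le_mul_of_nonneg_right hl (by positivity)
        have h6 : 0 ≤ p * r * ((r * X ^ 2 + p * Y ^ 2) - 2 * q * X * Y)
            + (q ^ 2 - p * r) * (r * X ^ 2 + p * Y ^ 2) := by
          -- second form: q²(rX²+pY²) - 2pqrXY
          have : p * r * ((r * X ^ 2 + p * Y ^ 2) - 2 * q * X * Y)
            + (q ^ 2 - p * r) * (r * X ^ 2 + p * Y ^ 2)
            = q ^ 2 * (r * X ^ 2 + p * Y ^ 2) - 2 * p * r * q * X * Y := by ring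
          rw [this]
          -- AM-GM : r X² + p Y² ≥ 2 sqrt(pr) |XY|, use (pr)² X²Y²q² ≤ ...
          have h7 : (p * r * q * X * Y) ^ 2 ≤ (q ^ 2 * (r * X ^ 2 + p * Y ^ 2) / 2) ^ 2 := by
            have h8 : 0 ≤ (r * X ^ 2 - p * Y ^ 2) ^ 2 := sq_nonneg _
            have h9 : 4 * (p * r) * (X * Y) ^ 2 ≤ (r * X ^ 2 + p * Y ^ 2) ^ 2 := by nlinarith
            have h10 : (p * r) * (p * r * q ^ 2 * (X * Y) ^ 2)
                ≤ q ^ 2 * (p * r * q ^ 2 * (X * Y) ^ 2) :=
              mul_le_mul_of_nonneg_right hl (by positivity)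
            have h11 : q ^ 4 * (4 * (p * r) * (X * Y) ^ 2) ≤ q ^ 4 * (r * X ^ 2 + p * Y ^ 2) ^ 2 :=
              mul_le_mul_of_nonneg_left h9 (by positivity)
            nlinarith
          have h12 : 0 ≤ q ^ 2 * (r * X ^ 2 + p * Y ^ 2) / 2 := by positivity
          have h13 := abs_le_of_sq_le_sq h7 h12
          have h14 := le_abs_self (p * r * q * X * Y)
          linarith [h13, h14, show 2 * p * r * q * X * Y = 2 * (p * r * q * X * Y) by ring]
        nlinarith
      have hq : 0 < q := hn1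
      exact nonneg_of_mul_nonneg_right h4 hq
    have e2 : (F (n + 2 + 1) ^ 2 * a (n + 2 + 2) + F (n + 2) ^ 2 * a (n + 2)
          - 2 * F (n + 2) * F (n + 2 + 1) * a (n + 2 + 1)) / w (n + 2)
        = F (n + 3) ^ 2 * a (n + 4) / w (n + 2) + F (n + 2) ^ 2 * a (n + 2) / w (n + 2)
          - 2 * F (n + 2) * F (n + 3) * a (n + 3) / w (n + 2) := by
      ring_nf
    have e0 : n + 1 + 1 = n + 2 := rfl
    have e4 : n + 1 + 2 = n + 3 := rfl
    have e5 : n + 1 + 3 = n + 4 := rfl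
    rw [e0, e4, e5]
    rw [show (∑ x ∈ range (n + 2), _ : ℝ) = _ from rfl]
    linarith [key, ih, e2.le, e2.ge]

/-- numerical core of the conservation law. -/
theorem quad_nonneg (w F a : ℕ → ℝ) (b : ℕ) (hw : ∀ y ≤ b, 0 < w y)
    (hlc : ∀ y, y + 2 ≤ b → w y * w (y + 2) ≤ w (y + 1) ^ 2) (ha : ∀ y, 0 ≤ a y)
    (hF0 : F 0 = 0) (hFb : F (b + 1) = 0) :
    0 ≤ ∑ y ∈ range (b + 1), (F (y + 1) ^ 2 * a (y + 2) + F y ^ 2 * a y
          - 2 * F y * F (y + 1) * a (y + 1)) / w y := by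
  rcases b with _ | n
  · simp at hFb
    simp [hF0, hFb]
  · refine le_trans ?_ (quad_partial w F a (n + 1) hw hlc ha hF0 n le_rfl)
    have h0 : F (n + 2) = 0 := hFb
    rw [h0]
    have := hw n (by omega)
    have : 0 ≤ F (n + 1) ^ 2 * a (n + 2) / w n :=
      div_nonneg (mul_nonneg (sq_nonneg _) (ha _)) this.le
    simpa using this

variable [Fintype V]

theorem frm_cons (G : (V → ℤ) → ℝ) (e : Cell V) (R : List (Cell V)) (β : V → ℤ) (a b : V) :
    frm G (e :: R) β a b = ∑ y ∈ range (e.b + 1), e.wt y * frm G R (e.sh y β) a b := by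
  unfold frm
  rw [Z_cons]
  simp only [sh_sub]

theorem Q_cons (G : (V → ℤ) → ℝ) (e : Cell V) (R : List (Cell V)) (β : V → ℤ) (ν μ : V → ℝ) :
    Q (frm G (e :: R) β) ν μ = ∑ y ∈ range (e.b + 1), e.wt y * Q (frm G R (e.sh y β)) ν μ := by
  unfold Q
  simp only [frm_cons, Finset.mul_sum]
  calc _ = ∑ a, ∑ y ∈ range (e.b + 1), ∑ b, e.wt y * (ν a * μ b * frm G R (e.sh y β) a b) := by
        refine Finset.sum_congr rfl fun a _ => ?_
        rw [Finset.sum_comm]
        refine Finset.sum_congr rfl fun b _ => Finset.sum_congr rfl fun y _ => by ring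
    _ = _ := by
        rw [Finset.sum_comm]

/-- **Conservation law**: for every sequence `F` with `F 0 = F (b+1) = 0`. -/
theorem conservation (G : (V → ℤ) → ℝ) (hG : ∀ β, 0 < G β) (e : Cell V) (he : e.OK)
    (R : List (Cell V)) (hR : ∀ f ∈ R, f.OK) (β : V → ℤ) (ν : V → ℝ) (F : ℕ → ℝ)
    (hF0 : F 0 = 0) (hFb : F (e.b + 1) = 0) :
    Q (frm G (e :: R) β) ν ν
      ≤ ∑ y ∈ range (e.b + 1), e.wt y *
          Q (frm G R (e.sh y β)) (upd e F ν y) (upd e F ν y) := by
  set a : ℕ → ℝ := fun y => Z G R (e.sh y β - ev e.w - ev e.w) with ha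
  set T : ℕ → ℝ := fun y => F y * Q (frm G R (e.sh y β)) ν (one e.w) with hT
  have hapos : ∀ y, 0 ≤ a y := fun y => (Z_pos hG R hR _).le
  have huw : ∀ y, frm G R (e.sh y β) e.u e.w = a (y + 1) := by
    intro y; simp only [ha, frm, sh_succ]; congr 1; abel
  have huu : ∀ y, frm G R (e.sh y β) e.u e.u = a (y + 2) := by
    intro y; simp only [ha, frm]
    rw [show y + 2 = (y + 1) + 1 from rfl, sh_succ, sh_succ]; congr 1; abel
  have hww : ∀ y, frm G R (e.sh y β) e.w e.w = a y := fun y => rfl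
  have hlin : ∀ y, Q (frm G R (e.sh y β)) ν (one e.u)
      = Q (frm G R (e.sh (y + 1) β)) ν (one e.w) := by
    intro y
    rw [Q_one_right, Q_one_right]
    refine Finset.sum_congr rfl fun c _ => ?_
    unfold frm
    rw [sh_succ]; congr 2; abel
  have hterm : ∀ y ∈ range (e.b + 1), e.wt y *
        Q (frm G R (e.sh y β)) (upd e F ν y) (upd e F ν y)
      = e.wt y * Q (frm G R (e.sh y β)) ν ν + (2 * T y - 2 * T (y + 1))
        + (F (y + 1) ^ 2 * a (y + 2) + F y ^ 2 * a y - 2 * F y * F (y + 1) * a (y + 1))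
            / e.wt y := by
    intro y hy
    have hpos := he.pos y (by simpa [Nat.lt_succ_iff] using hy)
    unfold upd
    rw [Q_expand _ (frm_symm G R _), hlin, huu, hww, huw]
    simp only [hT]
    field_simp
    ring
  rw [Finset.sum_congr rfl hterm, Finset.sum_add_distrib, Finset.sum_add_distrib, Q_cons]
  have htel : ∑ y ∈ range (e.b + 1), (2 * T y - 2 * T (y + 1)) = 0 := by
    have := Finset.sum_range_sub' (fun y => 2 * T y) (e.b + 1)
    rw [this]
    simp [hT, hF0, hFb]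
  have hq := quad_nonneg e.wt F a e.b he.pos he.lc hapos hF0 hFb
  rw [htel]
  linarith

end Crest.Agent.R309.UG
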