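import Mathlib

/-!
R309: shared definitions for the unary gap theorem (cells = edges with `b` units to be split
between the two ends).
-/

set_option autoImplicit false

namespace Crest.Agent.R309.UG

open Finset

/-- A cell (edge) with `b` units to be split between its ends `u`, `w`;
`wt y` is the weight of the value `y` (`y` units go to `u`, `b - y` units go to `w`). -/
structure Cell (V : Type*) where
  u : V
  w : V
  b : ℕ
  wt : ℕ → ℝ

variable {V : Type*} [DecidableEq V]

/-- positive log-concave weights on `0..b` -/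
structure Cell.OK (e : Cell V) : Prop where
  pos : ∀ y ≤ e.b, 0 < e.wt y
  lc : ∀ y, y + 2 ≤ e.b → e.wt y * e.wt (y + 2) ≤ e.wt (y + 1) ^ 2

/-- unit demand vector -/
def ev (a : V) : V → ℤ := Pi.single a 1

/-- residual demand after cell `e` takes the value `y` -/
def Cell.sh (e : Cell V) (y : ℕ) (β : V → ℤ) : V → ℤ :=
  β - (y : ℤ) • ev e.u - ((e.b : ℤ) - (y : ℤ)) • ev e.w

/-- `cs R β H = ∑_Y W(Y) * H (β - load Y) Y`, sum over the configurations `Y` of the cells `R`
(configurations are lists of values, in the order of the list of cells). -/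
def cs : List (Cell V) → (V → ℤ) → ((V → ℤ) → List ℕ → ℝ) → ℝ
  | [], β, H => H β []
  | e :: R, β, H => ∑ y ∈ range (e.b + 1), e.wt y * cs R (e.sh y β) (fun t Y => H t (y :: Y))

/-- partition function `Z_R(β) = ∑_Y W(Y) G(β - load Y)` -/
def Z (G : (V → ℤ) → ℝ) (R : List (Cell V)) (β : V → ℤ) : ℝ := cs R β (fun t _ => G t)

@[simp] theorem cs_nil (β : V → ℤ) (H : (V → ℤ) → List ℕ → ℝ) : cs [] β H = H β [] := rfl

theorem cs_cons (e : Cell V) (R : List (Cell V)) (β : V → ℤ) (H : (V → ℤ) → List ℕ → ℝ) :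
    cs (e :: R) β H
      = ∑ y ∈ range (e.b + 1), e.wt y * cs R (e.sh y β) (fun t Y => H t (y :: Y)) := rfl

@[simp] theorem Z_nil (G : (V → ℤ) → ℝ) (β : V → ℤ) : Z G [] β = G β := rfl

theorem Z_cons (G : (V → ℤ) → ℝ) (e : Cell V) (R : List (Cell V)) (β : V → ℤ) :
    Z G (e :: R) β = ∑ y ∈ range (e.b + 1), e.wt y * Z G R (e.sh y β) := rfl

/-- bilinear form of a matrix -/
def Q [Fintype V] (A : V → V → ℝ) (ν μ : V → ℝ) : ℝ := ∑ a, ∑ b, ν a * μ b * A a b

/-- Lorentzian condition: at most one positive eigenvalue, in the form that is used. -/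
def Lor [Fintype V] (A : V → V → ℝ) : Prop :=
  ∀ ν D : V → ℝ, (∀ a, 0 ≤ D a) → (∃ a, 0 < D a) → Q A ν D = 0 → Q A ν ν ≤ 0

/-- the matrix `A^β_{ab} = Z_R(β - e_a - e_b)` -/
def frm (G : (V → ℤ) → ℝ) (R : List (Cell V)) (β : V → ℤ) : V → V → ℝ :=
  fun a b => Z G R (β - ev a - ev b)

/-- hypotheses on the vertex weight `G(t) = ∏_v g_v(t_v)` -/
structure GOK [Fintype V] (G : (V → ℤ) → ℝ) : Prop where
  pos : ∀ β, 0 < G β
  lor : ∀ β, Lor (fun a b => G (β - ev a - ev b))

/-- Lorentz theorem for a vertex weight `G` (to be proved in `Lor.lean` for all `GOK G`). -/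
def LorentzFor [Fintype V] (G : (V → ℤ) → ℝ) : Prop :=
  ∀ (R : List (Cell V)), (∀ e ∈ R, e.OK) → ∀ β, Lor (frm G R β)

/-- unnormalised expectation of `h` under the system `R` with demand `β` -/
def Ex (G : (V → ℤ) → ℝ) (R : List (Cell V)) (β : V → ℤ) (h : List ℕ → ℝ) : ℝ :=
  cs R β (fun t Y => G t * h Y)

/-- unnormalised Dirichlet form: sum over cells `k` in `R` and configurations `Y`, of
`min(weight Y, weight (Y + 1_k)) * (h (Y + 1_k) - h Y)^2`. -/
def Dir (G : (V → ℤ) → ℝ) : List (Cell V) → (V → ℤ) → (List ℕ → ℝ) → ℝ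
  | [], _, _ => 0
  | e :: R, β, h =>
      (∑ y ∈ range e.b, cs R (e.sh y β) (fun t Y =>
        min (e.wt y * G t) (e.wt (y + 1) * G (t - ev e.u + ev e.w))
          * (h ((y + 1) :: Y) - h (y :: Y)) ^ 2))
      + ∑ y ∈ range (e.b + 1), e.wt y * Dir G R (e.sh y β) (fun Y => h (y :: Y))

theorem sh_succ (e : Cell V) (y : ℕ) (β : V → ℤ) :
    e.sh (y + 1) β = e.sh y β - ev e.u + ev e.w := by
  unfold Cell.sh; push_cast; module

/-! The next lemmas only force Lean to generate the equation lemmas of the definitions above in THIS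
file, so that they are not generated twice in files that do not import each other. -/

theorem force_Dir (G : (V → ℤ) → ℝ) (R : List (Cell V)) (β : V → ℤ) (h : List ℕ → ℝ) :
    Dir G R β h = Dir G R β h ∧ Dir G [] β h = 0 := by
  refine ⟨by rw [Dir.eq_def], by simp only [Dir]⟩

theorem force_cs (R : List (Cell V)) (β : V → ℤ) (H : (V → ℤ) → List ℕ → ℝ) :
    cs R β H = cs R β H ∧ cs [] β H = H β [] := by
  refine ⟨by rw [cs.eq_def], by simp only [cs]⟩

end Crest.Agent.R309.UG
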