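import Crest.Agent.R309.UGCons

/-!
R309: energy bound for one processed cell (log-concave weights) and superconservation of the
potential.
-/

set_option autoImplicit false
set_option linter.unusedSectionVars false

namespace Crest.Agent.R309.UG

open Finset

variable {V : Type*} [DecidableEq V] [Fintype V]

/-- linear functional `ν ↦ ∑ ν_a Z_R(γ - e_a)` -/
noncomputable def Lf (G : (V → ℤ) → ℝ) (R : List (Cell V)) (γ : V → ℤ) (ν : V → ℝ) : ℝ :=
  ∑ a, ν a * Z G R (γ - ev a)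

theorem Lf_cons (G : (V → ℤ) → ℝ) (e : Cell V) (R : List (Cell V)) (γ : V → ℤ) (ν : V → ℝ) :
    Lf G (e :: R) γ ν = ∑ y ∈ range (e.b + 1), e.wt y * Lf G R (e.sh y γ) ν := by
  unfold Lf
  simp only [Z_cons, Finset.mul_sum, sh_sub]
  rw [Finset.sum_comm]
  refine Finset.sum_congr rfl fun y _ => Finset.sum_congr rfl fun a _ => by ring

theorem Lf_upd (G : (V → ℤ) → ℝ) (R : List (Cell V)) (γ : V → ℤ) (ν : V → ℝ) (u w : V)
    (x y : ℝ) :
    Lf G R γ (ν + x • one u + y • one w)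
      = Lf G R γ ν + x * Z G R (γ - ev u) + y * Z G R (γ - ev w) := by
  have h1 : ∀ c : V, ∑ a, (one c : V → ℝ) a * Z G R (γ - ev a) = Z G R (γ - ev c) := by
    intro c
    rw [Finset.sum_eq_single c]
    · simp [one]
    · intro b _ hb; simp [one, hb]
    · simp
  unfold Lf
  simp only [Pi.add_apply, Pi.smul_apply, smul_eq_mul, add_mul, Finset.sum_add_distrib, mul_assoc]
  rw [← Finset.mul_sum, ← Finset.mul_sum, h1, h1]

/-- partial sums `P y = ∑_{i<y} w_i φ_i` -/
noncomputable def Pp (G : (V → ℤ) → ℝ) (e : Cell V) (R : List (Cell V)) (γ : V → ℤ) (ν : V → ℝ)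
    (y : ℕ) : ℝ := ∑ i ∈ range y, e.wt i * Lf G R (e.sh i γ) ν

/-- hole weights `N y = Z_R(γ_y - e_w)` -/
noncomputable def Nn (G : (V → ℤ) → ℝ) (e : Cell V) (R : List (Cell V)) (γ : V → ℤ)
    (y : ℕ) : ℝ := Z G R (e.sh y γ - ev e.w)

/-- flow amplitudes `F y = P y / N y` -/
noncomputable def Ff (G : (V → ℤ) → ℝ) (e : Cell V) (R : List (Cell V)) (γ : V → ℤ) (ν : V → ℝ)
    (y : ℕ) : ℝ := Pp G e R γ ν y / Nn G e R γ y

theorem Nn_succ (G : (V → ℤ) → ℝ) (e : Cell V) (R : List (Cell V)) (γ : V → ℤ) (y : ℕ) :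
    Nn G e R γ (y + 1) = Z G R (e.sh y γ - ev e.u) := by
  unfold Nn; rw [sh_succ]; congr 1; abel

theorem Ff_zero (G : (V → ℤ) → ℝ) (e : Cell V) (R : List (Cell V)) (γ : V → ℤ) (ν : V → ℝ) :
    Ff G e R γ ν 0 = 0 := by simp [Ff, Pp]

theorem Ff_last (G : (V → ℤ) → ℝ) (e : Cell V) (R : List (Cell V)) (γ : V → ℤ) (ν : V → ℝ)
    (h : Lf G (e :: R) γ ν = 0) : Ff G e R γ ν (e.b + 1) = 0 := by
  unfold Ff Pp; rw [← Lf_cons, h, zero_div]

/-- the linear functional is preserved by the update -/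
theorem Lf_next (G : (V → ℤ) → ℝ) (hG : ∀ β, 0 < G β) (e : Cell V) (he : e.OK)
    (R : List (Cell V)) (hR : ∀ f ∈ R, f.OK) (γ : V → ℤ) (ν : V → ℝ) (y : ℕ) (hy : y ≤ e.b) :
    Lf G R (e.sh y γ) (upd e (Ff G e R γ ν) ν y) = 0 := by
  unfold upd
  rw [Lf_upd, ← Nn_succ]
  have hw := (he.pos y hy).ne'
  have hN : Nn G e R γ (y + 1) ≠ 0 := (Z_pos hG R hR _).ne'
  have hN' : Z G R (e.sh y γ - ev e.w) ≠ 0 := (Z_pos hG R hR _).ne'
  have h1 : Pp G e R γ ν (y + 1) = Pp G e R γ ν y + e.wt y * Lf G R (e.sh y γ) ν := by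
    unfold Pp; rw [Finset.sum_range_succ]
  unfold Ff
  rw [show Nn G e R γ y = Z G R (e.sh y γ - ev e.w) from rfl, h1]
  field_simp
  ring

/-- discrete summation by parts -/
theorem sum_by_parts (X s : ℕ → ℝ) (b : ℕ) :
    ∑ j ∈ range b, s (j + 1) * (2 * X (j + 1) - X j - X (j + 2))
      = ∑ j ∈ range b, X (j + 1) * (2 * s (j + 1) - s j - s (j + 2))
        + ((X 1 * s 0 - s 1 * X 0) - (X (b + 1) * s b - s (b + 1) * X b)) := by
  induction b with
  | zero => simp
  | succ b ih => rw [Finset.sum_range_succ, Finset.sum_range_succ, ih]; ring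

/-- the one-cell potential -/
noncomputable def Tk (G : (V → ℤ) → ℝ) (k : Cell V) (R : List (Cell V)) (γ : V → ℤ)
    (ν : V → ℝ) : ℝ :=
  ∑ j ∈ range k.b, (((j : ℝ) + 1) * ((k.b : ℝ) - j) / 2) * (k.wt j + k.wt (j + 1))
    * (-Q (frm G R (k.sh j γ + ev k.w)) ν ν)

/-- numerical core of the energy bound -/
theorem energy_num (w B A : ℕ → ℝ) (b : ℕ) (hw : ∀ y ≤ b, 0 < w y)
    (hlc : ∀ y, y + 2 ≤ b → w y * w (y + 2) ≤ w (y + 1) ^ 2) (hB : ∀ y, 0 ≤ B y)
    (hB0 : B 0 = 0) (hBb : B (b + 1) = 0)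
    (hA : ∀ j < b, 2 * B (j + 1) / (w j * w (j + 1)) - B j / w j ^ 2 - B (j + 2) / w (j + 1) ^ 2
      ≤ A j) :
    ∑ j ∈ range b, B (j + 1) * (1 / w j + 1 / w (j + 1))
      ≤ ∑ j ∈ range b, (((j : ℝ) + 1) * ((b : ℝ) - j) / 2) * (w j + w (j + 1)) * A j := by
  -- X_i = B_i κ_i, with κ_i = 1/w_{i-1} + 1/w_i
  set X : ℕ → ℝ := fun i => B i * (1 / w (i - 1) + 1 / w i) with hX
  set s : ℕ → ℝ := fun i => (i : ℝ) * ((b : ℝ) + 1 - i) / 2 with hs
  have hX0 : X 0 = 0 := by simp [hX, hB0]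
  have hXb : X (b + 1) = 0 := by simp [hX, hBb]
  have h1 : ∀ j ∈ range b, s (j + 1) * (2 * X (j + 1) - X j - X (j + 2))
      ≤ (((j : ℝ) + 1) * ((b : ℝ) - j) / 2) * (w j + w (j + 1)) * A j := by
    intro j hj
    have hjb : j < b := by simpa using hj
    have hwj := hw j (by omega)
    have hwj1 := hw (j + 1) (by omega)
    have hsj : s (j + 1) = ((j : ℝ) + 1) * ((b : ℝ) - j) / 2 := by
      simp only [hs]; push_cast; ring
    have hs0 : 0 ≤ s (j + 1) := by
      rw [hsj]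
      have : (j : ℝ) < b := by exact_mod_cast hjb
      have : 0 ≤ (b : ℝ) - j := by linarith
      positivity
    rw [← hsj, mul_assoc]
    refine mul_le_mul_of_nonneg_left ?_ hs0
    refine le_trans ?_ (mul_le_mul_of_nonneg_left (hA j hjb) (by positivity))
    -- compare termwise
    have e1 : (w j + w (j + 1)) * (2 * B (j + 1) / (w j * w (j + 1)) - B j / w j ^ 2
          - B (j + 2) / w (j + 1) ^ 2)
        = 2 * (B (j + 1) * (1 / w j + 1 / w (j + 1)))
          - B j * ((w j + w (j + 1)) / w j ^ 2)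
          - B (j + 2) * ((w j + w (j + 1)) / w (j + 1) ^ 2) := by
      field_simp; ring
    rw [e1]
    have hXj1 : X (j + 1) = B (j + 1) * (1 / w j + 1 / w (j + 1)) := by simp [hX]
    have hXj : B j * ((w j + w (j + 1)) / w j ^ 2) ≤ X j := by
      rcases j with _ | i
      · simp [hB0, hX0]
      · simp only [hX]
        have hwi := hw i (by omega)
        refine mul_le_mul_of_nonneg_left ?_ (hB _)
        have hl := hlc i (by omega)
        have : (w (i + 1) + w (i + 1 + 1)) / w (i + 1) ^ 2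
            = 1 / w (i + 1) + w (i + 2) / w (i + 1) ^ 2 := by field_simp
        rw [this, add_comm]
        have h2 : w (i + 2) / w (i + 1) ^ 2 ≤ 1 / w i := by
          rw [div_le_div_iff₀ (by positivity) hwi]; linarith
        simpa using add_le_add_right h2 (1 / w (i + 1))
    have hXj2 : B (j + 2) * ((w j + w (j + 1)) / w (j + 1) ^ 2) ≤ X (j + 2) := by
      rcases Nat.lt_or_ge b (j + 2) with h | h
      · have : j + 2 = b + 1 := by omega
        rw [this, hBb, hXb]; simp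
      · simp only [hX]
        have hwj2 := hw (j + 2) h
        refine mul_le_mul_of_nonneg_left ?_ (hB _)
        have hl := hlc j h
        have : (w j + w (j + 1)) / w (j + 1) ^ 2
            = w j / w (j + 1) ^ 2 + 1 / w (j + 1) := by field_simp
        rw [this]
        have h2 : w j / w (j + 1) ^ 2 ≤ 1 / w (j + 2) := by
          rw [div_le_div_iff₀ (by positivity) hwj2]; linarith
        have e : j + 2 - 1 = j + 1 := rfl
        rw [e]; linarith
    rw [hXj1]; linarith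
  refine le_trans (le_of_eq ?_) (Finset.sum_le_sum h1)
  rw [sum_by_parts]
  have hs00 : s 0 = 0 := by simp [hs]
  have hsb : s (b + 1) = 0 := by simp [hs]
  rw [hX0, hXb, hs00, hsb]
  have : ∀ j ∈ range b, X (j + 1) * (2 * s (j + 1) - s j - s (j + 2))
      = B (j + 1) * (1 / w j + 1 / w (j + 1)) := by
    intro j _
    have : 2 * s (j + 1) - s j - s (j + 2) = 1 := by
      simp only [hs]; push_cast; ring
    rw [this, mul_one]; simp [hX]
  rw [Finset.sum_congr rfl this]; ring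

/-- **Energy bound** for the processed cell. -/
theorem energy_bound (G : (V → ℤ) → ℝ) (hG : ∀ β, 0 < G β) (k : Cell V) (hk : k.OK)
    (R : List (Cell V)) (hR : ∀ f ∈ R, f.OK) (hL : ∀ β, Lor (frm G R β))
    (γ : V → ℤ) (ν : V → ℝ) (h0 : Lf G (k :: R) γ ν = 0) :
    ∑ j ∈ range k.b, (Ff G k R γ ν (j + 1) ^ 2 * Nn G k R γ (j + 1))
        * (1 / k.wt j + 1 / k.wt (j + 1)) ≤ Tk G k R γ ν := by
  set F := Ff G k R γ ν with hF
  set N := Nn G k R γ with hN
  have hNpos : ∀ y, 0 < N y := fun y => Z_pos hG R hR _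
  have hF0 : F 0 = 0 := Ff_zero G k R γ ν
  have hFb : F (k.b + 1) = 0 := Ff_last G k R γ ν h0
  refine energy_num k.wt (fun y => F y ^ 2 * N y)
    (fun j => -Q (frm G R (k.sh j γ + ev k.w)) ν ν) k.b hk.pos hk.lc
    (fun y => mul_nonneg (sq_nonneg _) (hNpos y).le) (by simp [hF0]) (by simp [hFb]) ?_
  intro j hj
  have hwj := hk.pos j hj.le
  have hwj1 := hk.pos (j + 1) hj
  set A := frm G R (k.sh j γ + ev k.w) with hA
  -- matrix entries
  have huw : A k.u k.w = N (j + 1) := by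
    rw [hN, Nn_succ]; simp only [hA, frm]; congr 1; abel
  have hww : A k.w k.w = N j := by
    simp only [hA, frm, hN, Nn]; congr 1; abel
  have huu : A k.u k.u = N (j + 2) := by
    rw [hN, show j + 2 = (j + 1) + 1 from rfl, Nn_succ, sh_succ]
    simp only [hA, frm]; congr 1; abel
  have hνw : Q A ν (one k.w) = Lf G R (k.sh j γ) ν := by
    rw [Q_one_right]; unfold Lf
    refine Finset.sum_congr rfl fun a _ => ?_
    simp only [hA, frm]; congr 2; abel
  have hνu : Q A ν (one k.u) = Lf G R (k.sh (j + 1) γ) ν := by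
    rw [Q_one_right, sh_succ]; unfold Lf
    refine Finset.sum_congr rfl fun a _ => ?_
    simp only [hA, frm]; congr 2; abel
  have hsymm : ∀ a b, A a b = A b a := frm_symm G R _
  -- relations between F, N and φ
  have hP : ∀ y, F y * N y = Pp G k R γ ν y := by
    intro y; simp only [hF, Ff]; exact div_mul_cancel₀ _ (hNpos y).ne'
  have hPs : ∀ y, Pp G k R γ ν (y + 1) = Pp G k R γ ν y + k.wt y * Lf G R (k.sh y γ) ν := by
    intro y; unfold Pp; rw [Finset.sum_range_succ]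
  have hφj : Lf G R (k.sh j γ) ν = (F (j + 1) * N (j + 1) - F j * N j) / k.wt j := by
    rw [hP, hP, hPs]; field_simp; ring
  have hφj1 : Lf G R (k.sh (j + 1) γ) ν
      = (F (j + 2) * N (j + 2) - F (j + 1) * N (j + 1)) / k.wt (j + 1) := by
    rw [hP, hP, hPs]; field_simp; ring
  -- Lorentz at the updated vector
  have hor : Q A (upd k F ν j) (one k.w) = 0 := by
    unfold upd
    rw [Q_expand_right, hνw, hφj, huw, hww]; field_simp; ring
  have hneg := hL (k.sh j γ + ev k.w) (upd k F ν j) (one k.w)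
    (fun a => by unfold one; by_cases h : a = k.w <;> simp [h])
    ⟨k.w, by simp [one]⟩ hor
  rw [← hA] at hneg
  unfold upd at hneg
  rw [Q_expand A hsymm, hνu, hνw, huu, hww, huw, hφj, hφj1] at hneg
  have hsq : 0 ≤ N (j + 2) * (F (j + 1) / k.wt j - F (j + 2) / k.wt (j + 1)) ^ 2 :=
    mul_nonneg (hNpos _).le (sq_nonneg _)
  have key : 2 * (F (j + 1) ^ 2 * N (j + 1)) / (k.wt j * k.wt (j + 1))
      - (F j ^ 2 * N j) / k.wt j ^ 2 - (F (j + 2) ^ 2 * N (j + 2)) / k.wt (j + 1) ^ 2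
      + N (j + 2) * (F (j + 1) / k.wt j - F (j + 2) / k.wt (j + 1)) ^ 2
      + Q A ν ν
      = Q A ν ν + 2 * (-(F (j + 1) / k.wt j))
          * ((F (j + 2) * N (j + 2) - F (j + 1) * N (j + 1)) / k.wt (j + 1))
        + 2 * (F j / k.wt j) * ((F (j + 1) * N (j + 1) - F j * N j) / k.wt j)
        + (-(F (j + 1) / k.wt j)) ^ 2 * N (j + 2) + (F j / k.wt j) ^ 2 * N j
        + 2 * (-(F (j + 1) / k.wt j)) * (F j / k.wt j) * N (j + 1) := by
    field_simp; ring
  show _ ≤ -Q A ν ν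
  linarith [key, hneg, hsq]

/-- total potential of the unprocessed cells `R`, with the prefix `P` of already passed cells -/
noncomputable def PhiA (G : (V → ℤ) → ℝ) : List (Cell V) → List (Cell V) → (V → ℤ) → (V → ℝ) → ℝ
  | _, [], _, _ => 0
  | P, k :: R, γ, ν => Tk G k (P ++ R) γ ν + PhiA G (P ++ [k]) R γ ν

/-- superconservation of the one-cell potential -/
theorem Tk_super (G : (V → ℤ) → ℝ) (hG : ∀ β, 0 < G β) (e k : Cell V) (he : e.OK) (hk : k.OK)
    (R : List (Cell V)) (hR : ∀ f ∈ R, f.OK) (γ : V → ℤ) (ν : V → ℝ) (F : ℕ → ℝ)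
    (hF0 : F 0 = 0) (hFb : F (e.b + 1) = 0) :
    ∑ y ∈ range (e.b + 1), e.wt y * Tk G k R (e.sh y γ) (upd e F ν y)
      ≤ Tk G k (e :: R) γ ν := by
  unfold Tk
  simp only [Finset.mul_sum]
  rw [Finset.sum_comm]
  refine Finset.sum_le_sum fun j hj => ?_
  have hjb : j < k.b := by simpa using hj
  have h1 := conservation G hG e he R hR (k.sh j γ + ev k.w) ν F hF0 hFb
  have h2 : ∀ y, e.sh y (k.sh j γ + ev k.w) = k.sh j (e.sh y γ) + ev k.w := by
    intro y; rw [sh_add, sh_comm]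
  simp only [h2] at h1
  have hc : 0 ≤ (((j : ℝ) + 1) * ((k.b : ℝ) - j) / 2) * (k.wt j + k.wt (j + 1)) := by
    have : (j : ℝ) < k.b := by exact_mod_cast hjb
    have : 0 ≤ (k.b : ℝ) - j := by linarith
    have := hk.pos j hjb.le
    have := hk.pos (j + 1) hjb
    positivity
  have h3 := mul_le_mul_of_nonneg_left h1 hc
  calc ∑ y ∈ range (e.b + 1), e.wt y * ((((j : ℝ) + 1) * ((k.b : ℝ) - j) / 2)
          * (k.wt j + k.wt (j + 1))
          * (-Q (frm G R (k.sh j (e.sh y γ) + ev k.w)) (upd e F ν y) (upd e F ν y)))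
      = -((((j : ℝ) + 1) * ((k.b : ℝ) - j) / 2) * (k.wt j + k.wt (j + 1))
          * ∑ y ∈ range (e.b + 1), e.wt y *
            Q (frm G R (k.sh j (e.sh y γ) + ev k.w)) (upd e F ν y) (upd e F ν y)) := by
        rw [Finset.mul_sum, ← Finset.sum_neg_distrib]
        refine Finset.sum_congr rfl fun y _ => by ring
    _ ≤ _ := by linarith

theorem PhiA_super (G : (V → ℤ) → ℝ) (hG : ∀ β, 0 < G β) (e : Cell V) (he : e.OK)
    (γ : V → ℤ) (ν : V → ℝ) (F : ℕ → ℝ) (hF0 : F 0 = 0) (hFb : F (e.b + 1) = 0) :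
    ∀ (R P : List (Cell V)), (∀ f ∈ R, f.OK) → (∀ f ∈ P, f.OK) →
    ∑ y ∈ range (e.b + 1), e.wt y * PhiA G P R (e.sh y γ) (upd e F ν y)
      ≤ PhiA G (e :: P) R γ ν := by
  intro R
  induction R with
  | nil => intro P _ _; simp [PhiA]
  | cons k R ih =>
    intro P hR hP
    simp only [PhiA, mul_add, Finset.sum_add_distrib]
    refine add_le_add ?_ ?_
    · have := Tk_super G hG e k he (hR k (by simp)) (P ++ R)
        (fun f hf => by
          rcases List.mem_append.1 hf with h | h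
          · exact hP f h
          · exact hR f (by simp [h])) γ ν F hF0 hFb
      simpa using this
    · have := ih (P ++ [k]) (fun f hf => hR f (by simp [hf]))
        (fun f hf => by
          rcases List.mem_append.1 hf with h | h
          · exact hP f h
          · have : f = k := by simpa using h
            exact this ▸ hR k (by simp))
      simpa using this

end Crest.Agent.R309.UG
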