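import Crest.Agent.R309.UGDefs

/-!
R309: the martingale induction of the unary gap theorem.

* `poinc1`      : Poincare inequality on an interval `0..b` for positive log-concave weights;
* `unary_gap_of`: Lorentz + transport bound ==> Poincare inequality for the soft product chain.
-/

set_option autoImplicit false

namespace Crest.Agent.R309.UGMart

open Finset Crest.Agent.R309.UG

/-! ### one-dimensional part -/

/-- unimodality of positive log-concave sequences on `0..b` -/
theorem exists_mode {b : ℕ} {q : ℕ → ℝ} (hpos : ∀ x ≤ b, 0 < q x)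
    (hlc : ∀ x, x + 2 ≤ b → q x * q (x + 2) ≤ q (x + 1) ^ 2) :
    ∃ m ≤ b, (∀ r, m ≤ r → r + 1 ≤ b → q (r + 1) ≤ q r) ∧ (∀ r, r + 1 ≤ m → q r ≤ q (r + 1)) := by
  obtain ⟨m, hm, hmax⟩ := Finset.exists_max_image (range (b + 1)) q ⟨0, by simp⟩
  have hmb : m ≤ b := by simpa [Nat.lt_succ_iff] using hm
  refine ⟨m, hmb, ?_, ?_⟩
  · intro r hmr
    induction r, hmr using Nat.le_induction with
    | base => intro h; exact hmax _ (by simp; omega)
    | succ r hr ih =>
      intro h
      have h1 := ih (by omega)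
      have h2 := hlc r (by omega)
      have p0 := hpos r (by omega)
      have p1 := hpos (r + 1) (by omega)
      have p2 := hpos (r + 2) (by omega)
      have h3 : q r * q (r + 2) ≤ q r * q (r + 1) := by nlinarith
      exact le_of_mul_le_mul_left h3 p0
  · intro r hr
    obtain ⟨k, hk⟩ : ∃ k, m = r + 1 + k := ⟨m - (r + 1), by omega⟩
    clear hr
    induction k generalizing r with
    | zero =>
      have : m = r + 1 := by omega
      subst this
      exact hmax r (by simp; omega)
    | succ k ih =>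
      have h1 := ih (r + 1) (by omega)
      have h2 := hlc r (by omega)
      have p0 := hpos r (by omega)
      have p1 := hpos (r + 1) (by omega)
      have p2 := hpos (r + 2) (by omega)
      have h3 : q r * q (r + 2) ≤ q (r + 1) * q (r + 2) := by nlinarith
      exact le_of_mul_le_mul_right h3 p2

theorem sq_diff_le (F : ℕ → ℝ) (m k : ℕ) :
    (F (m + k) - F m) ^ 2 ≤ k * ∑ r ∈ range k, (F (m + r + 1) - F (m + r)) ^ 2 := by
  have h : F (m + k) - F m = ∑ r ∈ range k, (F (m + r + 1) - F (m + r)) := by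
    have := Finset.sum_range_sub (fun r => F (m + r)) k
    simpa [add_assoc] using this.symm
  rw [h]
  have := sq_sum_le_card_mul_sum_sq (s := range k) (f := fun r => F (m + r + 1) - F (m + r))
  simpa using this

/-- Poincare inequality for a positive log-concave weight on `0..b`. -/
theorem poinc1 {b : ℕ} {q : ℕ → ℝ} (hpos : ∀ x ≤ b, 0 < q x)
    (hlc : ∀ x, x + 2 ≤ b → q x * q (x + 2) ≤ q (x + 1) ^ 2) (F : ℕ → ℝ) :
    ∑ x ∈ range (b + 1), q x * F x ^ 2
        - (∑ x ∈ range (b + 1), q x * F x) ^ 2 / ∑ x ∈ range (b + 1), q x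
      ≤ ((b : ℝ) + 1) ^ 2 * ∑ x ∈ range b, min (q x) (q (x + 1)) * (F (x + 1) - F x) ^ 2 := by
  obtain ⟨m, hmb, hdec, hinc⟩ := exists_mode hpos hlc
  set E : ℝ := ∑ x ∈ range b, min (q x) (q (x + 1)) * (F (x + 1) - F x) ^ 2 with hE
  have hterm : ∀ x ∈ range b, 0 ≤ min (q x) (q (x + 1)) * (F (x + 1) - F x) ^ 2 := by
    intro x hx
    simp only [mem_range] at hx
    have := hpos x (by omega)
    have := hpos (x + 1) (by omega)
    positivity
  have hE0 : 0 ≤ E := Finset.sum_nonneg hterm
  have hQ : 0 < ∑ x ∈ range (b + 1), q x :=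
    Finset.sum_pos (fun x hx => hpos x (by simpa [Nat.lt_succ_iff] using hx)) ⟨0, by simp⟩
  -- pointwise bound
  have key : ∀ x ≤ b, q x * (F x - F m) ^ 2 ≤ b * E := by
    intro x hx
    rcases le_total m x with h | h
    · obtain ⟨k, rfl⟩ : ∃ k, x = m + k := ⟨x - m, by omega⟩
      have hmono : ∀ j, j ≤ k → q (m + k) ≤ q (m + j) := by
        intro j hj
        obtain ⟨i, rfl⟩ : ∃ i, k = j + i := ⟨k - j, by omega⟩
        clear hj
        induction i with
        | zero => simp
        | succ i ih =>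
          have h1 := ih (by omega) (by omega)
          have h2 := hdec (m + (j + i)) (by omega) (by omega)
          have : m + (j + (i + 1)) = m + (j + i) + 1 := by omega
          rw [this]; linarith
      have h1 : q (m + k) * ∑ r ∈ range k, (F (m + r + 1) - F (m + r)) ^ 2 ≤ E := by
        rw [Finset.mul_sum]
        calc ∑ r ∈ range k, q (m + k) * (F (m + r + 1) - F (m + r)) ^ 2
            ≤ ∑ r ∈ range k, min (q (m + r)) (q (m + r + 1)) * (F (m + r + 1) - F (m + r)) ^ 2 := by
              apply Finset.sum_le_sum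
              intro r hr
              simp only [mem_range] at hr
              apply mul_le_mul_of_nonneg_right _ (sq_nonneg _)
              apply le_min
              · exact hmono r (by omega)
              · have := hmono (r + 1) (by omega)
                rwa [← add_assoc] at this
          _ = ∑ x ∈ (range k).image (fun r => m + r),
                min (q x) (q (x + 1)) * (F (x + 1) - F x) ^ 2 := by
              rw [Finset.sum_image]
              intro a _ b _ hab
              simpa using hab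
          _ ≤ E := by
              apply Finset.sum_le_sum_of_subset_of_nonneg
              · intro y hy
                simp only [mem_image, mem_range] at hy ⊢
                obtain ⟨r, hr, rfl⟩ := hy
                omega
              · intro y hy _
                exact hterm y hy
      have h2 := sq_diff_le F m k
      have p := hpos (m + k) hx
      have hk : (k : ℝ) ≤ b := by exact_mod_cast (by omega : k ≤ b)
      calc q (m + k) * (F (m + k) - F m) ^ 2
          ≤ q (m + k) * (k * ∑ r ∈ range k, (F (m + r + 1) - F (m + r)) ^ 2) :=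
            mul_le_mul_of_nonneg_left h2 p.le
        _ = k * (q (m + k) * ∑ r ∈ range k, (F (m + r + 1) - F (m + r)) ^ 2) := by ring
        _ ≤ k * E := mul_le_mul_of_nonneg_left h1 (Nat.cast_nonneg k)
        _ ≤ b * E := mul_le_mul_of_nonneg_right hk hE0
    · obtain ⟨k, rfl⟩ : ∃ k, m = x + k := ⟨m - x, by omega⟩
      have hmono : ∀ j, j ≤ k → q x ≤ q (x + j) := by
        intro j
        induction j with
        | zero => intro _; simp
        | succ j ih =>
          intro hj
          have h1 := ih (by omega)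
          have h2 := hinc (x + j) (by omega)
          rw [← add_assoc]; linarith
      have h1 : q x * ∑ r ∈ range k, (F (x + r + 1) - F (x + r)) ^ 2 ≤ E := by
        rw [Finset.mul_sum]
        calc ∑ r ∈ range k, q x * (F (x + r + 1) - F (x + r)) ^ 2
            ≤ ∑ r ∈ range k, min (q (x + r)) (q (x + r + 1)) * (F (x + r + 1) - F (x + r)) ^ 2 := by
              apply Finset.sum_le_sum
              intro r hr
              simp only [mem_range] at hr
              apply mul_le_mul_of_nonneg_right _ (sq_nonneg _)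
              apply le_min
              · exact hmono r (by omega)
              · have := hmono (r + 1) (by omega)
                rwa [← add_assoc] at this
          _ = ∑ y ∈ (range k).image (fun r => x + r),
                min (q y) (q (y + 1)) * (F (y + 1) - F y) ^ 2 := by
              rw [Finset.sum_image]
              intro a _ b _ hab
              simpa using hab
          _ ≤ E := by
              apply Finset.sum_le_sum_of_subset_of_nonneg
              · intro y hy
                simp only [mem_image, mem_range] at hy ⊢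
                obtain ⟨r, hr, rfl⟩ := hy
                omega
              · intro y hy _
                exact hterm y hy
      have h2 := sq_diff_le F x k
      have p := hpos x hx
      have hk : (k : ℝ) ≤ b := by exact_mod_cast (by omega : k ≤ b)
      have e1 : (F x - F (x + k)) ^ 2 = (F (x + k) - F x) ^ 2 := by ring
      rw [e1]
      calc q x * (F (x + k) - F x) ^ 2
          ≤ q x * (k * ∑ r ∈ range k, (F (x + r + 1) - F (x + r)) ^ 2) :=
            mul_le_mul_of_nonneg_left h2 p.le
        _ = k * (q x * ∑ r ∈ range k, (F (x + r + 1) - F (x + r)) ^ 2) := by ring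
        _ ≤ k * E := mul_le_mul_of_nonneg_left h1 (Nat.cast_nonneg k)
        _ ≤ b * E := mul_le_mul_of_nonneg_right hk hE0
  have hsum : ∑ x ∈ range (b + 1), q x * (F x - F m) ^ 2 ≤ ((b : ℝ) + 1) * (b * E) := by
    calc ∑ x ∈ range (b + 1), q x * (F x - F m) ^ 2
        ≤ ∑ _x ∈ range (b + 1), (b * E) :=
          Finset.sum_le_sum (fun x hx => key x (by simpa [Nat.lt_succ_iff] using hx))
      _ = ((b : ℝ) + 1) * (b * E) := by simp [Finset.sum_const, nsmul_eq_mul]
  have hvar : ∑ x ∈ range (b + 1), q x * F x ^ 2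
        - (∑ x ∈ range (b + 1), q x * F x) ^ 2 / ∑ x ∈ range (b + 1), q x
      ≤ ∑ x ∈ range (b + 1), q x * (F x - F m) ^ 2 := by
    have e : ∑ x ∈ range (b + 1), q x * (F x - F m) ^ 2
        = ∑ x ∈ range (b + 1), q x * F x ^ 2 - 2 * F m * ∑ x ∈ range (b + 1), q x * F x
          + F m ^ 2 * ∑ x ∈ range (b + 1), q x := by
      rw [Finset.mul_sum, Finset.mul_sum, ← Finset.sum_sub_distrib, ← Finset.sum_add_distrib]
      exact Finset.sum_congr rfl (fun x _ => by ring)
    rw [e]
    set S := ∑ x ∈ range (b + 1), q x with hS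
    set P := ∑ x ∈ range (b + 1), q x * F x with hP
    have : P ^ 2 / S - 2 * F m * P + F m ^ 2 * S = (P - F m * S) ^ 2 / S := by
      field_simp
      ring
    have h0 : 0 ≤ (P - F m * S) ^ 2 / S := by positivity
    linarith
  have hb : ((b : ℝ) + 1) * (b * E) ≤ ((b : ℝ) + 1) ^ 2 * E := by
    have : (0 : ℝ) ≤ b := Nat.cast_nonneg b
    nlinarith
  linarith

/-! ### calculus of `cs` -/

variable {V : Type*} [DecidableEq V]

theorem Cell.sh_add (e : Cell V) (y : ℕ) (β δ : V → ℤ) : e.sh y (β + δ) = e.sh y β + δ := by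
  unfold Cell.sh; module

theorem cs_shift (R : List (Cell V)) (β δ : V → ℤ) (H : (V → ℤ) → List ℕ → ℝ) :
    cs R (β + δ) H = cs R β (fun t Y => H (t + δ) Y) := by
  induction R generalizing β H with
  | nil => rfl
  | cons e R ih =>
    simp only [cs_cons, Cell.sh_add]
    exact Finset.sum_congr rfl (fun y _ => by rw [ih])

theorem cs_congr {R : List (Cell V)} {β : V → ℤ} {H H' : (V → ℤ) → List ℕ → ℝ}
    (h : ∀ t Y, H t Y = H' t Y) : cs R β H = cs R β H' := by
  have : H = H' := by funext t Y; exact h t Y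
  rw [this]

theorem cs_mono {R : List (Cell V)} (hR : ∀ e ∈ R, e.OK) {β : V → ℤ}
    {H H' : (V → ℤ) → List ℕ → ℝ} (h : ∀ t Y, H t Y ≤ H' t Y) : cs R β H ≤ cs R β H' := by
  induction R generalizing β H H' with
  | nil => exact h _ _
  | cons e R ih =>
    simp only [cs_cons]
    apply Finset.sum_le_sum
    intro y hy
    have hy' : y ≤ e.b := by simpa [Nat.lt_succ_iff] using hy
    have he := (hR e (by simp)).pos y hy'
    exact mul_le_mul_of_nonneg_left
      (ih (fun e he => hR e (by simp [he])) (fun t Y => h t (y :: Y))) he.le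

theorem cs_add (R : List (Cell V)) (β : V → ℤ) (H H' : (V → ℤ) → List ℕ → ℝ) :
    cs R β (fun t Y => H t Y + H' t Y) = cs R β H + cs R β H' := by
  induction R generalizing β H H' with
  | nil => rfl
  | cons e R ih =>
    simp only [cs_cons]
    rw [← Finset.sum_add_distrib]
    exact Finset.sum_congr rfl (fun y _ => by rw [ih]; ring)

theorem cs_smul (R : List (Cell V)) (β : V → ℤ) (c : ℝ) (H : (V → ℤ) → List ℕ → ℝ) :
    cs R β (fun t Y => c * H t Y) = c * cs R β H := by
  induction R generalizing β H with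
  | nil => rfl
  | cons e R ih =>
    simp only [cs_cons]
    rw [Finset.mul_sum]
    exact Finset.sum_congr rfl (fun y _ => by rw [ih]; ring)

theorem cs_nonneg {R : List (Cell V)} (hR : ∀ e ∈ R, e.OK) {β : V → ℤ}
    {H : (V → ℤ) → List ℕ → ℝ} (h : ∀ t Y, 0 ≤ H t Y) : 0 ≤ cs R β H := by
  have := cs_mono hR (β := β) (H := fun _ _ => 0) (H' := H) h
  have h0 : cs R β (fun _ _ => (0 : ℝ)) = 0 := by
    have := cs_smul R β 0 (fun _ _ => (0 : ℝ))
    simpa using this
  linarith

theorem Z_pos {G : (V → ℤ) → ℝ} (hG : ∀ t, 0 < G t) {R : List (Cell V)} (hR : ∀ e ∈ R, e.OK)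
    (β : V → ℤ) : 0 < Z G R β := by
  induction R generalizing β with
  | nil => exact hG β
  | cons e R ih =>
    rw [Z_cons]
    apply Finset.sum_pos
    · intro y hy
      have hy' : y ≤ e.b := by simpa [Nat.lt_succ_iff] using hy
      exact mul_pos ((hR e (by simp)).pos y hy') (ih (fun e he => hR e (by simp [he])) _)
    · exact ⟨0, by simp⟩

theorem Z_shift (G : (V → ℤ) → ℝ) (R : List (Cell V)) (β δ : V → ℤ) :
    Z G R (β + δ) = Z (fun t => G (t + δ)) R β := cs_shift R β δ _

theorem Ex_one (G : (V → ℤ) → ℝ) (R : List (Cell V)) (β : V → ℤ) :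
    Ex G R β (fun _ => 1) = Z G R β := cs_congr (fun t Y => by ring)

theorem Ex_cons (G : (V → ℤ) → ℝ) (e : Cell V) (R : List (Cell V)) (β : V → ℤ)
    (h : List ℕ → ℝ) :
    Ex G (e :: R) β h
      = ∑ y ∈ range (e.b + 1), e.wt y * Ex G R (e.sh y β) (fun Y => h (y :: Y)) := rfl

theorem Ex_add (G : (V → ℤ) → ℝ) (R : List (Cell V)) (β : V → ℤ) (h h' : List ℕ → ℝ) :
    Ex G R β (fun Y => h Y + h' Y) = Ex G R β h + Ex G R β h' := by
  unfold Ex
  rw [← cs_add]
  exact cs_congr (fun t Y => by ring)

theorem Ex_smul (G : (V → ℤ) → ℝ) (R : List (Cell V)) (β : V → ℤ) (c : ℝ) (h : List ℕ → ℝ) :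
    Ex G R β (fun Y => c * h Y) = c * Ex G R β h := by
  unfold Ex
  rw [← cs_smul]
  exact cs_congr (fun t Y => by ring)

theorem Ex_sub (G : (V → ℤ) → ℝ) (R : List (Cell V)) (β : V → ℤ) (h h' : List ℕ → ℝ) :
    Ex G R β (fun Y => h Y - h' Y) = Ex G R β h - Ex G R β h' := by
  have h1 := Ex_add G R β h (fun Y => (-1) * h' Y)
  rw [Ex_smul] at h1
  rw [sub_eq_add_neg, ← neg_one_mul, ← h1]
  congr 1; funext Y; ring

theorem Ex_nonneg {G : (V → ℤ) → ℝ} (hG : ∀ t, 0 < G t) {R : List (Cell V)}
    (hR : ∀ e ∈ R, e.OK) (β : V → ℤ) {h : List ℕ → ℝ} (hh : ∀ Y, 0 ≤ h Y) : 0 ≤ Ex G R β h :=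
  cs_nonneg hR (fun t Y => mul_nonneg (hG t).le (hh Y))

theorem Ex_sq_le {G : (V → ℤ) → ℝ} (hG : ∀ t, 0 < G t) {R : List (Cell V)}
    (hR : ∀ e ∈ R, e.OK) (β : V → ℤ) (h : List ℕ → ℝ) :
    Ex G R β h ^ 2 ≤ Z G R β * Ex G R β (fun Y => h Y ^ 2) := by
  -- discriminant argument
  have hz := Z_pos hG hR β
  set a := Ex G R β h with ha
  set z := Z G R β with hz'
  have h1 : 0 ≤ Ex G R β (fun Y => (z * h Y - a * 1) ^ 2) :=
    Ex_nonneg hG hR β (fun Y => sq_nonneg _)
  have h2 : Ex G R β (fun Y => (z * h Y - a * 1) ^ 2)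
      = z ^ 2 * Ex G R β (fun Y => h Y ^ 2) - 2 * z * a * a + a ^ 2 * z := by
    have e1 : (fun Y : List ℕ => (z * h Y - a * 1) ^ 2)
        = fun Y => (z ^ 2 * (h Y ^ 2) + (-(2 * z * a)) * h Y) + a ^ 2 * 1 := by
      funext Y; ring
    rw [e1, Ex_add, Ex_add, Ex_smul, Ex_smul, Ex_smul, Ex_one]
    ring
  rw [h2] at h1
  nlinarith

theorem Dir_nonneg {G : (V → ℤ) → ℝ} (hG : ∀ t, 0 < G t) {R : List (Cell V)}
    (hR : ∀ e ∈ R, e.OK) (β : V → ℤ) (h : List ℕ → ℝ) : 0 ≤ Dir G R β h := by
  induction R generalizing β h with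
  | nil => simp [Dir]
  | cons e R ih =>
    have hR' : ∀ e ∈ R, e.OK := fun e he => hR e (by simp [he])
    have he := hR e (by simp)
    simp only [Dir]
    apply add_nonneg
    · apply Finset.sum_nonneg
      intro y hy
      simp only [mem_range] at hy
      apply cs_nonneg hR'
      intro t Y
      have := mul_pos (he.pos y (by omega)) (hG t)
      have := mul_pos (he.pos (y + 1) (by omega)) (hG (t - ev e.u + ev e.w))
      positivity
    · apply Finset.sum_nonneg
      intro y hy
      have hy' : y ≤ e.b := by simpa [Nat.lt_succ_iff] using hy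
      exact mul_nonneg (he.pos y hy').le (ih hR' _ _)

/-! ### log-concavity of the one-cell marginals from the Lorentz property -/

section lor
variable [Fintype V]

theorem Q_expand (A : V → V → ℝ) (u w : V) (t : ℝ) :
    Q A (fun a => (if a = u then 1 else 0) + (if a = w then t else 0))
      (fun a => (if a = u then 1 else 0) + (if a = w then t else 0))
      = A u u + t * A u w + t * A w u + t ^ 2 * A w w := by
  unfold Q
  simp only [add_mul, mul_add, Finset.sum_add_distrib, ite_mul, mul_ite, zero_mul, mul_zero,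
    one_mul, mul_one, Finset.sum_ite_eq', Finset.mem_univ, if_true, Finset.sum_ite_irrel,
    Finset.sum_const_zero]
  ring

theorem Q_expand' (A : V → V → ℝ) (u w : V) (t : ℝ) :
    Q A (fun a => (if a = u then 1 else 0) + (if a = w then t else 0))
      (fun a => if a = w then 1 else 0) = A u w + t * A w w := by
  unfold Q
  simp only [add_mul, mul_add, Finset.sum_add_distrib, ite_mul, mul_ite, zero_mul, mul_zero,
    one_mul, mul_one, Finset.sum_ite_eq', Finset.mem_univ, if_true, Finset.sum_ite_irrel,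
    Finset.sum_const_zero]

theorem Lor.two {A : V → V → ℝ} (hA : Lor A) (hsym : ∀ a b, A a b = A b a) {u w : V}
    (hw : 0 < A w w) : A u u * A w w ≤ A u w ^ 2 := by
  have h := hA (fun a => (if a = u then 1 else 0) + (if a = w then (-(A u w / A w w)) else 0))
    (fun a => if a = w then 1 else 0) (fun a => by positivity)
    ⟨w, by simp⟩ (by rw [Q_expand']; field_simp; ring)
  rw [Q_expand, hsym w u] at h
  have h2 : A u u + -(A u w / A w w) * A u w + -(A u w / A w w) * A u w
      + (-(A u w / A w w)) ^ 2 * A w w = A u u - A u w ^ 2 / A w w := by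
    field_simp
    ring
  rw [h2] at h
  rw [sub_nonpos, le_div_iff₀ hw] at h
  exact h

theorem Z_marg_lc {G : (V → ℤ) → ℝ} (hG : ∀ t, 0 < G t) (hL : LorentzFor G) (e : Cell V)
    {R : List (Cell V)} (hR : ∀ e ∈ R, e.OK) (β : V → ℤ) (y : ℕ) :
    Z G R (e.sh y β) * Z G R (e.sh (y + 2) β) ≤ Z G R (e.sh (y + 1) β) ^ 2 := by
  -- base point
  set γ : V → ℤ := e.sh y β + ev e.w + ev e.w with hγ
  have h := Lor.two (hL R hR γ) (u := e.u) (w := e.w)
    (fun a b => by unfold frm; congr 1; abel) (Z_pos hG hR _)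
  have e0 : γ - ev e.w - ev e.w = e.sh y β := by rw [hγ]; abel
  have e1 : γ - ev e.u - ev e.w = e.sh (y + 1) β := by rw [hγ, sh_succ]; abel
  have e2 : γ - ev e.u - ev e.u = e.sh (y + 2) β := by
    rw [show y + 2 = (y + 1) + 1 from rfl, hγ, sh_succ, sh_succ]; abel
  unfold frm at h
  rw [e0, e1, e2] at h
  linarith [mul_comm (Z G R (e.sh y β)) (Z G R (e.sh (y + 2) β))]

end lor

/-! ### the martingale induction -/

/-- the transport hypothesis (helper808's theorem): moving one unit of demand from `a` to `c`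
changes expectations of `h` by at most the Dirichlet form of `h`. -/
def TransFor (G : (V → ℤ) → ℝ) (OKc : Cell V → Prop) (M : ℕ) (K : ℝ) : Prop :=
  ∀ (R : List (Cell V)), (∀ e ∈ R, OKc e) → R.length ≤ M → ∀ (β : V → ℤ) (a c : V)
    (h : List ℕ → ℝ),
    (Ex G R (β - ev a + ev c) h / Z G R (β - ev a + ev c) - Ex G R β h / Z G R β) ^ 2
      ≤ K * (Dir G R β h / Z G R β)

theorem Z_ratio {G : (V → ℤ) → ℝ} {κ : ℝ}
    (hκ : ∀ t a c, κ * G t ≤ G (t - ev a + ev c)) {R : List (Cell V)} (hR : ∀ e ∈ R, e.OK)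
    (β : V → ℤ) (a c : V) : κ * Z G R β ≤ Z G R (β - ev a + ev c) := by
  have e : β - ev a + ev c = β + (- ev a + ev c) := by abel
  rw [e, Z_shift]
  unfold Z
  rw [← cs_smul]
  apply cs_mono hR
  intro t Y
  have := hκ t a c
  have e' : t - ev a + ev c = t + (- ev a + ev c) := by abel
  rwa [e'] at this

set_option maxHeartbeats 1600000 in
/-- **Unary gap theorem**, reduced to the Lorentz property and the transport bound. -/
theorem unary_gap_of [Fintype V] {G : (V → ℤ) → ℝ} (hG : ∀ t, 0 < G t) (hL : LorentzFor G)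
    {κ : ℝ} (hκ0 : 0 < κ) (hκ : ∀ t a c, κ * G t ≤ G (t - ev a + ev c))
    {B M : ℕ} {K : ℝ} (hK : 0 ≤ K)
    (hT : TransFor G (fun e => e.OK ∧ e.b ≤ B) M K) :
    ∀ (R : List (Cell V)), (∀ e ∈ R, e.OK ∧ e.b ≤ B) → R.length ≤ M + 1 →
      ∀ (β : V → ℤ) (f : List ℕ → ℝ),
      Ex G R β (fun Y => f Y ^ 2) - Ex G R β f ^ 2 / Z G R β
        ≤ (2 * ((B : ℝ) + 1) ^ 2 * (κ⁻¹) ^ 2 + R.length * (2 * ((B : ℝ) + 1) ^ 2 * K))
          * Dir G R β f := by
  intro R
  induction R with
  | nil =>
    intro _ _ β f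
    have hz := hG β
    simp only [Ex, cs_nil, Z_nil, Dir, mul_zero]
    have : (G β * f []) ^ 2 / G β = G β * f [] ^ 2 := by
      field_simp
    rw [this]; simp
  | cons e R ih =>
    intro hR hlen β f
    have hR' : ∀ e ∈ R, e.OK ∧ e.b ≤ B := fun e he => hR e (by simp [he])
    have hRok : ∀ e ∈ R, e.OK := fun e he => (hR' e he).1
    obtain ⟨he, heB⟩ := hR e (by simp)
    have hlen' : R.length ≤ M := by simpa using hlen
    -- notation
    set z : ℕ → ℝ := fun y => Z G R (e.sh y β) with hz
    set fy : ℕ → List ℕ → ℝ := fun y Y => f (y :: Y) with hfy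
    set a : ℕ → ℝ := fun y => Ex G R (e.sh y β) (fy y) with ha
    set s : ℕ → ℝ := fun y => Ex G R (e.sh y β) (fun Y => fy y Y ^ 2) with hs
    set D : ℕ → ℝ := fun y => Dir G R (e.sh y β) (fy y) with hD
    set D1 : ℕ → ℝ := fun y => cs R (e.sh y β) (fun t Y =>
        min (e.wt y * G t) (e.wt (y + 1) * G (t - ev e.u + ev e.w))
          * (f ((y + 1) :: Y) - f (y :: Y)) ^ 2) with hD1
    have zpos : ∀ y, 0 < z y := fun y => Z_pos hG hRok _
    have wpos : ∀ y ≤ e.b, 0 < e.wt y := he.pos
    have Dnn : ∀ y, 0 ≤ D y := fun y => Dir_nonneg hG hRok _ _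
    have D1nn : ∀ y < e.b, 0 ≤ D1 y := by
      intro y hy
      apply cs_nonneg hRok
      intro t Y
      have := mul_pos (wpos y (by omega)) (hG t)
      have := mul_pos (wpos (y + 1) (by omega)) (hG (t - ev e.u + ev e.w))
      positivity
    set q : ℕ → ℝ := fun y => e.wt y * z y with hq
    set F : ℕ → ℝ := fun y => a y / z y with hF
    have qpos : ∀ y ≤ e.b, 0 < q y := fun y hy => mul_pos (wpos y hy) (zpos y)
    have qlc : ∀ y, y + 2 ≤ e.b → q y * q (y + 2) ≤ q (y + 1) ^ 2 := by
      intro y hy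
      have h1 := he.lc y hy
      have h2 := Z_marg_lc hG hL e hRok β y
      have p0 := wpos y (by omega)
      have p2 := wpos (y + 2) (by omega)
      calc q y * q (y + 2) = (e.wt y * e.wt (y + 2)) * (z y * z (y + 2)) := by simp only [hq]; ring
        _ ≤ (e.wt (y + 1) ^ 2) * (z (y + 1) ^ 2) := by
            apply mul_le_mul h1 h2 (by have := zpos y; have := zpos (y + 2); positivity)
              (by positivity)
        _ = q (y + 1) ^ 2 := by simp only [hq]; ring
    have hp := poinc1 qpos qlc F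
    -- first difference bound
    have hdiff : ∀ y < e.b, min (q y) (q (y + 1)) * (F (y + 1) - F y) ^ 2
        ≤ 2 * ((κ⁻¹) ^ 2 * D1 y) + 2 * (K * (e.wt y * D y)) := by
      intro y hy
      have hβ1 : e.sh (y + 1) β = e.sh y β - ev e.u + ev e.w := sh_succ e y β
      -- transport part
      have ht := hT R hR' hlen' (e.sh y β) e.u e.w (fy y)
      rw [← hβ1] at ht
      -- direct part
      set d : ℝ := Ex G R (e.sh (y + 1) β) (fun Y => fy (y + 1) Y - fy y Y) with hd
      have hd2 : d ^ 2 ≤ z (y + 1) * Ex G R (e.sh (y + 1) β)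
          (fun Y => (fy (y + 1) Y - fy y Y) ^ 2) := Ex_sq_le hG hRok _ _
      have hsplit : F (y + 1) - F y = d / z (y + 1)
          + (Ex G R (e.sh (y + 1) β) (fy y) / z (y + 1) - a y / z y) := by
        have : d = a (y + 1) - Ex G R (e.sh (y + 1) β) (fy y) := by
          simp only [hd, ha]; rw [Ex_sub]
        rw [this, hF]; ring
      set T : ℝ := Ex G R (e.sh (y + 1) β) (fy y) / z (y + 1) - a y / z y with hTT
      have hsq : (F (y + 1) - F y) ^ 2 ≤ 2 * (d / z (y + 1)) ^ 2 + 2 * T ^ 2 := by
        rw [hsplit]; nlinarith [sq_nonneg (d / z (y + 1) - T)]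
      have q0 := qpos y (by omega)
      have q1 := qpos (y + 1) (by omega)
      have mnn : 0 ≤ min (q y) (q (y + 1)) := le_min q0.le q1.le
      -- transport contribution
      have c2 : min (q y) (q (y + 1)) * T ^ 2 ≤ K * (e.wt y * D y) := by
        calc min (q y) (q (y + 1)) * T ^ 2 ≤ q y * (K * (D y / z y)) := by
              apply mul_le_mul (min_le_left _ _) ht (sq_nonneg _) q0.le
          _ = K * (e.wt y * D y) := by
              have := (zpos y).ne'
              simp only [hq]; field_simp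
      -- direct contribution
      have c1 : min (q y) (q (y + 1)) * (d / z (y + 1)) ^ 2 ≤ (κ⁻¹) ^ 2 * D1 y := by
        have z0 := zpos y
        have z1 := zpos (y + 1)
        have hr : κ * z y ≤ z (y + 1) := by
          simp only [hz]; rw [hβ1]; exact Z_ratio hκ hRok _ _ _
        have hE1 : Ex G R (e.sh (y + 1) β) (fun Y => (fy (y + 1) Y - fy y Y) ^ 2)
            = cs R (e.sh y β) (fun t Y => G (t - ev e.u + ev e.w)
              * (f ((y + 1) :: Y) - f (y :: Y)) ^ 2) := by
          unfold Ex
          rw [hβ1, show e.sh y β - ev e.u + ev e.w = e.sh y β + (- ev e.u + ev e.w) by abel,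
            cs_shift]
          apply cs_congr
          intro t Y
          rw [show t + (- ev e.u + ev e.w) = t - ev e.u + ev e.w by abel]
        have h1 : (d / z (y + 1)) ^ 2 ≤ Ex G R (e.sh (y + 1) β)
            (fun Y => (fy (y + 1) Y - fy y Y) ^ 2) / z (y + 1) := by
          rw [div_pow, div_le_div_iff₀ (by positivity) z1]
          nlinarith
        have h2 : min (q y) (q (y + 1)) * (Ex G R (e.sh (y + 1) β)
            (fun Y => (fy (y + 1) Y - fy y Y) ^ 2) / z (y + 1)) ≤ (κ⁻¹) ^ 2 * D1 y := by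
          rw [hE1, ← mul_div_assoc, mul_div_right_comm]
          simp only [hD1]
          rw [← cs_smul, ← cs_smul]
          apply cs_mono hRok
          intro t Y
          rw [← mul_assoc, ← mul_assoc]
          apply mul_le_mul_of_nonneg_right _ (sq_nonneg _)
          set g0 := G t with hg0
          set g1 := G (t - ev e.u + ev e.w) with hg1
          have pg0 : 0 < g0 := hG _
          have pg1 : 0 < g1 := hG _
          have hgr : κ * g1 ≤ g0 := by
            have := hκ (t - ev e.u + ev e.w) e.w e.u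
            rwa [show t - ev e.u + ev e.w - ev e.w + ev e.u = t by abel] at this
          have w0 := wpos y (by omega)
          have w1 := wpos (y + 1) (by omega)
          have hκ1 : κ ≤ 1 := by
            have h1 := hκ t e.u e.u
            rw [show t - ev e.u + ev e.u = t by abel] at h1
            have := hG t
            by_contra hcon
            push Not at hcon
            nlinarith
          have hki : 0 < κ⁻¹ := inv_pos.mpr hκ0
          have hki1 : 1 ≤ κ⁻¹ := (one_le_inv₀ hκ0).mpr hκ1
          rw [mul_min_of_nonneg _ _ (by positivity)]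
          apply le_min
          · calc min (q y) (q (y + 1)) / z (y + 1) * g1 ≤ q y / z (y + 1) * g1 := by
                  gcongr; exact min_le_left _ _
              _ = e.wt y * (z y / z (y + 1)) * g1 := by simp only [hq]; ring
              _ ≤ e.wt y * κ⁻¹ * (κ⁻¹ * g0) := by
                  have a1 : z y / z (y + 1) ≤ κ⁻¹ := by
                    rw [div_le_iff₀ z1, inv_mul_eq_div, le_div_iff₀ hκ0]; linarith
                  have a2 : g1 ≤ κ⁻¹ * g0 := by
                    rw [inv_mul_eq_div, le_div_iff₀ hκ0]; linarith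
                  have a3 : 0 ≤ z y / z (y + 1) := by positivity
                  gcongr
              _ = κ⁻¹ ^ 2 * (e.wt y * g0) := by ring
          · calc min (q y) (q (y + 1)) / z (y + 1) * g1 ≤ q (y + 1) / z (y + 1) * g1 := by
                  gcongr; exact min_le_right _ _
              _ = e.wt (y + 1) * g1 := by
                  have := z1.ne'
                  simp only [hq]; field_simp
              _ ≤ κ⁻¹ ^ 2 * (e.wt (y + 1) * g1) := by
                  have : 1 ≤ κ⁻¹ ^ 2 := one_le_pow₀ hki1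
                  have p : 0 < e.wt (y + 1) * g1 := by positivity
                  nlinarith
        calc min (q y) (q (y + 1)) * (d / z (y + 1)) ^ 2
            ≤ min (q y) (q (y + 1)) * (Ex G R (e.sh (y + 1) β)
              (fun Y => (fy (y + 1) Y - fy y Y) ^ 2) / z (y + 1)) :=
              mul_le_mul_of_nonneg_left h1 mnn
          _ ≤ _ := h2
      calc min (q y) (q (y + 1)) * (F (y + 1) - F y) ^ 2
          ≤ min (q y) (q (y + 1)) * (2 * (d / z (y + 1)) ^ 2 + 2 * T ^ 2) :=
            mul_le_mul_of_nonneg_left hsq mnn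
        _ = 2 * (min (q y) (q (y + 1)) * (d / z (y + 1)) ^ 2)
            + 2 * (min (q y) (q (y + 1)) * T ^ 2) := by ring
        _ ≤ _ := by linarith
    -- assemble
    have hZ : Z G (e :: R) β = ∑ y ∈ range (e.b + 1), q y := rfl
    have hEx : Ex G (e :: R) β f = ∑ y ∈ range (e.b + 1), q y * F y := by
      rw [Ex_cons]
      apply Finset.sum_congr rfl
      intro y _
      have := (zpos y).ne'
      have h1 : q y * F y = e.wt y * a y := by simp only [hq, hF]; field_simp
      rw [h1]
    have hEx2 : Ex G (e :: R) β (fun Y => f Y ^ 2) = ∑ y ∈ range (e.b + 1), e.wt y * s y := rfl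
    have hDir : Dir G (e :: R) β f
        = (∑ y ∈ range e.b, D1 y) + ∑ y ∈ range (e.b + 1), e.wt y * D y := rfl
    have hcond : ∀ y ≤ e.b, e.wt y * s y - q y * F y ^ 2
        ≤ (2 * ((B : ℝ) + 1) ^ 2 * (κ⁻¹) ^ 2 + R.length * (2 * ((B : ℝ) + 1) ^ 2 * K))
          * (e.wt y * D y) := by
      intro y hy
      have h := ih hR' (by omega) (e.sh y β) (fy y)
      have w0 := wpos y hy
      have e1 : q y * F y ^ 2 = e.wt y * (a y ^ 2 / z y) := by
        have := (zpos y).ne'
        simp only [hq, hF]; field_simp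
      rw [e1, ← mul_sub]
      calc e.wt y * (s y - a y ^ 2 / z y)
          ≤ e.wt y * ((2 * ((B : ℝ) + 1) ^ 2 * (κ⁻¹) ^ 2
            + R.length * (2 * ((B : ℝ) + 1) ^ 2 * K)) * D y) :=
            mul_le_mul_of_nonneg_left h w0.le
        _ = _ := by ring
    have hB : ((e.b : ℝ) + 1) ^ 2 ≤ ((B : ℝ) + 1) ^ 2 := by
      have : (e.b : ℝ) ≤ B := by exact_mod_cast heB
      have : (0 : ℝ) ≤ e.b := Nat.cast_nonneg _
      gcongr
    have hsumD : ∑ y ∈ range e.b, e.wt y * D y ≤ ∑ y ∈ range (e.b + 1), e.wt y * D y := by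
      rw [Finset.sum_range_succ]
      have := mul_nonneg (wpos e.b le_rfl).le (Dnn e.b)
      linarith
    have hSD1 : 0 ≤ ∑ y ∈ range e.b, D1 y :=
      Finset.sum_nonneg (fun y hy => D1nn y (by simpa using hy))
    have hSD : 0 ≤ ∑ y ∈ range (e.b + 1), e.wt y * D y :=
      Finset.sum_nonneg (fun y hy => mul_nonneg
        (wpos y (by simpa [Nat.lt_succ_iff] using hy)).le (Dnn y))
    have hp2 : ∑ y ∈ range e.b, min (q y) (q (y + 1)) * (F (y + 1) - F y) ^ 2
        ≤ 2 * ((κ⁻¹) ^ 2 * ∑ y ∈ range e.b, D1 y)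
          + 2 * (K * ∑ y ∈ range (e.b + 1), e.wt y * D y) := by
      calc ∑ y ∈ range e.b, min (q y) (q (y + 1)) * (F (y + 1) - F y) ^ 2
          ≤ ∑ y ∈ range e.b, (2 * ((κ⁻¹) ^ 2 * D1 y) + 2 * (K * (e.wt y * D y))) :=
            Finset.sum_le_sum (fun y hy => hdiff y (by simpa using hy))
        _ = 2 * ((κ⁻¹) ^ 2 * ∑ y ∈ range e.b, D1 y)
            + 2 * (K * ∑ y ∈ range e.b, e.wt y * D y) := by
            rw [Finset.sum_add_distrib, ← Finset.mul_sum, ← Finset.mul_sum, ← Finset.mul_sum,
              ← Finset.mul_sum]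
        _ ≤ _ := by
            have := mul_le_mul_of_nonneg_left hsumD hK
            linarith
    have hp2nn : 0 ≤ ∑ y ∈ range e.b, min (q y) (q (y + 1)) * (F (y + 1) - F y) ^ 2 := by
      apply Finset.sum_nonneg
      intro y hy
      simp only [mem_range] at hy
      have := qpos y (by omega)
      have := qpos (y + 1) (by omega)
      positivity
    have hp3 : ∑ y ∈ range (e.b + 1), q y * F y ^ 2
          - (∑ y ∈ range (e.b + 1), q y * F y) ^ 2 / ∑ y ∈ range (e.b + 1), q y
        ≤ ((B : ℝ) + 1) ^ 2 * (2 * ((κ⁻¹) ^ 2 * ∑ y ∈ range e.b, D1 y)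
          + 2 * (K * ∑ y ∈ range (e.b + 1), e.wt y * D y)) := by
      calc _ ≤ ((e.b : ℝ) + 1) ^ 2 * ∑ y ∈ range e.b,
              min (q y) (q (y + 1)) * (F (y + 1) - F y) ^ 2 := hp
        _ ≤ ((B : ℝ) + 1) ^ 2 * ∑ y ∈ range e.b,
              min (q y) (q (y + 1)) * (F (y + 1) - F y) ^ 2 :=
            mul_le_mul_of_nonneg_right hB hp2nn
        _ ≤ _ := mul_le_mul_of_nonneg_left hp2 (by positivity)
    have hc : ∑ y ∈ range (e.b + 1), e.wt y * s y - ∑ y ∈ range (e.b + 1), q y * F y ^ 2
        ≤ (2 * ((B : ℝ) + 1) ^ 2 * (κ⁻¹) ^ 2 + R.length * (2 * ((B : ℝ) + 1) ^ 2 * K))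
          * ∑ y ∈ range (e.b + 1), e.wt y * D y := by
      rw [← Finset.sum_sub_distrib, Finset.mul_sum]
      exact Finset.sum_le_sum (fun y hy => hcond y (by simpa [Nat.lt_succ_iff] using hy))
    rw [hEx2, hEx, hZ, hDir]
    have hlenc : (((e :: R).length : ℕ) : ℝ) = R.length + 1 := by simp
    rw [hlenc]
    set X := ∑ y ∈ range e.b, D1 y with hX
    set W := ∑ y ∈ range (e.b + 1), e.wt y * D y with hW
    have hlX : 0 ≤ ((R.length : ℝ) + 1) * (2 * ((B : ℝ) + 1) ^ 2 * K) * X := by positivity
    nlinarith [hc, hp3, hlX]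

end Crest.Agent.R309.UGMart
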