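import Crest.Agent.R309.USDefs

/-!
# R309: the inner step of the unary sampler: invariance, symmetry, lower bound (helper305)
-/

set_option autoImplicit false

namespace Crest.Agent.R309.US

open Finset Tape Lib.PT.Arith

/-! ### the box is preserved on every tape -/

theorem mv_mem_box {R : List UCell} {y z : List ℕ} {i : ℕ} (hy : y ∈ box R) (h : mv R y i = some z) :
    z ∈ box R := by
  rw [mem_box_iff] at hy ⊢
  obtain ⟨h1, h2⟩ := hy
  unfold mv at h
  split_ifs at h with h3 h4 h5 h5
  · obtain rfl := Option.some.inj h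
    refine ⟨by simpa using h1, fun j hj => ?_⟩
    by_cases e : i / 2 = j
    · subst e
      rw [List.getD_eq_getElem?_getD, List.getElem?_set_self (by omega)]
      simpa using h5
    · rw [List.getD_eq_getElem?_getD, List.getElem?_set_ne e, ← List.getD_eq_getElem?_getD]
      exact h2 j hj
  · obtain rfl := Option.some.inj h
    refine ⟨by simpa using h1, fun j hj => ?_⟩
    by_cases e : i / 2 = j
    · subst e
      rw [List.getD_eq_getElem?_getD, List.getElem?_set_self (by omega)]
      have := h2 (i / 2) hj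
      simp only [Option.getD_some]
      omega
    · rw [List.getD_eq_getElem?_getD, List.getElem?_set_ne e, ← List.getD_eq_getElem?_getD]
      exact h2 j hj

theorem step_mem_box {I : Inst} {q t p m : ℕ} {k : List ℤ} {y : List ℕ} {l : List Bool}
    (hy : y ∈ box I.1) : step I q t p m k y l ∈ box I.1 := by
  unfold step MC.mstep
  cases h : mv I.1 y (msb (l.take q)) with
  | none => exact hy
  | some z =>
    simp only
    split_ifs
    · exact mv_mem_box hy h
    · exact hy

theorem runSteps_mem {S : Type*} {f : S → List Bool → S} {r : ℕ} {P : S → Prop}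
    (h : ∀ s l, P s → P (f s l)) (N : ℕ) : ∀ (s : S) (l : List Bool), P s → P (runSteps f r N s l) := by
  induction N with
  | zero => intro s l hs; exact hs
  | succ N ih => intro s l hs; exact ih _ _ (h _ _ hs)

theorem soft_mem_box {I : Inst} {q t p m N : ℕ} {k : List ℤ} {y : List ℕ} {l : List Bool}
    (hy : y ∈ box I.1) : soft I q t p m N k y l ∈ box I.1 :=
  runSteps_mem (P := fun y => y ∈ box I.1) (fun _ _ h => step_mem_box h) N y l hy

/-! ### tables, weights -/

/-- the configurations without defect -/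
def sols (I : Inst) : Finset (List ℕ) := (box I.1).filter (fun y => norm1 (tau I y) = 0)

theorem mem_sols {I : Inst} {y : List ℕ} : y ∈ sols I ↔ y ∈ box I.1 ∧ norm1 (tau I y) = 0 := by
  simp [sols]

theorem inner_mem_sols {I : Inst} {q t p m N lT : ℕ} {X : List ℕ} {l : List Bool} (hX : X ∈ sols I) :
    inner I q t p m N lT X l ∈ sols I := by
  unfold inner
  simp only
  split_ifs with h
  · exact mem_sols.2 ⟨soft_mem_box (mem_sols.1 hX).1, h⟩
  · exact hX

/-- the base of the field weights, `1 / (1 - 2^(-p))` -/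
noncomputable def Bp (p : ℕ) : ℝ := (1 - (1 / 2 : ℝ) ^ p)⁻¹

/-- weight of a configuration -/
noncomputable def wt (I : Inst) (t p : ℕ) (k : List ℤ) (y : List ℕ) : ℝ :=
  (1 / 2 : ℝ) ^ (t * norm1 (tau I y)) * Bp p ^ dot k (tau I y)

theorem norm1_eq_zero {t : List ℤ} : norm1 t = 0 ↔ ∀ a ∈ t, a = 0 := by
  unfold norm1
  rw [List.sum_eq_zero_iff]
  simp

theorem dot_zero_right {k t : List ℤ} (h : ∀ a ∈ t, a = 0) : dot k t = 0 := by
  unfold dot
  induction k generalizing t with
  | nil => simp
  | cons a k ih =>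
    cases t with
    | nil => simp
    | cons b t =>
      simp only [List.zipWith_cons_cons, List.sum_cons]
      rw [ih (fun c hc => h c (List.mem_cons_of_mem _ hc)), h b List.mem_cons_self]
      simp

theorem wt_of_sol {I : Inst} {t p : ℕ} {k : List ℤ} {y : List ℕ} (h : norm1 (tau I y) = 0) :
    wt I t p k y = 1 := by
  unfold wt
  rw [h, dot_zero_right (norm1_eq_zero.1 h)]
  simp

/-- total mass -/
noncomputable def Zk (I : Inst) (t p : ℕ) (k : List ℤ) : ℝ := ∑ y ∈ box I.1, wt I t p k y

/-- transition probability of `N` soft steps -/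
noncomputable def PN (I : Inst) (q t p m N : ℕ) (k : List ℤ) (X Y : List ℕ) : ℝ :=
  pr (N * (q + m)) (fun l => soft I q t p m N k X l = Y)

/-! ### the gauge process -/

/-- one gradient update -/
def upd (I : Inst) (q t p m N : ℕ) (k : List ℤ) (tape : List Bool) : List ℤ :=
  List.zipWith (fun a b => a - b) k
    (tau I (soft I q t p m N k (List.replicate I.1.length 0) tape))

theorem markov_sgdRound (I : Inst) (q t p m N T : ℕ) (φ : List ℤ → ℝ) :
    ∀ (s : ℕ) (k : List ℤ), s ≤ T →
      (markov (sgdRound I q t p m N) (N * (q + m)))^[T] (fun st => φ st.1) (k, s) =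
        (markov (upd I q t p m N) (N * (q + m)))^[s] φ k := by
  induction T with
  | zero => intro s k hs; obtain rfl : s = 0 := by omega
            rfl
  | succ T ih =>
    intro s k hs
    rw [Function.iterate_succ_apply']
    unfold markov
    cases s with
    | zero =>
      have : ∀ l : List Bool, sgdRound I q t p m N (k, 0) l = (k, 0) := fun l => by simp [sgdRound]
      simp_rw [this]
      rw [avg_const]
      exact ih 0 k (by omega)
    | succ s =>
      have : ∀ l : List Bool, sgdRound I q t p m N (k, s + 1) l = (upd I q t p m N k l, s) :=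
        fun l => by simp [sgdRound, upd]
      simp_rw [this]
      rw [Function.iterate_succ_apply']
      change avg (N * (q + m)) (fun l => (markov (sgdRound I q t p m N) (N * (q + m)))^[T]
        (fun st => φ st.1) (upd I q t p m N k l, s)) =
        avg (N * (q + m)) (fun l => (markov (upd I q t p m N) (N * (q + m)))^[s] φ
          (upd I q t p m N k l))
      exact avg_congr fun l _ => ih s _ (by omega)

theorem avg_gauge (I : Inst) (q t p m N T s : ℕ) (hs : s ≤ T) (φ : List ℤ → ℝ) :
    avg (T * (N * (q + m))) (fun l => φ (gauge I q t p m N T s l)) =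
      (markov (upd I q t p m N) (N * (q + m)))^[s] φ (List.replicate I.2.length 0) := by
  unfold gauge
  rw [avg_runSteps (sgdRound I q t p m N) (N * (q + m)) T (fun st => φ st.1)]
  exact markov_sgdRound I q t p m N T φ s _ hs

/-- the reachable gauges: length `n`, entries at most `A` in absolute value -/
def GB (n : ℕ) (A : ℕ) (k : List ℤ) : Prop := k.length = n ∧ ∀ a ∈ k, a.natAbs ≤ A

theorem GB.mono {n A A' : ℕ} {k : List ℤ} (h : GB n A k) (hA : A ≤ A') : GB n A' k :=
  ⟨h.1, fun a ha => (h.2 a ha).trans hA⟩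

theorem GB_zero (n : ℕ) : GB n 0 (List.replicate n 0) := by
  refine ⟨by simp, fun a ha => ?_⟩
  rw [List.eq_of_mem_replicate ha]; simp

theorem length_tau (I : Inst) (y : List ℕ) : (tau I y).length = I.2.length := by simp [tau]

theorem GB_upd {I : Inst} {q t p m N : ℕ} {D A : ℕ} (hD : ∀ y ∈ box I.1, ∀ a ∈ tau I y, a.natAbs ≤ D)
    {k : List ℤ} (hk : GB I.2.length A k) (l : List Bool) :
    GB I.2.length (A + D) (upd I q t p m N k l) := by
  unfold upd
  set y := soft I q t p m N k (List.replicate I.1.length 0) l with hy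
  have hyb : y ∈ box I.1 := soft_mem_box (zero_mem_box _)
  refine ⟨by simp [length_tau, hk.1], fun a ha => ?_⟩
  obtain ⟨i, hi, rfl⟩ := List.mem_iff_getElem.1 ha
  rw [List.getElem_zipWith]
  have h1 := hk.2 _ (List.getElem_mem (l := k) (n := i) (by
    simp only [List.length_zipWith] at hi; omega))
  have h2 := hD y hyb _ (List.getElem_mem (l := tau I y) (n := i) (by
    simp only [List.length_zipWith] at hi; omega))
  exact (Int.natAbs_sub_le _ _).trans (Nat.add_le_add h1 h2)

theorem GB_gauge {I : Inst} {q t p m N : ℕ} {D : ℕ}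
    (hD : ∀ y ∈ box I.1, ∀ a ∈ tau I y, a.natAbs ≤ D) (T s : ℕ) (l : List Bool) :
    GB I.2.length (T * D) (gauge I q t p m N T s l) := by
  have key : ∀ (T : ℕ) (st : List ℤ × ℕ) (A : ℕ) (l : List Bool), GB I.2.length A st.1 →
      GB I.2.length (A + T * D)
        (runSteps (sgdRound I q t p m N) (N * (q + m)) T st l).1 := by
    intro T
    induction T with
    | zero => intro st A l h; simpa [runSteps] using h
    | succ T ih =>
      intro st A l h
      have h1 : GB I.2.length (A + D) (sgdRound I q t p m N st (l.take (N * (q + m)))).1 := by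
        unfold sgdRound
        split_ifs with h0
        · exact h.mono (by omega)
        · exact GB_upd hD h _
      have := ih _ (A + D) (l.drop (N * (q + m))) h1
      refine this.mono (le_of_eq (by ring))
  have := key T (List.replicate I.2.length 0, s) 0 l (GB_zero _)
  simpa [gauge] using this

/-! ### the kernel of the inner step -/

theorem inner_eq_iff {I : Inst} {q t p m N lT : ℕ} {X Y : List ℕ} (hY : Y ∈ sols I) (hXY : X ≠ Y)
    (l : List Bool) :
    inner I q t p m N lT X l = Y ↔
      soft I q t p m N (gauge I q t p m N (2 ^ lT) (msb (l.take lT))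
        ((l.drop lT).take (2 ^ lT * (N * (q + m))))) X
        ((l.drop lT).drop (2 ^ lT * (N * (q + m)))) = Y := by
  unfold inner
  simp only
  split_ifs with h
  · exact Iff.rfl
  · constructor
    · intro h'; exact absurd h' hXY
    · intro h'
      rw [h'] at h
      exact absurd (mem_sols.1 hY).2 h

theorem pr_inner (I : Inst) (q t p m N lT : ℕ) {X Y : List ℕ} (hY : Y ∈ sols I) (hXY : X ≠ Y) :
    pr (innerLen q m N lT) (fun l => inner I q t p m N lT X l = Y) =
      (∑ s ∈ range (2 ^ lT), avg (2 ^ lT * (N * (q + m)))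
        (fun l => PN I q t p m N (gauge I q t p m N (2 ^ lT) s l) X Y)) / 2 ^ lT := by
  rw [← MC.avg_msb lT (fun s => avg (2 ^ lT * (N * (q + m)))
        (fun l => PN I q t p m N (gauge I q t p m N (2 ^ lT) s l) X Y))]
  rw [pr_congr (fun l _ => inner_eq_iff (q := q) (t := t) (p := p) (m := m) (N := N) (lT := lT)
    hY hXY l)]
  unfold pr innerLen
  rw [avg_take_drop lT (2 ^ lT * (N * (q + m)) + N * (q + m))
    (fun l l' => ind (soft I q t p m N (gauge I q t p m N (2 ^ lT) (msb l)
        (l'.take (2 ^ lT * (N * (q + m))))) X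
        (l'.drop (2 ^ lT * (N * (q + m)))) = Y))]
  refine avg_congr fun l _ => ?_
  rw [avg_take_drop (2 ^ lT * (N * (q + m))) (N * (q + m))
    (fun a b => ind (soft I q t p m N (gauge I q t p m N (2 ^ lT) (msb l) a) X b = Y))]
  rfl

/-- symmetry of the inner kernel -/
theorem inner_symm {I : Inst} {q t p m N lT : ℕ} {D : ℕ}
    (hD : ∀ y ∈ box I.1, ∀ a ∈ tau I y, a.natAbs ≤ D)
    (hsym : ∀ k, GB I.2.length (2 ^ lT * D) k → ∀ X ∈ sols I, ∀ Y ∈ sols I,
      PN I q t p m N k X Y = PN I q t p m N k Y X)
    {X Y : List ℕ} (hX : X ∈ sols I) (hY : Y ∈ sols I) :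
    pr (innerLen q m N lT) (fun l => inner I q t p m N lT X l = Y) =
      pr (innerLen q m N lT) (fun l => inner I q t p m N lT Y l = X) := by
  by_cases hXY : X = Y
  · subst hXY; rfl
  rw [pr_inner I q t p m N lT hY hXY, pr_inner I q t p m N lT hX (Ne.symm hXY)]
  congr 1
  refine sum_congr rfl fun s _ => avg_congr fun l _ => ?_
  exact hsym _ (GB_gauge hD _ _ _) X hX Y hY

/-- lower bound of the inner kernel -/
theorem inner_lower {I : Inst} {q t p m N lT : ℕ} {D : ℕ} {ε c : ℝ}
    (hD : ∀ y ∈ box I.1, ∀ a ∈ tau I y, a.natAbs ≤ D)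
    (hclose : ∀ k, GB I.2.length (2 ^ lT * D) k → ∀ X ∈ sols I, ∀ Y ∈ sols I,
      1 / Zk I t p k - ε ≤ PN I q t p m N k X Y)
    (hsgd : c ≤ (∑ s ∈ range (2 ^ lT), (markov (upd I q t p m N) (N * (q + m)))^[s]
      (fun k => ((sols I).card : ℝ) / Zk I t p k) (List.replicate I.2.length 0)) / 2 ^ lT)
    {X Y : List ℕ} (hX : X ∈ sols I) (hY : Y ∈ sols I) (hXY : X ≠ Y) :
    c / (sols I).card - ε ≤ pr (innerLen q m N lT) (fun l => inner I q t p m N lT X l = Y) := by
  have hpos : (0 : ℝ) < (sols I).card := by
    exact_mod_cast Finset.card_pos.2 ⟨X, hX⟩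
  rw [pr_inner I q t p m N lT hY hXY]
  have h1 : ∀ s ∈ range (2 ^ lT),
      (markov (upd I q t p m N) (N * (q + m)))^[s]
        (fun k => ((sols I).card : ℝ) / Zk I t p k) (List.replicate I.2.length 0) /
          (sols I).card - ε ≤
      avg (2 ^ lT * (N * (q + m)))
        (fun l => PN I q t p m N (gauge I q t p m N (2 ^ lT) s l) X Y) := by
    intro s hs
    rw [← avg_gauge I q t p m N (2 ^ lT) s (mem_range.1 hs).le]
    have e : avg (2 ^ lT * (N * (q + m))) (fun l => ((sols I).card : ℝ) /
        Zk I t p (gauge I q t p m N (2 ^ lT) s l)) / (sols I).card - ε =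
        avg (2 ^ lT * (N * (q + m))) (fun l => 1 /
        Zk I t p (gauge I q t p m N (2 ^ lT) s l) - ε) := by
      rw [avg_sub, avg_const, div_eq_mul_inv, ← avg_mul_right]
      congr 1
      refine avg_congr fun l _ => ?_
      field_simp
    rw [e]
    exact avg_mono fun l _ => hclose _ (GB_gauge hD _ _ _) X hX Y hY
  have h2 := sum_le_sum h1
  rw [sum_sub_distrib, ← sum_div, sum_const, card_range, nsmul_eq_mul] at h2
  have hT : (0 : ℝ) < 2 ^ lT := by positivity
  rw [le_div_iff₀ hT]
  rw [le_div_iff₀ hT] at hsgd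
  push_cast at h2
  calc (c / (sols I).card - ε) * 2 ^ lT = c * 2 ^ lT / (sols I).card - 2 ^ lT * ε := by ring
    _ ≤ _ := by
      refine le_trans ?_ h2
      gcongr

end Crest.Agent.R309.US
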