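import Crest.Agent.R309.UGBox
import Crest.Agent.R309.USInner

/-!
R309: the unary gap theorem for helper305's weight `US.wt`.
-/

set_option autoImplicit false

namespace Crest.Agent.R309.UGBox

open Finset

theorem wt_eq_sw (I : US.Inst) (t p : ℕ) (k : List ℤ) :
    US.wt I t p k = sw ((1 / 2 : ℝ) ^ t) (US.Bp p) k I := by
  funext Y
  unfold US.wt sw
  rw [pow_mul]

/-- **Unary gap theorem** for `US.wt`. -/
theorem gap_wt (I : US.Inst) (t p : ℕ) (hp : 0 < US.Bp p) (k : List ℤ)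
    {B : ℕ} (hB : ∀ c ∈ I.1, c.2.2 ≤ B) (f : List ℕ → ℝ) :
    (∑ y ∈ US.box I.1, US.wt I t p k y * f y ^ 2)
        - (∑ y ∈ US.box I.1, US.wt I t p k y * f y) ^ 2 / (∑ y ∈ US.box I.1, US.wt I t p k y)
      ≤ (((I.1.length : ℝ) ^ 2 + 2) * ((B : ℝ) + 1) ^ 4 * 2 ^ (4 * t)) *
        ∑ y ∈ US.box I.1, ∑ i ∈ range I.1.length,
          if y.getD i 0 < (I.1.getD i (0, 0, 0)).2.2 then
            min (US.wt I t p k y) (US.wt I t p k (y.set i (y.getD i 0 + 1)))
              * (f (y.set i (y.getD i 0 + 1)) - f y) ^ 2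
          else 0 := by
  have h := box_gap (θ := (1 / 2 : ℝ) ^ t) (by positivity) (pow_le_one₀ (by norm_num) (by norm_num))
    hp k I hB f
  rw [← wt_eq_sw] at h
  have e : ((((1 / 2 : ℝ) ^ t) ^ 4)⁻¹) = 2 ^ (4 * t) := by
    rw [← pow_mul, one_div, inv_pow, inv_inv, mul_comm]
  rw [e] at h
  exact h

end Crest.Agent.R309.UGBox
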