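import Crest.Agent.R309.USInner
import Crest.Agent.R309.Iface2
import Crest.Agent.R309.Conv2

/-!
# R309: table instances as unary instances (helper305)

`toUS I` is the `US.Inst` of the table instance `I`; tables are flattened row by row.
-/

set_option autoImplicit false

namespace Crest.Agent.R309.US

open Finset

/-- the cell list of an `m × n` table with bounds `b` -/
def tcells (m n : ℕ) (b : ℕ → ℕ → ℕ) : List UCell :=
  (List.range m).flatMap fun i => (List.range n).map fun j => (i, m + j, b i j)

/-- entry of a list table -/
def ent (X : List (List ℕ)) (i j : ℕ) : ℕ := (X.getD i []).getD j 0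

/-- the unary instance of a table instance -/
def toUS (I : Iface.Inst) : Inst :=
  (tcells I.1.length I.2.1.length (ent I.2.2),
    List.map (fun r : ℕ => (r : ℤ)) I.1 ++ List.map (fun c : ℕ => -(c : ℤ)) I.2.1)

/-- unflatten -/
def unflat (m n : ℕ) (y : List ℕ) : List (List ℕ) :=
  (List.range m).map fun i => (List.range n).map fun j => y.getD (i * n + j) 0

/-- flatten a matrix given by a function -/
def flatF (m n : ℕ) (X : ℕ → ℕ → ℕ) : List ℕ :=
  (List.range m).flatMap fun i => (List.range n).map fun j => X i j

theorem mem_box_iff_forall₂ {R : List UCell} {y : List ℕ} :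
    y ∈ box R ↔ List.Forall₂ (fun a (c : UCell) => a ≤ c.2.2) y R := by
  induction R generalizing y with
  | nil => rw [mem_box_nil]; simp
  | cons c R ih =>
    cases y with
    | nil => simp
    | cons a Y => rw [cons_mem_box, ih, List.forall₂_cons]

theorem forall₂_flatMap_map {α β : Type*} (P : α → β → Prop) (L : List ℕ) (n : ℕ)
    (A : ℕ → ℕ → α) (B : ℕ → ℕ → β) :
    List.Forall₂ P (L.flatMap fun i => (List.range n).map fun j => A i j)
      (L.flatMap fun i => (List.range n).map fun j => B i j) ↔
    ∀ i ∈ L, ∀ j < n, P (A i j) (B i j) := by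
  have hrow : ∀ i, List.Forall₂ P ((List.range n).map fun j => A i j)
      ((List.range n).map fun j => B i j) ↔ ∀ j < n, P (A i j) (B i j) := by
    intro i
    rw [List.forall₂_map_left_iff, List.forall₂_map_right_iff, List.forall₂_same]
    simp
  induction L with
  | nil => simp
  | cons i L ih =>
    simp only [List.flatMap_cons, List.mem_cons, forall_eq_or_imp]
    constructor
    · intro h
      refine ⟨(hrow i).1 ?_, ih.1 ?_⟩
      · have := List.forall₂_take n h
        rwa [List.take_left' (by simp), List.take_left' (by simp)] at this
      · have := List.forall₂_drop n h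
        rwa [List.drop_left' (by simp), List.drop_left' (by simp)] at this
    · rintro ⟨h1, h2⟩
      exact List.rel_append ((hrow i).2 h1) (ih.2 h2)

theorem flatF_mem_box {m n : ℕ} {b X : ℕ → ℕ → ℕ} :
    flatF m n X ∈ box (tcells m n b) ↔ ∀ i < m, ∀ j < n, X i j ≤ b i j := by
  rw [mem_box_iff_forall₂]
  unfold flatF tcells
  rw [forall₂_flatMap_map]
  simp

theorem length_flatF (m n : ℕ) (X : ℕ → ℕ → ℕ) : (flatF m n X).length = m * n := by
  simp [flatF, List.length_flatMap]

theorem length_tcells (m n : ℕ) (b : ℕ → ℕ → ℕ) : (tcells m n b).length = m * n := by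
  simp [tcells, List.length_flatMap]

theorem getElem?_flatF (m n : ℕ) (X : ℕ → ℕ → ℕ) {i j : ℕ} (hi : i < m) (hj : j < n) :
    (flatF m n X)[i * n + j]? = some (X i j) := by
  induction m generalizing i X with
  | zero => omega
  | succ m ih =>
    have e : flatF (m + 1) n X =
        ((List.range n).map fun j => X 0 j) ++ flatF m n (fun i j => X (i + 1) j) := by
      unfold flatF
      rw [List.range_succ_eq_map, List.flatMap_cons, List.flatMap_map]
    rw [e]
    cases i with
    | zero =>
      rw [List.getElem?_append_left (by simpa using hj)]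
      simp [hj]
    | succ i =>
      rw [List.getElem?_append_right (by simp; nlinarith)]
      have : (i + 1) * n + j - (List.map (fun j => X 0 j) (List.range n)).length = i * n + j := by
        simp only [List.length_map, List.length_range]
        rw [Nat.succ_mul]; omega
      rw [this]
      exact ih (fun i j => X (i + 1) j) (by omega)

theorem flatF_unflat {m n : ℕ} {y : List ℕ} (h : y.length = m * n) :
    flatF m n (fun i j => y.getD (i * n + j) 0) = y := by
  induction m generalizing y with
  | zero =>
    have : y = [] := List.eq_nil_of_length_eq_zero (by simpa using h)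
    subst this; simp [flatF]
  | succ m ih =>
    have e : flatF (m + 1) n (fun i j => y.getD (i * n + j) 0) =
        ((List.range n).map fun j => y.getD j 0) ++
          flatF m n (fun i j => (y.drop n).getD (i * n + j) 0) := by
      unfold flatF
      rw [List.range_succ_eq_map, List.flatMap_cons, List.flatMap_map]
      congr 1
      · simp
      · refine congrArg (fun f => List.flatMap f (List.range m)) ?_
        funext i
        refine List.map_congr_left fun j _ => ?_
        simp only [List.getD_eq_getElem?_getD, List.getElem?_drop]
        congr 2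
        rw [Nat.succ_mul]; omega
    rw [e, ih (y := y.drop n) (by rw [List.length_drop, h, Nat.succ_mul]; omega)]
    have h1 : (List.range n).map (fun j => y.getD j 0) = y.take n := by
      apply List.ext_getElem
      · have : n ≤ (m + 1) * n := Nat.le_mul_of_pos_left n (by omega)
        simp [h, this]
      · intro j h1 h2
        simp only [List.length_map, List.length_range] at h1
        have : n ≤ (m + 1) * n := Nat.le_mul_of_pos_left n (by omega)
        have hj : j < y.length := by omega
        simp [hj]
    rw [h1, List.take_append_drop]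

theorem unflat_flatF (m n : ℕ) (X : ℕ → ℕ → ℕ) :
    unflat m n (flatF m n X) = (List.range m).map fun i => (List.range n).map fun j => X i j := by
  unfold unflat
  refine List.map_congr_left fun i hi => List.map_congr_left fun j hj => ?_
  rw [List.mem_range] at hi hj
  rw [List.getD_eq_getElem?_getD, getElem?_flatF m n X hi hj]
  rfl

/-! ### loads -/

theorem zipWith_flatMap_map {α β γ : Type*} (f : α → β → γ) (L : List ℕ) (n : ℕ)
    (A : ℕ → ℕ → α) (B : ℕ → ℕ → β) :
    List.zipWith f (L.flatMap fun i => (List.range n).map fun j => A i j)
      (L.flatMap fun i => (List.range n).map fun j => B i j) =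
    L.flatMap fun i => (List.range n).map fun j => f (A i j) (B i j) := by
  induction L with
  | nil => simp
  | cons i L ih =>
    simp only [List.flatMap_cons]
    rw [List.zipWith_append (by simp), ih, List.zipWith_map, List.zipWith_self]

theorem sum_flatMap_map {M : Type*} [AddCommMonoid M] (m n : ℕ) (A : ℕ → ℕ → M) :
    (((List.range m).flatMap fun i => (List.range n).map fun j => A i j).sum) =
      ∑ i ∈ range m, ∑ j ∈ range n, A i j := by
  rw [List.flatMap, List.sum_flatten, List.map_map]
  have h1 : ∀ (k : ℕ) (g : ℕ → M), ((List.range k).map g).sum = ∑ i ∈ range k, g i := by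
    intro k g
    rw [Finset.sum_range, ← List.sum_ofFn, List.ofFn_eq_map]
    congr 1
    rw [← List.map_coe_finRange_eq_range, List.map_map]
    rfl
  rw [h1]
  refine sum_congr rfl fun i _ => ?_
  exact h1 n (A i)

theorem load_tcells (m n : ℕ) (b X : ℕ → ℕ → ℕ) (v : ℕ) :
    load (tcells m n b) (flatF m n X) v =
      ∑ i ∈ range m, ∑ j ∈ range n, ((if i = v then (X i j : ℤ) else 0) -
        (if m + j = v then (X i j : ℤ) else 0)) := by
  unfold load tcells flatF
  rw [zipWith_flatMap_map, sum_flatMap_map]
  rfl

theorem load_row (m n : ℕ) (b X : ℕ → ℕ → ℕ) {v : ℕ} (hv : v < m) :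
    load (tcells m n b) (flatF m n X) v = ∑ j ∈ range n, (X v j : ℤ) := by
  rw [load_tcells]
  rw [Finset.sum_eq_single v]
  · refine sum_congr rfl fun j _ => ?_
    rw [if_pos rfl, if_neg (by omega)]; ring
  · intro i _ hi
    refine Finset.sum_eq_zero fun j _ => ?_
    rw [if_neg hi, if_neg (by omega)]; ring
  · intro h; exact absurd (mem_range.2 hv) h

theorem load_col (m n : ℕ) (b X : ℕ → ℕ → ℕ) {v : ℕ} (hv : v < n) :
    load (tcells m n b) (flatF m n X) (m + v) = - ∑ i ∈ range m, (X i v : ℤ) := by
  rw [load_tcells, ← Finset.sum_neg_distrib]
  refine sum_congr rfl fun i hi => ?_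
  rw [mem_range] at hi
  rw [Finset.sum_eq_single v]
  · rw [if_neg (by omega), if_pos rfl]; ring
  · intro j _ hj
    rw [if_neg (by omega), if_neg (by omega)]; ring
  · intro h; exact absurd (mem_range.2 hv) h

end Crest.Agent.R309.US
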