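import Crest.Agent.R309.USConv

/-!
# R309: tables of an instance = defect-free configurations of the unary instance (helper305)
-/

set_option autoImplicit false

namespace Crest.Agent.R309.US

open Finset Crest.Agent.R309.Iface Crest.Agent.R309.Conv

section
variable {m n : ℕ}

/-- extend a matrix by zero -/
def xt (X : Fin m → Fin n → ℕ) (i j : ℕ) : ℕ :=
  if h : i < m ∧ j < n then X ⟨i, h.1⟩ ⟨j, h.2⟩ else 0

@[simp] theorem xt_fin (X : Fin m → Fin n → ℕ) (i : Fin m) (j : Fin n) : xt X i j = X i j := by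
  simp [xt]

theorem toL_eq_range (X : Fin m → Fin n → ℕ) :
    toL X = (List.range m).map fun i => (List.range n).map fun j => xt X i j := by
  unfold toL
  apply List.ext_getElem (by simp)
  intro i h1 h2
  simp only [List.length_ofFn] at h1
  simp only [List.getElem_ofFn, List.getElem_map, List.getElem_range]
  apply List.ext_getElem (by simp)
  intro j h3 h4
  simp only [List.length_ofFn] at h3
  simp [xt, h1, h3]

theorem flatten_toL (X : Fin m → Fin n → ℕ) : (toL X).flatten = flatF m n (xt X) := by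
  rw [toL_eq_range]; rfl

theorem unflat_flatten (X : Fin m → Fin n → ℕ) : unflat m n (toL X).flatten = toL X := by
  rw [flatten_toL, unflat_flatF, ← toL_eq_range]

theorem exists_of_length {y : List ℕ} (h : y.length = m * n) :
    ∃ X : Fin m → Fin n → ℕ, y = (toL X).flatten := by
  refine ⟨fun i j => y.getD (i * n + j) 0, ?_⟩
  rw [flatten_toL]
  conv_lhs => rw [← flatF_unflat h]
  unfold flatF
  refine List.flatMap_congr fun i hi => List.map_congr_left fun j hj => ?_
  rw [List.mem_range] at hi hj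
  simp [xt, hi, hj]

theorem ent_toL (b : Fin m → Fin n → ℕ) : ∀ i < m, ∀ j < n, ent (toL b) i j = xt b i j := by
  intro i hi j hj
  simp [ent, toL, xt, List.getD_eq_getElem?_getD, hi, hj]

theorem tcells_congr {b b' : ℕ → ℕ → ℕ} (h : ∀ i < m, ∀ j < n, b i j = b' i j) :
    tcells m n b = tcells m n b' := by
  unfold tcells
  refine List.flatMap_congr fun i hi => List.map_congr_left fun j hj => ?_
  rw [List.mem_range] at hi hj
  rw [h i hi j hj]

theorem toUS_inst (r : Fin m → ℕ) (c : Fin n → ℕ) (b : Fin m → Fin n → ℕ) :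
    toUS (inst r c b) = (tcells m n (xt b),
      List.map (fun r : ℕ => (r : ℤ)) (List.ofFn r) ++ List.map (fun c : ℕ => -(c : ℤ)) (List.ofFn c)) := by
  unfold toUS
  simp only [inst_fst, inst_snd_fst, inst_snd_snd, List.length_ofFn]
  rw [tcells_congr (ent_toL b)]

theorem mem_box_toUS (r : Fin m → ℕ) (c : Fin n → ℕ) (b X : Fin m → Fin n → ℕ) :
    (toL X).flatten ∈ box (toUS (inst r c b)).1 ↔ ∀ i j, X i j ≤ b i j := by
  rw [toUS_inst, flatten_toL, flatF_mem_box]
  constructor
  · intro h i j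
    have := h i i.2 j j.2
    simpa using this
  · intro h i hi j hj
    have := h ⟨i, hi⟩ ⟨j, hj⟩
    simpa [xt, hi, hj] using this

theorem length_dem (r : Fin m → ℕ) (c : Fin n → ℕ) (b : Fin m → Fin n → ℕ) :
    (toUS (inst r c b)).2.length = m + n := by
  rw [toUS_inst]; simp

theorem getD_dem_row (r : Fin m → ℕ) (c : Fin n → ℕ) (b : Fin m → Fin n → ℕ) (i : Fin m) :
    (toUS (inst r c b)).2.getD i 0 = (r i : ℤ) := by
  rw [toUS_inst]
  simp only
  rw [List.getD_eq_getElem?_getD, List.getElem?_append_left (by simp)]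
  simp

theorem getD_dem_col (r : Fin m → ℕ) (c : Fin n → ℕ) (b : Fin m → Fin n → ℕ) (j : Fin n) :
    (toUS (inst r c b)).2.getD (m + j) 0 = -(c j : ℤ) := by
  rw [toUS_inst]
  simp only
  rw [List.getD_eq_getElem?_getD, List.getElem?_append_right (by simp)]
  simp

theorem tau_row (r : Fin m → ℕ) (c : Fin n → ℕ) (b X : Fin m → Fin n → ℕ) (i : Fin m) :
    (toUS (inst r c b)).2.getD i 0 - load (toUS (inst r c b)).1 (toL X).flatten i =
      (r i : ℤ) - ∑ j, (X i j : ℤ) := by
  rw [getD_dem_row, toUS_inst, flatten_toL]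
  simp only
  rw [load_row m n _ _ i.2, Finset.sum_range]
  simp

theorem tau_col (r : Fin m → ℕ) (c : Fin n → ℕ) (b X : Fin m → Fin n → ℕ) (j : Fin n) :
    (toUS (inst r c b)).2.getD (m + j) 0 - load (toUS (inst r c b)).1 (toL X).flatten (m + j) =
      -(c j : ℤ) + ∑ i, (X i j : ℤ) := by
  rw [getD_dem_col, toUS_inst, flatten_toL]
  simp only
  rw [load_col m n _ _ j.2, Finset.sum_range]
  simp

/-- the entries of the defect vector -/
theorem mem_tau_iff (r : Fin m → ℕ) (c : Fin n → ℕ) (b X : Fin m → Fin n → ℕ) (a : ℤ) :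
    a ∈ tau (toUS (inst r c b)) (toL X).flatten ↔
      (∃ i, (r i : ℤ) - ∑ j, (X i j : ℤ) = a) ∨ (∃ j, -(c j : ℤ) + ∑ i, (X i j : ℤ) = a) := by
  unfold tau
  rw [length_dem, List.mem_map]
  constructor
  · rintro ⟨v, hv, rfl⟩
    rw [List.mem_range] at hv
    by_cases h : v < m
    · left; exact ⟨⟨v, h⟩, (tau_row r c b X ⟨v, h⟩).symm⟩
    · right
      refine ⟨⟨v - m, by omega⟩, ?_⟩
      rw [← tau_col r c b X ⟨v - m, by omega⟩]
      have : m + (v - m) = v := by omega
      simp only [this]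
  · rintro (⟨i, rfl⟩ | ⟨j, rfl⟩)
    · exact ⟨i, List.mem_range.2 (by have := i.2; omega), tau_row r c b X i⟩
    · exact ⟨m + j, List.mem_range.2 (by have := j.2; omega), tau_col r c b X j⟩

theorem mem_sols_toUS (r : Fin m → ℕ) (c : Fin n → ℕ) (b X : Fin m → Fin n → ℕ) :
    (toL X).flatten ∈ sols (toUS (inst r c b)) ↔ IsTab (inst r c b) (toL X) := by
  rw [isTab_inst_toL, mem_sols, mem_box_toUS, norm1_eq_zero]
  unfold IsBTable
  refine and_congr_right fun _ => ?_
  constructor
  · intro h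
    refine ⟨fun i => ?_, fun j => ?_⟩
    · have := h _ ((mem_tau_iff r c b X _).2 (Or.inl ⟨i, rfl⟩))
      have h2 : (r i : ℤ) = ∑ j, (X i j : ℤ) := by linarith
      exact_mod_cast h2.symm
    · have := h _ ((mem_tau_iff r c b X _).2 (Or.inr ⟨j, rfl⟩))
      have h2 : (c j : ℤ) = ∑ i, (X i j : ℤ) := by linarith
      exact_mod_cast h2.symm
  · rintro ⟨h1, h2⟩ a ha
    rcases (mem_tau_iff r c b X a).1 ha with ⟨i, rfl⟩ | ⟨j, rfl⟩
    · rw [← h1 i]; push_cast; ring
    · rw [← h2 j]; push_cast; ring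

/-- every configuration of the box is a flattened matrix -/
theorem exists_of_mem_box {r : Fin m → ℕ} {c : Fin n → ℕ} {b : Fin m → Fin n → ℕ} {y : List ℕ}
    (h : y ∈ box (toUS (inst r c b)).1) : ∃ X : Fin m → Fin n → ℕ, y = (toL X).flatten := by
  refine exists_of_length ?_
  rw [length_of_mem_box h, toUS_inst, length_tcells]

end

/-! ### the same for arbitrary list instances -/

variable {I : Iface.Inst}

theorem unflat_flatten_of_isTab {X : Tab} (h : IsTab I X) :
    unflat I.1.length I.2.1.length X.flatten = X := by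
  obtain ⟨r, c, b, e⟩ := exists_inst (Conv.IsTab.shaped h)
  have h' := h
  rw [e] at h'
  obtain ⟨Y, _, rfl⟩ := isTab_inst_iff.1 h'
  exact unflat_flatten Y

theorem flatten_mem_sols {X : Tab} (h : IsTab I X) : X.flatten ∈ sols (toUS I) := by
  obtain ⟨r, c, b, e⟩ := exists_inst (Conv.IsTab.shaped h)
  rw [e] at h ⊢
  obtain ⟨Y, hY, rfl⟩ := isTab_inst_iff.1 h
  exact (mem_sols_toUS r c b Y).2 h

theorem isTab_unflat {X0 : Tab} (h : IsTab I X0) {y : List ℕ} (hy : y ∈ sols (toUS I)) :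
    IsTab I (unflat I.1.length I.2.1.length y) ∧
      (unflat I.1.length I.2.1.length y).flatten = y := by
  obtain ⟨r, c, b, e⟩ := exists_inst (Conv.IsTab.shaped h)
  rw [e] at hy
  obtain ⟨X, rfl⟩ := exists_of_mem_box (mem_sols.1 hy).1
  rw [unflat_flatten]
  refine ⟨?_, rfl⟩
  have h2 := (mem_sols_toUS r c b X).1 hy
  rw [← e] at h2
  exact h2

theorem card_sols_toUS {X0 : Tab} (h : IsTab I X0) : (sols (toUS I)).card = (tabs I).card := by
  symm
  refine Finset.card_bij (fun X _ => X.flatten) (fun X hX => flatten_mem_sols (mem_tabs.1 hX)) ?_ ?_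
  · intro X hX Y hY hXY
    rw [← unflat_flatten_of_isTab (mem_tabs.1 hX), hXY, unflat_flatten_of_isTab (mem_tabs.1 hY)]
  · intro y hy
    exact ⟨_, mem_tabs.2 (isTab_unflat h hy).1, (isTab_unflat h hy).2⟩

/-! ### size parameters -/

/-- the hypotheses on a unary instance of size `K` -/
structure USmall (J : Inst) (K : ℕ) : Prop where
  /-- number of cells -/
  cells : J.1.length ≤ K ^ 2
  /-- number of vertices -/
  verts : J.2.length ≤ 2 * K
  /-- bounds -/
  bds : ∀ c ∈ J.1, c.2.2 ≤ K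
  /-- valid vertices -/
  valid : ∀ c ∈ J.1, c.1 < J.2.length ∧ c.2.1 < J.2.length
  /-- defects -/
  tau_le : ∀ y ∈ box J.1, ∀ a ∈ tau J y, a.natAbs ≤ K ^ 2

theorem uSmall_toUS {K : ℕ} (hI : Small I K) {X0 : Tab} (h : IsTab I X0) : USmall (toUS I) K := by
  obtain ⟨r, c, b, e⟩ := exists_inst (Conv.IsTab.shaped h)
  have hm := hI.rows
  have hn := hI.cols
  have hb : ∀ i j, b i j ≤ K := by
    intro i j
    have h1 := hI.bds
    rw [e] at h1
    refine h1 (List.ofFn (b i)) ?_ (b i j) ?_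
    · simp [toL, List.mem_ofFn]
    · simp [List.mem_ofFn]
  obtain ⟨X, hX⟩ : ∃ X, IsBTable r c b X := by
    rw [e] at h
    obtain ⟨X, hX, _⟩ := isTab_inst_iff.1 h
    exact ⟨X, hX⟩
  have hcell : ∀ x ∈ (toUS I).1, ∃ i : Fin I.1.length, ∃ j : Fin I.2.1.length,
      x = ((i : ℕ), I.1.length + (j : ℕ), b i j) := by
    intro x hx
    rw [e, toUS_inst] at hx
    simp only [tcells, List.mem_flatMap, List.mem_map, List.mem_range] at hx
    obtain ⟨i, hi, j, hj, rfl⟩ := hx
    refine ⟨⟨i, hi⟩, ⟨j, hj⟩, ?_⟩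
    simp [xt, hi, hj]
  have hlen : (toUS I).2.length = I.1.length + I.2.1.length := by simp [toUS]
  have hrow : ∀ (Y : Fin I.1.length → Fin I.2.1.length → ℕ), (∀ i j, Y i j ≤ b i j) →
      ∀ i, ∑ j, Y i j ≤ K ^ 2 := by
    intro Y hY i
    calc ∑ j, Y i j ≤ ∑ _j : Fin I.2.1.length, K := sum_le_sum fun j _ => (hY i j).trans (hb i j)
      _ = I.2.1.length * K := by simp
      _ ≤ K * K := Nat.mul_le_mul_right _ hn
      _ = K ^ 2 := by ring
  have hcol : ∀ (Y : Fin I.1.length → Fin I.2.1.length → ℕ), (∀ i j, Y i j ≤ b i j) →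
      ∀ j, ∑ i, Y i j ≤ K ^ 2 := by
    intro Y hY j
    calc ∑ i, Y i j ≤ ∑ _i : Fin I.1.length, K := sum_le_sum fun i _ => (hY i j).trans (hb i j)
      _ = I.1.length * K := by simp
      _ ≤ K * K := Nat.mul_le_mul_right _ hm
      _ = K ^ 2 := by ring
  refine ⟨?_, ?_, ?_, ?_, ?_⟩
  · change (tcells _ _ _).length ≤ _
    rw [length_tcells]
    calc I.1.length * I.2.1.length ≤ K * K := Nat.mul_le_mul hm hn
      _ = K ^ 2 := by ring
  · rw [hlen]; omega
  · intro x hx
    obtain ⟨i, j, rfl⟩ := hcell x hx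
    exact hb i j
  · intro x hx
    obtain ⟨i, j, rfl⟩ := hcell x hx
    rw [hlen]
    have := i.2
    have := j.2
    simp only
    omega
  · intro y hy a ha
    rw [e] at hy ha
    obtain ⟨Y, rfl⟩ := exists_of_mem_box hy
    have hY := (mem_box_toUS r c b Y).1 hy
    rcases (mem_tau_iff r c b Y a).1 ha with ⟨i, rfl⟩ | ⟨j, rfl⟩
    · have h1 := hrow Y hY i
      have h2 := hrow X hX.1 i
      rw [hX.2.1 i] at h2
      have h3 : ((∑ j, Y i j : ℕ) : ℤ) = ∑ j, (Y i j : ℤ) := by push_cast; rfl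
      rw [← h3]
      omega
    · have h1 := hcol Y hY j
      have h2 := hcol X hX.1 j
      rw [hX.2.2 j] at h2
      have h3 : ((∑ i, Y i j : ℕ) : ℤ) = ∑ i, (Y i j : ℤ) := by push_cast; rfl
      rw [← h3]
      omega

end Crest.Agent.R309.US
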