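import Crest.Agent.R309.USParam
import Crest.Agent.R309.SgdUS943
import Crest.Agent.R309.UGWt

/-!
# R309: the inner step on table instances satisfies the analytic part of `InnerSpec` (helper305)
-/

set_option autoImplicit false

namespace Crest.Agent.R309.USP

open Finset Crest.Agent.R309.US Crest.Agent.R309.Iface Crest.Agent.R309.Tape

/-- tape length of the inner step -/
def lenK (K : ℕ) : ℕ := innerLen (qK K) (mK K) (NK K) (lTK K)

/-- the inner step on flattened tables -/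
def innerK (J : US.Inst) (K : ℕ) (y : List ℕ) (t : List Bool) : List ℕ :=
  inner J (qK K) (tK K) (pK K) (mK K) (NK K) (lTK K) y t

/-- the inner step on tables -/
def EK' (I : Iface.Inst) (K : ℕ) (X : Tab) (t : List Bool) : Tab :=
  unflat I.1.length I.2.1.length (innerK (toUS I) K X.flatten t)

variable {J : US.Inst} {K : ℕ}

theorem boxPoinc (h : USmall J K) (k : List ℤ) :
    BoxPoinc J.1 (wt J (tK K) (pK K) k)
      (((J.1.length : ℝ) ^ 2 + 2) * ((K : ℝ) + 1) ^ 4 * 2 ^ (4 * tK K)) := by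
  intro f
  exact UGBox.gap_wt J (tK K) (pK K) (by
    have := SgdUS943.Bp_gt (one_le_pK K); linarith) k h.bds f

theorem one_le_C (J : US.Inst) (K : ℕ) :
    (1 : ℝ) ≤ ((J.1.length : ℝ) ^ 2 + 2) * ((K : ℝ) + 1) ^ 4 * 2 ^ (4 * tK K) := by
  have h1 : (1 : ℝ) ≤ (J.1.length : ℝ) ^ 2 + 2 := by nlinarith [sq_nonneg (J.1.length : ℝ)]
  have h2 : (1 : ℝ) ≤ ((K : ℝ) + 1) ^ 4 := one_le_pow₀ (by
    have : (0 : ℝ) ≤ K := Nat.cast_nonneg K
    linarith)
  have h3 : (1 : ℝ) ≤ 2 ^ (4 * tK K) := one_le_pow₀ (by norm_num)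
  have h4 : (1 : ℝ) ≤ ((J.1.length : ℝ) ^ 2 + 2) * ((K : ℝ) + 1) ^ 4 := by nlinarith
  nlinarith

theorem hm (K : ℕ) : tK K * 2 + pK K * (2 * AK K) ≤ mK K := by
  unfold mK; exact le_of_eq (by ring)

theorem gb_mono {n : ℕ} {k : List ℤ} (hk : GB n (2 ^ lTK K * sK K ^ 2) k) : GB n (AK K) k :=
  hk.mono (two_pow_lTK_mul K)

/-- symmetry -/
theorem innerK_symm (h : USmall J K) {X Y : List ℕ} (hX : X ∈ sols J) (hY : Y ∈ sols J) :
    pr (lenK K) (fun l => innerK J K X l = Y) = pr (lenK K) (fun l => innerK J K Y l = X) :=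
  inner_symm (USmall.tau_le' h)
    (fun _ hk => PN_symm (one_le_tK K) (one_le_pK K) (hm K) (USmall.four_cells h) (one_le_qK K)
      (gb_mono hk)) hX hY

/-- lower bound -/
theorem innerK_lower (h : USmall J K) {X Y : List ℕ} (hX : X ∈ sols J) (hY : Y ∈ sols J)
    (hXY : X ≠ Y) :
    1 / (8 * ((sols J).card : ℝ)) ≤ pr (lenK K) (fun l => innerK J K X l = Y) := by
  have hsgd := SgdUS943.hsgd943 J h.valid ⟨X, hX⟩ (qK K) (tK K) (pK K) (mK K) (NK K) (lTK K)
    (sK K ^ 2) (LamK K) ((1 / 2) ^ eK K) (by positivity) (USmall.theta h) (USmall.tau_le' h)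
    (one_le_pK K) (USmall.base h) (USmall.card_box h) (USmall.rounds h)
    (fun k hk φ hφ => soft_close (one_le_tK K) (one_le_pK K) (hm K) (USmall.four_cells h)
      (one_le_qK K) (gb_mono hk) (USmall.tau_le' h) h.bds (one_le_C J K) (boxPoinc h k)
      (USmall.steps h) (zero_mem_box _) (fun y => (hφ y).1) (fun y => (hφ y).2))
  have hlow := inner_lower (ε := (1 / 2) ^ eK K) (USmall.tau_le' h)
    (fun k hk X hX Y hY => by
      have h1 := PN_close (m := mK K) (one_le_tK K) (one_le_pK K) (hm K) (USmall.four_cells h)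
        (one_le_qK K) (gb_mono hk) (USmall.tau_le' h) h.bds (one_le_C J K) (boxPoinc h k)
        (USmall.steps h) (mem_sols.1 hX).1 (mem_sols.1 hY).1
      rw [wt_of_sol (mem_sols.1 hY).2] at h1
      have := (abs_le.1 h1).1
      linarith) hsgd hX hY hXY
  refine le_trans ?_ hlow
  have hpos : (0 : ℝ) < (sols J).card := by exact_mod_cast Finset.card_pos.2 ⟨X, hX⟩
  have hcard : ((sols J).card : ℝ) ≤ 2 ^ LamK K := by
    have : (sols J).card ≤ 2 ^ LamK K := (card_filter_le _ _).trans (USmall.card_box h)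
    exact_mod_cast this
  have he : (1 / 2 : ℝ) ^ eK K = (1 / 2) ^ lTK K * (1 / 2) ^ LamK K * (1 / 16) := by
    unfold eK; rw [pow_add, pow_add]; norm_num
  have h2 : (2 : ℝ) ^ lTK K * (1 / 2) ^ lTK K = 1 := by rw [← mul_pow]; norm_num
  have h3 : (2 : ℝ) ^ LamK K * (1 / 2) ^ LamK K = 1 := by rw [← mul_pow]; norm_num
  have h4 : (1 / 2 : ℝ) ^ LamK K ≤ 1 := pow_le_one₀ (by norm_num) (by norm_num)
  have h5 : (1 / 2 : ℝ) ^ lTK K ≤ 1 := pow_le_one₀ (by norm_num) (by norm_num)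
  have h4' : (0 : ℝ) < (1 / 2 : ℝ) ^ LamK K := by positivity
  have h5' : (0 : ℝ) < (1 / 2 : ℝ) ^ lTK K := by positivity
  have h6 : 2 ^ lTK K * (1 / 2 : ℝ) ^ eK K ≤ 1 / 16 := by
    rw [he]
    calc 2 ^ lTK K * ((1 / 2 : ℝ) ^ lTK K * (1 / 2) ^ LamK K * (1 / 16))
        = (2 ^ lTK K * (1 / 2 : ℝ) ^ lTK K) * (1 / 2) ^ LamK K * (1 / 16) := by ring
      _ = (1 / 2) ^ LamK K * (1 / 16) := by rw [h2, one_mul]
      _ ≤ 1 / 16 := by linarith
  have h7 : (1 / 2 : ℝ) ^ eK K * (sols J).card ≤ 1 / 16 := by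
    calc (1 / 2 : ℝ) ^ eK K * (sols J).card ≤ (1 / 2 : ℝ) ^ eK K * 2 ^ LamK K := by gcongr
      _ = (1 / 2) ^ lTK K * (2 ^ LamK K * (1 / 2) ^ LamK K) * (1 / 16) := by rw [he]; ring
      _ = (1 / 2) ^ lTK K * (1 / 16) := by rw [h3, mul_one]
      _ ≤ 1 / 16 := by linarith
  have h8 : (1 : ℝ) / (8 * (sols J).card) = (1 / 8) / (sols J).card := by
    rw [div_div]
  rw [h8, div_sub' hpos.ne', div_le_div_iff_of_pos_right hpos]
  linarith

/-- the analytic part of `InnerSpec` -/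
theorem inner_main (I : Iface.Inst) (K : ℕ) (hI : Small I K) :
    (∀ X, IsTab I X → ∀ t : List Bool, IsTab I (EK' I K X t)) ∧
    (∀ X Y, IsTab I X → IsTab I Y →
      pr (lenK K) (fun t => EK' I K X t = Y) = pr (lenK K) (fun t => EK' I K Y t = X)) ∧
    (∀ X Y, IsTab I X → IsTab I Y → X ≠ Y →
      1 / (8 * ((tabs I).card : ℝ)) ≤ pr (lenK K) (fun t => EK' I K X t = Y)) := by
  have hmem : ∀ X, IsTab I X → ∀ t : List Bool, innerK (toUS I) K X.flatten t ∈ sols (toUS I) :=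
    fun X hX t => inner_mem_sols (flatten_mem_sols hX)
  have hiff : ∀ X Y, IsTab I X → IsTab I Y → ∀ t : List Bool,
      (EK' I K X t = Y ↔ innerK (toUS I) K X.flatten t = Y.flatten) := by
    intro X Y hX hY t
    have h1 := isTab_unflat hX (hmem X hX t)
    constructor
    · intro h
      rw [← h1.2, ← h]; rfl
    · intro h
      unfold EK'
      rw [h, unflat_flatten_of_isTab hY]
  refine ⟨fun X hX t => (isTab_unflat hX (hmem X hX t)).1, fun X Y hX hY => ?_,
    fun X Y hX hY hXY => ?_⟩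
  · rw [pr_congr fun t _ => hiff X Y hX hY t, pr_congr fun t _ => hiff Y X hY hX t]
    exact innerK_symm (uSmall_toUS hI hX) (flatten_mem_sols hX) (flatten_mem_sols hY)
  · rw [pr_congr fun t _ => hiff X Y hX hY t, ← card_sols_toUS hX]
    refine innerK_lower (uSmall_toUS hI hX) (flatten_mem_sols hX) (flatten_mem_sols hY) ?_
    intro h
    apply hXY
    rw [← unflat_flatten_of_isTab hX, h, unflat_flatten_of_isTab hY]

end Crest.Agent.R309.USP
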