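import Crest.Agent.R309.USConv
import Crest.Agent.R309.PTSolve

/-!
# R309: poly-time conversion between table instances and unary instances (helper305)
-/

set_option autoImplicit false

namespace Crest.Agent.R309.USP

open Crest.Agent.Lib.PT Crest.Agent.R309.PTX Crest.Agent.R309.US

variable {γ : Type} [PTCode γ]

theorem ptf_ent {b : γ → List (List ℕ)} {i j : γ → ℕ} (hb : PTF b) (hi : PTF i) (hj : PTF j) :
    PTF (fun c => ent (b c) (i c) (j c)) := by
  unfold ent
  exact ptf_getD' hj (ptf_getD' hi hb (PTF.const [])) (PTF.const 0)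

theorem ptf_toUS {I : γ → Iface.Inst} (hI : PTF I) : PTF (fun c => toUS (I c)) := by
  unfold toUS tcells
  have h1 : PTF (fun c => (I c).1) := PTF.comp PTF.fst hI
  have h2 : PTF (fun c => (I c).2.1) := PTF.comp PTF.fst (PTF.comp PTF.snd hI)
  have h3 : PTF (fun c => (I c).2.2) := PTF.comp PTF.snd (PTF.comp PTF.snd hI)
  have h2' : PTF (fun p : γ × ℕ => (I p.1).2.1) := PTF.comp (g := fun c => (I c).2.1) h2 PTF.fst
  have h1' : PTF (fun q : (γ × ℕ) × ℕ => (I q.1.1).1) :=
    PTF.comp (g := fun c => (I c).1) h1 (PTF.comp PTF.fst PTF.fst)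
  have h3' : PTF (fun q : (γ × ℕ) × ℕ => (I q.1.1).2.2) :=
    PTF.comp (g := fun c => (I c).2.2) h3 (PTF.comp PTF.fst PTF.fst)
  refine PTF.prodMk ?_ (PTF.append (PTF.map h1 ?_) (PTF.map h2 ?_))
  · refine PTF.flatMap (PTF.range (PTU.length h1)) ?_
    refine PTF.map (l := fun p : γ × ℕ => List.range (I p.1).2.1.length)
      (f := fun p j => (p.2, (I p.1).1.length + j, ent (I p.1).2.2 p.2 j))
      (PTF.range (PTU.length h2')) ?_
    refine PTF.prodMk (PTF.comp PTF.snd PTF.fst) (PTF.prodMk (PTF.natAdd (PTU.toPTF (PTU.length h1')) PTF.snd) ?_)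
    exact ptf_ent h3' (PTF.comp PTF.snd PTF.fst) PTF.snd
  · exact PTF.intNatCast PTF.snd
  · exact PTF.intNeg (PTF.intNatCast PTF.snd)

theorem ptf_unflat {m n : γ → ℕ} {y : γ → List ℕ} (hm : PTU m) (hn : PTU n) (hy : PTF y) :
    PTF (fun c => unflat (m c) (n c) (y c)) := by
  unfold unflat
  refine PTF.map (PTF.range hm) ?_
  refine PTF.map (l := fun p : γ × ℕ => List.range (n p.1))
    (f := fun p j => (y p.1).getD (p.2 * n p.1 + j) 0) (PTF.range (PTU.comp hn PTF.fst)) ?_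
  refine ptf_getD' ?_ (PTF.comp hy (PTF.comp PTF.fst PTF.fst)) (PTF.const 0)
  exact PTF.natAdd (PTF.natMul (PTF.comp PTF.snd PTF.fst)
    (PTU.toPTF (PTU.comp hn (PTF.comp PTF.fst PTF.fst)))) PTF.snd

end Crest.Agent.R309.USP
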