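import Crest.Agent.R309.USParamPT
import Crest.Agent.R309.USPTConv

/-!
# R309: `InnerSpec` (helper305)
-/

set_option autoImplicit false

namespace Crest.Agent.R309.USP

open Crest.Agent.Lib.PT Crest.Agent.R309.PTX Crest.Agent.R309.US Crest.Agent.R309.Iface

theorem innerSpec_of (h : ∀ {γ : Type} [PTCode γ] {I : γ → US.Inst} {q t p m N lT : γ → ℕ}
    {X : γ → List ℕ} {tape : γ → List Bool}, PTF I → PTU q → PTU t → PTU p → PTU m → PTU N →
    PTU lT → PTU (fun c => 2 ^ lT c) → PTF X → PTF tape →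
    PTF (fun c => inner (I c) (q c) (t c) (p c) (m c) (N c) (lT c) (X c) (tape c))) : InnerSpec := by
  refine ⟨fun x l => EK' x.1.1 x.1.2.val x.2 l, lenK, ?_, ?_, fun I K hI => ?_⟩
  · unfold EK' innerK
    have hI : PTF (fun x : ((Iface.Inst × Un) × Tab) × List Bool => x.1.1.1) := by fun_prop
    have hK : PTU (fun x : ((Iface.Inst × Un) × Tab) × List Bool => x.1.1.2.val) :=
      PTU.val (by fun_prop)
    have hX : PTF (fun x : ((Iface.Inst × Un) × Tab) × List Bool => x.1.2) := by fun_prop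
    have ht : PTF (fun x : ((Iface.Inst × Un) × Tab) × List Bool => x.2) := by fun_prop
    refine ptf_unflat (PTU.length (l := fun x : ((Iface.Inst × Un) × Tab) × List Bool => x.1.1.1.1)
      (by fun_prop)) (PTU.length (l := fun x : ((Iface.Inst × Un) × Tab) × List Bool =>
      x.1.1.1.2.1) (by fun_prop)) ?_
    exact h (ptf_toUS hI) (ptu_qK hK) (ptu_tK hK) (ptu_pK hK) (ptu_mK hK) (ptu_NK hK)
      (ptu_lTK hK) (ptu_two_pow_lTK hK) (PTF.flatten hX) ht
  · exact ptu_lenK (PTU.val PTF.id)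
  · obtain ⟨h1, h2, h3⟩ := inner_main I K hI
    exact ⟨fun X hX t _ => h1 X hX t, h2, h3⟩

end Crest.Agent.R309.USP
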