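import Crest.Agent.R309.USInner
import Crest.Agent.R309.PTSolve

/-!
# R309: the unary sampler is polynomial time (helper943)

PTF side of `USDefs`: every function of the unary sampler is polynomial time on ALL
inputs, as soon as the instance, gauge, configuration and tape are, and the parameters are poly-time unary.
-/

set_option autoImplicit false
set_option linter.dupNamespace false

namespace Crest.Agent.R309.US

open Crest.Agent.Lib.PT Crest.Agent.R309.PTX Crest.Agent.R309.Tape

variable {γ : Type} [PTCode γ]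

/-! ### loads, defects, norms -/

theorem ptf_contrib {c : γ → UCell} {y v : γ → ℕ} (hc : PTF c) (hy : PTF y) (hv : PTF v) :
    PTF (fun g => contrib (c g) (y g) (v g)) := by
  unfold contrib
  pt_solve

theorem ptf_load {R : γ → List UCell} {y : γ → List ℕ} {v : γ → ℕ} (hR : PTF R) (hy : PTF y)
    (hv : PTF v) : PTF (fun g => load (R g) (y g) (v g)) := by
  unfold load
  refine PTF.intListSum (PTF.zipWith hR hy ?_)
  exact ptf_contrib (by fun_prop) (by fun_prop) (by fun_prop)

theorem ptf_tau {I : γ → Inst} {y : γ → List ℕ} (hI : PTF I) (hy : PTF y) :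
    PTF (fun g => tau (I g) (y g)) := by
  unfold tau
  refine PTF.map (PTF.range (PTU.length (PTF.comp PTF.snd hI))) ?_
  refine PTF.intSub ?_ ?_
  · exact ptf_getD' (by fun_prop) (PTF.comp PTF.snd (PTF.comp hI PTF.fst)) (PTF.const 0)
  · exact ptf_load (PTF.comp PTF.fst (PTF.comp hI PTF.fst)) (by fun_prop) (by fun_prop)

theorem ptf_norm1 {t : γ → List ℤ} (ht : PTF t) : PTF (fun g => norm1 (t g)) := by
  unfold norm1
  exact PTF.natSum (PTF.map ht (PTF.intNatAbs (by fun_prop)))

theorem ptf_dot {k t : γ → List ℤ} (hk : PTF k) (ht : PTF t) : PTF (fun g => dot (k g) (t g)) := by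
  unfold dot
  exact PTF.intListSum (PTF.zipWith hk ht (PTF.intMul (by fun_prop) (by fun_prop)))

/-! ### moves and thresholds -/

theorem ptf_mv {R : γ → List UCell} {y : γ → List ℕ} {i : γ → ℕ} (hR : PTF R) (hy : PTF y)
    (hi : PTF i) : PTF (fun g => mv (R g) (y g) (i g)) := by
  unfold mv
  have h2 : PTF (fun g => i g / 2) := PTF.natDiv hi (PTF.const 2)
  have hyi : PTF (fun g => (y g).getD (i g / 2) 0) := ptf_getD' h2 hy (PTF.const 0)
  refine PTF.ite (PTPred.natLt h2 (PTU.length hR).toPTF) ?_ (PTF.const none)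
  refine PTF.ite (PTPred.natEq (PTF.natMod hi (PTF.const 2)) (PTF.const 1)) ?_ ?_
  · refine PTF.ite (PTPred.natLt hyi ?_) ?_ (PTF.const none)
    · exact PTF.comp (g := fun c : UCell => c.2.2) (by fun_prop) (ptf_getD' h2 hR (PTF.const _))
    · exact PTF.optSome (ptf_set' hy h2 (PTF.natAdd hyi (PTF.const 1)))
  · refine PTF.ite (PTPred.natLt (PTF.const 0) hyi) ?_ (PTF.const none)
    exact PTF.optSome (ptf_set' hy h2 (PTF.natSub hyi (PTF.const 1)))

theorem ptf_incr {I : γ → Inst} {y z : γ → List ℕ} (hI : PTF I) (hy : PTF y) (hz : PTF z) :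
    PTF (fun g => incr (I g) (y g) (z g)) := by
  unfold incr
  exact PTF.natSub (ptf_norm1 (ptf_tau hI hz)) (ptf_norm1 (ptf_tau hI hy))

theorem ptf_decrK {I : γ → Inst} {k : γ → List ℤ} {y z : γ → List ℕ} (hI : PTF I) (hk : PTF k)
    (hy : PTF y) (hz : PTF z) : PTF (fun g => decrK (I g) (k g) (y g) (z g)) := by
  unfold decrK
  exact PTF.intToNat (PTF.intSub (ptf_dot hk (ptf_tau hI hy)) (ptf_dot hk (ptf_tau hI hz)))

theorem ptf_num {I : γ → Inst} {t p m : γ → ℕ} {k : γ → List ℤ} {y z : γ → List ℕ} (hI : PTF I)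
    (ht : PTU t) (hp : PTU p) (hm : PTU m) (hk : PTF k) (hy : PTF y) (hz : PTF z) :
    PTF (fun g => num (I g) (t g) (p g) (m g) (k g) (y g) (z g)) := by
  unfold num
  have hi := PTF.natMinUn (ptf_incr hI hy hz) hm
  have hd := PTF.natMinUn (ptf_decrK hI hk hy hz) hm
  refine PTF.natMin (PTF.natTwoPow hm) (PTF.natMul (PTF.natTwoPow ?_) ?_)
  · exact PTU.sub hm (PTU.add (PTU.mul ht hi) (PTU.mul hp hd))
  · exact PTF.natPow (PTF.natSub (PTF.natTwoPow hp) (PTF.const 1)) hd

/-! ### the soft step -/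

theorem ptf_msb' {l : γ → List Bool} (hl : PTF l) : PTF (fun g => Arith.msb (l g)) :=
  PTF.comp Arith.ptf_msb hl

theorem ptf_step {I : γ → Inst} {q t p m : γ → ℕ} {k : γ → List ℤ} {y : γ → List ℕ}
    {bits : γ → List Bool} (hI : PTF I) (hq : PTU q) (ht : PTU t) (hp : PTU p) (hm : PTU m)
    (hk : PTF k) (hy : PTF y) (hb : PTF bits) :
    PTF (fun g => step (I g) (q g) (t g) (p g) (m g) (k g) (y g) (bits g)) := by
  unfold step MC.mstep
  refine PTF.optionCasesOn
    (s := fun g => mv (I g).1 (y g) (Arith.msb ((bits g).take (q g))))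
    (f := y)
    (g := fun g s' => if Arith.msb ((bits g).drop (q g)) <
      num (I g) (t g) (p g) (m g) (k g) (y g) s' then s' else y g) ?_ hy ?_
  · exact ptf_mv (PTF.comp PTF.fst hI) hy (ptf_msb' (PTF.take hq hb))
  · have hf : PTF (fun p : γ × List ℕ => p.1) := PTF.fst
    refine PTF.ite (PTPred.natLt (ptf_msb' (PTF.drop (hq.comp hf) (hb.comp hf))) ?_) PTF.snd
      (hy.comp hf)
    exact ptf_num (hI.comp hf) (ht.comp hf) (hp.comp hf) (hm.comp hf) (hk.comp hf) (hy.comp hf)
      PTF.snd

/-! ### size bounds for the soft chain -/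

/-- bound for all values that can occur in the soft chain started at `y` -/
def vmax (I : Inst) (y : List ℕ) : ℕ := y.sum + (I.1.map (fun c => c.2.2)).sum

theorem bd_le_sum (R : List UCell) (i : ℕ) :
    (R.getD i (0, 0, 0)).2.2 ≤ (R.map (fun c => c.2.2)).sum := by
  rw [List.getD_eq_getElem?_getD]
  rcases h : R[i]? with _ | c
  · simp
  · have hc : c ∈ R := List.mem_of_getElem? h
    exact List.single_le_sum (by simp) _ (List.mem_map_of_mem hc)

theorem getD_le_of_forall {y : List ℕ} {S : ℕ} (h : ∀ a ∈ y, a ≤ S) (i : ℕ) : y.getD i 0 ≤ S := by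
  rw [List.getD_eq_getElem?_getD]
  rcases h' : y[i]? with _ | c
  · simp
  · exact h c (List.mem_of_getElem? h')

theorem mv_bound {R : List UCell} {y z : List ℕ} {i S : ℕ} (hS : (R.map (fun c => c.2.2)).sum ≤ S)
    (h : ∀ a ∈ y, a ≤ S) (hz : mv R y i = some z) : z.length = y.length ∧ ∀ a ∈ z, a ≤ S := by
  have h0 := getD_le_of_forall h (i / 2)
  have hb := (bd_le_sum R (i / 2)).trans hS
  unfold mv at hz
  split_ifs at hz with h1 h2 h3 h4
  · have := Option.some.inj hz
    subst this
    refine ⟨by simp, fun a ha => ?_⟩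
    rcases List.mem_or_eq_of_mem_set ha with ha | rfl
    · exact h a ha
    · omega
  · have := Option.some.inj hz
    subst this
    refine ⟨by simp, fun a ha => ?_⟩
    rcases List.mem_or_eq_of_mem_set ha with ha | rfl
    · exact h a ha
    · omega

theorem step_bound {I : Inst} {q t p m : ℕ} {k : List ℤ} {y : List ℕ} {bits : List Bool} {S : ℕ}
    (hS : (I.1.map (fun c => c.2.2)).sum ≤ S) (h : ∀ a ∈ y, a ≤ S) :
    (step I q t p m k y bits).length = y.length ∧ ∀ a ∈ step I q t p m k y bits, a ≤ S := by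
  unfold step MC.mstep
  rcases hz : mv I.1 y (Arith.msb (bits.take q)) with _ | z
  · exact ⟨rfl, h⟩
  · simp only
    split_ifs
    · exact mv_bound hS h hz
    · exact ⟨rfl, h⟩

theorem soft_bound {I : Inst} {q t p m N : ℕ} {k : List ℤ} {y : List ℕ} {tape : List Bool} {S : ℕ}
    (hS : (I.1.map (fun c => c.2.2)).sum ≤ S) (h : ∀ a ∈ y, a ≤ S) :
    (soft I q t p m N k y tape).length = y.length ∧ ∀ a ∈ soft I q t p m N k y tape, a ≤ S := by
  unfold soft
  induction N with
  | zero => simpa [runSteps] using h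
  | succ N ih =>
    rw [runSteps_succ']
    have := step_bound (q := q) (t := t) (p := p) (m := m) (k := k)
      (bits := ((tape.drop (N * (q + m))).take (q + m))) hS ih.2
    exact ⟨this.1.trans ih.1, this.2⟩

theorem le_vmax {I : Inst} {y : List ℕ} : ∀ a ∈ y, a ≤ vmax I y := fun a ha =>
  (List.single_le_sum (by simp) a ha).trans (Nat.le_add_right _ _)

theorem sum_le_vmax (I : Inst) (y : List ℕ) : (I.1.map (fun c => c.2.2)).sum ≤ vmax I y :=
  Nat.le_add_left _ _

/-- size of a list of bounded naturals -/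
theorem sz_listNat_le {y : List ℕ} {S : ℕ} (h : ∀ a ∈ y, a ≤ S) :
    sz y ≤ y.length * (2 * sz S + 1) := by
  refine sz_list_le fun a ha => ?_
  rw [sz_nat, sz_nat]
  exact Nat.size_le_size (h a ha)

theorem ptf_bd : PTF₂ (fun (_ : γ) (c : UCell) => c.2.2) :=
  PTF.comp (g := fun p : ℕ × ℕ => p.2) PTF.snd
    (PTF.comp (g := fun p : ℕ × ℕ × ℕ => p.2) PTF.snd PTF.snd)

theorem ptf_vmax {I : γ → Inst} {y : γ → List ℕ} (hI : PTF I) (hy : PTF y) :
    PTF (fun g => vmax (I g) (y g)) := by
  unfold vmax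
  exact PTF.natAdd (PTF.natSum hy) (PTF.natSum (PTF.map (PTF.comp PTF.fst hI)
    (ptf_bd (γ := γ))))

theorem ptf_soft {I : γ → Inst} {q t p m N : γ → ℕ} {k : γ → List ℤ} {y : γ → List ℕ}
    {tape : γ → List Bool} (hI : PTF I) (hq : PTU q) (ht : PTU t) (hp : PTU p) (hm : PTU m)
    (hN : PTU N) (hk : PTF k) (hy : PTF y) (htape : PTF tape) :
    PTF (fun g => soft (I g) (q g) (t g) (p g) (m g) (N g) (k g) (y g) (tape g)) := by
  unfold soft
  refine ptf_runSteps_inv
    (f := fun g y bits => step (I g) (q g) (t g) (p g) (m g) (k g) y bits)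
    (r := fun g => q g + m g) (k := N) (s := y) (t := tape) ?_ (PTU.add hq hm).toPTF hN hy htape
    (B := fun g => (y g).length * (2 * sz (vmax (I g) (y g)) + 1)) ?_
    (fun g x => x.length = (y g).length ∧ ∀ a ∈ x, a ≤ vmax (I g) (y g)) ?_ ?_ ?_
  · have hf : PTF (fun p : γ × List ℕ × List Bool => p.1) := PTF.fst
    exact ptf_step (hI.comp hf) (hq.comp hf) (ht.comp hf) (hp.comp hf) (hm.comp hf) (hk.comp hf)
      (by fun_prop) (by fun_prop)
  · have h1 := (PTU.length hy).pb
    have h2 := (ptf_vmax hI hy).sz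
    fun_prop
  · intro g
    exact ⟨rfl, le_vmax⟩
  · rintro g x l ⟨h1, h2⟩
    have := step_bound (q := q g) (t := t g) (p := p g) (m := m g) (k := k g) (bits := l)
      (sum_le_vmax (I g) (y g)) h2
    exact ⟨this.1.trans h1, this.2⟩
  · rintro g x ⟨h1, h2⟩
    rw [← h1]
    exact sz_listNat_le h2

/-! ### the gauge -/

theorem natAbs_contrib_le (c : UCell) (a v : ℕ) : (contrib c a v).natAbs ≤ a := by
  unfold contrib
  split_ifs <;> omega

theorem natAbs_load_le (R : List UCell) (y : List ℕ) (v : ℕ) : (load R y v).natAbs ≤ y.sum := by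
  unfold load
  induction R generalizing y with
  | nil => simp
  | cons c R ih =>
    cases y with
    | nil => simp
    | cons a y =>
      have h1 := ih y
      have h2 := natAbs_contrib_le c a v
      simp only [List.zipWith_cons_cons, List.sum_cons]
      omega

theorem natAbs_getD_le (d : List ℤ) (v : ℕ) : (d.getD v 0).natAbs ≤ (d.map Int.natAbs).sum := by
  rw [List.getD_eq_getElem?_getD]
  rcases h : d[v]? with _ | c
  · simp
  · exact List.single_le_sum (by simp) _ (List.mem_map_of_mem (List.mem_of_getElem? h))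

theorem natAbs_tau_le (I : Inst) (y : List ℕ) :
    ∀ a ∈ tau I y, a.natAbs ≤ norm1 I.2 + y.sum := by
  intro a ha
  unfold tau at ha
  rw [List.mem_map] at ha
  obtain ⟨v, _, rfl⟩ := ha
  have h1 := natAbs_getD_le I.2 v
  have h2 := natAbs_load_le I.1 y v
  unfold norm1
  omega

theorem sum_le_of_forall {y : List ℕ} {S : ℕ} (h : ∀ a ∈ y, a ≤ S) : y.sum ≤ y.length * S := by
  have := List.sum_le_card_nsmul y S h
  simpa using this

/-- bound for the defects of the soft chain started at `0` -/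
def dmax (I : Inst) : ℕ := norm1 I.2 + I.1.length * (I.1.map (fun c => c.2.2)).sum

theorem ptf_dmax {I : γ → Inst} (hI : PTF I) : PTF (fun g => dmax (I g)) := by
  unfold dmax
  exact PTF.natAdd (ptf_norm1 (PTF.comp PTF.snd hI)) (PTF.natMul
    (PTU.length (PTF.comp PTF.fst hI)).toPTF
    (PTF.natSum (PTF.map (PTF.comp PTF.fst hI) (ptf_bd (γ := γ)))))

theorem natAbs_tau_soft_le {I : Inst} {q t p m N : ℕ} {k : List ℤ} {tape : List Bool} :
    ∀ a ∈ tau I (soft I q t p m N k (List.replicate I.1.length 0) tape), a.natAbs ≤ dmax I := by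
  intro a ha
  have h := soft_bound (I := I) (q := q) (t := t) (p := p) (m := m) (N := N) (k := k)
    (y := List.replicate I.1.length 0) (tape := tape) (S := (I.1.map (fun c => c.2.2)).sum) le_rfl
    (by intro a ha; rw [List.eq_of_mem_replicate ha]; omega)
  have h1 := natAbs_tau_le _ _ a ha
  have h2 := sum_le_of_forall h.2
  rw [h.1, List.length_replicate] at h2
  unfold dmax
  omega

/-- size of a difference of integer lists -/
theorem sz_zipWith_sub_le (k t : List ℤ) {D n : ℕ} (ht : ∀ a ∈ t, a.natAbs ≤ D) (hn : t.length ≤ n) :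
    sz (List.zipWith (fun a b => a - b) k t) ≤ sz k + n * (2 * (sz D + 1)) := by
  induction k generalizing t n with
  | nil => simp
  | cons a k ih =>
    cases t with
    | nil => simp
    | cons b t =>
      obtain ⟨n, rfl⟩ : ∃ n', n = n' + 1 := ⟨n - 1, by simp at hn; omega⟩
      have h1 := ih t (n := n) (fun a ha => ht a (List.mem_cons_of_mem _ ha)) (by simpa using hn)
      have h2 := ht b List.mem_cons_self
      simp only [List.zipWith_cons_cons, sz_cons, sz_int]
      have h3 : (a - b).natAbs.size ≤ a.natAbs.size + sz D + 1 := by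
        have e1 : (a - b).natAbs ≤ a.natAbs + D := by omega
        have e2 := Nat.size_le_size e1
        have e3 := Arith.size_add_le a.natAbs D
        rw [sz_nat]
        omega
      have e : (n + 1) * (2 * (sz D + 1)) = n * (2 * (sz D + 1)) + 2 * (sz D + 1) := by ring
      omega

theorem ptf_sgdRound {I : γ → Inst} {q t p m N : γ → ℕ} {st : γ → List ℤ × ℕ}
    {tape : γ → List Bool} (hI : PTF I) (hq : PTU q) (ht : PTU t) (hp : PTU p) (hm : PTU m)
    (hN : PTU N) (hst : PTF st) (htape : PTF tape) :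
    PTF (fun g => sgdRound (I g) (q g) (t g) (p g) (m g) (N g) (st g) (tape g)) := by
  unfold sgdRound
  have h1 : PTF (fun g => (st g).1) := PTF.comp PTF.fst hst
  have h2 : PTF (fun g => (st g).2) := PTF.comp PTF.snd hst
  refine PTF.ite (PTPred.natEq h2 (PTF.const 0)) hst (PTF.prodMk ?_ (PTF.natSub h2 (PTF.const 1)))
  refine PTF.zipWith h1 (ptf_tau hI ?_) (PTF.intSub (by fun_prop) (by fun_prop))
  exact ptf_soft hI hq ht hp hm hN h1
    (PTF.replicate (PTU.length (PTF.comp PTF.fst hI)) (PTF.const 0)) htape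

theorem ptf_gauge {I : γ → Inst} {q t p m N T s : γ → ℕ} {tape : γ → List Bool} (hI : PTF I)
    (hq : PTU q) (ht : PTU t) (hp : PTU p) (hm : PTU m) (hN : PTU N) (hT : PTU T) (hs : PTF s)
    (htape : PTF tape) :
    PTF (fun g => gauge (I g) (q g) (t g) (p g) (m g) (N g) (T g) (s g) (tape g)) := by
  unfold gauge
  refine PTF.comp PTF.fst ?_
  refine ptf_runSteps_add
    (f := fun g st tape => sgdRound (I g) (q g) (t g) (p g) (m g) (N g) st tape)
    (r := fun g => N g * (q g + m g)) (k := T)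
    (s := fun g => (List.replicate (I g).2.length 0, s g)) (t := tape) ?_
    (PTU.mul hN (PTU.add hq hm)).toPTF hT ?_ htape
    (G := fun g => 2 * ((I g).2.length * (2 * (sz (dmax (I g)) + 1)))) ?_ ?_
  · have hf : PTF (fun p : γ × (List ℤ × ℕ) × List Bool => p.1) := PTF.fst
    exact ptf_sgdRound (hI.comp hf) (hq.comp hf) (ht.comp hf) (hp.comp hf) (hm.comp hf)
      (hN.comp hf) (by fun_prop) (by fun_prop)
  · exact PTF.prodMk (PTF.replicate (PTU.length (PTF.comp PTF.snd hI)) (PTF.const 0)) hs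
  · have h1 := (PTU.length (PTF.comp PTF.snd hI)).pb
    have h2 := (ptf_dmax hI).sz
    fun_prop
  · rintro g ⟨k, s'⟩ l
    unfold sgdRound
    simp only
    split_ifs with h
    · simp
    · simp only [sz_prod]
      have h1 := sz_zipWith_sub_le k
        (tau (I g) (soft (I g) (q g) (t g) (p g) (m g) (N g) k (List.replicate (I g).1.length 0) l))
        natAbs_tau_soft_le (length_tau _ _).le
      have h2 : sz (s' - 1) ≤ sz s' := by
        rw [sz_nat, sz_nat]; exact Nat.size_le_size (Nat.sub_le _ _)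
      omega

/-! ### the inner step -/

theorem ptf_inner {I : γ → Inst} {q t p m N lT : γ → ℕ} {X : γ → List ℕ} {tape : γ → List Bool}
    (hI : PTF I) (hq : PTU q) (ht : PTU t) (hp : PTU p) (hm : PTU m) (hN : PTU N) (hlT : PTU lT)
    (hT : PTU (fun g => 2 ^ lT g)) (hX : PTF X) (htape : PTF tape) :
    PTF (fun g => inner (I g) (q g) (t g) (p g) (m g) (N g) (lT g) (X g) (tape g)) := by
  unfold inner
  simp only
  have hlen : PTU (fun g => 2 ^ lT g * (N g * (q g + m g))) :=
    PTU.mul hT (PTU.mul hN (PTU.add hq hm))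
  have hrest := PTF.drop hlT htape
  have hgauge := ptf_gauge hI hq ht hp hm hN hT (ptf_msb' (PTF.take hlT htape))
    (PTF.take hlen hrest)
  have hsoft := ptf_soft hI hq ht hp hm hN hgauge hX (PTF.drop hlen hrest)
  exact PTF.ite (PTPred.natEq (ptf_norm1 (ptf_tau hI hsoft)) (PTF.const 0)) hsoft hX

/-! ### tape length -/

theorem ptu_innerLen {q m N lT : γ → ℕ} (hq : PTU q) (hm : PTU m) (hN : PTU N) (hlT : PTU lT)
    (hT : PTU (fun g => 2 ^ lT g)) : PTU (fun g => innerLen (q g) (m g) (N g) (lT g)) := by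
  unfold innerLen
  have h := PTU.mul hN (PTU.add hq hm)
  exact PTU.add hlT (PTU.add (PTU.mul hT h) h)

end Crest.Agent.R309.US
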