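import Crest.Agent.R309.USInnerSpec
import Crest.Agent.R309.USPTF943

/-!
# R309: `innerSpec : InnerSpec` (helper305)
-/

set_option autoImplicit false

namespace Crest.Agent.R309.USP

open Crest.Agent.Lib.PT

/-- **The inner step.** -/
theorem innerSpec : Iface.InnerSpec := by
  refine innerSpec_of ?_
  intro γ _ I q t p m N lT X tape hI hq ht hp hm hN hlT hT hX htape
  exact US.ptf_inner hI hq ht hp hm hN hlT hT hX htape

end Crest.Agent.R309.USP
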