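import Crest.Agent.R309.USInner
import Crest.Agent.R309.MCSoft
import Crest.Agent.R309.MCRev

/-!
# R309: mixing and exact reversibility of the soft single-cell chain `US.soft` (helper585)
-/

set_option autoImplicit false

namespace Crest.Agent.R309.US

open Finset Tape Lib.PT.Arith MC

/-! ### moves -/

theorem getD_set_self' {x : List ℕ} {j : ℕ} (h : j < x.length) (a : ℕ) :
    (x.set j a).getD j 0 = a := by
  rw [List.getD_eq_getElem?_getD, List.getElem?_set_self h]; rfl

theorem set_getD_self' (x : List ℕ) (j : ℕ) : x.set j (x.getD j 0) = x := by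
  induction x generalizing j with
  | nil => simp
  | cons a x ih =>
    cases j with
    | zero => simp
    | succ j => simpa using ih j

theorem mv_flip {R : List UCell} {x y : List ℕ} {i : ℕ} (hx : x ∈ box R) (h : mv R x i = some y) :
    mv R y (flipIdx i) = some x := by
  have hl : x.length = R.length := length_of_mem_box hx
  have hb := (mem_box_iff.1 hx).2
  unfold mv at h
  split_ifs at h with h1 h2 h3 h3
  · obtain rfl := Option.some.inj h
    have e1 : flipIdx i = i - 1 := by simp [flipIdx, h2]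
    have e2 : (i - 1) / 2 = i / 2 := by omega
    have e3 : (i - 1) % 2 = 0 := by omega
    rw [e1]
    unfold mv
    rw [e2, e3, if_pos h1, if_neg (by norm_num), getD_set_self' (by omega)]
    rw [if_pos (by omega)]
    simp only [Nat.add_sub_cancel, List.set_set]
    rw [set_getD_self']
  · obtain rfl := Option.some.inj h
    have h4 : i % 2 = 0 := by omega
    have e1 : flipIdx i = i + 1 := by simp [flipIdx, h4]
    have e2 : (i + 1) / 2 = i / 2 := by omega
    have e3 : (i + 1) % 2 = 1 := by omega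
    rw [e1]
    unfold mv
    rw [e2, e3, if_pos h1, if_pos rfl, getD_set_self' (by omega)]
    have h5 := hb (i / 2) h1
    rw [if_pos (by omega)]
    simp only [List.set_set]
    rw [Nat.sub_add_cancel (by omega), set_getD_self']

theorem mv_none {R : List UCell} {x : List ℕ} {i : ℕ} (h : 2 * R.length ≤ i) : mv R x i = none := by
  unfold mv
  rw [if_neg (by omega)]

/-- the moves on the subtype -/
def mvS (I : Inst) (x : {y // y ∈ box I.1}) (i : ℕ) : Option {y // y ∈ box I.1} :=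
  match h : mv I.1 x.1 i with
  | none => none
  | some z => some ⟨z, mv_mem_box x.2 h⟩

theorem mvS_map (I : Inst) (x : {y // y ∈ box I.1}) (i : ℕ) :
    mv I.1 x.1 i = (mvS I x i).map Subtype.val := by
  unfold mvS
  split
  · next h => rw [h]; rfl
  · next z h => exact h

theorem mvS_some {I : Inst} {x y : {y // y ∈ box I.1}} {i : ℕ} :
    mvS I x i = some y ↔ mv I.1 x.1 i = some y.1 := by
  rw [mvS_map]
  constructor
  · intro h; rw [h]; rfl
  · intro h
    rw [Option.map_eq_some_iff] at h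
    obtain ⟨z, h1, h2⟩ := h
    rw [h1, Subtype.ext h2]

theorem isProp_mvS {I : Inst} {q : ℕ} (hq : 4 * I.1.length ≤ 2 ^ q) (hq1 : 1 ≤ q) :
    IsProp (MC.prop q (mvS I)) := by
  classical
  refine isProp_prop flipIdx ?_ flipIdx_flipIdx (fun x y i _ h => ?_) ?_
  · intro i hi
    unfold flipIdx
    obtain ⟨r, rfl⟩ : ∃ r, q = r + 1 := ⟨q - 1, by omega⟩
    rw [pow_succ] at hi ⊢
    split_ifs <;> omega
  · rw [mvS_some] at h ⊢
    exact mv_flip x.2 h
  · intro x
    have h1 : (range (2 ^ q)).filter (fun i => mvS I x i ≠ none) ⊆ range (2 * I.1.length) := by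
      intro i hi
      rw [mem_filter] at hi
      rw [mem_range]
      by_contra h
      apply hi.2
      have h2 := mvS_map I x i
      rw [mv_none (by omega)] at h2
      exact (Option.map_eq_none_iff.1 h2.symm)
    have h2 := card_le_card h1
    rw [card_range] at h2
    omega

/-! ### how loads and defects change -/

/-- unit change of the load of `v` -/
def dl (c : UCell) (v : ℕ) : ℤ := (if c.1 = v then 1 else 0) - (if c.2.1 = v then 1 else 0)

theorem contrib_succ (c : UCell) (a v : ℕ) : contrib c (a + 1) v = contrib c a v + dl c v := by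
  unfold contrib dl
  split_ifs <;> push_cast <;> ring

theorem load_set {R : List UCell} {y : List ℕ} {i : ℕ} (hi : i < R.length)
    (hy : y.length = R.length) (a v : ℕ) :
    load R (y.set i a) v = load R y v +
      (contrib (R.getD i (0, 0, 0)) a v - contrib (R.getD i (0, 0, 0)) (y.getD i 0) v) := by
  induction R generalizing y i with
  | nil => simp at hi
  | cons c R ih =>
    cases y with
    | nil => simp at hy
    | cons b y =>
      cases i with
      | zero =>
        simp only [load, List.set_cons_zero, List.zipWith_cons_cons, List.sum_cons,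
          List.getD_cons_zero]
        ring
      | succ i =>
        have := ih (y := y) (i := i) (by simpa using hi) (by simpa using hy)
        simp only [load, List.set_cons_succ, List.zipWith_cons_cons, List.sum_cons,
          List.getD_cons_succ] at this ⊢
        rw [this]; ring

/-- defect at `v` -/
def tv (I : Inst) (y : List ℕ) (v : ℕ) : ℤ := I.2.getD v 0 - load I.1 y v

theorem sum_map_range {M : Type*} [AddCommMonoid M] (f : ℕ → M) (n : ℕ) :
    ((List.range n).map f).sum = ∑ v ∈ range n, f v := by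
  induction n with
  | zero => simp
  | succ n ih =>
    rw [List.range_succ, List.map_append, List.sum_append, ih, sum_range_succ]
    simp

theorem norm1_tau (I : Inst) (y : List ℕ) :
    norm1 (tau I y) = ∑ v ∈ range I.2.length, (tv I y v).natAbs := by
  unfold norm1 tau
  rw [List.map_map, sum_map_range]
  rfl

theorem dot_map_range (k : List ℤ) (f : ℕ → ℤ) (n : ℕ) (hk : k.length = n) :
    dot k ((List.range n).map f) = ∑ v ∈ range n, k.getD v 0 * f v := by
  unfold dot
  induction n generalizing k f with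
  | zero => simp
  | succ n ih =>
    cases k with
    | nil => simp at hk
    | cons a k =>
      rw [List.range_succ_eq_map, List.map_cons, List.zipWith_cons_cons, List.sum_cons,
        List.map_map, ih k (f ∘ Nat.succ) (by simpa using hk), sum_range_succ']
      simp only [List.getD_cons_succ, List.getD_cons_zero, Function.comp]
      rw [add_comm]

theorem dot_tau (I : Inst) {k : List ℤ} (hk : k.length = I.2.length) (y : List ℕ) :
    dot k (tau I y) = ∑ v ∈ range I.2.length, k.getD v 0 * tv I y v :=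
  dot_map_range k _ _ hk

theorem tv_set_succ {I : Inst} {y : List ℕ} {i : ℕ} (hi : i < I.1.length)
    (hy : y.length = I.1.length) (v : ℕ) :
    tv I (y.set i (y.getD i 0 + 1)) v = tv I y v - dl (I.1.getD i (0, 0, 0)) v := by
  unfold tv
  rw [load_set hi hy, contrib_succ]
  ring

theorem sum_abs_dl_le (c : UCell) (n : ℕ) : ∑ v ∈ range n, (dl c v).natAbs ≤ 2 := by
  have h1 : ∀ v ∈ range n, (dl c v).natAbs ≤ (if c.1 = v then 1 else 0) + (if c.2.1 = v then 1 else 0) := by
    intro v _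
    unfold dl
    split_ifs <;> simp
  refine (sum_le_sum h1).trans ?_
  rw [sum_add_distrib, sum_ite_eq, sum_ite_eq]
  split_ifs <;> simp

theorem norm1_set_le {I : Inst} {y : List ℕ} {i : ℕ} (hi : i < I.1.length)
    (hy : y.length = I.1.length) :
    |(norm1 (tau I (y.set i (y.getD i 0 + 1))) : ℤ) - norm1 (tau I y)| ≤ 2 := by
  have h := sum_abs_dl_le (I.1.getD i (0, 0, 0)) I.2.length
  rw [norm1_tau, norm1_tau]
  push_cast
  rw [← sum_sub_distrib]
  refine (abs_sum_le_sum_abs _ _).trans ?_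
  have h2 : ∑ v ∈ range I.2.length, |(|tv I (y.set i (y.getD i 0 + 1)) v| - |tv I y v|)| ≤
      ∑ v ∈ range I.2.length, ((dl (I.1.getD i (0, 0, 0)) v).natAbs : ℤ) := by
    refine sum_le_sum fun v _ => ?_
    rw [tv_set_succ hi hy]
    refine (abs_abs_sub_abs_le _ _).trans ?_
    rw [show tv I y v - dl (I.1.getD i (0, 0, 0)) v - tv I y v = - dl (I.1.getD i (0, 0, 0)) v by ring,
      abs_neg, Int.natCast_natAbs]
  refine h2.trans ?_
  exact_mod_cast h

theorem dot_set_le {I : Inst} {k : List ℤ} {A : ℕ} (hk : GB I.2.length A k) {y : List ℕ} {i : ℕ}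
    (hi : i < I.1.length) (hy : y.length = I.1.length) :
    |dot k (tau I (y.set i (y.getD i 0 + 1))) - dot k (tau I y)| ≤ ((2 * A : ℕ) : ℤ) := by
  have h := sum_abs_dl_le (I.1.getD i (0, 0, 0)) I.2.length
  rw [dot_tau I hk.1, dot_tau I hk.1, ← sum_sub_distrib]
  refine (abs_sum_le_sum_abs _ _).trans ?_
  have h2 : ∑ v ∈ range I.2.length,
      |k.getD v 0 * tv I (y.set i (y.getD i 0 + 1)) v - k.getD v 0 * tv I y v| ≤
      ∑ v ∈ range I.2.length, (A : ℤ) * ((dl (I.1.getD i (0, 0, 0)) v).natAbs : ℤ) := by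
    refine sum_le_sum fun v hv => ?_
    rw [tv_set_succ hi hy, ← mul_sub, abs_mul,
      show tv I y v - dl (I.1.getD i (0, 0, 0)) v - tv I y v = - dl (I.1.getD i (0, 0, 0)) v by ring,
      abs_neg, Int.natCast_natAbs]
    refine mul_le_mul_of_nonneg_right ?_ (abs_nonneg _)
    have hv' : v < k.length := by rw [hk.1]; exact mem_range.1 hv
    rw [List.getD_eq_getElem _ _ hv']
    have := hk.2 _ (List.getElem_mem hv')
    rw [← Int.natCast_natAbs]
    exact_mod_cast this
  refine h2.trans ?_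
  rw [← mul_sum]
  have h3 : (∑ v ∈ range I.2.length, ((dl (I.1.getD i (0, 0, 0)) v).natAbs : ℤ)) ≤ 2 := by
    exact_mod_cast h
  push_cast
  nlinarith [Int.natCast_nonneg A]

/-- neighbours -/
theorem mv_nbr {R : List UCell} {x y : List ℕ} {i : ℕ} (hx : x ∈ box R) (h : mv R x i = some y) :
    i / 2 < R.length ∧
      (y = x.set (i / 2) (x.getD (i / 2) 0 + 1) ∨ x = y.set (i / 2) (y.getD (i / 2) 0 + 1)) := by
  have hl : x.length = R.length := length_of_mem_box hx
  unfold mv at h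
  split_ifs at h with h1 h2 h3 h3
  · exact ⟨h1, Or.inl (Option.some.inj h).symm⟩
  · refine ⟨h1, Or.inr ?_⟩
    obtain rfl := Option.some.inj h
    rw [getD_set_self' (by omega), List.set_set, Nat.sub_add_cancel (by omega), set_getD_self']

theorem nbr_norm1 {I : Inst} {x y : List ℕ} {i : ℕ} (hx : x ∈ box I.1) (h : mv I.1 x i = some y) :
    |(norm1 (tau I x) : ℤ) - norm1 (tau I y)| ≤ 2 := by
  have hy := mv_mem_box hx h
  obtain ⟨hi, h1 | h1⟩ := mv_nbr hx h
  · rw [h1, abs_sub_comm]; exact norm1_set_le hi (length_of_mem_box hx)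
  · rw [h1]
    exact norm1_set_le hi (length_of_mem_box hy)

theorem nbr_dot {I : Inst} {k : List ℤ} {A : ℕ} (hk : GB I.2.length A k) {x y : List ℕ} {i : ℕ}
    (hx : x ∈ box I.1) (h : mv I.1 x i = some y) :
    |dot k (tau I x) - dot k (tau I y)| ≤ ((2 * A : ℕ) : ℤ) := by
  have hy := mv_mem_box hx h
  obtain ⟨hi, h1 | h1⟩ := mv_nbr hx h
  · rw [h1, abs_sub_comm]; exact dot_set_le hk hi (length_of_mem_box hx)
  · rw [h1]
    exact dot_set_le hk hi (length_of_mem_box hy)

/-! ### the weight, the acceptance, the kernel -/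

/-- state space -/
abbrev St (I : Inst) : Type := {y // y ∈ box I.1}

/-- `c₂ = 1 - 2^(-p)` -/
noncomputable def c2 (p : ℕ) : ℝ := (2 ^ p - 1) / 2 ^ p

theorem c2_pos {p : ℕ} (hp : 1 ≤ p) : 0 < c2 p := by
  have h2p : (2 : ℝ) ≤ 2 ^ p := by
    calc (2 : ℝ) = 2 ^ 1 := by norm_num
      _ ≤ 2 ^ p := pow_le_pow_right₀ (by norm_num) hp
  exact div_pos (by linarith) (by positivity)

theorem c2_le_one (p : ℕ) : c2 p ≤ 1 := by
  unfold c2
  rw [div_le_one (by positivity)]; linarith

theorem half_le_c2 {p : ℕ} (hp : 1 ≤ p) : 1 / 2 ≤ c2 p := by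
  have h2p : (2 : ℝ) ≤ 2 ^ p := by
    calc (2 : ℝ) = 2 ^ 1 := by norm_num
      _ ≤ 2 ^ p := pow_le_pow_right₀ (by norm_num) hp
  unfold c2
  rw [div_le_div_iff₀ (by norm_num) (by positivity)]
  linarith

theorem Bp_eq (p : ℕ) : Bp p = (c2 p)⁻¹ := by
  unfold Bp c2
  congr 1
  rw [one_div_pow]
  field_simp

/-- the weight as a product of two exponentials -/
theorem wt_eq_sw (I : Inst) (t p : ℕ) (k : List ℤ) (x : St I) :
    wt I t p k x.1 = sw ((1 / 2 : ℝ) ^ t) (c2 p) (fun x : St I => (norm1 (tau I x.1) : ℤ))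
      (fun x : St I => dot k (tau I x.1)) x := by
  unfold wt sw
  rw [neg_neg, zpow_natCast, ← pow_mul, Bp_eq, inv_zpow, zpow_neg]

theorem wt_pos {I : Inst} {t p : ℕ} (hp : 1 ≤ p) (k : List ℤ) (y : List ℕ) : 0 < wt I t p k y := by
  unfold wt
  rw [Bp_eq]
  have := c2_pos hp
  positivity

/-- acceptance probability -/
noncomputable def accS (I : Inst) (t p : ℕ) (k : List ℤ) : St I → St I → ℝ :=
  sa ((1 / 2 : ℝ) ^ t) (c2 p) (fun x : St I => (norm1 (tau I x.1) : ℤ))
      (fun x : St I => dot k (tau I x.1))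

theorem num_eq_snum {I : Inst} {t p m A : ℕ} {k : List ℤ} (ht : 1 ≤ t) (hp : 1 ≤ p)
    (hm : t * 2 + p * (2 * A) ≤ m) {y z : List ℕ}
    (h1 : (norm1 (tau I z) : ℤ) - norm1 (tau I y) ≤ 2)
    (h2 : dot k (tau I y) - dot k (tau I z) ≤ ((2 * A : ℕ) : ℤ)) :
    num I t p m k y z = snum t p m (fun y => (norm1 (tau I y) : ℤ)) (fun y => dot k (tau I y)) y z := by
  have hle := snum_le (t := t) (p := p) (m := m) (d := 2) (e := 2 * A)
    (fun y => (norm1 (tau I y) : ℤ)) (fun y => dot k (tau I y)) (x := y) (y := z)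
    (by simpa using h1) h2 hm
  have hpA : 2 * A ≤ p * (2 * A) := Nat.le_mul_of_pos_left _ hp
  have i1 : incr I y z ≤ m := by unfold incr; omega
  have i2 : decrK I k y z ≤ m := by unfold decrK; omega
  unfold num
  rw [min_eq_left i1, min_eq_left i2]
  have e1 : ((norm1 (tau I z) : ℤ) - norm1 (tau I y)).toNat = incr I y z := by
    unfold incr; omega
  have e3 : snum t p m (fun y => (norm1 (tau I y) : ℤ)) (fun y => dot k (tau I y)) y z =
      2 ^ (m - (t * incr I y z + p * decrK I k y z)) * (2 ^ p - 1) ^ decrK I k y z := by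
    unfold snum
    rw [e1, Nat.sub_sub]
    rfl
  rw [← e3]
  exact min_eq_right hle

/-- the kernel of one step -/
noncomputable def KS (I : Inst) (q t p : ℕ) (k : List ℤ) : St I → St I → ℝ :=
  metro (MC.prop q (mvS I)) (accS I t p k)

theorem impl_step {I : Inst} {q t p m A : ℕ} {k : List ℤ} (ht : 1 ≤ t) (hp : 1 ≤ p)
    (hm : t * 2 + p * (2 * A) ≤ m) (hk : GB I.2.length A k) :
    Impl (step I q t p m k) (q + m) (Subtype.val : St I → List ℕ) (KS I q t p k) := by
  refine impl_mstep (fun x i _ => mvS_map I x i) ?_ ?_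
  · intro x y i _ hxy
    unfold num
    exact min_le_left _ _
  · intro x y i _ hxy
    rw [mvS_some] at hxy
    have h1 := (abs_le.mp (nbr_norm1 x.2 hxy)).1
    have h2 := (abs_le.mp (nbr_dot hk x.2 hxy)).2
    rw [num_eq_snum ht hp hm (by omega) h2]
    exact snum_eq _ _ (by push_cast; omega) h2 hm

theorem isAcc_accS {I : Inst} {t p : ℕ} (hp : 1 ≤ p) (k : List ℤ) (S : St I → St I → ℝ) :
    IsAcc (fun x : St I => wt I t p k x.1) S (accS I t p k) := by
  have h := isAcc_sa (c₁ := (1 / 2 : ℝ) ^ t) (c₂ := c2 p) (by positivity)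
    (pow_le_one₀ (by norm_num) (by norm_num)) (c2_pos hp) (c2_le_one p)
    (fun x : St I => (norm1 (tau I x.1) : ℤ)) (fun x : St I => dot k (tau I x.1)) S
  have e : (fun x : St I => wt I t p k x.1) =
      sw ((1 / 2 : ℝ) ^ t) (c2 p) (fun x : St I => (norm1 (tau I x.1) : ℤ))
        (fun x : St I => dot k (tau I x.1)) := funext fun x => wt_eq_sw I t p k x
  rw [e]
  exact h

theorem accS_ge {I : Inst} {q t p : ℕ} (hp : 1 ≤ p) (k : List ℤ) (x y : St I)
    (hxy : MC.prop q (mvS I) x y ≠ 0) :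
    (1 / 2 : ℝ) ^ (t * 2) * min (wt I t p k x.1) (wt I t p k y.1) ≤
      wt I t p k x.1 * accS I t p k x y := by
  have hex : ∃ i < 2 ^ q, mvS I x i = some y := by
    unfold MC.prop at hxy
    by_contra hcon
    push Not at hcon
    apply hxy
    have : (range (2 ^ q)).filter (fun i => mvS I x i = some y) = ∅ := by
      rw [filter_eq_empty_iff]
      intro i hi
      exact hcon i (mem_range.mp hi)
    rw [this]; simp
  obtain ⟨i, _, hi⟩ := hex
  rw [mvS_some] at hi
  rw [wt_eq_sw, wt_eq_sw, pow_mul]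
  exact sa_ge (by positivity) (pow_le_one₀ (by norm_num) (by norm_num)) (c2_pos hp) _ _
    (by simpa using nbr_norm1 x.2 hi)

theorem rev_KS {I : Inst} {q t p : ℕ} (hp : 1 ≤ p) (hq : 4 * I.1.length ≤ 2 ^ q) (hq1 : 1 ≤ q)
    (k : List ℤ) : Rev (fun x : St I => wt I t p k x.1) (KS I q t p k) :=
  metro_rev_gen (isProp_mvS hq hq1) (isAcc_accS hp k _)

theorem isKer_KS {I : Inst} {q t p : ℕ} (hp : 1 ≤ p) (hq : 4 * I.1.length ≤ 2 ^ q) (hq1 : 1 ≤ q)
    (k : List ℤ) : IsKer (KS I q t p k) :=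
  metro_isKer (isProp_mvS hq hq1) (isAcc_accS (t := t) hp k (MC.prop q (mvS I))).nonneg
    (isAcc_accS (t := t) hp k (MC.prop q (mvS I))).le_one

theorem PN_eq_law {I : Inst} {q t p m A N : ℕ} {k : List ℤ} (ht : 1 ≤ t) (hp : 1 ≤ p)
    (hm : t * 2 + p * (2 * A) ≤ m) (hk : GB I.2.length A k) (X Y : St I) :
    PN I q t p m N k X.1 Y.1 = law (KS I q t p k) (pt X) N Y := by
  unfold PN soft
  rw [(impl_step (q := q) ht hp hm hk).pr_runSteps X N (fun s => s = Y.1)]
  rw [sum_eq_single_of_mem Y (by simp)]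
  intro y hy hne
  rw [mem_filter] at hy
  exact absurd (Subtype.ext hy.2) hne

/-- **Symmetry** of the transition probabilities between tables. -/
theorem PN_symm {I : Inst} {q t p m A N : ℕ} {k : List ℤ} (ht : 1 ≤ t) (hp : 1 ≤ p)
    (hm : t * 2 + p * (2 * A) ≤ m) (hq : 4 * I.1.length ≤ 2 ^ q) (hq1 : 1 ≤ q)
    (hk : GB I.2.length A k) : ∀ X ∈ sols I, ∀ Y ∈ sols I,
      PN I q t p m N k X Y = PN I q t p m N k Y X := by
  intro X hX Y hY
  obtain ⟨hX1, hX2⟩ := mem_sols.1 hX
  obtain ⟨hY1, hY2⟩ := mem_sols.1 hY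
  have h := law_rev (rev_KS (t := t) hp hq hq1 k) N ⟨X, hX1⟩ ⟨Y, hY1⟩
  rw [← PN_eq_law ht hp hm hk, ← PN_eq_law ht hp hm hk] at h
  simp only [wt_of_sol hX2, wt_of_sol hY2, one_mul] at h
  exact h

/-! ### mixing -/

/-- the unnormalised Dirichlet form on the box -/
noncomputable def usDir (R : List UCell) (w f : List ℕ → ℝ) : ℝ :=
  ∑ y ∈ box R, ∑ i ∈ range R.length,
    if y.getD i 0 < (R.getD i (0, 0, 0)).2.2 then
      min (w y) (w (y.set i (y.getD i 0 + 1))) * (f (y.set i (y.getD i 0 + 1)) - f y) ^ 2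
    else 0

theorem dir_ge_usDir {I : Inst} {q : ℕ} (hq : 2 * I.1.length ≤ 2 ^ q) (w : List ℕ → ℝ)
    (hw : ∀ y, 0 ≤ w y) (f : List ℕ → ℝ) :
    usDir I.1 w f / 2 ^ (q + 1) ≤ (∑ x : St I, ∑ y : St I,
      MC.prop q (mvS I) x y * min (w x.1) (w y.1) * (f x.1 - f y.1) ^ 2) / 2 := by
  have h1 : ∀ x : St I, (∑ i ∈ range I.1.length,
      if x.1.getD i 0 < (I.1.getD i (0, 0, 0)).2.2 then
        min (w x.1) (w (x.1.set i (x.1.getD i 0 + 1))) *
          (f (x.1.set i (x.1.getD i 0 + 1)) - f x.1) ^ 2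
      else 0) / 2 ^ q ≤
      ∑ y : St I, MC.prop q (mvS I) x y * min (w x.1) (w y.1) * (f x.1 - f y.1) ^ 2 := by
    intro x
    have h2 := sum_prop_mul q (mvS I) x (fun y => min (w x.1) (w y.1) * (f x.1 - f y.1) ^ 2)
    have h3 : ∑ y : St I, MC.prop q (mvS I) x y * min (w x.1) (w y.1) * (f x.1 - f y.1) ^ 2 =
        ∑ y : St I, MC.prop q (mvS I) x y * (min (w x.1) (w y.1) * (f x.1 - f y.1) ^ 2) :=
      sum_congr rfl fun y _ => by ring
    rw [h3, h2]
    refine div_le_div_of_nonneg_right ?_ (by positivity)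
    have h4 : ∑ i ∈ range I.1.length,
        (mvS I x (2 * i + 1)).elim 0 (fun y => min (w x.1) (w y.1) * (f x.1 - f y.1) ^ 2) ≤
        ∑ j ∈ range (2 ^ q),
          (mvS I x j).elim 0 (fun y => min (w x.1) (w y.1) * (f x.1 - f y.1) ^ 2) := by
      rw [← sum_image (s := range I.1.length) (g := fun i => 2 * i + 1)
        (f := fun j => (mvS I x j).elim 0 (fun y => min (w x.1) (w y.1) * (f x.1 - f y.1) ^ 2))
        (fun a _ b _ h => by simpa using h)]
      refine sum_le_sum_of_subset_of_nonneg ?_ ?_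
      · intro j hj
        rw [mem_image] at hj
        obtain ⟨i, hi, rfl⟩ := hj
        rw [mem_range] at hi ⊢
        omega
      · intro j _ _
        cases mvS I x j with
        | none => exact le_rfl
        | some y => exact mul_nonneg (le_min (hw _) (hw _)) (sq_nonneg _)
    refine le_trans (le_of_eq ?_) h4
    refine sum_congr rfl fun i hi => ?_
    have hi' := mem_range.mp hi
    have e1 : (2 * i + 1) / 2 = i := by omega
    have e2 : mv I.1 x.1 (2 * i + 1) = if x.1.getD i 0 < (I.1.getD i (0, 0, 0)).2.2 then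
        some (x.1.set i (x.1.getD i 0 + 1)) else none := by
      unfold mv
      rw [e1, if_pos hi', if_pos (by omega)]
    have e3 := mvS_map I x (2 * i + 1)
    rw [e2] at e3
    split_ifs at e3 with h5
    · rw [if_pos h5]
      obtain ⟨z, hz1, hz2⟩ := Option.map_eq_some_iff.1 e3.symm
      rw [hz1, ← hz2]
      simp only [Option.elim_some]
      ring
    · rw [if_neg h5]
      rw [Option.map_eq_none_iff.1 e3.symm]
      rfl
  have h5 : usDir I.1 w f = ∑ x : St I, ∑ i ∈ range I.1.length,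
      if x.1.getD i 0 < (I.1.getD i (0, 0, 0)).2.2 then
        min (w x.1) (w (x.1.set i (x.1.getD i 0 + 1))) *
          (f (x.1.set i (x.1.getD i 0 + 1)) - f x.1) ^ 2
      else 0 := by
    unfold usDir
    rw [← sum_coe_sort (box I.1)]
  rw [h5, pow_succ, ← div_div, sum_div]
  exact div_le_div_of_nonneg_right (sum_le_sum fun x _ => h1 x) (by norm_num)

/-- The Poincaré inequality on the box, in the form given by the gap theorem. -/
def BoxPoinc (R : List UCell) (w : List ℕ → ℝ) (C : ℝ) : Prop :=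
  ∀ f : List ℕ → ℝ, ∑ y ∈ box R, w y * f y ^ 2 - (∑ y ∈ box R, w y * f y) ^ 2 / ∑ y ∈ box R, w y ≤
    C * usDir R w f

theorem varU_le_of_boxPoinc {I : Inst} {w : List ℕ → ℝ} (hw : ∀ y, 0 < w y) {C : ℝ} (hC : 0 ≤ C)
    (h : BoxPoinc I.1 w C) {q : ℕ} (hq : 2 * I.1.length ≤ 2 ^ q) (g : St I → ℝ) :
    varU (fun x : St I => w x.1) g ≤ C * 2 ^ (q + 1) * ((∑ x : St I, ∑ y : St I,
      MC.prop q (mvS I) x y * min (w x.1) (w y.1) * (g x - g y) ^ 2) / 2) := by
  classical
  set f : List ℕ → ℝ := fun y => if h : y ∈ box I.1 then g ⟨y, h⟩ else 0 with hf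
  have hfg : ∀ x : St I, f x.1 = g x := fun x => by simp [hf]
  have h1 := h f
  have h2 := dir_ge_usDir hq w (fun y => (hw y).le) f
  have hne : (Finset.univ : Finset (St I)).Nonempty :=
    ⟨⟨_, zero_mem_box I.1⟩, mem_univ _⟩
  have hm : 0 < mass (fun x : St I => w x.1) := sum_pos (fun y _ => hw _) hne
  rw [varU_eq hm.ne']
  have e1 : ∑ x : St I, w x.1 * g x ^ 2 = ∑ y ∈ box I.1, w y * f y ^ 2 := by
    rw [← sum_coe_sort (box I.1)]
    exact sum_congr rfl fun x _ => by rw [hfg]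
  have e2 : mass (fun x : St I => w x.1) = ∑ y ∈ box I.1, w y := by
    rw [← sum_coe_sort (box I.1)]; rfl
  have e3 : ∑ x : St I, w x.1 * g x = ∑ y ∈ box I.1, w y * f y := by
    rw [← sum_coe_sort (box I.1)]
    exact sum_congr rfl fun x _ => by rw [hfg]
  have e4 : mass (fun x : St I => w x.1) * mean (fun x : St I => w x.1) g ^ 2 =
      (∑ y ∈ box I.1, w y * f y) ^ 2 / ∑ y ∈ box I.1, w y := by
    unfold mean
    rw [e3, ← e2]
    field_simp
  rw [e1, e4]
  refine h1.trans ?_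
  simp only [hfg] at h2
  calc C * usDir I.1 w f = C * 2 ^ (q + 1) * (usDir I.1 w f / 2 ^ (q + 1)) := by
        field_simp
    _ ≤ _ := by gcongr

/-- crude bound for the ratio of two weights -/
theorem wt_ratio {I : Inst} {t p A D : ℕ} (hp : 1 ≤ p) {k : List ℤ} (hk : GB I.2.length A k)
    (hD : ∀ y ∈ box I.1, ∀ a ∈ tau I y, a.natAbs ≤ D) {x y : List ℕ} (hx : x ∈ box I.1)
    (hy : y ∈ box I.1) :
    wt I t p k y ≤ 2 ^ (t * (I.2.length * D) + 2 * (I.2.length * (A * D))) * wt I t p k x := by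
  have hn : ∀ z ∈ box I.1, norm1 (tau I z) ≤ I.2.length * D := by
    intro z hz
    rw [norm1_tau]
    have : ∀ v ∈ range I.2.length, (tv I z v).natAbs ≤ D := by
      intro v hv
      refine hD z hz _ ?_
      unfold tau
      rw [List.mem_map]
      exact ⟨v, List.mem_range.2 (mem_range.1 hv), rfl⟩
    refine (sum_le_sum this).trans ?_
    simp
  have hd : ∀ z ∈ box I.1, |dot k (tau I z)| ≤ ((I.2.length * (A * D) : ℕ) : ℤ) := by
    intro z hz
    rw [dot_tau I hk.1]
    refine (abs_sum_le_sum_abs _ _).trans ?_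
    have : ∀ v ∈ range I.2.length, |k.getD v 0 * tv I z v| ≤ ((A * D : ℕ) : ℤ) := by
      intro v hv
      rw [abs_mul, ← Int.natCast_natAbs, ← Int.natCast_natAbs]
      have h1 : (tv I z v).natAbs ≤ D := by
        refine hD z hz _ ?_
        unfold tau
        rw [List.mem_map]
        exact ⟨v, List.mem_range.2 (mem_range.1 hv), rfl⟩
      have hv' : v < k.length := by rw [hk.1]; exact mem_range.1 hv
      have h2 : (k.getD v 0).natAbs ≤ A := by
        rw [List.getD_eq_getElem _ _ hv']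
        exact hk.2 _ (List.getElem_mem hv')
      exact_mod_cast Nat.mul_le_mul h2 h1
    refine (sum_le_sum this).trans ?_
    simp
  have hc2 := c2_pos hp
  have hB1 : 1 ≤ Bp p := by
    rw [Bp_eq]
    exact (one_le_inv₀ hc2).2 (c2_le_one p)
  have hB2 : Bp p ≤ 2 := by
    rw [Bp_eq, inv_le_comm₀ hc2 (by norm_num)]
    have := half_le_c2 hp
    linarith
  have hB0 : 0 < Bp p := by linarith
  have h1 := hn x hx
  have h2 := abs_le.mp (hd x hx)
  have h3 := abs_le.mp (hd y hy)
  unfold wt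
  have hA1 : (1 / 2 : ℝ) ^ (t * norm1 (tau I y)) ≤ 1 := pow_le_one₀ (by norm_num) (by norm_num)
  have hA2 : (1 : ℝ) ≤ 2 ^ (t * (I.2.length * D)) * (1 / 2 : ℝ) ^ (t * norm1 (tau I x)) := by
    have h4 : (1 / 2 : ℝ) ^ (t * (I.2.length * D)) ≤ (1 / 2 : ℝ) ^ (t * norm1 (tau I x)) :=
      pow_le_pow_of_le_one (by norm_num) (by norm_num) (Nat.mul_le_mul_left t h1)
    calc (1 : ℝ) = 2 ^ (t * (I.2.length * D)) * (1 / 2 : ℝ) ^ (t * (I.2.length * D)) := by
          rw [← mul_pow]; norm_num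
      _ ≤ _ := by gcongr
  have hB3 : Bp p ^ dot k (tau I y) ≤ 2 ^ (2 * (I.2.length * (A * D))) * Bp p ^ dot k (tau I x) := by
    have h5 : Bp p ^ (dot k (tau I y) - dot k (tau I x)) ≤ 2 ^ (2 * (I.2.length * (A * D))) := by
      calc Bp p ^ (dot k (tau I y) - dot k (tau I x)) ≤
          Bp p ^ (((2 * (I.2.length * (A * D)) : ℕ) : ℤ)) :=
            zpow_le_zpow_right₀ hB1 (by push_cast at h2 h3 ⊢; linarith [h2.1, h3.2])
        _ = Bp p ^ (2 * (I.2.length * (A * D))) := zpow_natCast _ _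
        _ ≤ _ := pow_le_pow_left₀ hB0.le hB2 _
    rw [zpow_sub₀ hB0.ne', div_le_iff₀ (by positivity)] at h5
    exact h5
  calc (1 / 2 : ℝ) ^ (t * norm1 (tau I y)) * Bp p ^ dot k (tau I y)
      ≤ 1 * (2 ^ (2 * (I.2.length * (A * D))) * Bp p ^ dot k (tau I x)) := by
        gcongr
    _ ≤ (2 ^ (t * (I.2.length * D)) * (1 / 2 : ℝ) ^ (t * norm1 (tau I x))) *
        (2 ^ (2 * (I.2.length * (A * D))) * Bp p ^ dot k (tau I x)) := by
        gcongr
    _ = _ := by rw [pow_add]; ring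

theorem card_box_le (R : List UCell) (B : ℕ) (hB : ∀ c ∈ R, c.2.2 ≤ B) :
    (box R).card ≤ 2 ^ (B * R.length) := by
  induction R with
  | nil => simp [box]
  | cons c R ih =>
    have h1 : (box (c :: R)).card = ∑ y ∈ box (c :: R), 1 := by simp
    rw [h1, sum_box_cons]
    simp only [sum_const, smul_eq_mul, mul_one, card_range]
    have h2 := ih (fun c hc => hB c (List.mem_cons_of_mem _ hc))
    have h3 : c.2.2 + 1 ≤ 2 ^ B := by
      have := hB c List.mem_cons_self
      have h4 : B + 1 ≤ 2 ^ B := Nat.lt_two_pow_self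
      omega
    calc (c.2.2 + 1) * (box R).card ≤ 2 ^ B * 2 ^ (B * R.length) := Nat.mul_le_mul h3 h2
      _ = 2 ^ (B * (c :: R).length) := by
        rw [← pow_add, List.length_cons]
        congr 1
        ring

/-- exponent of the crude starting bound -/
def Lst (I : Inst) (t A D B : ℕ) : ℕ :=
  t * (I.2.length * D) + 2 * (I.2.length * (A * D)) + B * I.1.length

/-- **Mixing of the soft chain** (total variation form). -/
theorem soft_tv {I : Inst} {q t p A D B N κ : ℕ} {k : List ℤ} (hp : 1 ≤ p)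
    (hq : 4 * I.1.length ≤ 2 ^ q) (hq1 : 1 ≤ q)
    (hk : GB I.2.length A k) (hD : ∀ y ∈ box I.1, ∀ a ∈ tau I y, a.natAbs ≤ D)
    (hB : ∀ c ∈ I.1, c.2.2 ≤ B) {C : ℝ} (hC : 1 ≤ C)
    (hP : BoxPoinc I.1 (wt I t p k) C)
    (hN : C * 2 ^ (q + 1) * 4 ^ t * ((Lst I t A D B + κ : ℕ) : ℝ) ≤ N) (x : St I) :
    MC.tv (law (KS I q t p k) (pt x) N)
      (fun y => wt I t p k y.1 / mass (fun x : St I => wt I t p k x.1)) ≤ (1 / 2) ^ κ := by
  have hw : ∀ x : St I, 0 < wt I t p k x.1 := fun x => wt_pos hp k x.1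
  have hC2 : (1 : ℝ) ≤ C * 2 ^ (q + 1) := by
    have : (1 : ℝ) ≤ 2 ^ (q + 1) := one_le_pow₀ (by norm_num)
    nlinarith
  have hL : mass (fun x : St I => wt I t p k x.1) / wt I t p k x.1 ≤
      Real.exp (2 * (Lst I t A D B : ℝ)) := by
    refine (mass_div_le (w := fun x : St I => wt I t p k x.1) (hw x)
      (fun y => wt_ratio hp hk hD x.2 y.2)).trans ?_
    rw [Fintype.card_coe]
    have h1 : ((box I.1).card : ℝ) ≤ 2 ^ (B * I.1.length) := by exact_mod_cast card_box_le _ B hB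
    calc (2 : ℝ) ^ (t * (I.2.length * D) + 2 * (I.2.length * (A * D))) * ((box I.1).card : ℝ)
        ≤ 2 ^ (t * (I.2.length * D) + 2 * (I.2.length * (A * D))) * 2 ^ (B * I.1.length) := by
          gcongr
      _ = 2 ^ (Lst I t A D B) := by rw [← pow_add]; rfl
      _ ≤ (Real.exp 1) ^ (Lst I t A D B) := by
          refine pow_le_pow_left₀ (by norm_num) ?_ _
          have := Real.add_one_le_exp (1 : ℝ)
          linarith
      _ = Real.exp ((Lst I t A D B : ℝ)) := by rw [← Real.exp_nat_mul]; ring_nf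
      _ ≤ _ := Real.exp_le_exp.mpr (by
          have : (0 : ℝ) ≤ (Lst I t A D B : ℝ) := Nat.cast_nonneg _
          linarith)
  have hlog : Real.log (1 / (1 / 2) ^ κ) ≤ κ := by
    rw [one_div_pow, one_div_one_div, Real.log_pow]
    have h1 : Real.log 2 ≤ 1 := by
      have := Real.log_two_lt_d9
      linarith
    have h2 : (0 : ℝ) ≤ κ := Nat.cast_nonneg _
    nlinarith
  refine tv_metro_exact hw (isProp_mvS hq hq1) (isAcc_accS hp k _) (c₀ := (1 / 2 : ℝ) ^ (t * 2))
    (by positivity) (pow_le_one₀ (by norm_num) (by norm_num))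
    (fun x y hxy => accS_ge hp k x y hxy) hC2
    (fun f => varU_le_of_boxPoinc (wt_pos hp k) (by linarith) hP (by omega) f) x N
    (by positivity) hL ?_
  refine le_trans ?_ hN
  have e : C * 2 ^ (q + 1) / (1 / 2 : ℝ) ^ (t * 2) = C * 2 ^ (q + 1) * 4 ^ t := by
    rw [mul_comm t 2, pow_mul, div_eq_mul_inv, ← inv_pow]
    norm_num
  rw [e]
  push_cast
  have h3 : (0 : ℝ) ≤ C * 2 ^ (q + 1) * 4 ^ t := by positivity
  exact mul_le_mul_of_nonneg_left (by linarith) h3

theorem mass_eq_Zk (I : Inst) (t p : ℕ) (k : List ℤ) :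
    mass (fun x : St I => wt I t p k x.1) = Zk I t p k := by
  unfold mass Zk
  rw [← sum_coe_sort (box I.1)]

theorem Zk_pos {I : Inst} {t p : ℕ} (hp : 1 ≤ p) (k : List ℤ) : 0 < Zk I t p k := by
  rw [← mass_eq_Zk]
  exact sum_pos (fun y _ => wt_pos hp k _) ⟨⟨_, zero_mem_box I.1⟩, mem_univ _⟩

/-- **(C2)**: transition probabilities to tables. -/
theorem PN_close {I : Inst} {q t p m A D B N κ : ℕ} {k : List ℤ} (ht : 1 ≤ t) (hp : 1 ≤ p)
    (hm : t * 2 + p * (2 * A) ≤ m) (hq : 4 * I.1.length ≤ 2 ^ q) (hq1 : 1 ≤ q)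
    (hk : GB I.2.length A k) (hD : ∀ y ∈ box I.1, ∀ a ∈ tau I y, a.natAbs ≤ D)
    (hB : ∀ c ∈ I.1, c.2.2 ≤ B) {C : ℝ} (hC : 1 ≤ C)
    (hP : BoxPoinc I.1 (wt I t p k) C)
    (hN : C * 2 ^ (q + 1) * 4 ^ t * ((Lst I t A D B + κ : ℕ) : ℝ) ≤ N)
    {X Y : List ℕ} (hX : X ∈ box I.1) (hY : Y ∈ box I.1) :
    |PN I q t p m N k X Y - wt I t p k Y / Zk I t p k| ≤ (1 / 2) ^ κ := by
  have h := soft_tv hp hq hq1 hk hD hB hC hP hN ⟨X, hX⟩
  have h2 := abs_law_sub_le_of_tv (w := fun x : St I => wt I t p k x.1)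
    (by rw [mass_eq_Zk]; exact (Zk_pos hp k).ne') (isKer_KS (t := t) hp hq hq1 k) ⟨X, hX⟩ N h
    {⟨Y, hY⟩}
  rw [sum_singleton, sum_singleton, mass_eq_Zk] at h2
  rw [show PN I q t p m N k X Y = law (KS I q t p k) (pt ⟨X, hX⟩) N ⟨Y, hY⟩ from
    PN_eq_law ht hp hm hk ⟨X, hX⟩ ⟨Y, hY⟩]
  exact h2

/-- **(C1)**: averages of test functions. -/
theorem soft_close {I : Inst} {q t p m A D B N κ : ℕ} {k : List ℤ} (ht : 1 ≤ t) (hp : 1 ≤ p)
    (hm : t * 2 + p * (2 * A) ≤ m) (hq : 4 * I.1.length ≤ 2 ^ q) (hq1 : 1 ≤ q)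
    (hk : GB I.2.length A k) (hD : ∀ y ∈ box I.1, ∀ a ∈ tau I y, a.natAbs ≤ D)
    (hB : ∀ c ∈ I.1, c.2.2 ≤ B) {C : ℝ} (hC : 1 ≤ C)
    (hP : BoxPoinc I.1 (wt I t p k) C)
    (hN : C * 2 ^ (q + 1) * 4 ^ t * ((Lst I t A D B + κ : ℕ) : ℝ) ≤ N)
    {X : List ℕ} (hX : X ∈ box I.1) {φ : List ℕ → ℝ} (h0 : ∀ y, 0 ≤ φ y) (h1 : ∀ y, φ y ≤ 1) :
    |avg (N * (q + m)) (fun l => φ (soft I q t p m N k X l)) -
      (∑ y ∈ box I.1, wt I t p k y * φ y) / Zk I t p k| ≤ (1 / 2) ^ κ := by
  have h := soft_tv hp hq hq1 hk hD hB hC hP hN ⟨X, hX⟩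
  have e1 : avg (N * (q + m)) (fun l => φ (soft I q t p m N k X l)) =
      ∑ y : St I, law (KS I q t p k) (pt ⟨X, hX⟩) N y * φ y.1 :=
    (impl_step (q := q) ht hp hm hk).avg_runSteps ⟨X, hX⟩ N φ
  have e2 : (∑ y ∈ box I.1, wt I t p k y * φ y) / Zk I t p k =
      ∑ y : St I, wt I t p k y.1 / mass (fun x : St I => wt I t p k x.1) * φ y.1 := by
    rw [← sum_coe_sort (box I.1), sum_div, mass_eq_Zk]
    exact sum_congr rfl fun y _ => by ring
  rw [e1, e2]
  refine (abs_sum_mul_sub_le_tv ?_ (fun y => h0 y.1) (fun y => h1 y.1)).trans h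
  rw [law_sum (isKer_KS (t := t) hp hq hq1 k), pt_sum, ← sum_div]
  refine (div_self ?_).symm
  have h3 := (Zk_pos (I := I) (t := t) hp k).ne'
  rw [← mass_eq_Zk] at h3
  exact h3

end Crest.Agent.R309.US
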