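import Crest.Agent.R309.USConv2
import Crest.Agent.R309.USStep585

/-!
# R309: parameters of the inner step and elementary size bounds (helper305)
-/

set_option autoImplicit false

namespace Crest.Agent.R309.USP

open Finset Crest.Agent.R309.US

/-! ### the parameters, as functions of the unary parameter `K` -/

/-- shifted parameter, positive -/
def sK (K : ℕ) : ℕ := K + 1
/-- number of bits for the move index -/
def qK (K : ℕ) : ℕ := (4 * sK K ^ 2).size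
/-- exponent of `θ = 2^(-t)` -/
def tK (K : ℕ) : ℕ := (8 * sK K ^ 2).size
/-- exponent of the field base -/
def pK (K : ℕ) : ℕ := (8 * sK K ^ 5).size
/-- logarithm of the number of configurations -/
def LamK (K : ℕ) : ℕ := sK K ^ 3
/-- logarithm of the number of gradient rounds -/
def lTK (K : ℕ) : ℕ := (64 * sK K ^ 12).size
/-- bound of the gauges -/
def AK (K : ℕ) : ℕ := 128 * sK K ^ 14
/-- number of bits of the acceptance test -/
def mK (K : ℕ) : ℕ := 2 * tK K + 2 * AK K * pK K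
/-- logarithmic mass ratio -/
def EK (K : ℕ) : ℕ := LamK K + 2 * (2 * sK K * (AK K * sK K ^ 2)) + tK K * (2 * sK K * sK K ^ 2)
/-- logarithm of the inverse accuracy -/
def eK (K : ℕ) : ℕ := lTK K + LamK K + 4
/-- number of steps of the soft chain -/
def NK (K : ℕ) : ℕ :=
  (sK K ^ 4 + 2) * sK K ^ 4 * (16 * sK K ^ 2) ^ 4 * (16 * sK K ^ 2) * (16 * sK K ^ 2) ^ 2 *
    (EK K + eK K)

theorem lt_two_pow_size (n : ℕ) : n < 2 ^ n.size := Nat.lt_size_self n

theorem two_pow_size_le {n : ℕ} (h : 0 < n) : 2 ^ n.size ≤ 2 * n := by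
  have h1 : 0 < n.size := Nat.size_pos.2 h
  obtain ⟨k, hk⟩ := Nat.exists_eq_succ_of_ne_zero h1.ne'
  have h2 : 2 ^ k ≤ n := by
    by_contra h3
    have := Nat.size_le.2 (not_le.1 h3)
    omega
  rw [hk, pow_succ]; omega

theorem sK_pos (K : ℕ) : 0 < sK K := Nat.succ_pos K

theorem four_mul_le (K : ℕ) : 4 * sK K ^ 2 ≤ 2 ^ qK K := (lt_two_pow_size _).le

theorem two_pow_qK (K : ℕ) : 2 ^ qK K ≤ 8 * sK K ^ 2 := by
  have h := two_pow_size_le (n := 4 * sK K ^ 2) (by have := sK_pos K; positivity)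
  unfold qK; omega

theorem one_le_qK (K : ℕ) : 1 ≤ qK K := Nat.size_pos.2 (by have := sK_pos K; positivity)

theorem one_le_tK (K : ℕ) : 1 ≤ tK K := Nat.size_pos.2 (by have := sK_pos K; positivity)

theorem one_le_pK (K : ℕ) : 1 ≤ pK K := Nat.size_pos.2 (by have := sK_pos K; positivity)

theorem eight_sq_le (K : ℕ) : 8 * sK K ^ 2 ≤ 2 ^ tK K := (lt_two_pow_size _).le

theorem two_pow_tK (K : ℕ) : 2 ^ tK K ≤ 16 * sK K ^ 2 := by
  have h := two_pow_size_le (n := 8 * sK K ^ 2) (by have := sK_pos K; positivity)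
  unfold tK; omega

theorem eight_five_le (K : ℕ) : 8 * sK K ^ 5 ≤ 2 ^ pK K := (lt_two_pow_size _).le

theorem two_pow_pK (K : ℕ) : 2 ^ pK K ≤ 16 * sK K ^ 5 := by
  have h := two_pow_size_le (n := 8 * sK K ^ 5) (by have := sK_pos K; positivity)
  unfold pK; omega

theorem sixtyfour_le (K : ℕ) : 64 * sK K ^ 12 ≤ 2 ^ lTK K := (lt_two_pow_size _).le

theorem two_pow_lTK (K : ℕ) : 2 ^ lTK K ≤ 128 * sK K ^ 12 := by
  have h := two_pow_size_le (n := 64 * sK K ^ 12) (by have := sK_pos K; positivity)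
  unfold lTK; omega

theorem two_pow_lTK_mul (K : ℕ) : 2 ^ lTK K * sK K ^ 2 ≤ AK K := by
  unfold AK
  calc 2 ^ lTK K * sK K ^ 2 ≤ 128 * sK K ^ 12 * sK K ^ 2 := Nat.mul_le_mul_right _ (two_pow_lTK K)
    _ = 128 * sK K ^ 14 := by ring

theorem le_two_pow_self (s : ℕ) : s ≤ 2 ^ s := (Nat.lt_two_pow_self).le

variable {J : Inst} {K : ℕ}

theorem USmall.lam (h : USmall J K) : K * J.1.length ≤ LamK K := by
  unfold LamK sK
  calc K * J.1.length ≤ K * K ^ 2 := Nat.mul_le_mul_left _ h.cells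
    _ = K ^ 3 := by ring
    _ ≤ (K + 1) ^ 3 := Nat.pow_le_pow_left (by omega) _

theorem USmall.card_box (h : USmall J K) : (box J.1).card ≤ 2 ^ LamK K :=
  (card_box_le J.1 K h.bds).trans (Nat.pow_le_pow_right (by norm_num) (USmall.lam h))

theorem USmall.four_cells (h : USmall J K) : 4 * J.1.length ≤ 2 ^ qK K := by
  refine le_trans ?_ (four_mul_le K)
  refine Nat.mul_le_mul_left _ (h.cells.trans ?_)
  exact Nat.pow_le_pow_left (by unfold sK; omega) _

theorem USmall.verts' (h : USmall J K) : J.2.length ≤ 2 * sK K := h.verts.trans (by unfold sK; omega)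

theorem USmall.tau_le' (h : USmall J K) : ∀ y ∈ box J.1, ∀ a ∈ tau J y, a.natAbs ≤ sK K ^ 2 :=
  fun y hy a ha => (h.tau_le y hy a ha).trans (Nat.pow_le_pow_left (by unfold sK; omega) _)

theorem USmall.theta (h : USmall J K) : 2 * J.2.length ^ 2 ≤ 4 ^ tK K := by
  have h1 := USmall.verts' h
  have h2 : 2 ^ tK K ≤ 4 ^ tK K := Nat.pow_le_pow_left (by norm_num) _
  calc 2 * J.2.length ^ 2 ≤ 2 * (2 * sK K) ^ 2 := by gcongr
    _ = 8 * sK K ^ 2 := by ring
    _ ≤ 2 ^ tK K := eight_sq_le K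
    _ ≤ 4 ^ tK K := h2

theorem USmall.base (h : USmall J K) : 4 * (J.2.length * (sK K ^ 2) ^ 2) ≤ 2 ^ pK K := by
  have h1 := USmall.verts' h
  calc 4 * (J.2.length * (sK K ^ 2) ^ 2) ≤ 4 * (2 * sK K * (sK K ^ 2) ^ 2) := by gcongr
    _ = 8 * sK K ^ 5 := by ring
    _ ≤ 2 ^ pK K := eight_five_le K

theorem USmall.rounds (h : USmall J K) :
    2 * (J.2.length * LamK K ^ 2) * 2 ^ pK K ≤ 2 ^ lTK K := by
  have h1 := USmall.verts' h
  have h2 := two_pow_pK K
  calc 2 * (J.2.length * LamK K ^ 2) * 2 ^ pK K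
      ≤ 2 * (2 * sK K * LamK K ^ 2) * (16 * sK K ^ 5) := by gcongr
    _ = 64 * sK K ^ 12 := by unfold LamK; ring
    _ ≤ 2 ^ lTK K := sixtyfour_le K

theorem USmall.steps (h : USmall J K) :
    (((J.1.length : ℝ) ^ 2 + 2) * ((K : ℝ) + 1) ^ 4 * 2 ^ (4 * tK K)) * 2 ^ (qK K + 1) *
      4 ^ tK K * ((Lst J (tK K) (AK K) (sK K ^ 2) K + eK K : ℕ) : ℝ) ≤ NK K := by
  have h1 := USmall.verts' h
  have h2 : J.1.length ≤ sK K ^ 2 := h.cells.trans (Nat.pow_le_pow_left (by unfold sK; omega) _)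
  have h3 := two_pow_tK K
  have h4 := two_pow_qK K
  have h5 := USmall.lam h
  have e1 : (((J.1.length : ℝ) ^ 2 + 2) * ((K : ℝ) + 1) ^ 4 * 2 ^ (4 * tK K)) * 2 ^ (qK K + 1) *
      4 ^ tK K * ((Lst J (tK K) (AK K) (sK K ^ 2) K + eK K : ℕ) : ℝ) =
      (((J.1.length ^ 2 + 2) * sK K ^ 4 * (2 ^ tK K) ^ 4 * (2 ^ qK K * 2) * (2 ^ tK K) ^ 2 *
        (Lst J (tK K) (AK K) (sK K ^ 2) K + eK K) : ℕ) : ℝ) := by
    have e4 : (4 : ℝ) ^ tK K = (2 ^ tK K) ^ 2 := by
      rw [← pow_mul, mul_comm, pow_mul]; norm_num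
    rw [e4, mul_comm 4 (tK K), pow_mul, pow_succ]
    unfold sK
    push_cast
    ring
  rw [e1]
  refine Nat.cast_le.2 ?_
  unfold NK EK Lst
  have h6 : J.1.length ^ 2 + 2 ≤ sK K ^ 4 + 2 := by
    have := Nat.pow_le_pow_left h2 2
    calc J.1.length ^ 2 + 2 ≤ (sK K ^ 2) ^ 2 + 2 := by omega
      _ = sK K ^ 4 + 2 := by ring
  have h7 : 2 ^ qK K * 2 ≤ 16 * sK K ^ 2 := by omega
  have h8 : tK K * (J.2.length * sK K ^ 2) + 2 * (J.2.length * (AK K * sK K ^ 2)) + K * J.1.length + eK K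
      ≤ LamK K + 2 * (2 * sK K * (AK K * sK K ^ 2)) + tK K * (2 * sK K * sK K ^ 2) + eK K := by
    have a1 : tK K * (J.2.length * sK K ^ 2) ≤ tK K * (2 * sK K * sK K ^ 2) := by gcongr
    have a2 : 2 * (J.2.length * (AK K * sK K ^ 2)) ≤ 2 * (2 * sK K * (AK K * sK K ^ 2)) := by gcongr
    omega
  gcongr

end Crest.Agent.R309.USP
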