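import Crest.Agent.R309.USFinal
import Crest.Agent.R309.PTSolve

/-!
# R309: the parameters of the inner step are unary poly-time (helper305)
-/

set_option autoImplicit false

namespace Crest.Agent.R309.USP

open Crest.Agent.Lib.PT

variable {γ : Type} [PTCode γ]

theorem ptu_sK {κ : γ → ℕ} (h : PTU κ) : PTU (fun c => sK (κ c)) := PTU.succ h

theorem ptu_qK {κ : γ → ℕ} (h : PTU κ) : PTU (fun c => qK (κ c)) := by
  unfold qK
  exact PTF.natSizeUn (PTU.toPTF (PTU.mul (PTU.const 4) (PTU.pow (ptu_sK h) 2)))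

theorem ptu_tK {κ : γ → ℕ} (h : PTU κ) : PTU (fun c => tK (κ c)) := by
  unfold tK
  exact PTF.natSizeUn (PTU.toPTF (PTU.mul (PTU.const 8) (PTU.pow (ptu_sK h) 2)))

theorem ptu_pK {κ : γ → ℕ} (h : PTU κ) : PTU (fun c => pK (κ c)) := by
  unfold pK
  exact PTF.natSizeUn (PTU.toPTF (PTU.mul (PTU.const 8) (PTU.pow (ptu_sK h) 5)))

theorem ptu_lTK {κ : γ → ℕ} (h : PTU κ) : PTU (fun c => lTK (κ c)) := by
  unfold lTK
  exact PTF.natSizeUn (PTU.toPTF (PTU.mul (PTU.const 64) (PTU.pow (ptu_sK h) 12)))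

theorem ptu_two_pow_lTK {κ : γ → ℕ} (h : PTU κ) : PTU (fun c => 2 ^ lTK (κ c)) := by
  refine PTF.toPTU (PTF.natTwoPow (ptu_lTK h)) ?_
  exact PB.mono (PTU.pb (PTU.mul (PTU.const 128) (PTU.pow (ptu_sK h) 12))) fun c => two_pow_lTK _

theorem ptu_LamK {κ : γ → ℕ} (h : PTU κ) : PTU (fun c => LamK (κ c)) := by
  unfold LamK
  exact PTU.pow (ptu_sK h) 3

theorem ptu_AK {κ : γ → ℕ} (h : PTU κ) : PTU (fun c => AK (κ c)) := by
  unfold AK
  exact PTU.mul (PTU.const 128) (PTU.pow (ptu_sK h) 14)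

theorem ptu_mK {κ : γ → ℕ} (h : PTU κ) : PTU (fun c => mK (κ c)) := by
  unfold mK
  exact PTU.add (PTU.mul (PTU.const 2) (ptu_tK h))
    (PTU.mul (PTU.mul (PTU.const 2) (ptu_AK h)) (ptu_pK h))

theorem ptu_EK {κ : γ → ℕ} (h : PTU κ) : PTU (fun c => EK (κ c)) := by
  unfold EK
  exact PTU.add (PTU.add (ptu_LamK h) (PTU.mul (PTU.const 2) (PTU.mul (PTU.mul (PTU.const 2)
    (ptu_sK h)) (PTU.mul (ptu_AK h) (PTU.pow (ptu_sK h) 2)))))
    (PTU.mul (ptu_tK h) (PTU.mul (PTU.mul (PTU.const 2) (ptu_sK h)) (PTU.pow (ptu_sK h) 2)))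

theorem ptu_eK {κ : γ → ℕ} (h : PTU κ) : PTU (fun c => eK (κ c)) := by
  unfold eK
  exact PTU.add (PTU.add (ptu_lTK h) (ptu_LamK h)) (PTU.const 4)

theorem ptu_NK {κ : γ → ℕ} (h : PTU κ) : PTU (fun c => NK (κ c)) := by
  unfold NK
  have h16 := PTU.mul (PTU.const 16) (PTU.pow (ptu_sK h) 2)
  exact PTU.mul (PTU.mul (PTU.mul (PTU.mul (PTU.mul (PTU.add (PTU.pow (ptu_sK h) 4) (PTU.const 2))
    (PTU.pow (ptu_sK h) 4)) (PTU.pow h16 4)) h16) (PTU.pow h16 2)) (PTU.add (ptu_EK h) (ptu_eK h))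

theorem ptu_lenK {κ : γ → ℕ} (h : PTU κ) : PTU (fun c => lenK (κ c)) := by
  unfold lenK US.innerLen
  have hs := PTU.mul (ptu_NK h) (PTU.add (ptu_qK h) (ptu_mK h))
  exact PTU.add (ptu_lTK h) (PTU.add (PTU.mul (ptu_two_pow_lTK h) hs) hs)

end Crest.Agent.R309.USP
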